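import Mathlib
import Crest.Agent.Lib.Bieberbach

set_option autoImplicit false

namespace Crest.Agent.R162.KBD

open Metric Set Filter Topology Complex
open scoped ComplexConjugate
open Crest.Agent.Lib.Bieberbach

/-- Koebe 1/4, normalised, omitted value form. -/
theorem quarter_omit {f : ℂ → ℂ} (hf : DifferentiableOn ℂ f (ball 0 1))
    (hinj : InjOn f (ball 0 1)) (h0 : f 0 = 0) (h1 : deriv f 0 = 1) {w : ℂ}
    (hw : w ∉ f '' ball 0 1) : 1 / 4 ≤ ‖w‖ := by
  have h0m : (0:ℂ) ∈ ball (0:ℂ) 1 := mem_ball_self one_pos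
  have hnh : ball (0:ℂ) 1 ∈ 𝓝 (0:ℂ) := ball_mem_nhds 0 one_pos
  have hw0 : w ≠ 0 := by
    rintro rfl
    exact hw ⟨0, h0m, h0⟩
  have hden : ∀ z ∈ ball (0:ℂ) 1, w - f z ≠ 0 := by
    intro z hz h
    exact hw ⟨z, hz, (sub_eq_zero.1 h).symm⟩
  set g : ℂ → ℂ := fun z => w * f z / (w - f z) with hg
  have hfd : ∀ z ∈ ball (0:ℂ) 1, HasDerivAt f (deriv f z) z := fun z hz =>
    (hf.differentiableAt (isOpen_ball.mem_nhds hz)).hasDerivAt
  have hgder : ∀ z ∈ ball (0:ℂ) 1, HasDerivAt g (w ^ 2 * deriv f z / (w - f z) ^ 2) z := by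
    intro z hz
    have h2 := ((hfd z hz).const_mul w).fun_div ((hfd z hz).const_sub w) (hden z hz)
    refine h2.congr_deriv ?_
    congr 1
    ring
  have hgd : DifferentiableOn ℂ g (ball 0 1) := fun z hz =>
    (hgder z hz).differentiableAt.differentiableWithinAt
  have hgi : InjOn g (ball 0 1) := by
    intro x hx y hy hxy
    apply hinj hx hy
    simp only [hg] at hxy
    rw [div_eq_div_iff (hden x hx) (hden y hy)] at hxy
    have h3 : w ^ 2 * (f x - f y) = 0 := by linear_combination hxy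
    rcases mul_eq_zero.1 h3 with h4 | h4
    · exact absurd h4 (pow_ne_zero 2 hw0)
    · exact sub_eq_zero.1 h4
  have hg0 : g 0 = 0 := by simp [hg, h0]
  have hg1 : deriv g 0 = 1 := by
    rw [(hgder 0 h0m).deriv, h0, h1]
    field_simp
    simp
  have hb1 := bieberbach_normalized hf hinj h0 h1
  have hb2 := bieberbach_normalized hgd hgi hg0 hg1
  have hdd : deriv (deriv g) 0 = deriv (deriv f) 0 + 2 / w := by
    have a2 : HasDerivAt (deriv f) (deriv (deriv f) 0) 0 :=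
      ((hf.deriv isOpen_ball).differentiableAt hnh).hasDerivAt
    have a3 := ((a2.const_mul (w ^ 2)).fun_div (((hfd 0 h0m).const_sub w).fun_pow 2)
      (pow_ne_zero 2 (hden 0 h0m)))
    have hev : deriv g =ᶠ[𝓝 0] (fun y => w ^ 2 * deriv f y / (w - f y) ^ 2) := by
      filter_upwards [hnh] with z hz
      rw [(hgder z hz).deriv]
    have a4 := a3.congr_of_eventuallyEq hev
    rw [a4.deriv, h0, h1]
    simp only [sub_zero]
    field_simp
    ring
  rw [hdd] at hb2
  have h5 : ‖(2:ℂ) / w‖ ≤ 8 := by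
    have : (2:ℂ) / w = (deriv (deriv f) 0 + 2 / w) - deriv (deriv f) 0 := by ring
    rw [this]
    refine (norm_sub_le _ _).trans ?_
    linarith
  rw [norm_div, Complex.norm_ofNat, div_le_iff₀ (norm_pos_iff.2 hw0)] at h5
  linarith

/-- Koebe 1/4. -/
theorem koebe_quarter {f : ℂ → ℂ} (hf : DifferentiableOn ℂ f (ball 0 1))
    (hinj : InjOn f (ball 0 1)) : ball (f 0) (‖deriv f 0‖ / 4) ⊆ f '' ball 0 1 := by
  have h0m : (0:ℂ) ∈ ball (0:ℂ) 1 := mem_ball_self one_pos
  have hne : deriv f 0 ≠ 0 :=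
    Crest.Agent.Lib.deriv_ne_zero_of_injOn isOpen_ball hf hinj h0m
  intro w hw
  by_contra hcon
  set a : ℂ := deriv f 0 with ha
  set F : ℂ → ℂ := fun z => a⁻¹ * (f z - f 0) with hF
  have hFd : DifferentiableOn ℂ F (ball 0 1) := (hf.sub_const _).const_mul _
  have hFi : InjOn F (ball 0 1) := by
    intro x hx y hy hxy
    apply hinj hx hy
    have := mul_left_cancel₀ (inv_ne_zero hne) hxy
    exact sub_left_injective this
  have hF0 : F 0 = 0 := by simp [hF]
  have hF1 : deriv F 0 = 1 := by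
    have : deriv F = fun z => a⁻¹ * deriv f z := by
      funext z
      rw [hF, deriv_const_mul_field]
      simp
    rw [this]; simp only; rw [← ha, inv_mul_cancel₀ hne]
  have h := quarter_omit hFd hFi hF0 hF1 (w := a⁻¹ * (w - f 0)) (by
    rintro ⟨z, hz, hzw⟩
    apply hcon
    refine ⟨z, hz, ?_⟩
    have := mul_left_cancel₀ (inv_ne_zero hne) hzw
    exact sub_left_injective this)
  rw [norm_mul, norm_inv] at h
  have hp : 0 < ‖a‖ := norm_pos_iff.2 hne
  rw [mem_ball, dist_eq_norm] at hw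
  have : ‖a‖⁻¹ * ‖w - f 0‖ < 1 / 4 := by
    rw [inv_mul_lt_iff₀ hp]; linarith
  linarith







/-- growth, lower bound (with the constant 1/4) -/
theorem growth_lower {f : ℂ → ℂ} (hf : DifferentiableOn ℂ f (ball 0 1))
    (hinj : InjOn f (ball 0 1)) {ζ : ℂ} (hζ : ‖ζ‖ < 1) :
    ‖deriv f 0‖ / 4 * ‖ζ‖ ≤ ‖f ζ - f 0‖ := by
  have h0m : (0:ℂ) ∈ ball (0:ℂ) 1 := mem_ball_self one_pos
  have hne0 : deriv f 0 ≠ 0 :=
    Crest.Agent.Lib.deriv_ne_zero_of_injOn isOpen_ball hf hinj h0m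
  have p2 : 0 < ‖deriv f 0‖ := norm_pos_iff.2 hne0
  by_cases hbig : ‖deriv f 0‖ / 4 ≤ ‖f ζ - f 0‖
  · calc ‖deriv f 0‖ / 4 * ‖ζ‖ ≤ ‖deriv f 0‖ / 4 * 1 := by gcongr
      _ ≤ _ := by rw [mul_one]; exact hbig
  push Not at hbig
  have hsub := koebe_quarter hf hinj
  set R := ‖deriv f 0‖ / 4 with hR
  have hRp : 0 < R := by positivity
  set g : ℂ → ℂ := Function.invFunOn f (ball 0 1) with hg
  have hgf : ∀ z ∈ ball (0:ℂ) 1, g (f z) = z := fun z hz => hinj.leftInvOn_invFunOn hz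
  have hgd : DifferentiableOn ℂ g (f '' ball 0 1) :=
    Crest.Agent.Lib.differentiableOn_inverse_of_injOn isOpen_ball hf hinj hgf
  have hmaps : MapsTo g (ball (f 0) R) (closedBall (g (f 0)) 1) := by
    intro w hw
    obtain ⟨z, hz, rfl⟩ := hsub hw
    rw [hgf z hz, hgf 0 h0m]
    exact ball_subset_closedBall hz
  have hw : f ζ ∈ ball (f 0) R := by rw [mem_ball, dist_eq_norm]; exact hbig
  have h := Complex.dist_le_div_mul_dist_of_mapsTo_ball (R₂ := 1) (hgd.mono hsub) hmaps hw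
  rw [hgf 0 h0m, hgf ζ (by rwa [mem_ball_zero_iff]), dist_zero_right, dist_eq_norm] at h
  rw [one_div, inv_mul_eq_div, le_div_iff₀ hRp] at h
  linarith

end Crest.Agent.R162.KBD
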