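import Mathlib
import Crest.Agent.R162.FL0

/-!
Row 162 (S0243), node FL-A: the chordal Loewner flow: uniqueness, continuation, stability,
difference formula, shift and scaling.
-/

set_option autoImplicit false

open Set Metric Topology
open scoped NNReal

namespace Crest.Agent.R162.FL

variable {W V : ℝ → ℝ} {z w : ℂ} {s t u δ : ℝ} {g h : ℝ → ℂ}

lemma im_two_div (x : ℂ) (r : ℝ) : (2 / (x - r)).im = - (2 * x.im / Complex.normSq (x - r)) := by
  rw [Complex.div_im]
  simp

lemma im_two_div_nonpos {x : ℂ} (hx : 0 < x.im) (r : ℝ) : (2 / (x - r)).im ≤ 0 := by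
  rw [im_two_div, neg_nonpos]
  exact div_nonneg (by linarith) (Complex.normSq_nonneg _)

lemma IsFlow.mono (h : IsFlow W z t g) (hst : s ≤ t) : IsFlow W z s g :=
  ⟨h.init, fun r hr => h.im_pos r ⟨hr.1, hr.2.trans hst⟩,
    fun r hr => (h.deriv r ⟨hr.1, hr.2.trans hst⟩).mono (Icc_subset_Icc le_rfl hst)⟩

lemma Alive.nonneg (h : Alive W z t) : 0 ≤ t := h.1

lemma Alive.mono (h : Alive W z t) (hs : 0 ≤ s) (hst : s ≤ t) : Alive W z s := by
  obtain ⟨g, hg⟩ := h.2
  exact ⟨hs, g, hg.mono hst⟩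

lemma Alive.im_pos (h : Alive W z t) : 0 < z.im := by
  obtain ⟨g, hg⟩ := h.2
  have := hg.im_pos 0 ⟨le_rfl, h.1⟩
  rwa [hg.init] at this

lemma IsFlow.continuousOn (h : IsFlow W z t g) : ContinuousOn g (Icc 0 t) :=
  fun r hr => (h.deriv r hr).continuousWithinAt

lemma hasDerivWithinAt_im {g' : ℂ} {S : Set ℝ} (h : HasDerivWithinAt g g' S s) :
    HasDerivWithinAt (fun r => (g r).im) g'.im S s := by
  have := (Complex.imCLM.hasFDerivAt (x := g s)).comp_hasDerivWithinAt s h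
  exact this

lemma hasDerivWithinAt_re {g' : ℂ} {S : Set ℝ} (h : HasDerivWithinAt g g' S s) :
    HasDerivWithinAt (fun r => (g r).re) g'.re S s := by
  have := (Complex.reCLM.hasFDerivAt (x := g s)).comp_hasDerivWithinAt s h
  exact this

lemma IsFlow.im_antitoneOn (h : IsFlow W z t g) : AntitoneOn (fun r => (g r).im) (Icc 0 t) := by
  refine antitoneOn_of_hasDerivWithinAt_nonpos (f' := fun r => (2 / (g r - W r)).im)
    (convex_Icc 0 t) ?_ ?_ ?_
  · exact Complex.continuous_im.comp_continuousOn h.continuousOn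
  · intro x hx
    exact (hasDerivWithinAt_im (h.deriv x (interior_subset hx))).mono interior_subset
  · intro x hx
    exact im_two_div_nonpos (h.im_pos x (interior_subset hx)) _

lemma IsFlow.trunc (h : IsFlow W z t g) (hl : ∀ r ∈ Icc 0 t, δ ≤ (g r).im) :
    ∀ r ∈ Icc 0 t, HasDerivWithinAt g (1 * vf W δ r (g r)) (Icc 0 t) r := by
  intro r hr
  rw [one_mul, vf_of_le (hl r hr)]
  exact h.deriv r hr

lemma isFlow_of_trunc (hδ : 0 < δ) (h0 : g 0 = z)
    (hg : ∀ r ∈ Icc 0 t, HasDerivWithinAt g (1 * vf W δ r (g r)) (Icc 0 t) r)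
    (hl : ∀ r ∈ Icc 0 t, δ ≤ (g r).im) : IsFlow W z t g := by
  refine ⟨h0, fun r hr => hδ.trans_le (hl r hr), fun r hr => ?_⟩
  have := hg r hr
  rwa [one_mul, vf_of_le (hl r hr)] at this

lemma IsFlow.lower (h : IsFlow W z t g) : ∀ r ∈ Icc 0 t, (g t).im ≤ (g r).im :=
  fun r hr => h.im_antitoneOn hr ⟨hr.1.trans hr.2, le_rfl⟩ hr.2

/-- uniqueness of the flow -/
theorem IsFlow.unique (hg : IsFlow W z t g) (hh : IsFlow W z t h) : EqOn g h (Icc 0 t) := by
  intro r hr
  have ht : (0 : ℝ) ≤ t := hr.1.trans hr.2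
  set δ := min (g t).im (h t).im with hδd
  have hδ : 0 < δ := lt_min (hg.im_pos t ⟨ht, le_rfl⟩) (hh.im_pos t ⟨ht, le_rfl⟩)
  have h1 := hg.trunc (δ := δ) fun r hr => (min_le_left _ _).trans (hg.lower r hr)
  have h2 := hh.trunc (δ := δ) fun r hr => (min_le_right _ _).trans (hh.lower r hr)
  have key := gronwall_trunc (η := 0) (ε := 0) hδ (c := 1) (by simp) h1 h2 (by simp)
    (by rw [hg.init, hh.init]; simp) r hr
  simp only [add_zero, zero_mul] at key
  exact sub_eq_zero.1 (norm_eq_zero.1 (le_antisymm key (norm_nonneg _)))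

lemma gfl_of_alive (h : Alive W z t) : gfl W t z = h.2.choose t := by
  rw [gfl, dif_pos h]

theorem IsFlow.eq_gfl (hg : IsFlow W z t g) (hs : s ∈ Icc 0 t) : g s = gfl W s z := by
  have ha : Alive W z s := ⟨hs.1, g, hg.mono hs.2⟩
  rw [gfl_of_alive ha]
  exact (hg.mono hs.2).unique ha.2.choose_spec ⟨hs.1, le_rfl⟩

theorem Alive.isFlow (h : Alive W z t) : IsFlow W z t (fun s => gfl W s z) := by
  obtain ⟨g, hg⟩ := h.2
  have he : EqOn (fun s => gfl W s z) g (Icc 0 t) := fun r hr => (hg.eq_gfl hr).symm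
  refine ⟨?_, fun r hr => ?_, fun r hr => ?_⟩
  · show gfl W 0 z = z
    rw [← hg.eq_gfl ⟨le_rfl, h.1⟩, hg.init]
  · show 0 < (gfl W r z).im
    rw [← hg.eq_gfl hr]
    exact hg.im_pos r hr
  · show HasDerivWithinAt (fun s => gfl W s z) (2 / (gfl W r z - W r)) (Icc 0 t) r
    rw [← hg.eq_gfl hr]
    exact (hg.deriv r hr).congr he (he hr)

lemma gfl_im_pos (h : Alive W z t) : 0 < (gfl W t z).im := h.isFlow.im_pos t ⟨h.1, le_rfl⟩

lemma Zfl_im (W : ℝ → ℝ) (t : ℝ) (z : ℂ) : (Zfl W t z).im = (gfl W t z).im := by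
  simp [Zfl]

lemma Zfl_re (W : ℝ → ℝ) (t : ℝ) (z : ℂ) : (Zfl W t z).re = (gfl W t z).re - W t := by
  simp [Zfl]

lemma Zfl_im_pos (h : Alive W z t) : 0 < (Zfl W t z).im := by
  rw [Zfl_im]; exact gfl_im_pos h

lemma Zfl_ne_zero (h : Alive W z t) : Zfl W t z ≠ 0 := by
  intro h0
  have := Zfl_im_pos h
  rw [h0] at this
  simp at this

theorem hasDerivWithinAt_gfl (h : Alive W z t) (hs : s ∈ Icc 0 t) :
    HasDerivWithinAt (fun r => gfl W r z) (2 / (gfl W s z - W s)) (Icc 0 t) s :=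
  h.isFlow.deriv s hs

lemma continuousOn_gfl (h : Alive W z t) : ContinuousOn (fun r => gfl W r z) (Icc 0 t) :=
  h.isFlow.continuousOn

lemma isFlow_zero (hz : 0 < z.im) : IsFlow W z 0 (fun s => z + s * (2 / (z - W 0))) := by
  refine ⟨by simp, ?_, ?_⟩
  · intro r hr
    have : r = 0 := le_antisymm hr.2 hr.1
    subst this
    simpa using hz
  · intro r hr
    have : r = 0 := le_antisymm hr.2 hr.1
    subst this
    have h1 : HasDerivAt (fun s : ℝ => z + s * (2 / (z - W 0))) (2 / (z - W 0)) 0 := by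
      have := ((hasDerivAt_id (0 : ℝ)).ofReal_comp.mul_const (2 / (z - W 0))).const_add z
      simpa using this
    simpa using h1.hasDerivWithinAt

lemma alive_zero (hz : 0 < z.im) : Alive W z 0 := ⟨le_rfl, _, isFlow_zero hz⟩

lemma gfl_zero (hz : 0 < z.im) : gfl W 0 z = z := (alive_zero (W := W) hz).isFlow.init

lemma gfl_zero' (h : Alive W z t) : gfl W 0 z = z := h.isFlow.init

theorem im_anti (h : Alive W z t) (hs : 0 ≤ s) (hst : s ≤ t) :
    (gfl W t z).im ≤ (gfl W s z).im := h.isFlow.lower s ⟨hs, hst⟩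

theorem im_anti' (h : Alive W z t) : (gfl W t z).im ≤ z.im := by
  have := im_anti h le_rfl h.1
  rwa [gfl_zero' h] at this


/-- **stability** of the flow in the starting point and in the driving function -/
theorem stability (h : Alive W z t) {ε : ℝ} (hε : 0 < ε) :
    ∃ δ > 0, ∀ (w : ℂ) (V : ℝ → ℝ), ‖w - z‖ < δ → ContinuousOn V (Icc 0 t) →
      (∀ s ∈ Icc 0 t, |V s - W s| ≤ δ) →
      Alive V w t ∧ ∀ s ∈ Icc 0 t, ‖gfl V s w - gfl W s z‖ < ε := by
  set m := (gfl W t z).im / 2 with hm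
  have hm0 : 0 < m := half_pos (gfl_im_pos h)
  set E := Real.exp (2 / m ^ 2 * t) with hE
  have hE0 : 0 < E := Real.exp_pos _
  set d := min m ε / (4 * E) with hd
  have hmin : 0 < min m ε := lt_min hm0 hε
  refine ⟨d, by positivity, ?_⟩
  intro w V hw hV hVW
  obtain ⟨G, hG0, hG⟩ := exists_sol_trunc h.1 hV hm0 (c := 1) (by simp) w
  have hlow : ∀ r ∈ Icc 0 t, m ≤ (gfl W r z).im := fun r hr => by
    have := h.isFlow.lower r hr
    linarith
  have hg := h.isFlow.trunc hlow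
  have key := gronwall_trunc (η := d) (ε := d) hm0 (c := 1) (by simp) hG hg
    hVW (by
      show ‖G 0 - gfl W 0 z‖ ≤ d
      rw [hG0, gfl_zero' h]; exact hw.le)
  have hbd : ∀ s ∈ Icc 0 t, ‖G s - gfl W s z‖ < min m ε := by
    intro s hs
    refine (key s hs).trans_lt ?_
    have h1 : Real.exp (2 / m ^ 2 * s) ≤ E :=
      Real.exp_le_exp.2 (mul_le_mul_of_nonneg_left hs.2 (by positivity))
    have h2 : (d + d) * E = min m ε / 2 := by
      rw [hd]; field_simp; ring
    have h3 : (d + d) * Real.exp (2 / m ^ 2 * s) ≤ (d + d) * E :=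
      mul_le_mul_of_nonneg_left h1 (by positivity)
    linarith
  have hfl : IsFlow V w t G := by
    refine isFlow_of_trunc hm0 hG0 hG fun r hr => ?_
    have h1 := (Complex.abs_im_le_norm (G r - gfl W r z)).trans_lt (hbd r hr)
    have h2 := lt_of_lt_of_le h1 (min_le_left _ _)
    have h3 := h.isFlow.lower r hr
    rw [Complex.sub_im, abs_lt] at h2
    linarith [h2.1]
  refine ⟨⟨h.1, G, hfl⟩, fun s hs => ?_⟩
  rw [← hfl.eq_gfl hs]
  exact (hbd s hs).trans_le (min_le_right _ _)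

/-- continuation a bit beyond `t`, uniformly in a neighbourhood of the starting point -/
theorem Alive.exists_gt (hW : ContinuousOn W (Ici 0)) (h : Alive W z t) :
    ∃ t' > t, ∃ δ > 0, ∀ w, ‖w - z‖ < δ → Alive W w t' := by
  suffices hmain : ∃ t' > t, Alive W z t' by
    obtain ⟨t', ht', ha⟩ := hmain
    obtain ⟨δ, hδ, hs⟩ := stability ha one_pos
    refine ⟨t', ht', δ, hδ, fun w hw => (hs w W hw (hW.mono Icc_subset_Ici_self) ?_).1⟩
    intro s _
    simp [hδ.le]
  set m := (gfl W t z).im / 2 with hm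
  have hm0 : 0 < m := half_pos (gfl_im_pos h)
  have ht1 : (0 : ℝ) ≤ t + 1 := by linarith [h.1]
  obtain ⟨G, hG0, hG⟩ := exists_sol_trunc ht1 (hW.mono Icc_subset_Ici_self) hm0 (c := 1)
    (by simp) z
  have hlow : ∀ r ∈ Icc 0 t, m ≤ (gfl W r z).im := fun r hr => by
    have := h.isFlow.lower r hr
    linarith
  have hg := h.isFlow.trunc hlow
  have hsub : Icc 0 t ⊆ Icc 0 (t + 1) := Icc_subset_Icc le_rfl (by linarith)
  have key := gronwall_trunc (η := 0) (ε := 0) hm0 (c := 1) (by simp)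
    (fun r hr => (hG r (hsub hr)).mono hsub) hg (by simp)
    (by
      show ‖G 0 - gfl W 0 z‖ ≤ 0
      rw [hG0, gfl_zero' h]; simp)
  have heq : ∀ s ∈ Icc 0 t, G s = gfl W s z := by
    intro s hs
    have := key s hs
    simp only [add_zero, zero_mul] at this
    exact sub_eq_zero.1 (norm_eq_zero.1 (le_antisymm this (norm_nonneg _)))
  have htm : t ∈ Icc 0 (t + 1) := ⟨h.1, by linarith⟩
  have hcont : ContinuousWithinAt (fun r => (G r).im) (Icc 0 (t + 1)) t :=
    Complex.continuous_im.continuousAt.comp_continuousWithinAt (hG t htm).continuousWithinAt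
  have hGt : m < (G t).im := by
    rw [heq t ⟨h.1, le_rfl⟩]; linarith
  have hev := hcont.eventually (lt_mem_nhds hGt)
  rw [Filter.Eventually, mem_nhdsWithin_iff] at hev
  obtain ⟨ε, hε, hb⟩ := hev
  set t' := t + min (ε / 2) 1 with ht'
  have hmin : 0 < min (ε / 2) 1 := lt_min (by linarith) one_pos
  refine ⟨t', by linarith, ⟨by linarith [h.1], G, ?_⟩⟩
  have hsub' : Icc 0 t' ⊆ Icc 0 (t + 1) :=
    Icc_subset_Icc le_rfl (by linarith [min_le_right (ε / 2) 1])
  refine isFlow_of_trunc hm0 hG0 (fun r hr => (hG r (hsub' hr)).mono hsub') fun r hr => ?_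
  by_cases hrt : r ≤ t
  · rw [heq r ⟨hr.1, hrt⟩]
    exact hlow r ⟨hr.1, hrt⟩
  · push Not at hrt
    have : r ∈ ball t ε ∩ Icc 0 (t + 1) := by
      refine ⟨?_, hsub' hr⟩
      rw [mem_ball, Real.dist_eq, abs_lt]
      have := hr.2
      have h5 := min_le_left (ε / 2) 1
      constructor <;> linarith
    exact (hb this).le

/-- **continuation criterion** -/
theorem alive_of_apriori (hW : ContinuousOn W (Ici 0)) (hz : 0 < z.im) (ht : 0 ≤ t)
    (hδ : 0 < δ) (h : ∀ s, 0 ≤ s → s < t → Alive W z s → δ ≤ (gfl W s z).im) :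
    Alive W z t := by
  by_contra hna
  set A := {s : ℝ | Alive W z s} with hA
  have hlt : ∀ s ∈ A, s < t := by
    intro s hs
    by_contra hc
    push Not at hc
    exact hna (Alive.mono hs ht hc)
  have h0 : (0 : ℝ) ∈ A := alive_zero hz
  have hbdd : BddAbove A := ⟨t, fun s hs => (hlt s hs).le⟩
  set S := sSup A with hS
  have hS0 : 0 ≤ S := le_csSup hbdd h0
  have hSt : S ≤ t := csSup_le ⟨0, h0⟩ fun s hs => (hlt s hs).le
  have hbelow : ∀ s, 0 ≤ s → s < S → Alive W z s := by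
    intro s hs hsS
    obtain ⟨r, hr, hsr⟩ := exists_lt_of_lt_csSup ⟨0, h0⟩ hsS
    exact Alive.mono hr hs hsr.le
  -- alive at S
  have hSA : Alive W z S := by
    rcases hS0.eq_or_lt with h00 | hSpos
    · rw [← h00]; exact alive_zero hz
    obtain ⟨G, hG0, hG⟩ := exists_sol_trunc hS0 (hW.mono Icc_subset_Ici_self) hδ (c := 1)
      (by simp) z
    have heq : ∀ s, 0 ≤ s → s < S → G s = gfl W s z := by
      intro s hs hsS
      have ha := hbelow s hs hsS
      have hlow : ∀ r ∈ Icc 0 s, δ ≤ (gfl W r z).im := fun r hr =>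
        h r hr.1 ((hr.2.trans_lt hsS).trans_le hSt) (ha.mono hr.1 hr.2)
      have hsub : Icc 0 s ⊆ Icc 0 S := Icc_subset_Icc le_rfl hsS.le
      have key := gronwall_trunc (η := 0) (ε := 0) hδ (c := 1) (by simp)
        (fun r hr => (hG r (hsub hr)).mono hsub) (ha.isFlow.trunc hlow) (by simp)
        (by
          show ‖G 0 - gfl W 0 z‖ ≤ 0
          rw [hG0, gfl_zero hz]; simp) s ⟨hs, le_rfl⟩
      simp only [add_zero, zero_mul] at key
      exact sub_eq_zero.1 (norm_eq_zero.1 (le_antisymm key (norm_nonneg _)))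
    refine ⟨hS0, G, isFlow_of_trunc hδ hG0 hG ?_⟩
    have hc : ContinuousOn (fun r => (G r).im) (Icc 0 S) :=
      Complex.continuous_im.comp_continuousOn fun r hr => (hG r hr).continuousWithinAt
    have hlow' : ∀ r ∈ Ico 0 S, δ ≤ (G r).im := fun r hr => by
      rw [heq r hr.1 hr.2]
      exact h r hr.1 (hr.2.trans_le hSt) (hbelow r hr.1 hr.2)
    intro r hr
    rcases hr.2.lt_or_eq with hlt' | heq'
    · exact hlow' r ⟨hr.1, hlt'⟩
    · subst heq'
      have hcl : S ∈ closure (Ico 0 S) := by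
        rw [closure_Ico hSpos.ne]; exact ⟨hS0, le_rfl⟩
      have hcw : ContinuousWithinAt (fun r => (G r).im) (Ico 0 S) S :=
        (hc S ⟨hS0, le_rfl⟩).mono Ico_subset_Icc_self
      have : (𝓝[Ico 0 S] S).NeBot := mem_closure_iff_nhdsWithin_neBot.1 hcl
      exact ge_of_tendsto hcw (Filter.eventually_of_mem self_mem_nhdsWithin hlow')
  obtain ⟨t', ht', δ', hδ', hal⟩ := Alive.exists_gt hW hSA
  have : t' ∈ A := hal z (by simpa using hδ')
  exact absurd (le_csSup hbdd this) (not_le.2 ht')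


theorem isOpen_Dom (hW : ContinuousOn W (Ici 0)) (t : ℝ) : IsOpen (Dom W t) := by
  rw [Metric.isOpen_iff]
  intro z hz
  obtain ⟨t', ht', δ, hδ, hal⟩ := Alive.exists_gt hW (hz : Alive W z t)
  refine ⟨δ, hδ, fun w hw => ?_⟩
  have := hal w (by simpa [dist_eq_norm] using hw)
  exact this.mono (hz : Alive W z t).1 ht'.le

theorem Dom_anti (hs : 0 ≤ s) (hst : s ≤ t) : Dom W t ⊆ Dom W s :=
  fun _ hz => Alive.mono hz hs hst


end Crest.Agent.R162.FL
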