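import Crest.Agent.R162.FLB

/-!
Row 162 (S0243), node FL3: the clock of one point controls time, displacement and the driving
function: on a time interval `[σ,T]` where `‖Z‖ ≤ M`, with `A = a_T - a_σ`,
`T - σ ≤ A M²`, `‖g_s z - g_σ z‖ ≤ 2 A M`, `|W_s - W_σ| ≤ (2 + 2A) M`.
-/

set_option autoImplicit false

open Set MeasureTheory intervalIntegral

namespace Crest.Agent.R162.FL

variable {W : ℝ → ℝ} {z : ℂ} {T σ s M : ℝ}

theorem ath_sub (hW : ContinuousOn W (Ici 0)) (hz : Alive W z T) (hσ : 0 ≤ σ) (hσs : σ ≤ s)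
    (hsT : s ≤ T) : OP.ath W s z - OP.ath W σ z = ∫ r in σ..s, 1 / ‖Zfl W r z‖ ^ 2 := by
  unfold OP.ath
  have h1 : IntervalIntegrable (fun r => 1 / ‖Zfl W r z‖ ^ 2) volume 0 s := by
    apply ContinuousOn.intervalIntegrable
    rw [uIcc_of_le (hσ.trans hσs)]
    exact (continuousOn_inv_norm_sq hW hz).mono (Icc_subset_Icc_right hsT)
  have h2 : IntervalIntegrable (fun r => 1 / ‖Zfl W r z‖ ^ 2) volume 0 σ := by
    apply ContinuousOn.intervalIntegrable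
    rw [uIcc_of_le hσ]
    exact (continuousOn_inv_norm_sq hW hz).mono (Icc_subset_Icc_right (hσs.trans hsT))
  exact integral_interval_sub_left h1 h2

theorem ath_mono (hW : ContinuousOn W (Ici 0)) (hz : Alive W z T) (hσ : 0 ≤ σ) (hσs : σ ≤ s)
    (hsT : s ≤ T) : OP.ath W σ z ≤ OP.ath W s z := by
  have h := ath_sub hW hz hσ hσs hsT
  have h2 : 0 ≤ ∫ r in σ..s, 1 / ‖Zfl W r z‖ ^ 2 :=
    integral_nonneg hσs (fun r _ => by positivity)
  linarith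


/-- `s - σ ≤ (a_s - a_σ) M²` -/
theorem sub_le_ath_mul_sq (hW : ContinuousOn W (Ici 0)) (hz : Alive W z T) (hσ : 0 ≤ σ)
    (hσs : σ ≤ s) (hsT : s ≤ T) (hM : ∀ r ∈ Icc σ s, ‖Zfl W r z‖ ≤ M) :
    s - σ ≤ (OP.ath W s z - OP.ath W σ z) * M ^ 2 := by
  rw [ath_sub hW hz hσ hσs hsT]
  have hMpos : 0 < M :=
    (norm_Zfl_pos_of_mem hz ⟨hσ, hσs.trans hsT⟩).trans_le (hM σ ⟨le_rfl, hσs⟩)
  have h1 : IntervalIntegrable (fun r => 1 / ‖Zfl W r z‖ ^ 2) volume σ s := by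
    apply ContinuousOn.intervalIntegrable
    rw [uIcc_of_le hσs]
    exact (continuousOn_inv_norm_sq hW hz).mono (Icc_subset_Icc hσ hsT)
  have h2 : ∫ _ in σ..s, 1 / M ^ 2 ≤ ∫ r in σ..s, 1 / ‖Zfl W r z‖ ^ 2 := by
    apply integral_mono_on hσs intervalIntegrable_const h1
    intro r hr
    have hp := norm_Zfl_pos_of_mem hz (s := r) ⟨hσ.trans hr.1, hr.2.trans hsT⟩
    have := hM r hr
    gcongr
  rw [intervalIntegral.integral_const, smul_eq_mul] at h2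
  calc s - σ = (s - σ) * (1 / M ^ 2) * M ^ 2 := by field_simp
    _ ≤ _ := by gcongr

/-- `‖g_s z - g_σ z‖ ≤ 2 (a_s - a_σ) M` -/
theorem norm_gfl_sub_le (hW : ContinuousOn W (Ici 0)) (hz : Alive W z T) (hσ : 0 ≤ σ)
    (hσs : σ ≤ s) (hsT : s ≤ T) (hM : ∀ r ∈ Icc σ s, ‖Zfl W r z‖ ≤ M) :
    ‖gfl W s z - gfl W σ z‖ ≤ 2 * (OP.ath W s z - OP.ath W σ z) * M := by
  have hcont : ContinuousOn (fun r => 2 / Zfl W r z) (Icc 0 T) :=
    continuousOn_const.div (continuousOn_Zfl hW hz) fun r hr => Zfl_ne_zero_of_mem hz hr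
  have hint : IntervalIntegrable (fun r => 2 / Zfl W r z) volume σ s := by
    apply ContinuousOn.intervalIntegrable
    rw [uIcc_of_le hσs]
    exact hcont.mono (Icc_subset_Icc hσ hsT)
  have hftc : ∫ r in σ..s, 2 / Zfl W r z = gfl W s z - gfl W σ z := by
    apply integral_eq_sub_of_hasDeriv_right (f := fun r => gfl W r z)
    · rw [uIcc_of_le hσs]
      exact (continuousOn_gfl hz).mono (Icc_subset_Icc hσ hsT)
    · intro r hr
      rw [min_eq_left hσs, max_eq_right hσs] at hr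
      have hr' : r ∈ Icc 0 T := ⟨hσ.trans hr.1.le, hr.2.le.trans hsT⟩
      refine (hasDerivWithinAt_gfl' hz hr').mono_of_mem_nhdsWithin ?_
      exact mem_nhdsWithin_of_mem_nhds
        (Icc_mem_nhds (hσ.trans_lt hr.1) (hr.2.trans_le hsT))
    · exact hint
  rw [← hftc, ath_sub hW hz hσ hσs hsT]
  have h1 : IntervalIntegrable (fun r => 1 / ‖Zfl W r z‖ ^ 2) volume σ s := by
    apply ContinuousOn.intervalIntegrable
    rw [uIcc_of_le hσs]
    exact (continuousOn_inv_norm_sq hW hz).mono (Icc_subset_Icc hσ hsT)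
  calc ‖∫ r in σ..s, 2 / Zfl W r z‖ ≤ ∫ r in σ..s, ‖2 / Zfl W r z‖ :=
        norm_integral_le_integral_norm hσs
    _ ≤ ∫ r in σ..s, (2 * M) * (1 / ‖Zfl W r z‖ ^ 2) := by
        apply integral_mono_on hσs hint.norm (h1.const_mul _)
        intro r hr
        have hp := norm_Zfl_pos_of_mem hz (s := r) ⟨hσ.trans hr.1, hr.2.trans hsT⟩
        have hm := hM r hr
        rw [norm_div, Complex.norm_ofNat, mul_one_div, div_le_div_iff₀ hp (by positivity)]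
        nlinarith [mul_le_mul_of_nonneg_left hm hp.le]
    _ = (2 * M) * ∫ r in σ..s, 1 / ‖Zfl W r z‖ ^ 2 := integral_const_mul _ _
    _ = _ := by ring

/-- `|W_s - W_σ| ≤ (2 + 2 (a_s - a_σ)) M` -/
theorem abs_sub_le_ath (hW : ContinuousOn W (Ici 0)) (hz : Alive W z T) (hσ : 0 ≤ σ)
    (hσs : σ ≤ s) (hsT : s ≤ T) (hM : ∀ r ∈ Icc σ s, ‖Zfl W r z‖ ≤ M) :
    |W s - W σ| ≤ (2 + 2 * (OP.ath W s z - OP.ath W σ z)) * M := by
  have h1 := norm_gfl_sub_le hW hz hσ hσs hsT hM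
  have h2 := hM σ ⟨le_rfl, hσs⟩
  have h3 := hM s ⟨hσs, le_rfl⟩
  have h4 : ((W s - W σ : ℝ) : ℂ) = (gfl W s z - gfl W σ z) + (Zfl W σ z - Zfl W s z) := by
    unfold Zfl; push_cast; ring
  have h5 : |W s - W σ| = ‖((W s - W σ : ℝ) : ℂ)‖ := by rw [Complex.norm_real, Real.norm_eq_abs]
  rw [h5, h4]
  have h6 := norm_add_le (gfl W s z - gfl W σ z) (Zfl W σ z - Zfl W s z)
  have h7 := norm_sub_le (Zfl W σ z) (Zfl W s z)
  linarith

/-- the square root of the elapsed time -/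
theorem sqrt_sub_le_ath (hW : ContinuousOn W (Ici 0)) (hz : Alive W z T) (hσ : 0 ≤ σ)
    (hσs : σ ≤ s) (hsT : s ≤ T) (hM : ∀ r ∈ Icc σ s, ‖Zfl W r z‖ ≤ M) :
    Real.sqrt (s - σ) ≤ (1 + (OP.ath W s z - OP.ath W σ z)) * M := by
  have hMpos : 0 < M :=
    (norm_Zfl_pos_of_mem hz ⟨hσ, hσs.trans hsT⟩).trans_le (hM σ ⟨le_rfl, hσs⟩)
  have hA : 0 ≤ OP.ath W s z - OP.ath W σ z := sub_nonneg.2 (ath_mono hW hz hσ hσs hsT)
  rw [Real.sqrt_le_left (by positivity)]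
  refine (sub_le_ath_mul_sq hW hz hσ hσs hsT hM).trans ?_
  rw [mul_pow]
  gcongr
  nlinarith

/-- FL3 (form with a starting time `σ`): if `‖Z_r(z)‖ ≤ M` for `r ∈ [σ,T]` and
`A = a_T(z) - a_σ(z)` then for every `s ∈ [σ,T]` both `√(s - σ)` and `|W_s - W_σ|` are
at most `2 (1 + A) M`. -/
theorem FL3 (hW : ContinuousOn W (Ici 0)) (hz : Alive W z T) (hσ : 0 ≤ σ)
    (hσs : σ ≤ s) (hsT : s ≤ T) (hM : ∀ r ∈ Icc σ T, ‖Zfl W r z‖ ≤ M) :
    max (Real.sqrt (s - σ)) |W s - W σ| ≤ 2 * (1 + (OP.ath W T z - OP.ath W σ z)) * M := by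
  have hMpos : 0 < M :=
    (norm_Zfl_pos_of_mem hz ⟨hσ, hσs.trans hsT⟩).trans_le (hM σ ⟨le_rfl, hσs.trans hsT⟩)
  have hM' : ∀ r ∈ Icc σ s, ‖Zfl W r z‖ ≤ M := fun r hr => hM r ⟨hr.1, hr.2.trans hsT⟩
  have h1 := sqrt_sub_le_ath hW hz hσ hσs hsT hM'
  have h2 := abs_sub_le_ath hW hz hσ hσs hsT hM'
  have h3 := ath_mono hW hz (hσ.trans hσs) hsT le_rfl
  have h4 := ath_mono hW hz hσ hσs hsT
  have h5 : (OP.ath W s z - OP.ath W σ z) * M ≤ (OP.ath W T z - OP.ath W σ z) * M := by gcongr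
  have h6 : 0 ≤ (OP.ath W s z - OP.ath W σ z) * M := mul_nonneg (by linarith) hMpos.le
  apply max_le
  · nlinarith
  · nlinarith


/-! ### lower bounds: `‖Z‖ ≥ m` -/

/-- `|Z|` moves at most by the displacement of `g` and of `W`. -/
theorem abs_norm_Zfl_sub_le (W : ℝ → ℝ) (s σ : ℝ) (z : ℂ) :
    |‖Zfl W s z‖ - ‖Zfl W σ z‖| ≤ ‖gfl W s z - gfl W σ z‖ + |W s - W σ| := by
  refine (abs_norm_sub_norm_le _ _).trans ?_
  have h4 : Zfl W s z - Zfl W σ z = (gfl W s z - gfl W σ z) - ((W s - W σ : ℝ) : ℂ) := by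
    unfold Zfl; push_cast; ring
  rw [h4]
  refine (norm_sub_le _ _).trans ?_
  rw [Complex.norm_real, Real.norm_eq_abs]

/-- if `‖Z‖ ≥ m` on `[σ,s]` then `a_s - a_σ ≤ (s - σ)/m²`. -/
theorem ath_sub_le (hW : ContinuousOn W (Ici 0)) (hz : Alive W z T) (hσ : 0 ≤ σ)
    (hσs : σ ≤ s) (hsT : s ≤ T) {m : ℝ} (hm0 : 0 < m) (hm : ∀ r ∈ Icc σ s, m ≤ ‖Zfl W r z‖) :
    OP.ath W s z - OP.ath W σ z ≤ (s - σ) / m ^ 2 := by
  rw [ath_sub hW hz hσ hσs hsT]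
  have h1 : IntervalIntegrable (fun r => 1 / ‖Zfl W r z‖ ^ 2) volume σ s := by
    apply ContinuousOn.intervalIntegrable
    rw [uIcc_of_le hσs]
    exact (continuousOn_inv_norm_sq hW hz).mono (Icc_subset_Icc hσ hsT)
  have h2 : ∫ r in σ..s, 1 / ‖Zfl W r z‖ ^ 2 ≤ ∫ _ in σ..s, 1 / m ^ 2 := by
    apply integral_mono_on hσs h1 intervalIntegrable_const
    intro r hr
    have := hm r hr
    gcongr
  rw [intervalIntegral.integral_const, smul_eq_mul] at h2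
  calc _ ≤ _ := h2
    _ = _ := by ring

/-- if `‖Z‖ ≥ m` on `[σ,s]` then `‖g_s z - g_σ z‖ ≤ 2 (s - σ)/m`. -/
theorem norm_gfl_sub_le' (hW : ContinuousOn W (Ici 0)) (hz : Alive W z T) (hσ : 0 ≤ σ)
    (hσs : σ ≤ s) (hsT : s ≤ T) {m : ℝ} (hm0 : 0 < m) (hm : ∀ r ∈ Icc σ s, m ≤ ‖Zfl W r z‖) :
    ‖gfl W s z - gfl W σ z‖ ≤ 2 * (s - σ) / m := by
  have hcont : ContinuousOn (fun r => 2 / Zfl W r z) (Icc 0 T) :=
    continuousOn_const.div (continuousOn_Zfl hW hz) fun r hr => Zfl_ne_zero_of_mem hz hr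
  have hint : IntervalIntegrable (fun r => 2 / Zfl W r z) volume σ s := by
    apply ContinuousOn.intervalIntegrable
    rw [uIcc_of_le hσs]
    exact hcont.mono (Icc_subset_Icc hσ hsT)
  have hftc : ∫ r in σ..s, 2 / Zfl W r z = gfl W s z - gfl W σ z := by
    apply integral_eq_sub_of_hasDeriv_right (f := fun r => gfl W r z)
    · rw [uIcc_of_le hσs]
      exact (continuousOn_gfl hz).mono (Icc_subset_Icc hσ hsT)
    · intro r hr
      rw [min_eq_left hσs, max_eq_right hσs] at hr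
      have hr' : r ∈ Icc 0 T := ⟨hσ.trans hr.1.le, hr.2.le.trans hsT⟩
      refine (hasDerivWithinAt_gfl' hz hr').mono_of_mem_nhdsWithin ?_
      exact mem_nhdsWithin_of_mem_nhds
        (Icc_mem_nhds (hσ.trans_lt hr.1) (hr.2.trans_le hsT))
    · exact hint
  rw [← hftc]
  have hb : ∀ r ∈ Set.uIoc σ s, ‖2 / Zfl W r z‖ ≤ 2 / m := by
    intro r hr
    rw [uIoc_of_le hσs] at hr
    rw [norm_div, Complex.norm_ofNat]
    have := hm r ⟨hr.1.le, hr.2⟩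
    gcongr
  refine (norm_integral_le_of_norm_le_const hb).trans ?_
  rw [abs_of_nonneg (sub_nonneg.2 hσs)]
  apply le_of_eq; ring

end Crest.Agent.R162.FL
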