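import Crest.Agent.R162.FL1b
import Crest.Agent.R162.Base

/-!
Row 162 (S0243), node FL-B: space derivative of the Loewner flow, injectivity, and the time
derivatives of `log Im`, `log |g'|`, `Υ` (`OP.ups`), and of the clock `a` (`OP.ath`).
-/

set_option autoImplicit false

open Set MeasureTheory intervalIntegral

namespace Crest.Agent.R162.FL

variable {W : ℝ → ℝ} {z w : ℂ} {t : ℝ}

/-- the space derivative of the flow -/
noncomputable def dgfl (W : ℝ → ℝ) (t : ℝ) (z : ℂ) : ℂ :=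
  Complex.exp (-∫ s in (0:ℝ)..t, 2 / (Zfl W s z * Zfl W s z))

theorem gfl_im_pos_of_mem (h : Alive W z t) {s : ℝ} (hs : s ∈ Icc 0 t) : 0 < (gfl W s z).im :=
  h.isFlow.im_pos s hs

theorem Zfl_im_pos_of_mem (h : Alive W z t) {s : ℝ} (hs : s ∈ Icc 0 t) :
    0 < (Zfl W s z).im := by
  rw [Zfl_im]; exact gfl_im_pos_of_mem h hs

theorem Zfl_ne_zero_of_mem (h : Alive W z t) {s : ℝ} (hs : s ∈ Icc 0 t) : Zfl W s z ≠ 0 :=
  Zfl_ne_zero (h.mono hs.1 hs.2)

theorem norm_Zfl_pos_of_mem (h : Alive W z t) {s : ℝ} (hs : s ∈ Icc 0 t) : 0 < ‖Zfl W s z‖ :=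
  norm_pos_iff.2 (Zfl_ne_zero_of_mem h hs)

theorem continuousOn_inv_sq (hW : ContinuousOn W (Ici 0)) (h : Alive W z t) :
    ContinuousOn (fun s => 2 / (Zfl W s z * Zfl W s z)) (Icc 0 t) := by
  refine continuousOn_const.div ((continuousOn_Zfl hW h).mul (continuousOn_Zfl hW h)) ?_
  intro s hs
  exact mul_ne_zero (Zfl_ne_zero_of_mem h hs) (Zfl_ne_zero_of_mem h hs)

theorem continuousOn_inv_norm_sq (hW : ContinuousOn W (Ici 0)) (h : Alive W z t) :
    ContinuousOn (fun s => 1 / ‖Zfl W s z‖ ^ 2) (Icc 0 t) := by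
  refine continuousOn_const.div ((continuousOn_Zfl hW h).norm.pow 2) ?_
  intro s hs
  exact pow_ne_zero _ (norm_Zfl_pos_of_mem h hs).ne'

/-- derivative of an integral on `[0,t]` from the left end point -/
theorem hasDerivWithinAt_integral_Icc {E : Type*} [NormedAddCommGroup E] [NormedSpace ℝ E]
    [CompleteSpace E] {f : ℝ → E} {t : ℝ} (hf : ContinuousOn f (Icc 0 t)) {s : ℝ}
    (hs : s ∈ Icc 0 t) :
    HasDerivWithinAt (fun u => ∫ r in (0:ℝ)..u, f r) (f s) (Icc 0 t) s := by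
  have : Fact (s ∈ Icc 0 t) := ⟨hs⟩
  have hint : IntervalIntegrable f volume 0 s := by
    apply ContinuousOn.intervalIntegrable
    rw [uIcc_of_le hs.1]
    exact hf.mono (Icc_subset_Icc_right hs.2)
  exact integral_hasDerivWithinAt_right hint
    (hf.stronglyMeasurableAtFilter_nhdsWithin measurableSet_Icc s) (hf s hs)

/-! ### injectivity and the space derivative -/


/-- stability in the starting point only -/
theorem stability_space (hW : ContinuousOn W (Ici 0)) (hz : Alive W z t) {ε : ℝ} (hε : 0 < ε) :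
    ∃ δ > 0, ∀ w, ‖w - z‖ < δ →
      Alive W w t ∧ ∀ s ∈ Icc 0 t, ‖gfl W s w - gfl W s z‖ < ε := by
  obtain ⟨δ, hδ, h⟩ := stability hz hε
  refine ⟨δ, hδ, fun w hw => h w W hw (hW.mono Icc_subset_Ici_self) fun s _ => ?_⟩
  rw [sub_self, abs_zero]
  exact hδ.le

/-- the two-point kernel is continuous in the second point -/
theorem tendsto_kernel (hW : ContinuousOn W (Ici 0)) (hz : Alive W z t) :
    Filter.Tendsto (fun w => ∫ s in (0:ℝ)..t, 2 / (Zfl W s w * Zfl W s z)) (nhds z)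
      (nhds (∫ s in (0:ℝ)..t, 2 / (Zfl W s z * Zfl W s z))) := by
  -- lower bound for the imaginary part on `[0,t]`
  have ht := hz.nonneg
  obtain ⟨m, hm, hmin⟩ : ∃ m, 0 < m ∧ ∀ s ∈ Icc 0 t, m ≤ (Zfl W s z).im := by
    have hc : ContinuousOn (fun s => (Zfl W s z).im) (Icc 0 t) :=
      Complex.continuous_im.comp_continuousOn (continuousOn_Zfl hW hz)
    obtain ⟨s0, hs0, hmn⟩ := isCompact_Icc.exists_isMinOn (nonempty_Icc.2 ht) hc
    exact ⟨(Zfl W s0 z).im, Zfl_im_pos_of_mem hz hs0, fun s hs => hmn hs⟩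
  rw [Metric.tendsto_nhds_nhds]
  intro ε hε
  -- choose the closeness
  set η : ℝ := min (m / 2) (ε * m ^ 3 / (8 * (t + 1))) with hη
  have hη0 : 0 < η := by
    apply lt_min (by positivity)
    positivity
  obtain ⟨δ, hδ, hst⟩ := stability_space hW hz hη0
  refine ⟨δ, hδ, fun {w} hw => ?_⟩
  rw [dist_eq_norm] at hw
  obtain ⟨hwA, hclose⟩ := hst w hw
  rw [dist_eq_norm]
  have hI1 : IntervalIntegrable (fun s => 2 / (Zfl W s w * Zfl W s z)) volume 0 t := by
    apply ContinuousOn.intervalIntegrable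
    rw [uIcc_of_le ht]
    exact continuousOn_const.div ((continuousOn_Zfl hW hwA).mul (continuousOn_Zfl hW hz))
      fun s hs => mul_ne_zero (Zfl_ne_zero_of_mem hwA hs) (Zfl_ne_zero_of_mem hz hs)
  have hI2 : IntervalIntegrable (fun s => 2 / (Zfl W s z * Zfl W s z)) volume 0 t := by
    apply ContinuousOn.intervalIntegrable
    rw [uIcc_of_le ht]
    exact continuousOn_inv_sq hW hz
  rw [← integral_sub hI1 hI2]
  have hbound : ∀ s ∈ Set.uIoc (0:ℝ) t,
      ‖2 / (Zfl W s w * Zfl W s z) - 2 / (Zfl W s z * Zfl W s z)‖ ≤ 4 * η / m ^ 3 := by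
    intro s hs
    rw [uIoc_of_le ht] at hs
    have hs' : s ∈ Icc 0 t := ⟨hs.1.le, hs.2⟩
    have hz0 := Zfl_ne_zero_of_mem hz hs'
    have hw0 := Zfl_ne_zero_of_mem hwA hs'
    have hzn : m ≤ ‖Zfl W s z‖ :=
      (hmin s hs').trans ((le_abs_self _).trans (Complex.abs_im_le_norm _))
    have hdiff : ‖Zfl W s z - Zfl W s w‖ < η := by
      have : Zfl W s z - Zfl W s w = -(gfl W s w - gfl W s z) := by unfold Zfl; ring
      rw [this, norm_neg]; exact hclose s hs'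
    have hwn : m / 2 ≤ ‖Zfl W s w‖ := by
      have h1 : ‖Zfl W s z‖ ≤ ‖Zfl W s w‖ + ‖Zfl W s z - Zfl W s w‖ := by
        have := norm_add_le (Zfl W s w) (Zfl W s z - Zfl W s w)
        simpa using this
      have h2 : η ≤ m / 2 := min_le_left _ _
      linarith
    have heq : 2 / (Zfl W s w * Zfl W s z) - 2 / (Zfl W s z * Zfl W s z)
        = 2 * (Zfl W s z - Zfl W s w) / (Zfl W s w * Zfl W s z * Zfl W s z) := by
      field_simp
    rw [heq, norm_div, norm_mul, norm_mul, norm_mul, Complex.norm_ofNat]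
    have hden : m ^ 3 / 2 ≤ ‖Zfl W s w‖ * ‖Zfl W s z‖ * ‖Zfl W s z‖ := by
      calc m ^ 3 / 2 = (m / 2) * m * m := by ring
        _ ≤ ‖Zfl W s w‖ * ‖Zfl W s z‖ * ‖Zfl W s z‖ := by gcongr
    calc 2 * ‖Zfl W s z - Zfl W s w‖ / (‖Zfl W s w‖ * ‖Zfl W s z‖ * ‖Zfl W s z‖)
        ≤ 2 * η / (m ^ 3 / 2) := by gcongr
      _ = 4 * η / m ^ 3 := by field_simp; ring
  refine (norm_integral_le_of_norm_le_const hbound).trans_lt ?_
  rw [sub_zero, abs_of_nonneg ht]
  have h3 : η ≤ ε * m ^ 3 / (8 * (t + 1)) := min_le_right _ _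
  calc 4 * η / m ^ 3 * t ≤ 4 * (ε * m ^ 3 / (8 * (t + 1))) / m ^ 3 * t := by gcongr
    _ = ε * (t / (2 * (t + 1))) := by field_simp; ring
    _ < ε * 1 := by
        apply mul_lt_mul_of_pos_left _ hε
        rw [div_lt_one (by positivity)]; linarith
    _ = ε := mul_one _

theorem hasDerivAt_gfl_space (hW : ContinuousOn W (Ici 0)) (hz : Alive W z t) :
    HasDerivAt (gfl W t) (dgfl W t z) z := by
  rw [hasDerivAt_iff_tendsto_slope]
  have h1 : Filter.Tendsto (fun w => Complex.exp (-∫ s in (0:ℝ)..t, 2 / (Zfl W s w * Zfl W s z)))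
      (nhdsWithin z {z}ᶜ) (nhds (dgfl W t z)) := by
    unfold dgfl
    exact ((Complex.continuous_exp.tendsto _).comp (tendsto_kernel hW hz).neg).mono_left
      nhdsWithin_le_nhds
  refine h1.congr' ?_
  have hopen : Dom W t ∈ nhds z := (isOpen_Dom hW t).mem_nhds hz
  filter_upwards [self_mem_nhdsWithin, mem_nhdsWithin_of_mem_nhds hopen] with w hw hwD
  have hne : w - z ≠ 0 := sub_ne_zero.2 hw
  rw [slope_def_field, gfl_sub hW hwD hz]
  field_simp


theorem deriv_gfl (hW : ContinuousOn W (Ici 0)) (hz : Alive W z t) :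
    deriv (gfl W t) z = dgfl W t z := (hasDerivAt_gfl_space hW hz).deriv





theorem dgfl_ne_zero (W : ℝ → ℝ) (t : ℝ) (z : ℂ) : dgfl W t z ≠ 0 := Complex.exp_ne_zero _

theorem norm_dgfl_pos (W : ℝ → ℝ) (t : ℝ) (z : ℂ) : 0 < ‖dgfl W t z‖ :=
  norm_pos_iff.2 (dgfl_ne_zero W t z)

@[simp] theorem dgfl_zero (W : ℝ → ℝ) (z : ℂ) : dgfl W 0 z = 1 := by simp [dgfl]

@[simp] theorem ath_zero (W : ℝ → ℝ) (z : ℂ) : OP.ath W 0 z = 0 := by simp [OP.ath]

/-! ### time derivatives -/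


theorem log_norm_dgfl (hW : ContinuousOn W (Ici 0)) (hz : Alive W z t) :
    Real.log ‖dgfl W t z‖ = -∫ s in (0:ℝ)..t, (2 / (Zfl W s z * Zfl W s z)).re := by
  have hint : IntervalIntegrable (fun s => 2 / (Zfl W s z * Zfl W s z)) volume 0 t := by
    apply ContinuousOn.intervalIntegrable
    rw [uIcc_of_le hz.nonneg]
    exact continuousOn_inv_sq hW hz
  have hre : (∫ s in (0:ℝ)..t, 2 / (Zfl W s z * Zfl W s z)).re
      = ∫ s in (0:ℝ)..t, (2 / (Zfl W s z * Zfl W s z)).re := by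
    have := Complex.reCLM.intervalIntegral_comp_comm hint
    simpa using this.symm
  unfold dgfl
  rw [Complex.norm_exp, Real.log_exp, Complex.neg_re, hre]

/-- `Re (2/Z^2) = 2 (X^2 - Y^2) / |Z|^4` -/
theorem re_two_div_sq (ζ : ℂ) : (2 / (ζ * ζ)).re = 2 * (ζ.re ^ 2 - ζ.im ^ 2) / ‖ζ‖ ^ 4 := by
  by_cases h0 : ζ = 0
  · simp [h0]
  have hn : ‖ζ‖ ^ 4 = (ζ.re * ζ.re + ζ.im * ζ.im) ^ 2 := by
    have : ‖ζ‖ ^ 2 = ζ.re * ζ.re + ζ.im * ζ.im := by
      rw [← Complex.normSq_eq_norm_sq, Complex.normSq_apply]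
    rw [← this]; ring
  have hpos : 0 < ζ.re * ζ.re + ζ.im * ζ.im := by
    rw [← Complex.normSq_apply]; exact Complex.normSq_pos.2 h0
  rw [hn, Complex.div_re, Complex.normSq_mul, Complex.normSq_apply]
  simp only [Complex.re_ofNat, Complex.im_ofNat, Complex.mul_re, Complex.mul_im, zero_mul, zero_div,
    add_zero]
  rw [← sq]
  field_simp

theorem re_two_div_sq_eq_inv (ζ : ℂ) : (2 / (ζ * ζ)).re = 2 * ((ζ ^ 2)⁻¹).re := by
  rw [div_eq_mul_inv, ← sq, Complex.mul_re]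
  simp

theorem norm_sq_eq (ζ : ℂ) : ‖ζ‖ ^ 2 = ζ.re ^ 2 + ζ.im ^ 2 := by
  rw [← Complex.normSq_eq_norm_sq, Complex.normSq_apply]; ring

theorem im_two_div' (ζ : ℂ) : (2 / ζ).im = -(2 * ζ.im / ‖ζ‖ ^ 2) := by
  rw [← Complex.normSq_eq_norm_sq, Complex.div_im]
  simp


/-- `d log |g'| = -Re (2/Z^2)` -/
theorem hasDeriv_log_norm_dgfl (hW : ContinuousOn W (Ici 0)) (hz : Alive W z t) {s : ℝ}
    (hs : s ∈ Icc 0 t) :
    HasDerivWithinAt (fun u => Real.log ‖dgfl W u z‖)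
      (-(2 * ((Zfl W s z).re ^ 2 - (Zfl W s z).im ^ 2) / ‖Zfl W s z‖ ^ 4)) (Icc 0 t) s := by
  have hc : ContinuousOn (fun s => (2 / (Zfl W s z * Zfl W s z)).re) (Icc 0 t) :=
    Complex.continuous_re.comp_continuousOn (continuousOn_inv_sq hW hz)
  have h := (hasDerivWithinAt_integral_Icc hc hs).neg
  rw [re_two_div_sq] at h
  refine h.congr_of_mem (fun u hu => ?_) hs
  exact log_norm_dgfl hW (hz.mono hu.1 hu.2)


/-- `dY = -2 Y / |Z|^2` -/
theorem hasDeriv_im (hz : Alive W z t) {s : ℝ} (hs : s ∈ Icc 0 t) :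
    HasDerivWithinAt (fun u => (gfl W u z).im)
      (-(2 * (gfl W s z).im / ‖Zfl W s z‖ ^ 2)) (Icc 0 t) s := by
  have h := hasDerivWithinAt_im (hasDerivWithinAt_gfl' hz hs)
  rwa [im_two_div', Zfl_im] at h

/-- `d log Y = -2 / |Z|^2` -/
theorem hasDeriv_log_im (hz : Alive W z t) {s : ℝ} (hs : s ∈ Icc 0 t) :
    HasDerivWithinAt (fun u => Real.log (gfl W u z).im)
      (-(2 / ‖Zfl W s z‖ ^ 2)) (Icc 0 t) s := by
  have hp := gfl_im_pos_of_mem hz hs
  have h := (hasDeriv_im hz hs).log hp.ne'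
  convert h using 1
  field_simp

theorem hasDeriv_ath (hW : ContinuousOn W (Ici 0)) (hz : Alive W z t) {s : ℝ}
    (hs : s ∈ Icc 0 t) :
    HasDerivWithinAt (fun u => OP.ath W u z) (1 / ‖Zfl W s z‖ ^ 2) (Icc 0 t) s :=
  hasDerivWithinAt_integral_Icc (continuousOn_inv_norm_sq hW hz) hs

/-- `Υ_t(z) = Im g_t(z) / |g_t'(z)|` -/
theorem ups_eq (hW : ContinuousOn W (Ici 0)) (hz : Alive W z t) :
    OP.ups W t z = (gfl W t z).im / ‖dgfl W t z‖ := by
  have h := log_norm_dgfl hW hz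
  have h2 : ‖dgfl W t z‖ = Real.exp (-∫ s in (0:ℝ)..t, (2 / (Zfl W s z * Zfl W s z)).re) := by
    rw [← h, Real.exp_log (norm_dgfl_pos W t z)]
  rw [h2, OP.ups, Real.exp_neg, div_inv_eq_mul]
  simp only [re_two_div_sq_eq_inv]

/-- `Υ_t(z) = Im g_t(z) / |deriv (gfl W t) z|` -/
theorem ups_eq_deriv (hW : ContinuousOn W (Ici 0)) (hz : Alive W z t) :
    OP.ups W t z = (gfl W t z).im / ‖deriv (gfl W t) z‖ := by
  rw [deriv_gfl hW hz, ups_eq hW hz]

theorem ups_pos (hz : Alive W z t) : 0 < OP.ups W t z :=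
  mul_pos (gfl_im_pos hz) (Real.exp_pos _)

theorem gfl_of_not_alive (hz : ¬ Alive W z t) : gfl W t z = 0 := by
  rw [gfl, dif_neg hz]

theorem ups_of_not_alive (hz : ¬ Alive W z t) : OP.ups W t z = 0 := by
  rw [OP.ups, gfl_of_not_alive hz]; simp

theorem ups_nonneg (W : ℝ → ℝ) (t : ℝ) (z : ℂ) : 0 ≤ OP.ups W t z := by
  by_cases hz : Alive W z t
  · exact (ups_pos hz).le
  · exact (ups_of_not_alive hz).ge


/-- `d log Υ = -4 Y^2 / |Z|^4` -/
theorem hasDeriv_log_ups (hW : ContinuousOn W (Ici 0)) (hz : Alive W z t) {s : ℝ}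
    (hs : s ∈ Icc 0 t) :
    HasDerivWithinAt (fun u => Real.log (OP.ups W u z))
      (-(4 * (Zfl W s z).im ^ 2 / ‖Zfl W s z‖ ^ 4)) (Icc 0 t) s := by
  have h1 := (hasDeriv_log_im hz hs).sub (hasDeriv_log_norm_dgfl hW hz hs)
  have hn : ‖Zfl W s z‖ ^ 2 = (Zfl W s z).re ^ 2 + (Zfl W s z).im ^ 2 := norm_sq_eq _
  have hpos := norm_Zfl_pos_of_mem hz hs
  have he : -(2 / ‖Zfl W s z‖ ^ 2)
      - -(2 * ((Zfl W s z).re ^ 2 - (Zfl W s z).im ^ 2) / ‖Zfl W s z‖ ^ 4)
      = -(4 * (Zfl W s z).im ^ 2 / ‖Zfl W s z‖ ^ 4) := by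
    have h4 : ‖Zfl W s z‖ ^ 4 = ‖Zfl W s z‖ ^ 2 * ‖Zfl W s z‖ ^ 2 := by ring
    have hne : ‖Zfl W s z‖ ^ 2 ≠ 0 := (pow_pos hpos 2).ne'
    rw [h4]
    field_simp
    rw [hn]; ring
  rw [he] at h1
  refine h1.congr_of_mem (fun u hu => ?_) hs
  rw [ups_eq hW (hz.mono hu.1 hu.2)]
  exact Real.log_div (gfl_im_pos_of_mem hz hu).ne' (norm_dgfl_pos W u z).ne'

/-- `dΥ = -4 Y^2 Υ / |Z|^4` -/
theorem hasDeriv_ups (hW : ContinuousOn W (Ici 0)) (hz : Alive W z t) {s : ℝ}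
    (hs : s ∈ Icc 0 t) :
    HasDerivWithinAt (fun u => OP.ups W u z)
      (-(4 * (Zfl W s z).im ^ 2 / ‖Zfl W s z‖ ^ 4 * OP.ups W s z)) (Icc 0 t) s := by
  have h := (hasDeriv_log_ups hW hz hs).exp
  have hs' : OP.ups W s z = Real.exp (Real.log (OP.ups W s z)) :=
    (Real.exp_log (ups_pos (hz.mono hs.1 hs.2))).symm
  have h2 : HasDerivWithinAt (fun u => OP.ups W u z)
      (Real.exp (Real.log (OP.ups W s z)) * -(4 * (Zfl W s z).im ^ 2 / ‖Zfl W s z‖ ^ 4))
      (Icc 0 t) s := by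
    refine h.congr_of_mem (fun u hu => ?_) hs
    exact (Real.exp_log (ups_pos (hz.mono hu.1 hu.2))).symm
  rw [← hs'] at h2
  convert h2 using 1
  ring

theorem ups_zero (hz : 0 < z.im) : OP.ups W 0 z = z.im := by
  simp [OP.ups, gfl_zero hz]

theorem continuousOn_ups (hW : ContinuousOn W (Ici 0)) (hz : Alive W z t) :
    ContinuousOn (fun u => OP.ups W u z) (Icc 0 t) :=
  fun _ hs => (hasDeriv_ups hW hz hs).continuousWithinAt

theorem continuousOn_ath (hW : ContinuousOn W (Ici 0)) (hz : Alive W z t) :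
    ContinuousOn (fun u => OP.ath W u z) (Icc 0 t) :=
  fun _ hs => (hasDeriv_ath hW hz hs).continuousWithinAt

/-- `Υ` is antitone in time -/
theorem ups_antitoneOn (hW : ContinuousOn W (Ici 0)) (hz : Alive W z t) :
    AntitoneOn (fun u => OP.ups W u z) (Icc 0 t) := by
  apply antitoneOn_of_hasDerivWithinAt_nonpos (convex_Icc 0 t)
    (f' := fun s => -(4 * (Zfl W s z).im ^ 2 / ‖Zfl W s z‖ ^ 4 * OP.ups W s z))
  · exact fun s hs => (hasDeriv_ups hW hz hs).continuousWithinAt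
  · intro s hs
    have hs' : s ∈ Icc 0 t := interior_subset hs
    exact (hasDeriv_ups hW hz hs').mono interior_subset
  · intro s hs
    have hs' : s ∈ Icc 0 t := interior_subset hs
    have := ups_pos (hz.mono hs'.1 hs'.2)
    have : 0 ≤ 4 * (Zfl W s z).im ^ 2 / ‖Zfl W s z‖ ^ 4 * OP.ups W s z := by positivity
    linarith

theorem ups_anti (hW : ContinuousOn W (Ici 0)) {s : ℝ} (hz : Alive W z t) (hs : 0 ≤ s)
    (hst : s ≤ t) : OP.ups W t z ≤ OP.ups W s z :=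
  ups_antitoneOn hW hz ⟨hs, hst⟩ ⟨hs.trans hst, le_rfl⟩ hst

/-- `Υ` is strictly decreasing in time -/
theorem ups_strictAntiOn (hW : ContinuousOn W (Ici 0)) (hz : Alive W z t) :
    StrictAntiOn (fun u => OP.ups W u z) (Icc 0 t) := by
  apply strictAntiOn_of_hasDerivWithinAt_neg (convex_Icc 0 t)
    (f' := fun s => -(4 * (Zfl W s z).im ^ 2 / ‖Zfl W s z‖ ^ 4 * OP.ups W s z))
  · exact fun s hs => (hasDeriv_ups hW hz hs).continuousWithinAt
  · intro s hs
    have hs' : s ∈ Icc 0 t := interior_subset hs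
    exact (hasDeriv_ups hW hz hs').mono interior_subset
  · intro s hs
    have hs' : s ∈ Icc 0 t := interior_subset hs
    have h1 := ups_pos (hz.mono hs'.1 hs'.2)
    have h2 := norm_Zfl_pos_of_mem hz hs'
    have h3 := Zfl_im_pos_of_mem hz hs'
    have : 0 < 4 * (Zfl W s z).im ^ 2 / ‖Zfl W s z‖ ^ 4 * OP.ups W s z := by positivity
    linarith

theorem ups_le_im (hW : ContinuousOn W (Ici 0)) (hz : Alive W z t) : OP.ups W t z ≤ z.im := by
  have h : OP.ups W t z ≤ OP.ups W 0 z := ups_anti hW hz le_rfl hz.nonneg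
  rwa [ups_zero hz.im_pos] at h

/-- `Y_t = Y_0 exp (-2 a_t)` -/
theorem im_eq_exp_ath (hW : ContinuousOn W (Ici 0)) (hz : Alive W z t) :
    (gfl W t z).im = z.im * Real.exp (-2 * OP.ath W t z) := by
  have hconst : ∀ s ∈ Icc 0 t, Real.log (gfl W s z).im + 2 * OP.ath W s z
      = Real.log (gfl W 0 z).im + 2 * OP.ath W 0 z := by
    apply constant_of_has_deriv_right_zero
    · intro s hs
      exact ((hasDeriv_log_im hz hs).continuousWithinAt).add
        (((hasDeriv_ath hW hz hs).continuousWithinAt).const_mul 2)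
    · intro s hs
      have hs' : s ∈ Icc 0 t := ⟨hs.1, hs.2.le⟩
      have h := (hasDeriv_log_im hz hs').add ((hasDeriv_ath hW hz hs').const_mul 2)
      have h0 : -(2 / ‖Zfl W s z‖ ^ 2) + 2 * (1 / ‖Zfl W s z‖ ^ 2) = 0 := by ring
      rw [h0] at h
      exact (h.mono_of_mem_nhdsWithin
        (Icc_mem_nhdsGE_of_mem hs))
  have h1 := hconst t ⟨hz.nonneg, le_rfl⟩
  rw [gfl_zero' hz, ath_zero, mul_zero, add_zero] at h1
  have hzim : 0 < z.im := hz.im_pos
  have hg := gfl_im_pos hz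
  have h2 : Real.log (gfl W t z).im = Real.log z.im + (-2 * OP.ath W t z) := by linarith
  rw [← Real.exp_log hg, h2, Real.exp_add, Real.exp_log hzim]

/-- FTC for `log Υ` between two times -/
theorem log_ups_sub (hW : ContinuousOn W (Ici 0)) (hz : Alive W z t) {s u : ℝ} (hs : 0 ≤ s)
    (hsu : s ≤ u) (hut : u ≤ t) :
    Real.log (OP.ups W u z) - Real.log (OP.ups W s z)
      = -∫ r in s..u, 4 * (Zfl W r z).im ^ 2 / ‖Zfl W r z‖ ^ 4 := by
  have hc : ContinuousOn (fun r => 4 * (Zfl W r z).im ^ 2 / ‖Zfl W r z‖ ^ 4) (Icc 0 t) := by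
    refine ContinuousOn.div ?_ ((continuousOn_Zfl hW hz).norm.pow 4) ?_
    · exact continuousOn_const.mul
        ((Complex.continuous_im.comp_continuousOn (continuousOn_Zfl hW hz)).pow 2)
    · exact fun r hr => pow_ne_zero _ (norm_Zfl_pos_of_mem hz hr).ne'
  rw [← intervalIntegral.integral_neg]
  symm
  apply integral_eq_sub_of_hasDeriv_right (f := fun r => Real.log (OP.ups W r z))
  · rw [uIcc_of_le hsu]
    intro r hr
    exact ((hasDeriv_log_ups hW hz ⟨hs.trans hr.1, hr.2.trans hut⟩).continuousWithinAt).mono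
      (Icc_subset_Icc hs hut)
  · intro r hr
    rw [min_eq_left hsu, max_eq_right hsu] at hr
    refine (hasDeriv_log_ups hW hz ⟨hs.trans hr.1.le, hr.2.le.trans hut⟩).mono_of_mem_nhdsWithin ?_
    exact mem_nhdsWithin_of_mem_nhds (Icc_mem_nhds (hs.trans_lt hr.1) (hr.2.trans_le hut))
  · apply ContinuousOn.intervalIntegrable
    rw [uIcc_of_le hsu]
    exact (hc.neg).mono (Icc_subset_Icc hs hut)

/-! ### cocycle of the derivative -/

/-- chain rule: `g_{s+u}'(z) = (g^{shift}_u)'(Z_s) g_s'(z)` -/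
theorem dgfl_add (hW : ContinuousOn W (Ici 0)) {s u : ℝ} (hz : Alive W z (s + u)) (hs : 0 ≤ s)
    (hu : 0 ≤ u) : dgfl W (s + u) z = dgfl (shift W s) u (Zfl W s z) * dgfl W s z := by
  unfold dgfl
  have hc := continuousOn_inv_sq hW hz
  have h1 : IntervalIntegrable (fun r => 2 / (Zfl W r z * Zfl W r z)) volume 0 s := by
    apply ContinuousOn.intervalIntegrable
    rw [uIcc_of_le hs]
    exact hc.mono (Icc_subset_Icc_right (by linarith))
  have h2 : IntervalIntegrable (fun r => 2 / (Zfl W r z * Zfl W r z)) volume s (s + u) := by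
    apply ContinuousOn.intervalIntegrable
    rw [uIcc_of_le (by linarith)]
    exact hc.mono (Icc_subset_Icc_left hs)
  have h3 : ∫ r in s..(s + u), 2 / (Zfl W r z * Zfl W r z)
      = ∫ r in (0:ℝ)..u, 2 / (Zfl (shift W s) r (Zfl W s z) * Zfl (shift W s) r (Zfl W s z)) := by
    have h4 := intervalIntegral.integral_comp_add_left
      (fun r => 2 / (Zfl W r z * Zfl W r z)) s (a := 0) (b := u)
    rw [add_zero] at h4
    rw [← h4]
    apply intervalIntegral.integral_congr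
    intro r hr
    rw [uIcc_of_le hu] at hr
    have : Zfl W (s + r) z = Zfl (shift W s) r (Zfl W s z) :=
      Zfl_add (hz.mono (add_nonneg hs hr.1) (by linarith [hr.2])) hs hr.1
    simp only [this]
  rw [← Complex.exp_add, ← intervalIntegral.integral_add_adjacent_intervals h1 h2, h3]
  congr 1
  ring

/-- cocycle of the conformal radius -/
theorem ups_add (hW : ContinuousOn W (Ici 0)) {s u : ℝ} (hz : Alive W z (s + u)) (hs : 0 ≤ s)
    (hu : 0 ≤ u) :
    OP.ups W (s + u) z = OP.ups (shift W s) u (Zfl W s z) / ‖dgfl W s z‖ := by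
  rw [ups_eq hW hz, ups_eq (continuousOn_shift hW hs) (alive_shift_right hz hs hu),
    dgfl_add hW hz hs hu, norm_mul, div_div]
  congr 1
  have := Zfl_add hz hs hu
  rw [← Zfl_im, this, Zfl_im]


end Crest.Agent.R162.FL
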