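import Mathlib
import Crest.Agent.R162.FLC2
import Crest.Agent.R162.Base

/-! # Row 162, node FL-C (3): `ups` through the inverse flow, time continuity of the inverse flow -/

set_option autoImplicit false

open Set MeasureTheory Complex Filter Topology

namespace Crest.Agent.R162.FLC

open Crest.Agent.R162.FL Crest.Agent.R162.OP

variable {W : ℝ → ℝ} {t : ℝ}

lemma intervalIntegrable_two_div (hW : ContinuousOn W (Ici 0)) {w : ℂ} (h : Alive W w t) :
    IntervalIntegrable (fun r => 2 / (Zfl W r w) ^ 2) volume 0 t := by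
  refine ContinuousOn.intervalIntegrable ?_
  rw [uIcc_of_le h.1]
  have := continuousOn_ker (contOn_Icc hW t) (isSol_of_alive hW h) (isSol_of_alive hW h)
  simp only [sq]
  exact this

lemma norm_exp_integral (hW : ContinuousOn W (Ici 0)) {w : ℂ} (h : Alive W w t) :
    ‖Complex.exp (∫ r in (0:ℝ)..t, 2 / (Zfl W r w) ^ 2)‖ =
      Real.exp (∫ s in (0 : ℝ)..t, 2 * (((Zfl W s w) ^ 2)⁻¹).re) := by
  rw [Complex.norm_exp]
  congr 1
  have hi := intervalIntegrable_two_div hW h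
  have := Complex.reCLM.intervalIntegral_comp_comm hi
  simp only [Complex.reCLM_apply] at this
  rw [← this]
  refine intervalIntegral.integral_congr ?_
  intro r _
  simp only [div_eq_mul_inv]
  rw [Complex.mul_re]
  simp

/-- `Υ_t(f_t z) = Im z |f_t'(z)|`. -/
theorem ups_ffl (hW : ContinuousOn W (Ici 0)) (ht : 0 ≤ t) {z : ℂ} (hz : 0 < z.im) :
    ups W t (ffl W t z) = z.im * ‖deriv (ffl W t) z‖ := by
  rw [deriv_ffl hW ht hz, norm_exp_integral hW (ffl_alive hW ht hz), ups, gfl_ffl hW ht hz, add_im]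

/-- `Υ_t(w) = Im Z_t(w) |f_t'(Z_t(w))|`. -/
theorem ups_eq (hW : ContinuousOn W (Ici 0)) {w : ℂ} (h : Alive W w t) :
    ups W t w = (Zfl W t w).im * ‖deriv (ffl W t) (Zfl W t w)‖ := by
  have := ups_ffl hW h.1 (Zfl_im_pos hW h)
  rwa [ffl_Zfl hW h] at this

/-! ## continuity in time -/

lemma contOn_shift (hW : ContinuousOn W (Ici 0)) {s : ℝ} (hs : 0 ≤ s) :
    ContinuousOn (shift W s) (Ici 0) := by
  refine (hW.comp ((continuous_const.add continuous_id).continuousOn) ?_).sub continuousOn_const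
  intro x hx
  exact add_nonneg hs hx

theorem norm_ffl_time_le (hW : ContinuousOn W (Ici 0)) {s l : ℝ} (hs : 0 ≤ s) (hsl : s ≤ l)
    {z : ℂ} (hz : 0 < z.im) :
    ‖ffl W l z - ffl W s z‖ ≤
      (2 * (l - s) / z.im + |W l - W s|) * Real.exp (2 / (z.im * z.im) * s) := by
  have hu : 0 ≤ l - s := sub_nonneg.2 hsl
  have hsh := contOn_shift hW hs
  have e : ffl W l z = ffl W s (ffl (shift W s) (l - s) z) := by
    rw [← ffl_add hW hs hu hz, add_sub_cancel]
  set m := ffl (shift W s) (l - s) z with hm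
  have him : z.im ≤ m.im := im_le_ffl hsh hu hz
  have hm0 : 0 < m.im := lt_of_lt_of_le hz him
  have h1 : ‖m - z‖ ≤ 2 * (l - s) / z.im + |W l - W s| := by
    have h2 := norm_ffl_sub_le hsh hu hz
    have h3 : m - z = (m - (z + (shift W s (l - s) : ℝ))) + (shift W s (l - s) : ℝ) := by ring
    rw [h3]
    refine (norm_add_le _ _).trans (add_le_add h2 ?_)
    rw [Complex.norm_real, Real.norm_eq_abs]
    simp only [shift, add_sub_cancel]
    exact le_rfl
  rw [e]
  refine (norm_ffl_sub_ffl_le hW hs hm0 hz).trans ?_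
  refine mul_le_mul h1 (Real.exp_le_exp.2 ?_) (Real.exp_pos _).le ?_
  · refine mul_le_mul_of_nonneg_right ?_ hs
    gcongr
  · positivity

/-- symmetric form: `|f_t(z) - f_{t₀}(z)| ≤ (2|t-t₀|/y + |W_t - W_{t₀}|) exp(2 t₀ / y²)`. -/
theorem norm_ffl_time_le' (hW : ContinuousOn W (Ici 0)) {t t₀ : ℝ} (ht : 0 ≤ t) (ht₀ : 0 ≤ t₀)
    {z : ℂ} (hz : 0 < z.im) :
    ‖ffl W t z - ffl W t₀ z‖ ≤
      (2 * |t - t₀| / z.im + |W t - W t₀|) * Real.exp (2 / (z.im * z.im) * t₀) := by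
  rcases le_total t₀ t with h | h
  · have := norm_ffl_time_le hW ht₀ h hz
    rwa [abs_of_nonneg (sub_nonneg.2 h)]
  · have := norm_ffl_time_le hW ht h hz
    rw [norm_sub_rev, abs_sub_comm t t₀, abs_of_nonneg (sub_nonneg.2 h), abs_sub_comm (W t)]
    refine this.trans ?_
    refine mul_le_mul_of_nonneg_left (Real.exp_le_exp.2 ?_) ?_
    · refine mul_le_mul_of_nonneg_left h (by positivity)
    · have : 0 ≤ t₀ - t := sub_nonneg.2 h
      positivity

lemma isOpen_H : IsOpen {z : ℂ | 0 < z.im} := isOpen_lt continuous_const Complex.continuous_im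

theorem tendstoLocallyUniformlyOn_ffl (hW : ContinuousOn W (Ici 0)) {t₀ : ℝ} (ht₀ : 0 ≤ t₀) :
    TendstoLocallyUniformlyOn (fun t => ffl W t) (ffl W t₀) (𝓝[Ici 0] t₀) {z : ℂ | 0 < z.im} := by
  rw [Metric.tendstoLocallyUniformlyOn_iff]
  intro ε hε z hz
  have hz' : 0 < z.im := hz
  refine ⟨{w : ℂ | z.im / 2 < w.im}, ?_, ?_⟩
  · refine mem_nhdsWithin_of_mem_nhds ?_
    exact (Complex.continuous_im.tendsto z).eventually_const_lt (by linarith)
  · set C := Real.exp (2 / (z.im / 2 * (z.im / 2)) * t₀) with hC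
    have hC0 : 0 < C := Real.exp_pos _
    have hlim : Tendsto (fun t => (2 * |t - t₀| / (z.im / 2) + |W t - W t₀|) * C) (𝓝[Ici 0] t₀)
        (𝓝 ((2 * |t₀ - t₀| / (z.im / 2) + |W t₀ - W t₀|) * C)) := by
      refine Tendsto.mul_const _ (Tendsto.add ?_ ?_)
      · have : Continuous fun t : ℝ => 2 * |t - t₀| / (z.im / 2) := by fun_prop
        exact (this.tendsto t₀).mono_left nhdsWithin_le_nhds
      · have h1 : Tendsto W (𝓝[Ici 0] t₀) (𝓝 (W t₀)) := hW t₀ ht₀
        exact (h1.sub_const _).abs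
    have h0 : (2 * |t₀ - t₀| / (z.im / 2) + |W t₀ - W t₀|) * C = 0 := by simp
    rw [h0] at hlim
    filter_upwards [hlim.eventually_lt_const hε, self_mem_nhdsWithin] with t h1 h2 w hw
    have hw' : z.im / 2 < w.im := hw
    have hw0 : 0 < w.im := by linarith
    have hz2 : 0 < z.im / 2 := by linarith
    rw [dist_comm, dist_eq_norm]
    refine lt_of_le_of_lt (norm_ffl_time_le' hW h2 ht₀ hw0) (lt_of_le_of_lt ?_ h1)
    refine mul_le_mul ?_ (Real.exp_le_exp.2 ?_) (Real.exp_pos _).le (by positivity)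
    · gcongr
    · refine mul_le_mul_of_nonneg_right ?_ ht₀
      gcongr

lemma continuousOn_uncurry_of_tluo {F : ℝ → ℂ → ℂ} {U : Set ℂ}
    (h : ∀ t₀, 0 ≤ t₀ → TendstoLocallyUniformlyOn (fun t => F t) (F t₀) (𝓝[Ici 0] t₀) U)
    (hc : ∀ t₀, 0 ≤ t₀ → ContinuousOn (F t₀) U) :
    ContinuousOn (fun p : ℝ × ℂ => F p.1 p.2) (Ici 0 ×ˢ U) := by
  rintro ⟨t₀, z₀⟩ ⟨ht₀, hz₀⟩
  rw [ContinuousWithinAt, nhdsWithin_prod_eq]
  have h1 := Metric.tendstoLocallyUniformlyOn_iff.1 (h t₀ ht₀)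
  have h2 := hc t₀ ht₀ z₀ hz₀
  rw [Metric.tendsto_nhds]
  intro ε hε
  obtain ⟨V, hV, hV'⟩ := h1 (ε / 2) (by linarith) z₀ hz₀
  have h3 := (Metric.tendsto_nhds.1 h2) (ε / 2) (by linarith)
  filter_upwards [hV'.prod_mk (hV : ∀ᶠ w in 𝓝[U] z₀, w ∈ V), tendsto_snd.eventually h3]
    with p hp hq
  calc dist (F p.1 p.2) (F t₀ z₀) ≤ dist (F p.1 p.2) (F t₀ p.2) + dist (F t₀ p.2) (F t₀ z₀) :=
        dist_triangle _ _ _
    _ < ε / 2 + ε / 2 := add_lt_add (by rw [dist_comm]; exact hp.1 p.2 hp.2) hq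
    _ = ε := by ring

/-- joint continuity of the inverse flow -/
theorem continuousOn_ffl (hW : ContinuousOn W (Ici 0)) :
    ContinuousOn (fun p : ℝ × ℂ => ffl W p.1 p.2) (Ici 0 ×ˢ {z : ℂ | 0 < z.im}) :=
  continuousOn_uncurry_of_tluo (fun _ h => tendstoLocallyUniformlyOn_ffl hW h)
    (fun _ h => (differentiableOn_ffl hW h).continuousOn)


end Crest.Agent.R162.FLC
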