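import Mathlib
import Crest.Agent.R162.FLDef
import Crest.Agent.R162.FL0
import Crest.Agent.R162.FLD
import Crest.Agent.R162.Base
import Crest.Agent.R162.OSDefs

/-!
Row 162 (S0243), node FL-E: measurability of the truncated flow, joint measurability of the
one-point functionals `ups, ath, sfl, xfl, gr` in `(ω, z, s)`, and their behaviour at random times
(helper899).
-/

set_option autoImplicit false

open Set MeasureTheory Filter Topology
open scoped NNReal

namespace Crest.Agent.R162.FLD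

open Crest.Agent.R162.FL Crest.Agent.R162.OP Crest.Agent.R162.OS

/-! ### Truncated flow -/

section trunc

attribute [local instance] instMSC
local instance instBSC' : BorelSpace C(unitInterval, ℝ) := ⟨rfl⟩




end trunc

end Crest.Agent.R162.FLD

namespace Crest.Agent.R162.FL

open Crest.Agent.R162.FLD


end Crest.Agent.R162.FL

namespace Crest.Agent.R162.FLD

open Crest.Agent.R162.FL Crest.Agent.R162.OP Crest.Agent.R162.OS

/-! ### Joint measurability in `(ω, z, s)`, `s ∈ [0,T]` -/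

section joint

variable {Ω : Type*} {m : MeasurableSpace Ω} {W : Ω → ℝ → ℝ} {T : ℝ}

/-- joint measurability on `[0,T]` -/
def JM {m : MeasurableSpace Ω} {E : Type*} [MeasurableSpace E] [Zero E] (T : ℝ)
    (f : Ω × ℂ → ℝ → E) : Prop :=
  Measurable (fun x : (Ω × ℂ) × ℝ => (Icc 0 T).indicator (f x.1) x.2)

lemma JM.of_eq {E : Type*} [MeasurableSpace E] [Zero E] {f : Ω × ℂ → ℝ → E}
    {F : (Ω × ℂ) × ℝ → E} (hF : Measurable F)
    (h : ∀ x : (Ω × ℂ) × ℝ, x.2 ∈ Icc 0 T → f x.1 x.2 = F x) : JM (m := m) T f := by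
  have h2 := hF.indicator (measurable_snd (measurableSet_Icc (a := (0:ℝ)) (b := T)))
  unfold JM
  convert h2 using 1
  funext x
  by_cases hx : x.2 ∈ Icc 0 T
  · rw [indicator_of_mem hx, indicator_of_mem (show x ∈ Prod.snd ⁻¹' (Icc 0 T) from hx), h x hx]
  · rw [indicator_of_notMem hx, indicator_of_notMem (show x ∉ Prod.snd ⁻¹' (Icc 0 T) from hx)]

lemma JM.comp {E E' : Type*} [MeasurableSpace E] [Zero E] [MeasurableSpace E'] [Zero E']
    {f : Ω × ℂ → ℝ → E} (hf : JM (m := m) T f) {φ : E → E'} (hφ : Measurable φ) :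
    JM (m := m) T (fun p s => φ (f p s)) :=
  JM.of_eq (hφ.comp hf) (fun x hx => by
    simp only [Function.comp]
    rw [indicator_of_mem hx])

lemma JM.comp₂ {E E' E'' : Type*} [MeasurableSpace E] [Zero E] [MeasurableSpace E'] [Zero E']
    [MeasurableSpace E''] [Zero E'']
    {f : Ω × ℂ → ℝ → E} {g : Ω × ℂ → ℝ → E'} (hf : JM (m := m) T f) (hg : JM (m := m) T g)
    {φ : E × E' → E''} (hφ : Measurable φ) :
    JM (m := m) T (fun p s => φ (f p s, g p s)) :=
  JM.of_eq (hφ.comp (Measurable.prodMk hf hg)) (fun x hx => by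
    simp only [Function.comp]
    rw [indicator_of_mem hx, indicator_of_mem hx])

theorem jm_gfl (hc : ∀ ω, ContinuousOn (W ω) (Icc 0 T))
    (hm : ∀ s ∈ Icc 0 T, Measurable (fun ω => W ω s)) :
    JM (m := m) T (fun p s => gfl (W p.1) s p.2) :=
  JM.of_eq (measurable_gfl_joint (W := W) hc hm) (fun x hx => by
    rw [indicator_of_mem (mem_Iic.2 hx.2)])

theorem jm_drive (hc : ∀ ω, ContinuousOn (W ω) (Icc 0 T))
    (hm : ∀ s ∈ Icc 0 T, Measurable (fun ω => W ω s)) :
    JM (m := m) T (fun p s => W p.1 s) := by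
  have h2 := measurable_drive_joint (W := W) hc hm
  have : Measurable (fun x : (Ω × ℂ) × ℝ => (x.1.1, x.2)) :=
    (measurable_fst.comp measurable_fst).prodMk measurable_snd
  unfold JM
  exact Measurable.comp h2 this

theorem jm_Zfl (hc : ∀ ω, ContinuousOn (W ω) (Icc 0 T))
    (hm : ∀ s ∈ Icc 0 T, Measurable (fun ω => W ω s)) :
    JM (m := m) T (fun p s => Zfl (W p.1) s p.2) := by
  have hφ : Measurable (fun x : ℂ × ℝ => x.1 - (x.2 : ℂ)) := by fun_prop
  exact (jm_gfl hc hm).comp₂ (jm_drive hc hm) hφ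

/-- `∫ u in 0..s, f u` is jointly measurable in `(ω, z, s)` -/
theorem JM.integral {E : Type*} [NormedAddCommGroup E] [NormedSpace ℝ E]
    [SecondCountableTopology E] [MeasurableSpace E] [BorelSpace E]
    {f : Ω × ℂ → ℝ → E} (hf : JM (m := m) T f) :
    JM (m := m) T (fun p s => ∫ u in (0:ℝ)..s, f p u) := by
  have h3 : Measurable (fun y : ((Ω × ℂ) × ℝ) × ℝ => (Icc 0 T).indicator (f y.1.1) y.2) := by
    have : Measurable (fun y : ((Ω × ℂ) × ℝ) × ℝ => (y.1.1, y.2)) :=
      (measurable_fst.comp measurable_fst).prodMk measurable_snd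
    unfold JM at hf
    exact Measurable.comp hf this
  have hS : MeasurableSet {y : ((Ω × ℂ) × ℝ) × ℝ | 0 < y.2 ∧ y.2 ≤ y.1.2} :=
    (measurableSet_lt measurable_const measurable_snd).inter
      (measurableSet_le measurable_snd (measurable_snd.comp measurable_fst))
  have h4 := (h3.indicator hS).stronglyMeasurable
  have h5 := (h4.integral_prod_right' (ν := volume)).measurable
  refine JM.of_eq h5 (fun x hx => ?_)
  rw [intervalIntegral.integral_of_le hx.1, ← integral_indicator measurableSet_Ioc]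
  congr 1
  funext u
  by_cases hu : u ∈ Ioc 0 x.2
  · rw [indicator_of_mem hu, indicator_of_mem (show ((x, u) : ((Ω × ℂ) × ℝ) × ℝ) ∈
      {y : ((Ω × ℂ) × ℝ) × ℝ | 0 < y.2 ∧ y.2 ≤ y.1.2} from ⟨hu.1, hu.2⟩)]
    have hu' : u ∈ Icc 0 T := ⟨hu.1.le, hu.2.trans hx.2⟩
    simp only
    rw [indicator_of_mem hu']
  · rw [indicator_of_notMem hu, indicator_of_notMem]
    intro h
    exact hu ⟨h.1, h.2⟩


theorem jm_ups (hc : ∀ ω, ContinuousOn (W ω) (Icc 0 T))
    (hm : ∀ s ∈ Icc 0 T, Measurable (fun ω => W ω s)) :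
    JM (m := m) T (fun p s => ups (W p.1) s p.2) := by
  have hφ : Measurable (fun x : ℂ => 2 * ((x ^ 2)⁻¹).re) := by fun_prop
  have h1 := ((jm_Zfl hc hm).comp hφ).integral
  have hψ : Measurable (fun x : ℂ × ℝ => x.1.im * Real.exp x.2) := by fun_prop
  exact (jm_gfl hc hm).comp₂ h1 hψ

theorem jm_sfl (hc : ∀ ω, ContinuousOn (W ω) (Icc 0 T))
    (hm : ∀ s ∈ Icc 0 T, Measurable (fun ω => W ω s)) :
    JM (m := m) T (fun p s => sfl (W p.1) s p.2) := by
  have hφ : Measurable (fun x : ℂ => x.im / ‖x‖) := by fun_prop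
  exact (jm_Zfl hc hm).comp hφ


theorem jm_gr (κ : ℝ) (hc : ∀ ω, ContinuousOn (W ω) (Icc 0 T))
    (hm : ∀ s ∈ Icc 0 T, Measurable (fun ω => W ω s)) :
    JM (m := m) T (fun p s => gr κ (W p.1) s p.2) := by
  have hψ : Measurable (fun x : ℝ × ℝ => x.1 ^ (κ / 8 - 1) * x.2 ^ (8 / κ - 1)) := by fun_prop
  exact (jm_ups hc hm).comp₂ (jm_sfl hc hm) hψ

theorem measurableSet_alive_Icc (hc : ∀ ω, ContinuousOn (W ω) (Icc 0 T))
    (hm : ∀ s ∈ Icc 0 T, Measurable (fun ω => W ω s)) :
    MeasurableSet {x : (Ω × ℂ) × ℝ | x.2 ∈ Icc 0 T ∧ Alive (W x.1.1) x.1.2 x.2} := by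
  have h := (measurableSet_alive_joint (W := W) hc hm).inter
    (measurable_snd (measurableSet_Icc (a := (0:ℝ)) (b := T)))
  convert h using 1
  ext x
  simp only [mem_ofPred_eq, mem_inter_iff, mem_preimage]
  constructor
  · rintro ⟨h1, h2⟩
    exact ⟨⟨h1.2, h2⟩, h1⟩
  · rintro ⟨⟨h1, h2⟩, h3⟩
    exact ⟨h3, h2⟩

end joint

/-! ### Random times -/

section random

variable {α : Type*} {mα : MeasurableSpace α}

/-- composition of a jointly measurable function with a measurable time -/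
theorem measurable_at {E : Type*} [MeasurableSpace E] [Zero E] {f : α → ℝ → E}
    (hf : ∀ n : ℕ, Measurable (fun x : α × ℝ => (Icc 0 (n : ℝ)).indicator (f x.1) x.2))
    {τ : α → ℝ≥0} (hτ : Measurable τ) : Measurable (fun a => f a (τ a)) := by
  refine measurable_of_cover (fun n : ℕ => {a | τ a ≤ n})
    (fun n a => (Icc 0 (n : ℝ)).indicator (f a) (τ a)) ?_ ?_ ?_ ?_
  · intro n
    exact measurableSet_le hτ measurable_const
  · intro a
    obtain ⟨n, hn⟩ := exists_nat_ge (τ a)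
    exact ⟨n, hn⟩
  · intro n
    exact (hf n).comp (measurable_id.prodMk hτ.coe_nnreal_real)
  · intro n a ha
    have : (τ a : ℝ) ∈ Icc 0 (n : ℝ) := ⟨(τ a).2, by exact_mod_cast ha⟩
    rw [indicator_of_mem this]

/-- a jointly measurable event at a measurable time -/
theorem measurableSet_at {Q : α → ℝ → Prop}
    (hQ : ∀ n : ℕ, MeasurableSet {x : α × ℝ | x.2 ∈ Icc 0 (n : ℝ) ∧ Q x.1 x.2})
    {τ : α → ℝ≥0} (hτ : Measurable τ) : MeasurableSet {a | Q a (τ a)} := by
  have h : {a | Q a (τ a)} = ⋃ n : ℕ, {a | τ a ≤ n} ∩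
      (fun a => (a, (τ a : ℝ))) ⁻¹' {x : α × ℝ | x.2 ∈ Icc 0 (n : ℝ) ∧ Q x.1 x.2} := by
    ext a
    simp only [mem_ofPred_eq, mem_iUnion, mem_inter_iff, mem_preimage]
    constructor
    · intro ha
      obtain ⟨n, hn⟩ := exists_nat_ge (τ a)
      exact ⟨n, hn, ⟨(τ a).2, by exact_mod_cast hn⟩, ha⟩
    · rintro ⟨n, -, -, h⟩
      exact h
  rw [h]
  exact MeasurableSet.iUnion fun n => (measurableSet_le hτ measurable_const).inter
    ((measurable_id.prodMk hτ.coe_nnreal_real) (hQ n))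

end random

section stopping

variable {Ω : Type*} {m : MeasurableSpace Ω} {F : Filtration ℝ≥0 m}

lemma measurable_of_Iic' {m' : MeasurableSpace Ω} {f : Ω → ℝ≥0}
    (h : ∀ s, MeasurableSet (f ⁻¹' Iic s)) : Measurable f := measurable_of_Iic h

lemma measurable_graph {m' : MeasurableSpace Ω} {f : Ω → ℝ} (h : Measurable f) :
    Measurable (fun ω => (ω, f ω)) := measurable_id.prodMk h

lemma measurable_min_st {τ : Ω → ℝ≥0} (hτ : IsST F τ) (t : ℝ≥0) :
    Measurable[F t] (fun ω => min (τ ω) t) := by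
  refine measurable_of_Iic' (m' := F t) (fun s => ?_)
  rcases le_or_gt t s with hts | hst
  · have : (fun ω => min (τ ω) t) ⁻¹' Iic s = univ := by
      ext ω
      simp only [mem_preimage, mem_Iic, mem_univ, iff_true]
      exact (min_le_right _ _).trans hts
    rw [this]
    exact MeasurableSet.univ
  · have : (fun ω => min (τ ω) t) ⁻¹' Iic s = {ω | τ ω ≤ s} := by
      ext ω
      simp only [mem_preimage, mem_Iic, mem_ofPred_eq, min_le_iff, not_le.2 hst, or_false]
    rw [this]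
    exact F.mono hst.le _ (hτ s)

/-- a progressively measurable event at a stopping time is in `F_τ` -/
theorem evST_of_joint {Q : Ω → ℝ → Prop}
    (hQ : ∀ t : ℝ≥0, MeasurableSet[(F t).prod (borel ℝ)]
      {x : Ω × ℝ | x.2 ∈ Icc 0 (t : ℝ) ∧ Q x.1 x.2})
    {τ : Ω → ℝ≥0} (hτ : IsST F τ) : EvST F τ {ω | Q ω (τ ω)} := by
  intro t
  have h1 : @Measurable _ _ (F t) ((F t).prod (borel ℝ))
      (fun ω => (ω, ((min (τ ω) t : ℝ≥0) : ℝ))) := by
    have h2 : Measurable[F t] (fun ω => ((min (τ ω) t : ℝ≥0) : ℝ)) :=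
      (measurable_min_st hτ t).coe_nnreal_real
    exact measurable_graph (m' := F t) h2
  have h4 := (h1 (hQ t)).inter (hτ t)
  convert h4 using 1
  ext ω
  simp only [mem_inter_iff, mem_ofPred_eq, mem_preimage]
  constructor
  · rintro ⟨h5, h6⟩
    refine ⟨⟨⟨NNReal.coe_nonneg _, by exact_mod_cast min_le_right _ _⟩, ?_⟩, h6⟩
    rw [min_eq_left h6]; exact h5
  · rintro ⟨⟨-, h5⟩, h6⟩
    rw [min_eq_left h6] at h5
    exact ⟨h5, h6⟩

end stopping

end Crest.Agent.R162.FLD
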