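import Mathlib
import Crest.Agent.R162.FLE2
import Crest.Agent.R162.FLC3

/-!
Row 162 (S0243), node FL-E, part 3: the inverse flow `ffl W t z` — stability in the driving function,
locality, joint continuity on path space, joint (progressive) measurability of `ffl` and of its
derivative in `(ω, z, t)` (helper899).
-/

set_option autoImplicit false

open Set MeasureTheory Filter Topology ProbabilityTheory
open scoped NNReal ENNReal

namespace Crest.Agent.R162.FLF

open Crest.Agent.R162.FL Crest.Agent.R162.OP Crest.Agent.R162.OS Crest.Agent.R162.FLC
open Crest.Agent.R162.FLD Crest.ProbabilityR.Loewner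

/-! ### stability in the driving function, locality -/



open Classical in
/-- the choice in the definition of `ffl` -/
private noncomputable def chs (Q : ℂ → Prop) (z : ℂ) : ℂ := if h : ∃ w, Q w then h.choose else z

/-- **locality**: `ffl W t` depends only on `W` on `[0,t]` -/
theorem ffl_congr {W W' : ℝ → ℝ} {t : ℝ} (h : ∀ s ∈ Icc 0 t, W s = W' s) :
    ffl W t = ffl W' t := by
  funext z
  have e : ∀ V : ℝ → ℝ, ffl V t z = chs (fun w => Alive V w t ∧ gfl V t w = z + V t) z :=
    fun V => rfl
  rw [e, e]
  congr 1
  funext w
  by_cases ht : 0 ≤ t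
  · have h1 : W t = W' t := h t ⟨ht, le_rfl⟩
    rw [alive_congr h, gfl_congr h, h1]
  · refine propext ⟨fun h2 => absurd h2.1.1 ht, fun h2 => absurd h2.1.1 ht⟩

/-! ### path space -/

section path

attribute [local instance] instMSC
local instance instBSC'' : BorelSpace C(unitInterval, ℝ) := ⟨rfl⟩





end path

/-! ### joint measurability -/

section meas

variable {Ω : Type*} {m : MeasurableSpace Ω} {W : Ω → ℝ → ℝ} {T : ℝ}











end meas

end Crest.Agent.R162.FLF
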