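import Crest.Prelude.Def_Loewner

/-!
Row 162, node GM (1): calculus of the gauge `φ = gaugeReal κ`.
-/

set_option autoImplicit false

namespace Crest.Agent.R162.GM

open Crest.ProbabilityR.Loewner MeasureTheory Set Filter Topology
open scoped ENNReal

/-- the threshold radius `exp (-(exp 1))`. -/
noncomputable def m0 : ℝ := Real.exp (-Real.exp 1)

lemma m0_pos : 0 < m0 := Real.exp_pos _


/-- `L x = log (log (1/x))`. -/
noncomputable def L (x : ℝ) : ℝ := Real.log (Real.log (1 / x))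

lemma gaugeReal_eq (κ x : ℝ) :
    gaugeReal κ x = (min x m0) ^ dimParam κ * L (min x m0) ^ ((2 - dimParam κ) / 2) := rfl

lemma dim_gt {κ : ℝ} (hκ : 0 < κ) : 1 < dimParam κ := by unfold dimParam; linarith
lemma dim_lt {κ : ℝ} (hκ8 : κ < 8) : dimParam κ < 2 := by unfold dimParam; linarith

lemma log_one_div_ge {x : ℝ} (hx : 0 < x) (hxm : x ≤ m0) : Real.exp 1 ≤ Real.log (1 / x) := by
  rw [one_div, Real.log_inv]
  have : Real.log x ≤ Real.log m0 := Real.log_le_log hx hxm
  rw [m0, Real.log_exp] at this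
  linarith

lemma L_ge_one {x : ℝ} (hx : 0 < x) (hxm : x ≤ m0) : 1 ≤ L x := by
  have h := log_one_div_ge hx hxm
  have := Real.log_le_log (Real.exp_pos 1) h
  rwa [Real.log_exp] at this

lemma L_anti {x y : ℝ} (hx : 0 < x) (hxy : x ≤ y) (hy : y ≤ m0) : L y ≤ L x := by
  have hy0 : 0 < y := hx.trans_le hxy
  have h1 := log_one_div_ge hy0 hy
  unfold L
  apply Real.log_le_log ((Real.exp_pos 1).trans_le h1)
  apply Real.log_le_log (by positivity)
  exact one_div_le_one_div_of_le hx hxy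

lemma gaugeReal_zero (κ : ℝ) (hκ : 0 < κ) : gaugeReal κ 0 = 0 := by
  have h1 := dim_gt hκ
  rw [gaugeReal_eq, min_eq_left m0_pos.le, Real.zero_rpow (by linarith), zero_mul]

lemma gaugeReal_nonneg {κ x : ℝ} (hx : 0 ≤ x) : 0 ≤ gaugeReal κ x := by
  rw [gaugeReal_eq]
  rcases hx.eq_or_lt with h | h
  · subst h
    rw [min_eq_left m0_pos.le]
    have : L 0 = 0 := by simp [L]
    rw [this]
    positivity
  · have h1 : 0 < min x m0 := lt_min h m0_pos
    have := L_ge_one h1 (min_le_right _ _)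
    have h2 : 0 ≤ L (min x m0) := by linarith
    positivity

/-- formula at small radii -/
lemma gaugeReal_small {κ x : ℝ} (hxm : x ≤ m0) :
    gaugeReal κ x = x ^ dimParam κ * L x ^ ((2 - dimParam κ) / 2) := by
  rw [gaugeReal_eq, min_eq_left hxm]

lemma gaugeReal_pos {κ x : ℝ} (hx : 0 < x) : 0 < gaugeReal κ x := by
  rw [gaugeReal_eq]
  have h1 : 0 < min x m0 := lt_min hx m0_pos
  have := L_ge_one h1 (min_le_right _ _)
  have h2 : 0 < L (min x m0) := by linarith
  positivity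


/-- The gauge is monotone on small radii. -/
lemma gaugeReal_mono_small {κ x y : ℝ} (hκ : 0 < κ) (hκ8 : κ < 8) (hx : 0 < x) (hxy : x ≤ y)
    (hy : y ≤ m0) : gaugeReal κ x ≤ gaugeReal κ y := by
  have hy0 : 0 < y := hx.trans_le hxy
  have hxm : x ≤ m0 := hxy.trans hy
  have hd1 := dim_gt hκ
  have hd2 := dim_lt hκ8
  rw [gaugeReal_small hxm, gaugeReal_small hy]
  have hLx := L_ge_one hx hxm
  have hLy := L_ge_one hy0 hy
  have hux := log_one_div_ge hx hxm
  have hvy := log_one_div_ge hy0 hy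
  have he : (1 : ℝ) ≤ Real.exp 1 := Real.one_le_exp (by norm_num)
  -- L x ≤ L y * (y / x)
  have hlog : Real.log (1 / x) - Real.log (1 / y) = Real.log (y / x) := by
    rw [one_div, one_div, Real.log_inv, Real.log_inv, Real.log_div hy0.ne' hx.ne']; ring
  have hyx : 1 ≤ y / x := (one_le_div hx).2 hxy
  have hlogyx : 0 ≤ Real.log (y / x) := Real.log_nonneg hyx
  have h1 : L x - L y ≤ Real.log (y / x) := by
    have hu0 : 0 < Real.log (1 / x) := (Real.exp_pos 1).trans_le hux
    have hv0 : 0 < Real.log (1 / y) := (Real.exp_pos 1).trans_le hvy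
    have e1 : L x - L y = Real.log (Real.log (1 / x) / Real.log (1 / y)) := by
      unfold L; rw [Real.log_div hu0.ne' hv0.ne']
    rw [e1]
    calc Real.log (Real.log (1 / x) / Real.log (1 / y))
        ≤ Real.log (1 / x) / Real.log (1 / y) - 1 := Real.log_le_sub_one_of_pos (by positivity)
      _ = (Real.log (1 / x) - Real.log (1 / y)) / Real.log (1 / y) := by
          field_simp
      _ = Real.log (y / x) / Real.log (1 / y) := by rw [hlog]
      _ ≤ Real.log (y / x) := div_le_self hlogyx (he.trans hvy)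
  have h2 : L x ≤ L y * (y / x) := by
    have h3 : Real.log (y / x) ≤ y / x - 1 := Real.log_le_sub_one_of_pos (by positivity)
    nlinarith
  have ha0 : 0 ≤ (2 - dimParam κ) / 2 := by linarith
  have ha1 : (2 - dimParam κ) / 2 ≤ dimParam κ := by linarith
  calc x ^ dimParam κ * L x ^ ((2 - dimParam κ) / 2)
      ≤ x ^ dimParam κ * (L y * (y / x)) ^ ((2 - dimParam κ) / 2) := by
        apply mul_le_mul_of_nonneg_left _ (by positivity)
        exact Real.rpow_le_rpow (by linarith) h2 ha0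
    _ = x ^ dimParam κ * (L y ^ ((2 - dimParam κ) / 2) * (y / x) ^ ((2 - dimParam κ) / 2)) := by
        rw [Real.mul_rpow (by linarith) (by positivity)]
    _ ≤ x ^ dimParam κ * (L y ^ ((2 - dimParam κ) / 2) * (y / x) ^ dimParam κ) := by
        have : (0:ℝ) ≤ L y := by linarith
        gcongr
    _ = (x * (y / x)) ^ dimParam κ * L y ^ ((2 - dimParam κ) / 2) := by
        rw [Real.mul_rpow hx.le (by positivity)]; ring
    _ = y ^ dimParam κ * L y ^ ((2 - dimParam κ) / 2) := by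
        rw [mul_div_cancel₀ _ hx.ne']

/-- The gauge is monotone. -/
lemma gaugeReal_mono {κ x y : ℝ} (hκ : 0 < κ) (hκ8 : κ < 8) (hx : 0 ≤ x) (hxy : x ≤ y) :
    gaugeReal κ x ≤ gaugeReal κ y := by
  rcases hx.eq_or_lt with h | h
  · subst h
    rw [gaugeReal_zero κ hκ]
    exact gaugeReal_nonneg hxy
  · have e : ∀ z, gaugeReal κ z = gaugeReal κ (min z m0) := by
      intro z
      rw [gaugeReal_eq, gaugeReal_eq, min_assoc, min_self]
    rw [e x, e y]
    exact gaugeReal_mono_small hκ hκ8 (lt_min h m0_pos) (min_le_min_right _ hxy)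
      (min_le_right _ _)

/-- doubling: `φ(C x) ≤ C^d φ(x)` for `C ≥ 1`. -/
lemma gaugeReal_mul_le {κ C x : ℝ} (hκ : 0 < κ) (hκ8 : κ < 8) (hC : 1 ≤ C) (hx : 0 ≤ x) :
    gaugeReal κ (C * x) ≤ C ^ dimParam κ * gaugeReal κ x := by
  rcases hx.eq_or_lt with h | h
  · subst h
    simp [gaugeReal_zero κ hκ]
  have hd2 := dim_lt hκ8
  have hd1 := dim_gt hκ
  have ha0 : 0 ≤ (2 - dimParam κ) / 2 := by linarith
  rw [gaugeReal_eq, gaugeReal_eq]
  have h1 : 0 < min x m0 := lt_min h m0_pos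
  have hCx : x ≤ C * x := by nlinarith
  have h2 : min x m0 ≤ min (C * x) m0 := min_le_min_right _ hCx
  have h3 : min (C * x) m0 ≤ C * min x m0 := by
    rw [mul_min_of_nonneg _ _ (by linarith)]
    exact min_le_min_left _ (by nlinarith [m0_pos])
  have h4 := L_anti h1 h2 (min_le_right _ _)
  have h5 := L_ge_one (h1.trans_le h2) (min_le_right _ _)
  have h6 := L_ge_one h1 (min_le_right _ _)
  calc (min (C * x) m0) ^ dimParam κ * L (min (C * x) m0) ^ ((2 - dimParam κ) / 2)
      ≤ (C * min x m0) ^ dimParam κ * L (min x m0) ^ ((2 - dimParam κ) / 2) := by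
        have : 0 < min (C * x) m0 := h1.trans_le h2
        have h7 : (0:ℝ) ≤ L (min (C * x) m0) := by linarith
        gcongr
    _ = _ := by
        rw [Real.mul_rpow (by linarith) h1.le]; ring




/-! ### the extended gauge -/


lemma gaugeExt_mono {κ : ℝ} (hκ : 0 < κ) (hκ8 : κ < 8) {r s : ℝ≥0∞} (hrs : r ≤ s) (hs : s ≠ ⊤) :
    gaugeExt κ r ≤ gaugeExt κ s := by
  unfold gaugeExt
  apply ENNReal.ofReal_le_ofReal
  exact gaugeReal_mono hκ hκ8 ENNReal.toReal_nonneg ((ENNReal.toReal_le_toReal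
    (ne_top_of_le_ne_top hs hrs) hs).2 hrs)


lemma gaugeExt_mul_le {κ : ℝ} (hκ : 0 < κ) (hκ8 : κ < 8) {C : ℝ} (hC : 1 ≤ C) (r : ℝ≥0∞) :
    gaugeExt κ (ENNReal.ofReal C * r) ≤ ENNReal.ofReal (C ^ dimParam κ) * gaugeExt κ r := by
  unfold gaugeExt
  rw [ENNReal.toReal_mul, ENNReal.toReal_ofReal (by linarith), ← ENNReal.ofReal_mul (by positivity)]
  exact ENNReal.ofReal_le_ofReal (gaugeReal_mul_le hκ hκ8 hC ENNReal.toReal_nonneg)

end Crest.Agent.R162.GM
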