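import Mathlib
import Crest.Agent.Lib.Bieberbach

set_option autoImplicit false

namespace Crest.Agent.R162.KB1

open Complex Set Metric Filter Topology
open Crest.Agent.Lib Crest.Agent.Lib.Bieberbach
open scoped ComplexConjugate

/-- derivative of `log ‖h t‖` -/
theorem hasDerivAt_log_norm {h : ℝ → ℂ} {h' : ℂ} {t : ℝ} (hh : HasDerivAt h h' t) (hne : h t ≠ 0) :
    HasDerivAt (fun s => Real.log ‖h s‖) ((h' / h t).re) t := by
  have h1 : HasDerivAt (fun s => ‖h s‖ ^ 2) (2 * inner ℝ (h t) h') t := hh.norm_sq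
  have hp : 0 < ‖h t‖ := norm_pos_iff.2 hne
  have h4 := (h1.log (by positivity)).const_mul (1 / 2 : ℝ)
  have h5 : (fun s => Real.log ‖h s‖) = fun s => (1 / 2 : ℝ) * Real.log (‖h s‖ ^ 2) := by
    funext s
    rw [Real.log_pow]
    push_cast
    ring
  rw [h5]
  refine h4.congr_deriv ?_
  rw [Complex.inner, Complex.div_re, ← Complex.normSq_eq_norm_sq]
  have hq : Complex.normSq (h t) ≠ 0 := by
    rw [Complex.normSq_eq_norm_sq]; positivity
  simp only [Complex.mul_re, Complex.conj_re, Complex.conj_im]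
  field_simp
  ring

/-- radial distortion on the disc: `log ((1-t²) |F'(te)|)` is Lipschitz for hyperbolic distance -/
theorem radial_log {F : ℂ → ℂ} (hF : DifferentiableOn ℂ F (ball 0 1)) (hFi : InjOn F (ball 0 1))
    {e : ℂ} (he : ‖e‖ = 1) {t : ℝ} (ht0 : 0 ≤ t) (ht1 : t < 1) :
    |Real.log ((1 - t ^ 2) * ‖deriv F (t * e)‖) - Real.log ‖deriv F 0‖| ≤
      2 * Real.log ((1 + t) / (1 - t)) := by
  have hmem : ∀ s ∈ Ico (0:ℝ) 1, ((s : ℂ) * e) ∈ ball (0:ℂ) 1 := by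
    intro s hs
    rw [mem_ball_zero_iff, norm_mul, he, mul_one, Complex.norm_real, Real.norm_eq_abs,
      abs_of_nonneg hs.1]
    exact hs.2
  have hne : ∀ s ∈ Ico (0:ℝ) 1, deriv F ((s : ℂ) * e) ≠ 0 := fun s hs =>
    deriv_ne_zero_of_injOn isOpen_ball hF hFi (hmem s hs)
  -- derivative of the function
  have hder : ∀ s ∈ Ico (0:ℝ) 1, HasDerivAt (fun s : ℝ => deriv F ((s : ℂ) * e))
      (deriv (deriv F) ((s : ℂ) * e) * e) s := by
    intro s hs
    have h1 : HasDerivAt (deriv F) (deriv (deriv F) ((s : ℂ) * e)) ((s : ℂ) * e) :=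
      ((hF.deriv isOpen_ball).differentiableAt (isOpen_ball.mem_nhds (hmem s hs))).hasDerivAt
    have h2 : HasDerivAt (fun s : ℝ => (s : ℂ) * e) e s := by
      simpa using (Complex.ofRealCLM.hasDerivAt (x := s)).mul_const e
    exact h1.comp s h2
  set M : ℝ → ℝ := fun s => Real.log (1 - s ^ 2) + Real.log ‖deriv F ((s : ℂ) * e)‖ with hM
  have hMd : ∀ s ∈ Ico (0:ℝ) 1, HasDerivAt M
      (-(2 * s) / (1 - s ^ 2) + ((deriv (deriv F) ((s : ℂ) * e) * e) / deriv F ((s : ℂ) * e)).re) s := by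
    intro s hs
    have hq : 0 < 1 - s ^ 2 := by nlinarith [hs.1, hs.2]
    have h1 : HasDerivAt (fun s : ℝ => 1 - s ^ 2) (-(2 * s)) s := by
      simpa using ((hasDerivAt_id s).pow 2).const_sub 1
    exact (h1.log hq.ne').add (hasDerivAt_log_norm (hder s hs) (hne s hs))
  have hbd : ∀ s ∈ Ico (0:ℝ) 1, |(-(2 * s) / (1 - s ^ 2) +
      ((deriv (deriv F) ((s : ℂ) * e) * e) / deriv F ((s : ℂ) * e)).re)| ≤ 4 / (1 - s ^ 2) := by
    intro s hs
    have hq : 0 < 1 - s ^ 2 := by nlinarith [hs.1, hs.2]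
    have hz : ‖(s : ℂ) * e‖ < 1 := mem_ball_zero_iff.1 (hmem s hs)
    have hb := bieberbach_disc hF hFi hz
    have hn : ‖(s : ℂ) * e‖ ^ 2 = s ^ 2 := by
      rw [norm_mul, he, mul_one, Complex.norm_real, Real.norm_eq_abs, sq_abs]
    rw [hn] at hb
    have hD := hne s hs
    have hDp : 0 < ‖deriv F ((s : ℂ) * e)‖ := norm_pos_iff.2 hD
    have hee : e * conj e = 1 := by
      rw [Complex.mul_conj, Complex.normSq_eq_norm_sq, he]; norm_num
    have hid : (((1 - s ^ 2 : ℝ) : ℂ) * deriv (deriv F) ((s : ℂ) * e) -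
        2 * conj ((s : ℂ) * e) * deriv F ((s : ℂ) * e)) * e / deriv F ((s : ℂ) * e) =
        ((1 - s ^ 2 : ℝ) : ℂ) * ((deriv (deriv F) ((s : ℂ) * e) * e) / deriv F ((s : ℂ) * e)) -
          ((2 * s : ℝ) : ℂ) := by
      have hc : conj ((s : ℂ) * e) = (s : ℂ) * conj e := by
        rw [map_mul, Complex.conj_ofReal]
      rw [hc, div_eq_iff hD]
      have : ((2 * s : ℝ) : ℂ) = 2 * (s : ℂ) := by push_cast; ring
      rw [this, sub_mul, sub_mul]
      have h6 : ((1 - s ^ 2 : ℝ) : ℂ) * (deriv (deriv F) ((s : ℂ) * e) * e / deriv F ((s : ℂ) * e)) *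
          deriv F ((s : ℂ) * e) = ((1 - s ^ 2 : ℝ) : ℂ) * deriv (deriv F) ((s : ℂ) * e) * e := by
        field_simp
      rw [h6]
      linear_combination (-2 * (s : ℂ) * deriv F ((s : ℂ) * e)) * hee
    have hnorm : ‖((1 - s ^ 2 : ℝ) : ℂ) * ((deriv (deriv F) ((s : ℂ) * e) * e) /
        deriv F ((s : ℂ) * e)) - ((2 * s : ℝ) : ℂ)‖ ≤ 4 := by
      rw [← hid, norm_div, norm_mul, he, mul_one, div_le_iff₀ hDp]
      exact hb
    have hre := (Complex.abs_re_le_norm _).trans hnorm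
    rw [Complex.sub_re, Complex.re_ofReal_mul, Complex.ofReal_re] at hre
    set r := ((deriv (deriv F) ((s : ℂ) * e) * e) / deriv F ((s : ℂ) * e)).re with hr
    have e1 : -(2 * s) / (1 - s ^ 2) + r = ((1 - s ^ 2) * r - 2 * s) / (1 - s ^ 2) := by
      field_simp
      ring
    rw [e1, abs_div, abs_of_pos hq]
    exact div_le_div_of_nonneg_right hre hq.le
  -- comparison function
  set K : ℝ → ℝ := fun s => 2 * Real.log ((1 + s) / (1 - s)) with hK
  have hKd : ∀ s ∈ Ico (0:ℝ) 1, HasDerivAt K (4 / (1 - s ^ 2)) s := by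
    intro s hs
    have hp : 0 < 1 + s := by linarith [hs.1]
    have hq : 0 < 1 - s := by linarith [hs.2]
    have h1 : HasDerivAt (fun s : ℝ => 1 + s) 1 s := by simpa using (hasDerivAt_id s).const_add 1
    have h2 : HasDerivAt (fun s : ℝ => 1 - s) (-1) s := by simpa using (hasDerivAt_id s).const_sub 1
    have h3 := ((h1.div h2 hq.ne').log (div_pos hp hq).ne').const_mul 2
    refine h3.congr_deriv ?_
    have hq2 : (1 - s ^ 2) ≠ 0 := by nlinarith
    simp only [Pi.div_apply]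
    have hp' := hp.ne'
    have hq' := hq.ne'
    field_simp
    ring
  have key : ∀ σ : ℝ, (σ = 1 ∨ σ = -1) → σ * M t - K t ≤ σ * M 0 - K 0 := by
    intro σ hσ
    have hanti : AntitoneOn (fun s => σ * M s - K s) (Ico (0:ℝ) 1) := by
      apply antitoneOn_of_deriv_nonpos (convex_Ico 0 1)
      · intro s hs
        exact ((hMd s hs).const_mul σ |>.sub (hKd s hs)).continuousAt.continuousWithinAt
      · intro s hs
        rw [interior_Ico] at hs
        have hs' : s ∈ Ico (0:ℝ) 1 := ⟨hs.1.le, hs.2⟩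
        exact ((hMd s hs').const_mul σ |>.sub (hKd s hs')).differentiableAt.differentiableWithinAt
      · intro s hs
        rw [interior_Ico] at hs
        have hs' : s ∈ Ico (0:ℝ) 1 := ⟨hs.1.le, hs.2⟩
        have hd : HasDerivAt (fun s => σ * M s - K s) _ s :=
          ((hMd s hs').const_mul σ).sub (hKd s hs')
        rw [hd.deriv]
        have h := abs_le.1 (hbd s hs')
        rcases hσ with h1 | h1 <;> rw [h1] <;> linarith [h.1, h.2]
    exact hanti ⟨le_refl 0, zero_lt_one⟩ ⟨ht0, ht1⟩ ht0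
  have hK0 : K 0 = 0 := by simp [hK]
  have hM0 : M 0 = Real.log ‖deriv F 0‖ := by simp [hM]
  have hMt : M t = Real.log ((1 - t ^ 2) * ‖deriv F (t * e)‖) := by
    have hq : 0 < 1 - t ^ 2 := by nlinarith
    rw [Real.log_mul hq.ne' (norm_pos_iff.2 (hne t ⟨ht0, ht1⟩)).ne']
  rw [← hMt, ← hM0]
  have h1 := key 1 (Or.inl rfl)
  have h2 := key (-1) (Or.inr rfl)
  rw [hK0] at h1 h2
  rw [abs_le]
  constructor
  · have : K t = 2 * Real.log ((1 + t) / (1 - t)) := rfl
    linarith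
  · have : K t = 2 * Real.log ((1 + t) / (1 - t)) := rfl
    linarith

/-- **Koebe 1/4** on the disc. -/
theorem koebe_quarter_disc {F : ℂ → ℂ} (hF : DifferentiableOn ℂ F (ball 0 1))
    (hFi : InjOn F (ball 0 1)) {w : ℂ} (hw : w ∉ F '' ball 0 1) :
    ‖deriv F 0‖ / 4 ≤ ‖w - F 0‖ := by
  have h0 : (0:ℂ) ∈ ball (0:ℂ) 1 := mem_ball_self one_pos
  have hne : ∀ z ∈ ball (0:ℂ) 1, w - F z ≠ 0 := by
    intro z hz h
    exact hw ⟨z, hz, (sub_eq_zero.1 h).symm⟩
  set G : ℂ → ℂ := fun z => (w - F z)⁻¹ with hG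
  have hGd : DifferentiableOn ℂ G (ball 0 1) := (hF.const_sub w).inv hne
  have hGi : InjOn G (ball 0 1) := by
    intro x hx y hy hxy
    apply hFi hx hy
    have := inv_injective hxy
    exact sub_right_injective this
  have hG1 : ∀ z ∈ ball (0:ℂ) 1, deriv G z = deriv F z * ((w - F z) ^ 2)⁻¹ := by
    intro z hz
    have h1 : HasDerivAt F (deriv F z) z := (hF.differentiableAt (isOpen_ball.mem_nhds hz)).hasDerivAt
    have h2 := (h1.const_sub w).fun_inv (hne z hz)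
    rw [hG, h2.deriv]
    field_simp
  have hG2 : deriv (deriv G) 0 = deriv (deriv F) 0 * ((w - F 0) ^ 2)⁻¹ +
      2 * (deriv F 0) ^ 2 * ((w - F 0) ^ 3)⁻¹ := by
    have h1 : HasDerivAt F (deriv F 0) 0 := (hF.differentiableAt (isOpen_ball.mem_nhds h0)).hasDerivAt
    have h2 : HasDerivAt (deriv F) (deriv (deriv F) 0) 0 :=
      ((hF.deriv isOpen_ball).differentiableAt (isOpen_ball.mem_nhds h0)).hasDerivAt
    have h3 := h2.mul (((h1.const_sub w).pow 2).fun_inv (pow_ne_zero 2 (hne 0 h0)))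
    have h4 := h3.congr_of_eventuallyEq (f₁ := deriv G) (by
      filter_upwards [isOpen_ball.mem_nhds h0] with z hz
      simpa using hG1 z hz)
    rw [h4.deriv]
    have := hne 0 h0
    simp only [Pi.pow_apply]
    field_simp
    ring
  have hb := bieberbach hGd hGi
  have hbF := bieberbach hF hFi
  rw [hG2, hG1 0 h0] at hb
  have hwp : 0 < ‖w - F 0‖ := norm_pos_iff.2 (hne 0 h0)
  have hFp : 0 < ‖deriv F 0‖ := norm_pos_iff.2 (deriv_ne_zero_of_injOn isOpen_ball hF hFi h0)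
  have h5 : deriv (deriv F) 0 * ((w - F 0) ^ 2)⁻¹ + 2 * (deriv F 0) ^ 2 * ((w - F 0) ^ 3)⁻¹ =
      (deriv (deriv F) 0 + 2 * (deriv F 0) ^ 2 / (w - F 0)) * ((w - F 0) ^ 2)⁻¹ := by
    have := hne 0 h0
    field_simp
  rw [h5, norm_mul, norm_mul, norm_inv, norm_pow, ← mul_assoc] at hb
  have h6 : ‖deriv (deriv F) 0 + 2 * (deriv F 0) ^ 2 / (w - F 0)‖ ≤ 4 * ‖deriv F 0‖ :=
    le_of_mul_le_mul_right hb (by positivity)
  have h7 : ‖2 * (deriv F 0) ^ 2 / (w - F 0)‖ ≤ 8 * ‖deriv F 0‖ := by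
    have := norm_sub_le (deriv (deriv F) 0 + 2 * (deriv F 0) ^ 2 / (w - F 0)) (deriv (deriv F) 0)
    rw [add_sub_cancel_left] at this
    linarith
  rw [norm_div, norm_mul, norm_pow, div_le_iff₀ hwp] at h7
  have h8 : ‖(2:ℂ)‖ = 2 := by norm_num
  rw [h8] at h7
  have h9 : ‖deriv F 0‖ * (2 * ‖deriv F 0‖) ≤ ‖deriv F 0‖ * (8 * ‖w - F 0‖) := by nlinarith
  have h10 := le_of_mul_le_mul_left h9 hFp
  linarith


/-- **Growth theorem**, upper bound on the disc. -/
theorem growth_upper_disc {F : ℂ → ℂ} (hF : DifferentiableOn ℂ F (ball 0 1))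
    (hFi : InjOn F (ball 0 1)) {e : ℂ} (he : ‖e‖ = 1) {t : ℝ} (ht0 : 0 ≤ t) (ht1 : t < 1) :
    ‖F (t * e) - F 0‖ ≤ ‖deriv F 0‖ * (t / (1 - t) ^ 2) := by
  have h0 : (0:ℂ) ∈ ball (0:ℂ) 1 := mem_ball_self one_pos
  have hFp : 0 < ‖deriv F 0‖ := norm_pos_iff.2 (deriv_ne_zero_of_injOn isOpen_ball hF hFi h0)
  have hmem : ∀ s : ℝ, 0 ≤ s → s < 1 → ((s : ℂ) * e) ∈ ball (0:ℂ) 1 := by
    intro s hs hs1
    rw [mem_ball_zero_iff, norm_mul, he, mul_one, Complex.norm_real, Real.norm_eq_abs,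
      abs_of_nonneg hs]
    exact hs1
  have hder : ∀ s : ℝ, 0 ≤ s → s < 1 → HasDerivAt (fun s : ℝ => F ((s : ℂ) * e) - F 0)
      (deriv F ((s : ℂ) * e) * e) s := by
    intro s hs hs1
    have h1 : HasDerivAt F (deriv F ((s : ℂ) * e)) ((s : ℂ) * e) :=
      (hF.differentiableAt (isOpen_ball.mem_nhds (hmem s hs hs1))).hasDerivAt
    have h2 : HasDerivAt (fun s : ℝ => (s : ℂ) * e) e s := by
      simpa using (Complex.ofRealCLM.hasDerivAt (x := s)).mul_const e
    exact (h1.comp s h2).sub_const _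
  have hB : ∀ s : ℝ, 0 ≤ s → s < 1 → HasDerivAt (fun s : ℝ => ‖deriv F 0‖ * (s / (1 - s) ^ 2))
      (‖deriv F 0‖ * ((1 + s) / (1 - s) ^ 3)) s := by
    intro s hs hs1
    have hq : (1 - s) ≠ 0 := by linarith
    have h2 : HasDerivAt (fun s : ℝ => 1 - s) (-1) s := by simpa using (hasDerivAt_id s).const_sub 1
    have h3 := ((hasDerivAt_id s).div (h2.pow 2) (pow_ne_zero 2 hq)).const_mul ‖deriv F 0‖
    refine h3.congr_deriv ?_
    simp only [id, Pi.pow_apply]
    field_simp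
    ring
  have key := image_norm_le_of_norm_deriv_right_le_deriv_boundary' (a := 0) (b := t)
    (f := fun s : ℝ => F ((s : ℂ) * e) - F 0) (f' := fun s : ℝ => deriv F ((s : ℂ) * e) * e)
    (B := fun s : ℝ => ‖deriv F 0‖ * (s / (1 - s) ^ 2))
    (B' := fun s : ℝ => ‖deriv F 0‖ * ((1 + s) / (1 - s) ^ 3))
    (fun s hs => (hder s hs.1 (lt_of_le_of_lt hs.2 ht1)).continuousAt.continuousWithinAt)
    (fun s hs => (hder s hs.1 (lt_trans hs.2 ht1)).hasDerivWithinAt)
    (by simp)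
    (fun s hs => (hB s hs.1 (lt_of_le_of_lt hs.2 ht1)).continuousAt.continuousWithinAt)
    (fun s hs => (hB s hs.1 (lt_trans hs.2 ht1)).hasDerivWithinAt)
    (fun s hs => by
      have hs1 : s < 1 := lt_trans hs.2 ht1
      have hr := (abs_le.1 (radial_log hF hFi he hs.1 hs1)).2
      have hp : 0 < 1 + s := by linarith [hs.1]
      have hq : 0 < 1 - s := by linarith
      have hDp : 0 < ‖deriv F ((s : ℂ) * e)‖ :=
        norm_pos_iff.2 (deriv_ne_zero_of_injOn isOpen_ball hF hFi (hmem s hs.1 hs1))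
      have hqq : 0 < 1 - s ^ 2 := by nlinarith
      have h1 : Real.log ((1 - s ^ 2) * ‖deriv F ((s : ℂ) * e)‖) ≤
          Real.log (‖deriv F 0‖ * ((1 + s) / (1 - s)) ^ 2) := by
        rw [Real.log_mul hFp.ne' (by positivity), Real.log_pow]
        push_cast
        linarith
      have h2 := (Real.log_le_log_iff (by positivity) (by positivity)).1 h1
      rw [norm_mul, he, mul_one]
      have h3 : (1 + s) / (1 - s) ^ 3 = ((1 + s) / (1 - s)) ^ 2 / (1 - s ^ 2) := by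
        have : (1 - s ^ 2) = (1 - s) * (1 + s) := by ring
        rw [this]
        field_simp
      rw [h3, ← mul_div_assoc, le_div_iff₀ hqq]
      linarith)
    (x := t) ⟨ht0, le_refl t⟩
  exact key

/-- lower bound: `|F z - F 0| ≥ |F'(0)| |z| / 4`. -/
theorem growth_lower_disc {F : ℂ → ℂ} (hF : DifferentiableOn ℂ F (ball 0 1))
    (hFi : InjOn F (ball 0 1)) {z : ℂ} (hz : ‖z‖ < 1) :
    ‖deriv F 0‖ * ‖z‖ / 4 ≤ ‖F z - F 0‖ := by
  rcases eq_or_ne z 0 with rfl | hz0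
  · simp
  have hr : 0 < ‖z‖ := norm_pos_iff.2 hz0
  set r : ℝ := ‖z‖ with hrdef
  set G : ℂ → ℂ := fun ζ => F ((r : ℂ) * ζ) with hG
  have hmaps : MapsTo (fun ζ : ℂ => (r : ℂ) * ζ) (ball 0 1) (ball 0 r) := by
    intro ζ hζ
    rw [mem_ball_zero_iff] at hζ ⊢
    rw [norm_mul, Complex.norm_real, Real.norm_eq_abs, abs_of_pos hr]
    nlinarith
  have hsub : ball (0:ℂ) r ⊆ ball 0 1 := ball_subset_ball hz.le
  have hGd : DifferentiableOn ℂ G (ball 0 1) :=
    hF.comp ((differentiable_id.const_mul (r : ℂ)).differentiableOn) (fun ζ hζ => hsub (hmaps hζ))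
  have hGi : InjOn G (ball 0 1) := by
    intro x hx y hy hxy
    have := hFi (hsub (hmaps hx)) (hsub (hmaps hy)) hxy
    exact mul_left_cancel₀ (by exact_mod_cast hr.ne') this
  have hw : F z ∉ G '' ball 0 1 := by
    rintro ⟨ζ, hζ, hζz⟩
    have h1 := hFi (hsub (hmaps hζ)) (mem_ball_zero_iff.2 hz) hζz
    have h2 := mem_ball_zero_iff.1 (hmaps hζ)
    simp only at h1 h2
    rw [h1] at h2
    exact lt_irrefl _ h2
  have hG0 : deriv G 0 = deriv F 0 * r := by
    have h1 : HasDerivAt F (deriv F 0) ((r : ℂ) * 0) := by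
      rw [mul_zero]
      exact (hF.differentiableAt (isOpen_ball.mem_nhds (mem_ball_self one_pos))).hasDerivAt
    have h2 : HasDerivAt (fun ζ : ℂ => (r : ℂ) * ζ) (r : ℂ) 0 := by
      simpa using (hasDerivAt_id (0:ℂ)).const_mul (r : ℂ)
    exact (h1.comp (0:ℂ) h2).deriv
  have h := koebe_quarter_disc hGd hGi hw
  rw [hG0, norm_mul, Complex.norm_real, Real.norm_eq_abs, abs_of_pos hr] at h
  have e : G 0 = F 0 := by simp [hG]
  rw [e] at h
  exact h

/-! ### The half plane -/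

/-- upper half-plane (same set as `Crest.ProbabilityR.Loewner.halfPlane`) -/
abbrev Hs : Set ℂ := {z : ℂ | 0 < z.im}

theorem isOpen_Hs : IsOpen Hs := isOpen_lt continuous_const Complex.continuous_im

/-- `Ups_f(z) = Im z |f'(z)|` -/
noncomputable def ups (f : ℂ → ℂ) (z : ℂ) : ℝ := z.im * ‖deriv f z‖

/-- pseudo-hyperbolic distance `|w - z| / |w - conj z|` (= `tanh (d_hyp / 2)`) -/
noncomputable def phd (z w : ℂ) : ℝ := ‖w - z‖ / ‖w - conj z‖

/-- Cayley map from the disc to the half-plane, `0 ↦ z0` -/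
noncomputable def cay (z0 ζ : ℂ) : ℂ := (z0 - conj z0 * ζ) / (1 - ζ)

theorem one_sub_ne {ζ : ℂ} (hζ : ζ ∈ ball (0:ℂ) 1) : (1 - ζ) ≠ 0 := by
  intro h
  have : ζ = 1 := by linear_combination -h
  rw [this, mem_ball_zero_iff] at hζ
  simp at hζ

theorem sub_conj_ne {z w : ℂ} (hz : 0 < z.im) (hw : 0 < w.im) : w - conj z ≠ 0 := by
  intro h
  have h1 := congrArg Complex.im h
  simp at h1
  linarith

theorem cay_zero (z0 : ℂ) : cay z0 0 = z0 := by simp [cay]

theorem cay_im {z0 ζ : ℂ} (hζ : ζ ∈ ball (0:ℂ) 1) :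
    (cay z0 ζ).im = z0.im * (1 - ‖ζ‖ ^ 2) / ‖1 - ζ‖ ^ 2 := by
  have hne := one_sub_ne hζ
  have hn : Complex.normSq (1 - ζ) ≠ 0 := by simpa [Complex.normSq_eq_zero] using hne
  rw [cay, Complex.div_im, ← Complex.normSq_eq_norm_sq, ← Complex.normSq_eq_norm_sq]
  field_simp
  simp [Complex.normSq_apply]
  ring

theorem cay_mem {z0 : ℂ} (hz0 : 0 < z0.im) : MapsTo (cay z0) (ball 0 1) Hs := by
  intro ζ hζ
  have hne := one_sub_ne hζ
  have h1 : 0 < 1 - ‖ζ‖ ^ 2 := by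
    have := mem_ball_zero_iff.1 hζ
    nlinarith [norm_nonneg ζ]
  have h2 : 0 < ‖1 - ζ‖ := norm_pos_iff.2 hne
  show 0 < (cay z0 ζ).im
  rw [cay_im hζ]
  positivity

theorem cay_hasDerivAt {z0 ζ : ℂ} (hζ : ζ ∈ ball (0:ℂ) 1) :
    HasDerivAt (cay z0) ((z0 - conj z0) / (1 - ζ) ^ 2) ζ := by
  have hne := one_sub_ne hζ
  have h1 : HasDerivAt (fun ζ : ℂ => z0 - conj z0 * ζ) (-(conj z0)) ζ := by
    simpa using ((hasDerivAt_id ζ).const_mul (conj z0)).const_sub z0
  have h2 : HasDerivAt (fun ζ : ℂ => 1 - ζ) (-1) ζ := by simpa using (hasDerivAt_id ζ).const_sub 1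
  have h3 := h1.div h2 hne
  refine h3.congr_deriv ?_
  field_simp
  ring

theorem cay_injOn {z0 : ℂ} (hz0 : 0 < z0.im) : InjOn (cay z0) (ball 0 1) := by
  intro p hp q hq hpq
  rw [cay, cay, div_eq_div_iff (one_sub_ne hp) (one_sub_ne hq)] at hpq
  have h1 : (z0 - conj z0) * (p - q) = 0 := by linear_combination hpq
  rcases mul_eq_zero.1 h1 with h2 | h2
  · exact absurd h2 (sub_conj_ne hz0 hz0)
  · exact sub_eq_zero.1 h2

theorem norm_sub_lt {z w : ℂ} (hz : 0 < z.im) (hw : 0 < w.im) : ‖w - z‖ < ‖w - conj z‖ := by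
  apply lt_of_pow_lt_pow_left₀ 2 (norm_nonneg _)
  rw [← Complex.normSq_eq_norm_sq, ← Complex.normSq_eq_norm_sq]
  simp only [Complex.normSq_apply, Complex.sub_re, Complex.sub_im, Complex.conj_re, Complex.conj_im]
  nlinarith

theorem phd_nonneg (z w : ℂ) : 0 ≤ phd z w := by unfold phd; positivity

theorem phd_lt_one {z w : ℂ} (hz : 0 < z.im) (hw : 0 < w.im) : phd z w < 1 := by
  unfold phd
  rw [div_lt_one (norm_pos_iff.2 (sub_conj_ne hz hw))]
  exact norm_sub_lt hz hw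

/-- the disc coordinate of `w` centred at `z` -/
noncomputable def dco (z w : ℂ) : ℂ := (w - z) / (w - conj z)

theorem norm_dco (z w : ℂ) : ‖dco z w‖ = phd z w := by rw [dco, phd, norm_div]

theorem dco_mem {z w : ℂ} (hz : 0 < z.im) (hw : 0 < w.im) : dco z w ∈ ball (0:ℂ) 1 := by
  rw [mem_ball_zero_iff, norm_dco]; exact phd_lt_one hz hw

theorem cay_dco {z w : ℂ} (hz : 0 < z.im) (hw : 0 < w.im) : cay z (dco z w) = w := by
  have h1 := sub_conj_ne hz hw
  have h2 := sub_conj_ne hz hz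
  have h3 : 1 - (w - z) / (w - conj z) ≠ 0 := one_sub_ne (dco_mem hz hw)
  rw [cay, dco, div_eq_iff h3]
  field_simp
  ring

/-- `f` in the disc coordinate -/
theorem comp_cay {f : ℂ → ℂ} (hf : DifferentiableOn ℂ f Hs) (hfi : InjOn f Hs) {z0 : ℂ}
    (hz0 : 0 < z0.im) :
    DifferentiableOn ℂ (f ∘ cay z0) (ball 0 1) ∧ InjOn (f ∘ cay z0) (ball 0 1) ∧
    ∀ ζ ∈ ball (0:ℂ) 1, (1 - ‖ζ‖ ^ 2) * ‖deriv (f ∘ cay z0) ζ‖ = 2 * ups f (cay z0 ζ) := by
  refine ⟨hf.comp (fun ζ hζ => (cay_hasDerivAt hζ).differentiableAt.differentiableWithinAt)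
    (cay_mem hz0), hfi.comp (cay_injOn hz0) (cay_mem hz0), ?_⟩
  intro ζ hζ
  have h1 : HasDerivAt f (deriv f (cay z0 ζ)) (cay z0 ζ) :=
    (hf.differentiableAt (isOpen_Hs.mem_nhds (cay_mem hz0 hζ))).hasDerivAt
  rw [(h1.comp ζ (cay_hasDerivAt hζ)).deriv, ups, cay_im hζ, norm_mul, norm_div, norm_pow]
  have h2 : ‖z0 - conj z0‖ = 2 * z0.im := by
    have : z0 - conj z0 = ((2 * z0.im : ℝ) : ℂ) * I := by
      apply Complex.ext <;> simp
      ring
    rw [this, norm_mul, Complex.norm_I, mul_one, Complex.norm_real, Real.norm_eq_abs,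
      abs_of_pos (by linarith)]
  rw [h2]
  have h3 : ‖1 - ζ‖ ≠ 0 := (norm_pos_iff.2 (one_sub_ne hζ)).ne'
  field_simp

theorem ups_pos {f : ℂ → ℂ} (hf : DifferentiableOn ℂ f Hs) (hfi : InjOn f Hs) {z : ℂ}
    (hz : 0 < z.im) : 0 < ups f z :=
  mul_pos hz (norm_pos_iff.2 (deriv_ne_zero_of_injOn isOpen_Hs hf hfi hz))

theorem exists_unit_dco (z w : ℂ) : ∃ e : ℂ, ‖e‖ = 1 ∧ dco z w = (phd z w : ℂ) * e := by
  rcases eq_or_ne (dco z w) 0 with h | h
  · refine ⟨1, by simp, ?_⟩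
    have : phd z w = 0 := by rw [← norm_dco, h, norm_zero]
    rw [h, this]; simp
  · refine ⟨dco z w / (‖dco z w‖ : ℂ), ?_, ?_⟩
    · rw [norm_div, Complex.norm_real, norm_norm, div_self (norm_pos_iff.2 h).ne']
    · rw [← norm_dco]
      have : (‖dco z w‖ : ℂ) ≠ 0 := by exact_mod_cast (norm_pos_iff.2 h).ne'
      field_simp


/-- **KB1b** `log Ups_f` is 2-Lipschitz for the hyperbolic metric (pseudo-hyperbolic form:
`log ((1+phd)/(1-phd))` is the hyperbolic distance). -/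
theorem log_ups_lip {f : ℂ → ℂ} (hf : DifferentiableOn ℂ f Hs) (hfi : InjOn f Hs) {z w : ℂ}
    (hz : 0 < z.im) (hw : 0 < w.im) :
    |Real.log (ups f w) - Real.log (ups f z)| ≤ 2 * Real.log ((1 + phd z w) / (1 - phd z w)) := by
  obtain ⟨hd, hi, hu⟩ := comp_cay hf hfi hz
  obtain ⟨e, he, hez⟩ := exists_unit_dco z w
  have h := radial_log hd hi he (phd_nonneg z w) (phd_lt_one hz hw)
  have h0 := hu 0 (mem_ball_self one_pos)
  rw [norm_zero, cay_zero] at h0
  have h1 := hu (dco z w) (dco_mem hz hw)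
  rw [norm_dco, cay_dco hz hw] at h1
  rw [← hez, h1] at h
  have h0' : ‖deriv (f ∘ cay z) 0‖ = 2 * ups f z := by rw [← h0]; ring
  rw [h0', Real.log_mul (by norm_num) (ups_pos hf hfi hw).ne',
    Real.log_mul (by norm_num) (ups_pos hf hfi hz).ne'] at h
  convert h using 2
  ring

/-- **KB2** Koebe 1/4 in the half plane. -/
theorem ball_subset_image {f : ℂ → ℂ} (hf : DifferentiableOn ℂ f Hs) (hfi : InjOn f Hs) {z : ℂ}
    (hz : 0 < z.im) : ball (f z) (ups f z / 2) ⊆ f '' Hs := by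
  intro w hw
  by_contra hcon
  obtain ⟨hd, hi, hu⟩ := comp_cay hf hfi hz
  have hw' : w ∉ (f ∘ cay z) '' ball 0 1 := by
    rintro ⟨ζ, hζ, rfl⟩
    exact hcon ⟨cay z ζ, cay_mem hz hζ, rfl⟩
  have h := koebe_quarter_disc hd hi hw'
  have h0 := hu 0 (mem_ball_self one_pos)
  rw [norm_zero, cay_zero] at h0
  simp only [Function.comp_apply, cay_zero] at h
  rw [mem_ball, dist_eq_norm] at hw
  have h0' : ‖deriv (f ∘ cay z) 0‖ = 2 * ups f z := by rw [← h0]; ring
  rw [h0'] at h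
  linarith

/-- **KB4** upper bound. -/
theorem norm_sub_le_ups {f : ℂ → ℂ} (hf : DifferentiableOn ℂ f Hs) (hfi : InjOn f Hs) {z w : ℂ}
    (hz : 0 < z.im) (hw : 0 < w.im) :
    ‖f w - f z‖ ≤ 2 * ups f z * (phd z w / (1 - phd z w) ^ 2) := by
  obtain ⟨hd, hi, hu⟩ := comp_cay hf hfi hz
  obtain ⟨e, he, hez⟩ := exists_unit_dco z w
  have h := growth_upper_disc hd hi he (phd_nonneg z w) (phd_lt_one hz hw)
  rw [← hez] at h
  simp only [Function.comp_apply, cay_zero, cay_dco hz hw] at h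
  have h0 := hu 0 (mem_ball_self one_pos)
  rw [norm_zero, cay_zero] at h0
  have h0' : ‖deriv (f ∘ cay z) 0‖ = 2 * ups f z := by rw [← h0]; ring
  rw [h0'] at h
  exact h

/-- **KB4** lower bound. -/
theorem ups_le_norm_sub {f : ℂ → ℂ} (hf : DifferentiableOn ℂ f Hs) (hfi : InjOn f Hs) {z w : ℂ}
    (hz : 0 < z.im) (hw : 0 < w.im) :
    ups f z * phd z w / 2 ≤ ‖f w - f z‖ := by
  obtain ⟨hd, hi, hu⟩ := comp_cay hf hfi hz
  have h := growth_lower_disc hd hi (z := dco z w) (mem_ball_zero_iff.1 (dco_mem hz hw))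
  simp only [Function.comp_apply, cay_zero, cay_dco hz hw] at h
  have h0 := hu 0 (mem_ball_self one_pos)
  rw [norm_zero, cay_zero] at h0
  have h0' : ‖deriv (f ∘ cay z) 0‖ = 2 * ups f z := by rw [← h0]; ring
  rw [h0', norm_dco] at h
  linarith

/-- **KB3** (Schwarz–Pick): `g : ball(w,r) → H` holomorphic ⟹ `r |g'(w)| ≤ 2 Im g(w)`. -/
theorem schwarz_halfplane {g : ℂ → ℂ} {w : ℂ} {r : ℝ} (hr : 0 < r)
    (hg : DifferentiableOn ℂ g (ball w r)) (hmaps : MapsTo g (ball w r) Hs) :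
    r * ‖deriv g w‖ ≤ 2 * (g w).im := by
  have hwm : w ∈ ball w r := mem_ball_self hr
  have hgw : 0 < (g w).im := hmaps hwm
  set T : ℂ → ℂ := fun u => (u - g w) / (u - conj (g w)) with hT
  have hTd : ∀ u : ℂ, 0 < u.im → HasDerivAt T ((g w - conj (g w)) / (u - conj (g w)) ^ 2) u := by
    intro u hu
    have h1 := (hasDerivAt_id u).sub_const (g w)
    have h2 := (hasDerivAt_id u).sub_const (conj (g w))
    have h3 := h1.div h2 (sub_conj_ne hgw hu)
    refine h3.congr_deriv ?_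
    simp only [id]
    have := sub_conj_ne hgw hu
    field_simp
    ring
  have hcomp : DifferentiableOn ℂ (T ∘ g) (ball w r) := by
    intro u hu
    exact ((hTd (g u) (hmaps hu)).differentiableAt.comp u
      (hg.differentiableAt (isOpen_ball.mem_nhds hu))).differentiableWithinAt
  have hTm : MapsTo (T ∘ g) (ball w r) (ball ((T ∘ g) w) 1) := by
    intro u hu
    have h0 : (T ∘ g) w = 0 := by simp [hT]
    rw [h0]
    exact dco_mem hgw (hmaps hu)
  have h := Complex.norm_deriv_le_div_of_mapsTo_ball hcomp (hTm.mono_right ball_subset_closedBall) hr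
  have hd : deriv (T ∘ g) w = (g w - conj (g w)) / (g w - conj (g w)) ^ 2 * deriv g w :=
    ((hTd (g w) hgw).comp w (hg.differentiableAt (isOpen_ball.mem_nhds hwm)).hasDerivAt).deriv
  have h2 : ‖g w - conj (g w)‖ = 2 * (g w).im := by
    have : g w - conj (g w) = ((2 * (g w).im : ℝ) : ℂ) * I := by
      apply Complex.ext <;> simp
      ring
    rw [this, norm_mul, Complex.norm_I, mul_one, Complex.norm_real, Real.norm_eq_abs,
      abs_of_pos (by linarith)]
  rw [hd, norm_mul, norm_div, norm_pow, h2] at h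
  have h3 : 2 * (g w).im / (2 * (g w).im) ^ 2 * ‖deriv g w‖ = ‖deriv g w‖ / (2 * (g w).im) := by
    field_simp
  rw [h3, div_le_div_iff₀ (by linarith) hr] at h
  linarith

/-- distance to the complement of the image is at most `2 Ups`. -/
theorem le_two_ups_of_ball_subset {f : ℂ → ℂ} (hf : DifferentiableOn ℂ f Hs) (hfi : InjOn f Hs)
    {z : ℂ} (hz : 0 < z.im) {r : ℝ} (hr : 0 < r) (hsub : ball (f z) r ⊆ f '' Hs) :
    r ≤ 2 * ups f z := by
  obtain ⟨g, hgd, -, hgim, hgl, hgr⟩ := Crest.Agent.Lib.exists_holomorphic_inverse isOpen_Hs hf hfi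
  have hmaps : MapsTo g (ball (f z) r) Hs := by
    intro w hw
    rw [← hgim]
    exact mem_image_of_mem g (hsub hw)
  have h := schwarz_halfplane hr (hgd.mono hsub) hmaps
  rw [hgl z hz] at h
  have hder : deriv g (f z) * deriv f z = 1 := by
    have h1 : HasDerivAt g (deriv g (f z)) (f z) :=
      ((hgd.mono hsub).differentiableAt (ball_mem_nhds _ hr)).hasDerivAt
    have h2 : HasDerivAt f (deriv f z) z := (hf.differentiableAt (isOpen_Hs.mem_nhds hz)).hasDerivAt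
    have h3 := h1.comp z h2
    have h4 : HasDerivAt (fun u : ℂ => u) 1 z := hasDerivAt_id z
    have h5 : HasDerivAt (g ∘ f) 1 z := by
      apply h4.congr_of_eventuallyEq
      filter_upwards [isOpen_Hs.mem_nhds hz] with u hu
      exact hgl u hu
    exact h3.unique h5
  have hn : ‖deriv g (f z)‖ * ‖deriv f z‖ = 1 := by rw [← norm_mul, hder, norm_one]
  have hfp : 0 < ‖deriv f z‖ := norm_pos_iff.2 (deriv_ne_zero_of_injOn isOpen_Hs hf hfi hz)
  calc r = r * ‖deriv g (f z)‖ * ‖deriv f z‖ := by rw [mul_assoc, hn, mul_one]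
    _ ≤ 2 * z.im * ‖deriv f z‖ := mul_le_mul_of_nonneg_right h hfp.le
    _ = 2 * ups f z := by rw [ups]; ring

end Crest.Agent.R162.KB1
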