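import Mathlib
import Crest.Agent.R162.KB1

open Complex Set Metric
open scoped ComplexConjugate UpperHalfPlane

/-! # KB1H: hyperbolic-distance form of the Koebe estimates on the half-plane -/

namespace Crest.Agent.R162.KB1

/-- hyperbolic distance (metric `|dz|/y`) as a function of two complex numbers -/
noncomputable def hd (z w : ℂ) : ℝ := 2 * Real.arsinh (‖z - w‖ / (2 * √(z.im * w.im)))

theorem hd_eq {z w : ℂ} (hz : 0 < z.im) (hw : 0 < w.im) :
    hd z w = dist (⟨z, hz⟩ : ℍ) ⟨w, hw⟩ := by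
  rw [UpperHalfPlane.dist_eq, hd, dist_eq_norm]
  rfl

theorem hd_nonneg (z w : ℂ) : 0 ≤ hd z w := by
  unfold hd
  have : 0 ≤ Real.arsinh (‖z - w‖ / (2 * √(z.im * w.im))) :=
    Real.arsinh_nonneg_iff.2 (by positivity)
  linarith

theorem hd_comm (z w : ℂ) : hd z w = hd w z := by
  unfold hd; rw [norm_sub_rev, mul_comm z.im]

@[simp] theorem hd_self (z : ℂ) : hd z z = 0 := by simp [hd]


theorem phd_eq {z w : ℂ} (hz : 0 < z.im) (hw : 0 < w.im) :
    phd z w = Real.tanh (hd z w / 2) := by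
  rw [hd_comm, hd_eq hw hz, UpperHalfPlane.tanh_half_dist, phd, dist_eq_norm, dist_eq_norm]

theorem log_phd {z w : ℂ} (hz : 0 < z.im) (hw : 0 < w.im) :
    Real.log ((1 + phd z w) / (1 - phd z w)) = hd z w := by
  have h1 : (1 + phd z w) / (1 - phd z w) = Real.exp (hd z w) := by
    rw [phd_eq hz hw, Real.tanh_eq_sinh_div_cosh]
    have hc : 0 < Real.cosh (hd z w / 2) := Real.cosh_pos _
    have h2 : Real.cosh (hd z w / 2) - Real.sinh (hd z w / 2) = Real.exp (-(hd z w / 2)) :=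
      Real.cosh_sub_sinh _
    have h3 : Real.cosh (hd z w / 2) + Real.sinh (hd z w / 2) = Real.exp (hd z w / 2) :=
      Real.cosh_add_sinh _
    have e1 : 1 + Real.sinh (hd z w / 2) / Real.cosh (hd z w / 2) =
        (Real.cosh (hd z w / 2) + Real.sinh (hd z w / 2)) / Real.cosh (hd z w / 2) := by
      field_simp
    have e2 : 1 - Real.sinh (hd z w / 2) / Real.cosh (hd z w / 2) =
        (Real.cosh (hd z w / 2) - Real.sinh (hd z w / 2)) / Real.cosh (hd z w / 2) := by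
      field_simp
    rw [e1, e2, h2, h3, div_div_div_cancel_right₀ hc.ne', ← Real.exp_sub]
    congr 1
    ring
  rw [h1, Real.log_exp]

theorem exp_hd {z w : ℂ} (hz : 0 < z.im) (hw : 0 < w.im) :
    Real.exp (hd z w) = (1 + phd z w) / (1 - phd z w) := by
  rw [← log_phd hz hw, Real.exp_log]
  have := phd_lt_one hz hw
  have := phd_nonneg z w
  apply div_pos <;> linarith

/-- `log Ups_f` is 2-Lipschitz in the hyperbolic metric. -/
theorem abs_log_ups_sub_le {f : ℂ → ℂ} (hf : DifferentiableOn ℂ f Hs) (hfi : InjOn f Hs)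
    {z w : ℂ} (hz : 0 < z.im) (hw : 0 < w.im) :
    |Real.log (ups f w) - Real.log (ups f z)| ≤ 2 * hd z w := by
  rw [← log_phd hz hw]
  exact log_ups_lip hf hfi hz hw

theorem ups_le_exp {f : ℂ → ℂ} (hf : DifferentiableOn ℂ f Hs) (hfi : InjOn f Hs)
    {z w : ℂ} (hz : 0 < z.im) (hw : 0 < w.im) :
    ups f w ≤ ups f z * Real.exp (2 * hd z w) := by
  have h := (abs_le.1 (abs_log_ups_sub_le hf hfi hz hw)).2
  have h1 := ups_pos hf hfi hz
  have h2 := ups_pos hf hfi hw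
  have h3 : Real.log (ups f w) ≤ Real.log (ups f z * Real.exp (2 * hd z w)) := by
    rw [Real.log_mul h1.ne' (Real.exp_pos _).ne', Real.log_exp]; linarith
  exact (Real.log_le_log_iff h2 (by positivity)).1 h3

theorem exp_neg_le_ups {f : ℂ → ℂ} (hf : DifferentiableOn ℂ f Hs) (hfi : InjOn f Hs)
    {z w : ℂ} (hz : 0 < z.im) (hw : 0 < w.im) :
    ups f z * Real.exp (-(2 * hd z w)) ≤ ups f w := by
  have h := ups_le_exp hf hfi hw hz
  rw [hd_comm] at h
  calc ups f z * Real.exp (-(2 * hd z w)) ≤ (ups f w * Real.exp (2 * hd z w)) *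
      Real.exp (-(2 * hd z w)) := by gcongr
    _ = ups f w := by rw [mul_assoc, ← Real.exp_add]; simp

/-- (KB4, upper) `|f w - f z| ≤ Ups_f(z) (e^{2d} - 1)/2`. -/
theorem norm_sub_le_exp {f : ℂ → ℂ} (hf : DifferentiableOn ℂ f Hs) (hfi : InjOn f Hs)
    {z w : ℂ} (hz : 0 < z.im) (hw : 0 < w.im) :
    ‖f w - f z‖ ≤ ups f z * ((Real.exp (2 * hd z w) - 1) / 2) := by
  have h := norm_sub_le_ups hf hfi hz hw
  have h1 : 0 < 1 - phd z w := by have := phd_lt_one hz hw; linarith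
  have h2 : Real.exp (2 * hd z w) = ((1 + phd z w) / (1 - phd z w)) ^ 2 := by
    rw [← exp_hd hz hw, ← Real.exp_nat_mul]; norm_num
  have h3 : 2 * ups f z * (phd z w / (1 - phd z w) ^ 2) =
      ups f z * ((Real.exp (2 * hd z w) - 1) / 2) := by
    rw [h2]; field_simp; ring
  rw [← h3]; exact h

theorem min_le_five_tanh {x : ℝ} (hx : 0 ≤ x) : min 1 x * (2 / 5) ≤ Real.tanh (x / 2) := by
  -- `tanh (x/2) = (e^x-1)/(e^x+1)`, nondecreasing and `≥ (2/5) x` on `[0,1]`
  have hE : Real.tanh (x / 2) = (Real.exp x - 1) / (Real.exp x + 1) := by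
    rw [Real.tanh_eq_sinh_div_cosh, Real.sinh_eq, Real.cosh_eq]
    have e1 : Real.exp x = Real.exp (x / 2) * Real.exp (x / 2) := by
      rw [← Real.exp_add]; congr 1; ring
    have e2 : Real.exp (x / 2) * Real.exp (-(x / 2)) = 1 := by
      rw [← Real.exp_add]; simp
    have p1 := Real.exp_pos (x / 2)
    have p2 := Real.exp_pos (-(x / 2))
    rw [div_div_div_cancel_right₀ (by norm_num : (2:ℝ) ≠ 0), e1, div_eq_div_iff (by positivity)
      (by positivity)]
    nlinarith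
  rw [hE, le_div_iff₀ (by positivity)]
  have hm : 0 ≤ min 1 x := le_min zero_le_one hx
  have hm1 : min 1 x ≤ 1 := min_le_left _ _
  have hq : 1 + min 1 x + (min 1 x) ^ 2 / 2 ≤ Real.exp x := by
    have h1 := Real.quadratic_le_exp_of_nonneg hm
    have h2 : Real.exp (min 1 x) ≤ Real.exp x := Real.exp_le_exp.2 (min_le_right _ _)
    linarith
  nlinarith [mul_nonneg hm (sub_nonneg.2 hm1), mul_nonneg (mul_nonneg hm hm) (sub_nonneg.2 hm1),
    Real.exp_pos x, mul_nonneg (sub_nonneg.2 hm1) (sub_nonneg.2 hq)]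

/-- (KB4, lower) `Ups_f(z) min(1,d)/5 ≤ |f w - f z|`. -/
theorem ups_min_le_norm_sub {f : ℂ → ℂ} (hf : DifferentiableOn ℂ f Hs) (hfi : InjOn f Hs)
    {z w : ℂ} (hz : 0 < z.im) (hw : 0 < w.im) :
    ups f z * min 1 (hd z w) / 5 ≤ ‖f w - f z‖ := by
  have h := ups_le_norm_sub hf hfi hz hw
  have h1 := min_le_five_tanh (hd_nonneg z w)
  rw [← phd_eq hz hw] at h1
  have h2 := ups_pos hf hfi hz
  nlinarith [mul_le_mul_of_nonneg_left h1 h2.le]

theorem hd_vert {z w : ℂ} (hz : 0 < z.im) (hw : 0 < w.im) (h : z.re = w.re) :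
    hd z w = |Real.log z.im - Real.log w.im| := by
  have h' : (⟨z, hz⟩ : ℍ).re = (⟨w, hw⟩ : ℍ).re := h
  rw [hd_eq hz hw, UpperHalfPlane.dist_of_re_eq h', Real.dist_eq]
  rfl

theorem hd_le_div {z w : ℂ} (hz : 0 < z.im) (hw : 0 < w.im) :
    hd z w ≤ ‖z - w‖ / √(z.im * w.im) := by
  rw [hd_eq hz hw]
  have := UpperHalfPlane.dist_le_dist_coe_div_sqrt (⟨z, hz⟩ : ℍ) ⟨w, hw⟩
  rw [dist_eq_norm] at this
  exact this

theorem abs_log_im_le_hd {z w : ℂ} (hz : 0 < z.im) (hw : 0 < w.im) :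
    |Real.log z.im - Real.log w.im| ≤ hd z w := by
  rw [hd_eq hz hw]
  have := UpperHalfPlane.dist_log_im_le (⟨z, hz⟩ : ℍ) ⟨w, hw⟩
  rw [Real.dist_eq] at this
  exact this


theorem ups_vert_le {f : ℂ → ℂ} (hf : DifferentiableOn ℂ f Hs) (hfi : InjOn f Hs)
    {z w : ℂ} (hz : 0 < z.im) (hzw : z.im ≤ w.im) (h : z.re = w.re) :
    ups f w ≤ ups f z * (w.im / z.im) ^ 2 := by
  have hw : 0 < w.im := hz.trans_le hzw
  have h1 := ups_le_exp hf hfi hz hw
  rw [hd_vert hz hw h, abs_sub_comm, ← Real.log_div hw.ne' hz.ne',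
    abs_of_nonneg (Real.log_nonneg (by rw [le_div_iff₀ hz]; linarith)), two_mul, Real.exp_add,
    Real.exp_log (by positivity), ← sq] at h1
  exact h1

theorem ups_vert_le' {f : ℂ → ℂ} (hf : DifferentiableOn ℂ f Hs) (hfi : InjOn f Hs)
    {z w : ℂ} (hz : 0 < z.im) (hzw : z.im ≤ w.im) (h : z.re = w.re) :
    ups f z ≤ ups f w * (w.im / z.im) ^ 2 := by
  have hw : 0 < w.im := hz.trans_le hzw
  have h1 := ups_le_exp hf hfi hw hz
  rw [hd_vert hw hz h.symm, ← Real.log_div hw.ne' hz.ne',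
    abs_of_nonneg (Real.log_nonneg (by rw [le_div_iff₀ hz]; linarith)), two_mul, Real.exp_add,
    Real.exp_log (by positivity), ← sq] at h1
  exact h1

/-! ## derivatives of `log Ups` -/






end Crest.Agent.R162.KB1
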