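import Mathlib
import Crest.Agent.R162.KB1H

/-!
Row 162 (S0243), lower bound, node LB0 (helper411): the old geodesic of one step,
facts (P1), (P2), (P3) of LB FIX 1.  Deterministic.
-/

set_option autoImplicit false

open MeasureTheory Set Filter Topology
open scoped ENNReal NNReal

namespace Crest.Agent.R162.LB0

open Crest.Agent.R162.KB1

/-- `v(y) = u(iy) / u0(f(iy))` -/
noncomputable def vv (u0 : ℂ → ℝ) (f : ℂ → ℂ) (y : ℝ) : ℝ :=
  ups f ((y : ℂ) * Complex.I) / u0 (f ((y : ℂ) * Complex.I))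

/-- `J(y) = ∫_0^y min(v,1)^q ds/s` -/
noncomputable def Jv (u0 : ℂ → ℝ) (q : ℝ) (f : ℂ → ℂ) (y : ℝ) : ℝ≥0∞ :=
  ∫⁻ s in Ioc 0 y, ENNReal.ofReal ((min (vv u0 f s) 1) ^ q / s)

/-- the set of levels that are not below the base point -/
def bad (u0 : ℂ → ℝ) (q : ℝ) (f : ℂ → ℂ) (θ K3 : ℝ) : Set ℝ :=
  {y | 0 < y ∧ (θ ≤ vv u0 f y ∨ ENNReal.ofReal K3 ≤ Jv u0 q f y)}

/-- the level of the base point -/
noncomputable def yx (u0 : ℂ → ℝ) (q : ℝ) (f : ℂ → ℂ) (θ K3 : ℝ) : ℝ := sInf (bad u0 q f θ K3)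

open Classical in
/-- the scale of the step -/
noncomputable def rho1 (u0 : ℂ → ℝ) (q : ℝ) (f : ℂ → ℂ) (θ K3 K4 : ℝ) : ℝ :=
  if θ ≤ vv u0 f (yx u0 q f θ K3) then K4 * yx u0 q f θ K3 else yx u0 q f θ K3 / 10

variable {f : ℂ → ℂ} {u0 : ℂ → ℝ} {q θ K3 K4 : ℝ}

theorem mem_Hs {y : ℝ} (hy : 0 < y) : ((y : ℂ) * Complex.I) ∈ Hs := by
  simpa [Hs] using hy

theorem im_yI (y : ℝ) : ((y : ℂ) * Complex.I).im = y := by simp


theorem hasDerivAt_ray (hf : DifferentiableOn ℂ f Hs) {y : ℝ} (hy : 0 < y) :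
    HasDerivAt (fun s : ℝ => f ((s : ℂ) * Complex.I))
      (deriv f ((y : ℂ) * Complex.I) * Complex.I) y := by
  have h1 : HasDerivAt (fun s : ℝ => ((s : ℂ) * Complex.I)) (1 * Complex.I) y :=
    (hasDerivAt_id y).ofReal_comp.mul_const Complex.I
  have h2 : HasDerivAt f (deriv f ((y : ℂ) * Complex.I)) ((y : ℂ) * Complex.I) :=
    (hf.differentiableAt (isOpen_Hs.mem_nhds (mem_Hs hy))).hasDerivAt
  have h3 := HasDerivAt.scomp y h2 h1
  simp only [one_mul, smul_eq_mul] at h3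
  rw [mul_comm]
  exact h3

theorem continuousOn_ray : ContinuousOn (fun s : ℝ => ((s : ℂ) * Complex.I)) (Ioi 0) :=
  (Complex.continuous_ofReal.mul continuous_const).continuousOn

theorem mapsTo_ray : MapsTo (fun s : ℝ => ((s : ℂ) * Complex.I)) (Ioi 0) Hs :=
  fun _ hs => mem_Hs hs

theorem continuousOn_f (hf : DifferentiableOn ℂ f Hs) :
    ContinuousOn (fun s : ℝ => f ((s : ℂ) * Complex.I)) (Ioi 0) :=
  hf.continuousOn.comp continuousOn_ray mapsTo_ray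

theorem continuousOn_ups (hf : DifferentiableOn ℂ f Hs) :
    ContinuousOn (fun s : ℝ => ups f ((s : ℂ) * Complex.I)) (Ioi 0) := by
  have h1 : ContinuousOn (fun s : ℝ => deriv f ((s : ℂ) * Complex.I)) (Ioi 0) :=
    (hf.deriv isOpen_Hs).continuousOn.comp continuousOn_ray mapsTo_ray
  have h2 : ContinuousOn (fun s : ℝ => ((s : ℂ) * Complex.I).im) (Ioi 0) :=
    Complex.continuous_im.comp_continuousOn continuousOn_ray
  exact h2.mul h1.norm

theorem u0_pos (h1 : ∀ p, 1 ≤ u0 p) (p : ℂ) : 0 < u0 p := lt_of_lt_of_le one_pos (h1 p)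

theorem continuousOn_vv (hf : DifferentiableOn ℂ f Hs) (hl : LipschitzWith 1 u0)
    (h1 : ∀ p, 1 ≤ u0 p) : ContinuousOn (vv u0 f) (Ioi 0) := by
  refine (continuousOn_ups hf).div (hl.continuous.comp_continuousOn (continuousOn_f hf)) ?_
  intro s _
  exact (u0_pos h1 _).ne'

theorem vv_pos (hf : DifferentiableOn ℂ f Hs) (hfi : InjOn f Hs) (h1 : ∀ p, 1 ≤ u0 p) {y : ℝ}
    (hy : 0 < y) : 0 < vv u0 f y :=
  div_pos (ups_pos hf hfi (by simpa using hy)) (u0_pos h1 _)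

theorem u0_sub_le (hl : LipschitzWith 1 u0) (p p' : ℂ) : |u0 p - u0 p'| ≤ ‖p - p'‖ := by
  have := hl.dist_le_mul p p'
  simpa [Real.dist_eq, dist_eq_norm] using this

theorem continuousOn_gq (hf : DifferentiableOn ℂ f Hs) (hl : LipschitzWith 1 u0)
    (h1 : ∀ p, 1 ≤ u0 p) (hq : 0 < q) :
    ContinuousOn (fun s : ℝ => (min (vv u0 f s) 1) ^ q / s) (Ioi 0) := by
  refine ContinuousOn.div ?_ continuousOn_id (fun s hs => (ne_of_gt hs))
  refine ContinuousOn.rpow_const ?_ (fun s _ => Or.inr hq.le)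
  exact continuous_min.comp_continuousOn ((continuousOn_vv hf hl h1).prodMk continuousOn_const)

/-! ## the length of the geodesic -/

theorem norm_sub_le_integral (hf : DifferentiableOn ℂ f Hs) {a b : ℝ} (ha : 0 < a) (hab : a ≤ b) :
    ‖f ((b : ℂ) * Complex.I) - f ((a : ℂ) * Complex.I)‖ ≤
      ∫ s in a..b, ups f ((s : ℂ) * Complex.I) / s := by
  have hsub : Set.uIcc a b ⊆ Ioi 0 := by
    rw [uIcc_of_le hab]
    exact fun s hs => lt_of_lt_of_le ha hs.1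
  have hcont : ContinuousOn (fun s : ℝ => deriv f ((s : ℂ) * Complex.I) * Complex.I)
      (Set.uIcc a b) :=
    (((hf.deriv isOpen_Hs).continuousOn.comp continuousOn_ray mapsTo_ray).mul
      continuousOn_const).mono hsub
  have h1 : ∫ s in a..b, deriv f ((s : ℂ) * Complex.I) * Complex.I =
      f ((b : ℂ) * Complex.I) - f ((a : ℂ) * Complex.I) :=
    intervalIntegral.integral_eq_sub_of_hasDerivAt (fun s hs => hasDerivAt_ray hf (hsub hs))
      hcont.intervalIntegrable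
  rw [← h1]
  refine (intervalIntegral.norm_integral_le_integral_norm hab).trans (le_of_eq ?_)
  refine intervalIntegral.integral_congr fun s hs => ?_
  have hs0 : 0 < s := hsub hs
  simp only [norm_mul, Complex.norm_I, mul_one, ups, im_yI]
  field_simp

/-- upward bound: `‖f(ib) - f(ia)‖ ≤ u(ia) ((b/a)^2 - 1)/2` for `a ≤ b`. -/
theorem norm_sub_le_up (hf : DifferentiableOn ℂ f Hs) (hfi : InjOn f Hs) {a b : ℝ} (ha : 0 < a)
    (hab : a ≤ b) :
    ‖f ((b : ℂ) * Complex.I) - f ((a : ℂ) * Complex.I)‖ ≤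
      ups f ((a : ℂ) * Complex.I) * (((b / a) ^ 2 - 1) / 2) := by
  have hb : 0 < b := ha.trans_le hab
  have h := norm_sub_le_exp hf hfi (z := (a : ℂ) * Complex.I) (w := (b : ℂ) * Complex.I)
    (by simpa using ha) (by simpa using hb)
  rw [hd_vert (by simpa using ha) (by simpa using hb) (by simp), im_yI, im_yI, abs_sub_comm,
    ← Real.log_div hb.ne' ha.ne',
    abs_of_nonneg (Real.log_nonneg (by rw [le_div_iff₀ ha]; linarith)), two_mul, Real.exp_add,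
    Real.exp_log (by positivity), ← sq] at h
  exact h

/-- downward bound. -/
theorem norm_sub_le_down (hf : DifferentiableOn ℂ f Hs) (hfi : InjOn f Hs) {a b : ℝ} (ha : 0 < a)
    (hab : a ≤ b) :
    ‖f ((a : ℂ) * Complex.I) - f ((b : ℂ) * Complex.I)‖ ≤
      ups f ((b : ℂ) * Complex.I) * (((b / a) ^ 2 - 1) / 2) := by
  have hb : 0 < b := ha.trans_le hab
  have h := norm_sub_le_exp hf hfi (z := (b : ℂ) * Complex.I) (w := (a : ℂ) * Complex.I)
    (by simpa using hb) (by simpa using ha)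
  rw [hd_vert (by simpa using hb) (by simpa using ha) (by simp), im_yI, im_yI,
    ← Real.log_div hb.ne' ha.ne',
    abs_of_nonneg (Real.log_nonneg (by rw [le_div_iff₀ ha]; linarith)), two_mul, Real.exp_add,
    Real.exp_log (by positivity), ← sq] at h
  exact h

theorem ups_up (hf : DifferentiableOn ℂ f Hs) (hfi : InjOn f Hs) {a b : ℝ} (ha : 0 < a)
    (hab : a ≤ b) :
    ups f ((b : ℂ) * Complex.I) ≤ ups f ((a : ℂ) * Complex.I) * (b / a) ^ 2 := by
  have h := ups_vert_le hf hfi (z := (a : ℂ) * Complex.I) (w := (b : ℂ) * Complex.I)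
    (by simpa using ha) (by simpa using hab) (by simp)
  simpa using h


/-! ## the function `J` -/

theorem Jv_mono : Monotone (Jv u0 q f) := fun _ _ hab =>
  lintegral_mono_set (Ioc_subset_Ioc_right hab)

theorem min_rpow_nonneg {s : ℝ} (hf : DifferentiableOn ℂ f Hs) (hfi : InjOn f Hs)
    (h1 : ∀ p, 1 ≤ u0 p) (hs : 0 < s) : 0 ≤ (min (vv u0 f s) 1) ^ q :=
  Real.rpow_nonneg (le_min (vv_pos hf hfi h1 hs).le zero_le_one) q

theorem min_rpow_le_one {s : ℝ} (hf : DifferentiableOn ℂ f Hs) (hfi : InjOn f Hs)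
    (h1 : ∀ p, 1 ≤ u0 p) (hq : 0 < q) (hs : 0 < s) : (min (vv u0 f s) 1) ^ q ≤ 1 :=
  Real.rpow_le_one (le_min (vv_pos hf hfi h1 hs).le zero_le_one) (min_le_right _ _) hq.le

theorem Jv_eq_add {a b : ℝ} (ha : 0 ≤ a) (hab : a ≤ b) :
    Jv u0 q f b = Jv u0 q f a + ∫⁻ s in Ioc a b, ENNReal.ofReal ((min (vv u0 f s) 1) ^ q / s) := by
  unfold Jv
  rw [← Ioc_union_Ioc_eq_Ioc ha hab,
    lintegral_union measurableSet_Ioc (Set.Ioc_disjoint_Ioc_of_le le_rfl)]

theorem lintegral_inv {a b : ℝ} (ha : 0 < a) (hab : a ≤ b) :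
    ∫⁻ s in Ioc a b, ENNReal.ofReal (1 / s) = ENNReal.ofReal (Real.log (b / a)) := by
  have hb : 0 < b := ha.trans_le hab
  have hcont : ContinuousOn (fun s : ℝ => 1 / s) (Set.uIcc a b) := by
    rw [uIcc_of_le hab]
    exact continuousOn_const.div continuousOn_id fun s hs => (lt_of_lt_of_le ha hs.1).ne'
  have hint : IntegrableOn (fun s : ℝ => 1 / s) (Ioc a b) :=
    (intervalIntegrable_iff_integrableOn_Ioc_of_le hab).1 hcont.intervalIntegrable
  rw [← ofReal_integral_eq_lintegral_ofReal hint, ← intervalIntegral.integral_of_le hab,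
    integral_one_div_of_pos ha hb]
  refine (ae_restrict_iff' measurableSet_Ioc).2 (ae_of_all _ fun s hs => ?_)
  have : 0 < s := lt_trans ha hs.1
  simp only [Pi.zero_apply]
  positivity

theorem Jv_le_add (hf : DifferentiableOn ℂ f Hs) (hfi : InjOn f Hs) (h1 : ∀ p, 1 ≤ u0 p)
    (hq : 0 < q) {a b : ℝ} (ha : 0 < a) (hab : a ≤ b) :
    Jv u0 q f b ≤ Jv u0 q f a + ENNReal.ofReal (Real.log (b / a)) := by
  rw [Jv_eq_add ha.le hab, ← lintegral_inv ha hab]
  refine add_le_add le_rfl (setLIntegral_mono' measurableSet_Ioc fun s hs => ?_)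
  have hs0 : 0 < s := lt_trans ha hs.1
  refine ENNReal.ofReal_le_ofReal ?_
  have := min_rpow_le_one (q := q) hf hfi h1 hq hs0
  gcongr

theorem Jv_lt_top_of (hf : DifferentiableOn ℂ f Hs) (hfi : InjOn f Hs) (h1 : ∀ p, 1 ≤ u0 p)
    (hq : 0 < q) {a : ℝ} (ha : 0 < a) (hJ : Jv u0 q f a < ⊤) (b : ℝ) : Jv u0 q f b < ⊤ := by
  rcases le_total b a with h | h
  · exact (Jv_mono h).trans_lt hJ
  · exact (Jv_le_add hf hfi h1 hq ha h).trans_lt (ENNReal.add_lt_top.2 ⟨hJ, ENNReal.ofReal_lt_top⟩)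

/-- real form of `J` on a segment -/
theorem integral_le_of_Jv_le (hf : DifferentiableOn ℂ f Hs) (hfi : InjOn f Hs)
    (hl : LipschitzWith 1 u0) (h1 : ∀ p, 1 ≤ u0 p) (hq : 0 < q) {a b K : ℝ} (hK : 0 ≤ K)
    (ha : 0 < a) (hab : a ≤ b) (hJ : Jv u0 q f b ≤ ENNReal.ofReal K) :
    ∫ s in a..b, (min (vv u0 f s) 1) ^ q / s ≤ K := by
  have hsub : Set.uIcc a b ⊆ Ioi 0 := by
    rw [uIcc_of_le hab]
    exact fun s hs => lt_of_lt_of_le ha hs.1
  have hcont := (continuousOn_gq hf hl h1 hq).mono hsub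
  have hint : IntegrableOn (fun s : ℝ => (min (vv u0 f s) 1) ^ q / s) (Ioc a b) :=
    (intervalIntegrable_iff_integrableOn_Ioc_of_le hab).1 hcont.intervalIntegrable
  have h2 : ENNReal.ofReal (∫ s in a..b, (min (vv u0 f s) 1) ^ q / s) ≤ ENNReal.ofReal K := by
    rw [intervalIntegral.integral_of_le hab, ofReal_integral_eq_lintegral_ofReal hint]
    · refine le_trans ?_ hJ
      rw [Jv_eq_add ha.le hab]
      exact le_add_self
    · refine (ae_restrict_iff' measurableSet_Ioc).2 (ae_of_all _ fun s hs => ?_)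
      have : 0 < s := lt_trans ha hs.1
      have := min_rpow_nonneg (q := q) hf hfi h1 this
      simp only [Pi.zero_apply]
      positivity
  exact (ENNReal.ofReal_le_ofReal_iff hK).1 h2

/-! ## `v` and `J` near `0` -/

/-- if `v(y) ≥ θ` then `J(y)` is at least a constant. -/
theorem le_Jv_of_le_vv (hf : DifferentiableOn ℂ f Hs) (hfi : InjOn f Hs)
    (hl : LipschitzWith 1 u0) (h1 : ∀ p, 1 ≤ u0 p) (hq : 0 < q) (hθ : 0 < θ) (hθ1 : θ ≤ 1) {y : ℝ}
    (hy : 0 < y) (hv : θ ≤ vv u0 f y) :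
    ENNReal.ofReal ((θ / 16) ^ q * Real.log 2) ≤ Jv u0 q f y := by
  have hy2 : 0 < y / 2 := by positivity
  have hkey : ∀ s ∈ Ioc (y / 2) y, θ / 16 ≤ min (vv u0 f s) 1 := by
    intro s hs
    have hs0 : 0 < s := hy2.trans hs.1
    have hys : y / s ≤ 2 := by rw [div_le_iff₀ hs0]; linarith [hs.1]
    have hys1 : 1 ≤ y / s := by rw [le_div_iff₀ hs0]; linarith [hs.2]
    set U := ups f ((y : ℂ) * Complex.I) with hU
    set V := u0 (f ((y : ℂ) * Complex.I)) with hV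
    have hVpos : 0 < V := u0_pos h1 _
    have hUpos : 0 < U := ups_pos hf hfi (by simpa using hy)
    have e1 : U ≤ ups f ((s : ℂ) * Complex.I) * (y / s) ^ 2 := ups_up hf hfi hs0 hs.2
    have e2 : ‖f ((s : ℂ) * Complex.I) - f ((y : ℂ) * Complex.I)‖ ≤ U * (((y / s) ^ 2 - 1) / 2) :=
      norm_sub_le_down hf hfi hs0 hs.2
    have hsq : (y / s) ^ 2 ≤ 4 := by nlinarith
    have hspos : 0 < ups f ((s : ℂ) * Complex.I) := ups_pos hf hfi (by simpa using hs0)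
    have e3 : U / 4 ≤ ups f ((s : ℂ) * Complex.I) := by nlinarith
    have e4 : u0 (f ((s : ℂ) * Complex.I)) ≤ V + 3 / 2 * U := by
      have := (abs_le.1 (u0_sub_le hl (f ((s : ℂ) * Complex.I)) (f ((y : ℂ) * Complex.I)))).2
      nlinarith
    have hv' : θ * V ≤ U := by
      rw [vv, le_div_iff₀ hVpos] at hv
      exact hv
    refine le_min ?_ (by linarith)
    have hpos : 0 < u0 (f ((s : ℂ) * Complex.I)) := u0_pos h1 _
    rw [vv, le_div_iff₀ hpos]
    calc θ / 16 * u0 (f ((s : ℂ) * Complex.I)) ≤ θ / 16 * (V + 3 / 2 * U) := by gcongr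
      _ ≤ U / 4 := by nlinarith
      _ ≤ _ := e3
  calc ENNReal.ofReal ((θ / 16) ^ q * Real.log 2)
      = ENNReal.ofReal ((θ / 16) ^ q) * ∫⁻ s in Ioc (y / 2) y, ENNReal.ofReal (1 / s) := by
        rw [lintegral_inv hy2 (by linarith), ← ENNReal.ofReal_mul (by positivity)]
        congr 3
        field_simp
    _ = ∫⁻ s in Ioc (y / 2) y, ENNReal.ofReal ((θ / 16) ^ q) * ENNReal.ofReal (1 / s) := by
        rw [lintegral_const_mul' _ _ ENNReal.ofReal_ne_top]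
    _ ≤ ∫⁻ s in Ioc (y / 2) y, ENNReal.ofReal ((min (vv u0 f s) 1) ^ q / s) := by
        refine setLIntegral_mono' measurableSet_Ioc fun s hs => ?_
        have hs0 : 0 < s := hy2.trans hs.1
        rw [← ENNReal.ofReal_mul (by positivity)]
        refine ENNReal.ofReal_le_ofReal ?_
        rw [mul_one_div]
        have := Real.rpow_le_rpow (by positivity) (hkey s hs) hq.le
        gcongr
    _ ≤ Jv u0 q f y := lintegral_mono_set (Ioc_subset_Ioc_left hy2.le)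

theorem tendsto_Jv_zero (hJ : ∃ a, 0 < a ∧ Jv u0 q f a < ⊤) :
    Tendsto (Jv u0 q f) (𝓝[>] 0) (𝓝 0) := by
  obtain ⟨a, ha, hJa⟩ := hJ
  have hfin : ∫⁻ s in Ioc 0 a, ENNReal.ofReal ((min (vv u0 f s) 1) ^ q / s) ≠ ⊤ := hJa.ne
  -- on `Ioc 0 a`
  have hvol : Tendsto (fun y : ℝ => (volume.restrict (Ioc 0 a)) (Ioc 0 y)) (𝓝[>] 0) (𝓝 0) := by
    have h0 : Tendsto (fun y : ℝ => ENNReal.ofReal y) (𝓝[>] 0) (𝓝 0) := by
      have := (ENNReal.continuous_ofReal.tendsto (0 : ℝ)).mono_left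
        (nhdsWithin_le_nhds (s := Ioi (0 : ℝ)))
      simpa using this
    refine tendsto_of_tendsto_of_tendsto_of_le_of_le tendsto_const_nhds h0
      (fun _ => zero_le) fun y => ?_
    refine (Measure.restrict_apply_le _ _).trans ?_
    simp
  have h := tendsto_setLIntegral_zero (μ := volume.restrict (Ioc 0 a)) hfin hvol
  refine h.congr' ?_
  filter_upwards [Ioc_mem_nhdsGT ha] with y hy
  unfold Jv
  rw [Measure.restrict_restrict measurableSet_Ioc,
    Set.inter_eq_left.2 (Ioc_subset_Ioc_right hy.2)]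

/-- near `0` nothing is bad -/
theorem eventually_good (hf : DifferentiableOn ℂ f Hs) (hfi : InjOn f Hs)
    (hl : LipschitzWith 1 u0) (h1 : ∀ p, 1 ≤ u0 p) (hq : 0 < q) (hθ : 0 < θ) (hθ1 : θ ≤ 1)
    (hK3 : 0 < K3) (hJ : ∃ a, 0 < a ∧ Jv u0 q f a < ⊤) :
    ∃ δ > 0, ∀ y ∈ Ioo 0 δ, vv u0 f y < θ ∧ Jv u0 q f y < ENNReal.ofReal K3 := by
  have hc : (0 : ℝ≥0∞) < min (ENNReal.ofReal ((θ / 16) ^ q * Real.log 2)) (ENNReal.ofReal K3) := by
    refine lt_min (ENNReal.ofReal_pos.2 ?_) (ENNReal.ofReal_pos.2 hK3)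
    have : 0 < Real.log 2 := Real.log_pos (by norm_num)
    positivity
  have h := (tendsto_Jv_zero hJ).eventually (gt_mem_nhds hc)
  obtain ⟨δ, hδ, hsub⟩ := (mem_nhdsGT_iff_exists_Ioo_subset).1 h
  refine ⟨δ, hδ, fun y hy => ?_⟩
  have h2 := hsub hy
  simp only [Set.mem_ofPred_eq, lt_min_iff] at h2
  refine ⟨?_, h2.2⟩
  by_contra hcon
  push Not at hcon
  exact absurd h2.1 (not_lt.2 (le_Jv_of_le_vv hf hfi hl h1 hq hθ hθ1 hy.1 hcon))

/-! ## the base point -/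

theorem yx_pos (hf : DifferentiableOn ℂ f Hs) (hfi : InjOn f Hs)
    (hl : LipschitzWith 1 u0) (h1 : ∀ p, 1 ≤ u0 p) (hq : 0 < q) (hθ : 0 < θ) (hθ1 : θ ≤ 1)
    (hK3 : 0 < K3) (hJ : ∃ a, 0 < a ∧ Jv u0 q f a < ⊤) (hne : (bad u0 q f θ K3).Nonempty) :
    0 < yx u0 q f θ K3 := by
  obtain ⟨δ, hδ, hg⟩ := eventually_good hf hfi hl h1 hq hθ hθ1 hK3 hJ
  refine lt_of_lt_of_le hδ (le_csInf hne ?_)
  intro y hy
  by_contra hcon
  push Not at hcon
  obtain ⟨h2, h3⟩ := hg y ⟨hy.1, hcon⟩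
  rcases hy.2 with h | h
  · exact absurd h2 (not_lt.2 h)
  · exact absurd h3 (not_lt.2 h)

theorem good_of_lt {y : ℝ} (hy : 0 < y) (hyx : y < yx u0 q f θ K3) :
    vv u0 f y < θ ∧ Jv u0 q f y < ENNReal.ofReal K3 := by
  have hnot : y ∉ bad u0 q f θ K3 := by
    intro hmem
    have : yx u0 q f θ K3 ≤ y := csInf_le ⟨0, fun z hz => hz.1.le⟩ hmem
    linarith
  simp only [bad, Set.mem_ofPred_eq, not_and, not_or, not_le] at hnot
  exact hnot hy

theorem vv_yx_le (hf : DifferentiableOn ℂ f Hs) (hl : LipschitzWith 1 u0) (h1 : ∀ p, 1 ≤ u0 p)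
    (hpos : 0 < yx u0 q f θ K3) : vv u0 f (yx u0 q f θ K3) ≤ θ := by
  set b := yx u0 q f θ K3 with hb
  have hc : ContinuousWithinAt (vv u0 f) (Iio b) b :=
    ((continuousOn_vv hf hl h1).continuousAt (Ioi_mem_nhds hpos)).continuousWithinAt
  refine le_of_tendsto hc ?_
  filter_upwards [Ioo_mem_nhdsLT hpos] with y hy
  exact (good_of_lt hy.1 hy.2).1.le

theorem Jv_yx_le (hf : DifferentiableOn ℂ f Hs) (hfi : InjOn f Hs) (h1 : ∀ p, 1 ≤ u0 p)
    (hq : 0 < q) (hpos : 0 < yx u0 q f θ K3) :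
    Jv u0 q f (yx u0 q f θ K3) ≤ ENNReal.ofReal K3 := by
  set b := yx u0 q f θ K3 with hb
  have hlim : Tendsto (fun y : ℝ => ENNReal.ofReal K3 + ENNReal.ofReal (Real.log (b / y)))
      (𝓝[<] b) (𝓝 (ENNReal.ofReal K3 + ENNReal.ofReal (Real.log (b / b)))) := by
    refine Tendsto.const_add _ ?_
    refine (ENNReal.continuous_ofReal.tendsto _).comp ?_
    have : ContinuousAt (fun y : ℝ => Real.log (b / y)) b := by
      refine ContinuousAt.log ?_ (by rw [div_self hpos.ne']; norm_num)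
      exact continuousAt_const.div continuousAt_id hpos.ne'
    exact this.tendsto.mono_left nhdsWithin_le_nhds
  rw [div_self hpos.ne', Real.log_one, ENNReal.ofReal_zero, add_zero] at hlim
  refine ge_of_tendsto hlim ?_
  filter_upwards [Ioo_mem_nhdsLT hpos] with y hy
  refine (Jv_le_add hf hfi h1 hq hy.1 hy.2.le).trans ?_
  gcongr
  exact (good_of_lt hy.1 hy.2).2.le

/-- case B: `J(yx) = K3`. -/
theorem le_Jv_yx (hf : DifferentiableOn ℂ f Hs) (hfi : InjOn f Hs) (hl : LipschitzWith 1 u0)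
    (h1 : ∀ p, 1 ≤ u0 p) (hq : 0 < q) (hne : (bad u0 q f θ K3).Nonempty)
    (hpos : 0 < yx u0 q f θ K3) (hB : vv u0 f (yx u0 q f θ K3) < θ) :
    ENNReal.ofReal K3 ≤ Jv u0 q f (yx u0 q f θ K3) := by
  set b := yx u0 q f θ K3 with hb
  have hlim : Tendsto (fun y : ℝ => Jv u0 q f b + ENNReal.ofReal (Real.log (y / b)))
      (𝓝[≥] b) (𝓝 (Jv u0 q f b + ENNReal.ofReal (Real.log (b / b)))) := by
    refine Tendsto.const_add _ ?_
    refine (ENNReal.continuous_ofReal.tendsto _).comp ?_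
    have : ContinuousAt (fun y : ℝ => Real.log (y / b)) b := by
      refine ContinuousAt.log ?_ (by rw [div_self hpos.ne']; norm_num)
      exact continuousAt_id.div continuousAt_const hpos.ne'
    exact this.tendsto.mono_left nhdsWithin_le_nhds
  rw [div_self hpos.ne', Real.log_one, ENNReal.ofReal_zero, add_zero] at hlim
  have hvc : ContinuousAt (vv u0 f) b := (continuousOn_vv hf hl h1).continuousAt (Ioi_mem_nhds hpos)
  have hev : ∀ᶠ y in 𝓝[≥] b, vv u0 f y < θ :=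
    (hvc.eventually (gt_mem_nhds hB)).filter_mono nhdsWithin_le_nhds
  have hfreq : ∃ᶠ y in 𝓝[≥] b, y ∈ bad u0 q f θ K3 := by
    intro hcon
    obtain ⟨δ, hδ, hsub⟩ := (mem_nhdsGE_iff_exists_Ico_subset).1 hcon
    obtain ⟨y, hy, hyδ⟩ := exists_lt_of_csInf_lt hne (show sInf (bad u0 q f θ K3) < δ from hδ)
    exact hsub ⟨csInf_le ⟨0, fun z hz => hz.1.le⟩ hy, hyδ⟩ hy
  refine ge_of_tendsto_of_frequently hlim ?_
  refine (hfreq.and_eventually (hev.and self_mem_nhdsWithin)).mono ?_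
  rintro y ⟨hy, hvy, hby⟩
  have hJy : ENNReal.ofReal K3 ≤ Jv u0 q f y := by
    rcases hy.2 with h | h
    · exact absurd hvy (not_lt.2 h)
    · exact h
  exact hJy.trans (Jv_le_add hf hfi h1 hq hpos hby)

/-! ## (P1), (P2), (P3) -/

theorem p1_below (hf : DifferentiableOn ℂ f Hs) (hfi : InjOn f Hs) (hl : LipschitzWith 1 u0)
    (h1 : ∀ p, 1 ≤ u0 p) (hq : 0 < q) (hq1 : q < 1) (hθ1 : θ ≤ 1) (hK3 : 0 < K3)
    (hsmall : K3 * θ ^ (1 - q) ≤ 1 / 130) {b : ℝ} (hv : ∀ s ∈ Ioc 0 b, vv u0 f s ≤ θ)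
    (hJ : Jv u0 q f b ≤ ENNReal.ofReal K3) {y : ℝ} (hy : 0 < y) (hyb : y ≤ b) :
    ‖f ((y : ℂ) * Complex.I) - f ((b : ℂ) * Complex.I)‖ ≤ u0 (f ((b : ℂ) * Complex.I)) / 129 := by
  have hsub : Icc y b ⊆ Ioi 0 := fun s hs => lt_of_lt_of_le hy hs.1
  have hcont : ContinuousOn (fun s : ℝ => ‖f ((s : ℂ) * Complex.I) - f ((b : ℂ) * Complex.I)‖)
      (Icc y b) := (((continuousOn_f hf).mono hsub).sub continuousOn_const).norm
  obtain ⟨s0, hs0, hmax⟩ := isCompact_Icc.exists_isMaxOn ⟨y, left_mem_Icc.2 hyb⟩ hcont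
  set D := ‖f ((s0 : ℂ) * Complex.I) - f ((b : ℂ) * Complex.I)‖ with hD
  set V := u0 (f ((b : ℂ) * Complex.I)) with hV
  have hVpos : 0 < V := u0_pos h1 _
  have hD0 : 0 ≤ D := norm_nonneg _
  have hs00 : 0 < s0 := hsub hs0
  have hθ0 : 0 < θ := lt_of_lt_of_le (vv_pos hf hfi h1 hs00) (hv s0 ⟨hs00, hs0.2⟩)
  have e1 : D ≤ ∫ s in s0..b, ups f ((s : ℂ) * Complex.I) / s := by
    rw [hD, norm_sub_rev]
    exact norm_sub_le_integral hf hs00 hs0.2
  have hsubu : Set.uIcc s0 b ⊆ Ioi 0 := by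
    rw [uIcc_of_le hs0.2]
    exact fun s hs => lt_of_lt_of_le hs00 hs.1
  have i1 : IntervalIntegrable (fun s : ℝ => ups f ((s : ℂ) * Complex.I) / s) volume s0 b :=
    (((continuousOn_ups hf).div continuousOn_id
      (fun s hs => (ne_of_gt hs))).mono hsubu).intervalIntegrable
  have i2 : IntervalIntegrable (fun s : ℝ => (V + D) * θ ^ (1 - q) *
      ((min (vv u0 f s) 1) ^ q / s)) volume s0 b :=
    (((continuousOn_gq hf hl h1 hq).mono hsubu).intervalIntegrable).const_mul _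
  have e2 : ∫ s in s0..b, ups f ((s : ℂ) * Complex.I) / s ≤
      ∫ s in s0..b, (V + D) * θ ^ (1 - q) * ((min (vv u0 f s) 1) ^ q / s) := by
    refine intervalIntegral.integral_mono_on hs0.2 i1 i2 fun s hs => ?_
    have hs1 : 0 < s := lt_of_lt_of_le hs00 hs.1
    have hvs := hv s ⟨hs1, hs.2⟩
    have hvpos := vv_pos hf hfi h1 (f := f) (u0 := u0) hs1
    have hmin : min (vv u0 f s) 1 = vv u0 f s := min_eq_left (hvs.trans hθ1)
    have hup : 0 < u0 (f ((s : ℂ) * Complex.I)) := u0_pos h1 _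
    have hu : ups f ((s : ℂ) * Complex.I) = vv u0 f s * u0 (f ((s : ℂ) * Complex.I)) := by
      rw [vv, div_mul_cancel₀ _ hup.ne']
    have hVD : u0 (f ((s : ℂ) * Complex.I)) ≤ V + D := by
      have h2 := (abs_le.1 (u0_sub_le hl (f ((s : ℂ) * Complex.I)) (f ((b : ℂ) * Complex.I)))).2
      have h3 : ‖f ((s : ℂ) * Complex.I) - f ((b : ℂ) * Complex.I)‖ ≤ D :=
        hmax ⟨hs0.1.trans hs.1, hs.2⟩
      linarith
    have hvq : vv u0 f s ≤ θ ^ (1 - q) * vv u0 f s ^ q := by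
      calc vv u0 f s = vv u0 f s ^ (1 - q) * vv u0 f s ^ q := by
            rw [← Real.rpow_add hvpos]; simp
        _ ≤ _ := by
            have : vv u0 f s ^ (1 - q) ≤ θ ^ (1 - q) :=
              Real.rpow_le_rpow hvpos.le hvs (by linarith)
            gcongr
    rw [hmin, hu]
    have hqpos : 0 < vv u0 f s ^ q := Real.rpow_pos_of_pos hvpos q
    have hθq : 0 < θ ^ (1 - q) := Real.rpow_pos_of_pos hθ0 _
    calc vv u0 f s * u0 (f ((s : ℂ) * Complex.I)) / s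
        ≤ (θ ^ (1 - q) * vv u0 f s ^ q) * (V + D) / s := by gcongr
      _ = (V + D) * θ ^ (1 - q) * (vv u0 f s ^ q / s) := by ring
  have e3 : ∫ s in s0..b, (V + D) * θ ^ (1 - q) * ((min (vv u0 f s) 1) ^ q / s) ≤
      (V + D) * θ ^ (1 - q) * K3 := by
    rw [intervalIntegral.integral_const_mul]
    have := integral_le_of_Jv_le hf hfi hl h1 hq hK3.le hs00 hs0.2 hJ
    have hθq : 0 < θ ^ (1 - q) := Real.rpow_pos_of_pos hθ0 _
    gcongr
  have e4 : D ≤ (V + D) / 130 := by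
    calc D ≤ (V + D) * θ ^ (1 - q) * K3 := e1.trans (e2.trans e3)
      _ = (V + D) * (K3 * θ ^ (1 - q)) := by ring
      _ ≤ (V + D) * (1 / 130) := by gcongr
      _ = (V + D) / 130 := by ring
  have e5 : ‖f ((y : ℂ) * Complex.I) - f ((b : ℂ) * Complex.I)‖ ≤ D :=
    hmax (left_mem_Icc.2 hyb)
  linarith

theorem p1_above (hf : DifferentiableOn ℂ f Hs) (hfi : InjOn f Hs)
    (h1 : ∀ p, 1 ≤ u0 p) {b M : ℝ} (hb : 0 < b) (hv : vv u0 f b ≤ θ) {y : ℝ} (hby : b ≤ y)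
    (hyM : y ≤ M * b) :
    ups f ((y : ℂ) * Complex.I) ≤ M ^ 2 * θ * u0 (f ((b : ℂ) * Complex.I)) ∧
    ‖f ((y : ℂ) * Complex.I) - f ((b : ℂ) * Complex.I)‖ ≤
      M ^ 2 / 2 * θ * u0 (f ((b : ℂ) * Complex.I)) := by
  have hV : 0 < u0 (f ((b : ℂ) * Complex.I)) := u0_pos h1 _
  have hU : ups f ((b : ℂ) * Complex.I) ≤ θ * u0 (f ((b : ℂ) * Complex.I)) := by
    rwa [vv, div_le_iff₀ hV] at hv
  have hU0 : 0 < ups f ((b : ℂ) * Complex.I) := ups_pos hf hfi (by simpa using hb)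
  have hyb : y / b ≤ M := by rwa [div_le_iff₀ hb]
  have hyb1 : 1 ≤ y / b := by rw [le_div_iff₀ hb]; linarith
  have hsq : (y / b) ^ 2 ≤ M ^ 2 := by gcongr
  have e1 := ups_up hf hfi hb hby
  have e2 := norm_sub_le_up hf hfi hb hby
  have hθV : 0 ≤ θ * u0 (f ((b : ℂ) * Complex.I)) := hU0.le.trans hU
  constructor
  · calc ups f ((y : ℂ) * Complex.I) ≤ ups f ((b : ℂ) * Complex.I) * (y / b) ^ 2 := e1
      _ ≤ (θ * u0 (f ((b : ℂ) * Complex.I))) * M ^ 2 :=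
          mul_le_mul hU hsq (by positivity) hθV
      _ = _ := by ring
  · calc ‖f ((y : ℂ) * Complex.I) - f ((b : ℂ) * Complex.I)‖
        ≤ ups f ((b : ℂ) * Complex.I) * (((y / b) ^ 2 - 1) / 2) := e2
      _ ≤ ups f ((b : ℂ) * Complex.I) * (M ^ 2 / 2) := by gcongr; linarith
      _ ≤ (θ * u0 (f ((b : ℂ) * Complex.I))) * (M ^ 2 / 2) :=
          mul_le_mul_of_nonneg_right hU (by positivity)
      _ = _ := by ring

/-- **LB0**: the facts (P1), (P2), (P3) about the old geodesic up to `10 ρ₁`. -/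
theorem geo (hf : DifferentiableOn ℂ f Hs) (hfi : InjOn f Hs) (hl : LipschitzWith 1 u0)
    (h1 : ∀ p, 1 ≤ u0 p) (hq : 0 < q) (hq1 : q < 1) (hθ : 0 < θ) (hK3 : 0 < K3) (hK4 : 1 ≤ K4)
    (hsm1 : K3 * θ ^ (1 - q) ≤ 1 / 130) (hsm2 : 3200 * K4 ^ 2 * θ ≤ 1)
    (hJ : ∃ a, 0 < a ∧ Jv u0 q f a < ⊤) (hne : (bad u0 q f θ K3).Nonempty) :
    0 < yx u0 q f θ K3 ∧ 0 < rho1 u0 q f θ K3 K4 ∧
    yx u0 q f θ K3 ≤ 10 * rho1 u0 q f θ K3 K4 ∧
    (∀ y, 0 < y → y ≤ 10 * rho1 u0 q f θ K3 K4 →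
      ‖f ((y : ℂ) * Complex.I) - f ((yx u0 q f θ K3 : ℂ) * Complex.I)‖ ≤
        u0 (f ((yx u0 q f θ K3 : ℂ) * Complex.I)) / 64) ∧
    (∀ y, 0 < y → y ≤ 10 * rho1 u0 q f θ K3 K4 → vv u0 f y ≤ 102 * K4 ^ 2 * θ) ∧
    Jv u0 q f (10 * rho1 u0 q f θ K3 K4) ≤ ENNReal.ofReal (K3 + Real.log (10 * K4)) := by
  have hK42 : 1 ≤ K4 ^ 2 := one_le_pow₀ hK4
  have hθ1 : θ ≤ 1 := by nlinarith
  have hb := yx_pos hf hfi hl h1 hq hθ hθ1 hK3 hJ hne
  have hvb := vv_yx_le hf hl h1 hb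
  have hJb := Jv_yx_le hf hfi h1 hq hb
  have hvle : ∀ s ∈ Ioc 0 (yx u0 q f θ K3), vv u0 f s ≤ θ := by
    intro s hs
    rcases hs.2.lt_or_eq with h | h
    · exact (good_of_lt hs.1 h).1.le
    · rw [h]; exact hvb
  have hlog : 0 ≤ Real.log (10 * K4) := Real.log_nonneg (by linarith)
  set b := yx u0 q f θ K3 with hbdef
  set V := u0 (f ((b : ℂ) * Complex.I)) with hV
  have hVpos : 0 < V := u0_pos h1 _
  have hbelow : ∀ y, 0 < y → y ≤ b →
      ‖f ((y : ℂ) * Complex.I) - f ((b : ℂ) * Complex.I)‖ ≤ V / 64 := fun y hy hyb =>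
    (p1_below hf hfi hl h1 hq hq1 hθ1 hK3 hsm1 hvle hJb hy hyb).trans (by
      have : V / 129 ≤ V / 64 := by gcongr; norm_num
      exact this)
  have hθK : θ ≤ 102 * K4 ^ 2 * θ := by nlinarith
  unfold rho1
  rw [← hbdef]
  split_ifs with hA
  · have hten : 10 * (K4 * b) = (10 * K4) * b := by ring
    have hb1 : b ≤ (10 * K4) * b := by nlinarith
    have habove : ∀ y, b ≤ y → y ≤ (10 * K4) * b →
        ups f ((y : ℂ) * Complex.I) ≤ (10 * K4) ^ 2 * θ * V ∧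
        ‖f ((y : ℂ) * Complex.I) - f ((b : ℂ) * Complex.I)‖ ≤ (10 * K4) ^ 2 / 2 * θ * V :=
      fun y h2 h3 => p1_above hf hfi h1 hb hvb h2 h3
    have hsm3 : (10 * K4) ^ 2 / 2 * θ * V ≤ V / 64 := by
      have : (10 * K4) ^ 2 / 2 * θ ≤ 1 / 64 := by nlinarith
      calc (10 * K4) ^ 2 / 2 * θ * V ≤ 1 / 64 * V := by gcongr
        _ = V / 64 := by ring
    rw [hten]
    have hP1 : ∀ y, 0 < y → y ≤ 10 * K4 * b →
        ‖f ((y : ℂ) * Complex.I) - f ((b : ℂ) * Complex.I)‖ ≤ V / 64 := by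
      intro y hy hy2
      rcases le_total y b with h | h
      · exact hbelow y hy h
      · exact (habove y h hy2).2.trans hsm3
    refine ⟨hb, by positivity, hb1, hP1, ?_, ?_⟩
    · intro y hy hy2
      rcases le_total y b with h | h
      · exact (hvle y ⟨hy, h⟩).trans hθK
      · have h3 := (habove y h hy2).1
        have h4 := (abs_le.1 (u0_sub_le hl (f ((y : ℂ) * Complex.I))
          (f ((b : ℂ) * Complex.I)))).1
        have h5 := hP1 y hy hy2
        have h6 : 63 / 64 * V ≤ u0 (f ((y : ℂ) * Complex.I)) := by linarith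
        have h7 : 0 < u0 (f ((y : ℂ) * Complex.I)) := u0_pos h1 _
        rw [vv, div_le_iff₀ h7]
        calc ups f ((y : ℂ) * Complex.I) ≤ (10 * K4) ^ 2 * θ * V := h3
          _ ≤ 102 * K4 ^ 2 * θ * (63 / 64 * V) := by
              have : 0 ≤ K4 ^ 2 * θ * V := by positivity
              nlinarith
          _ ≤ _ := by gcongr
    · have h2 := Jv_le_add hf hfi h1 hq hb hb1
      rw [mul_div_assoc, div_self hb.ne', mul_one] at h2
      rw [ENNReal.ofReal_add hK3.le hlog]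
      exact h2.trans (by gcongr)
  · have hten : 10 * (b / 10) = b := by ring
    rw [hten]
    refine ⟨hb, by positivity, le_rfl, hbelow, ?_, ?_⟩
    · intro y hy hy2
      exact (hvle y ⟨hy, hy2⟩).trans hθK
    · rw [ENNReal.ofReal_add hK3.le hlog]
      exact hJb.trans le_self_add

/-! ## finiteness of `J` and existence of the base point -/

/-- `Psi` of LB1 along the vertical ray. -/
noncomputable def Psi (u0 : ℂ → ℝ) (q eta : ℝ) (f : ℂ → ℂ) (z : ℂ) : ℝ :=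
  (ups f z) ^ q * (max (ups f z) (u0 (f z))) ^ (-q - eta)

/-- the potential `Lam` of LB1. -/
noncomputable def Lam (u0 : ℂ → ℝ) (q eta : ℝ) (f : ℂ → ℂ) : ℝ≥0∞ :=
  ∫⁻ y in Ioi (0 : ℝ), ENNReal.ofReal (Psi u0 q eta f ((y : ℂ) * Complex.I) / y)

/-- `min(v,1)^q = Psi * m^eta`. -/
theorem min_rpow_eq (hf : DifferentiableOn ℂ f Hs) (hfi : InjOn f Hs) (h1 : ∀ p, 1 ≤ u0 p)
    {eta y : ℝ} (hy : 0 < y) :
    (min (vv u0 f y) 1) ^ q = Psi u0 q eta f ((y : ℂ) * Complex.I) *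
      (max (ups f ((y : ℂ) * Complex.I)) (u0 (f ((y : ℂ) * Complex.I)))) ^ eta := by
  set U := ups f ((y : ℂ) * Complex.I) with hU
  set V := u0 (f ((y : ℂ) * Complex.I)) with hV
  have hUpos : 0 < U := ups_pos hf hfi (by simpa using hy)
  have hVpos : 0 < V := u0_pos h1 _
  have hm : 0 < max U V := lt_max_of_lt_left hUpos
  have hmin : min (vv u0 f y) 1 = U / max U V := by
    rw [vv, ← hU, ← hV]
    rcases le_total U V with h | h
    · rw [max_eq_right h, min_eq_left]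
      rwa [div_le_one hVpos]
    · rw [max_eq_left h, min_eq_right, div_self hUpos.ne']
      rwa [one_le_div hVpos]
  rw [hmin, Psi, ← hU, ← hV, Real.div_rpow hUpos.le hm.le, mul_assoc, ← Real.rpow_add hm]
  rw [show -q - eta + eta = -q by ring, Real.rpow_neg hm.le]
  rfl

/-- `Lam < ∞` and `f(iy)` bounded for `y ∈ (0,1]` give `J < ∞`. -/
theorem Jv_lt_top (hf : DifferentiableOn ℂ f Hs) (hfi : InjOn f Hs) (hl : LipschitzWith 1 u0)
    (h1 : ∀ p, 1 ≤ u0 p) (hq : 0 < q) {eta M : ℝ} (heta : 0 ≤ eta)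
    (hM : ∀ y : ℝ, 0 < y → y ≤ 1 → ‖f ((y : ℂ) * Complex.I)‖ ≤ M)
    (hLam : Lam u0 q eta f < ⊤) (y : ℝ) : Jv u0 q f y < ⊤ := by
  refine Jv_lt_top_of hf hfi h1 hq (a := 1 / 2) (by norm_num) ?_ y
  have hl2 : 0 < Real.log 2 := Real.log_pos (by norm_num)
  have hl21 : Real.log 2 ≤ 1 := by
    have := Real.log_two_lt_d9; linarith
  set M' : ℝ := max (10 * M / Real.log 2) (u0 0 + M) with hM'
  have hM0 : 0 ≤ M := (norm_nonneg _).trans (hM 1 one_pos le_rfl)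
  have hM'pos : 0 < M' := lt_max_of_lt_right (by have := h1 0; linarith)
  have hm : ∀ s : ℝ, 0 < s → s ≤ 1 / 2 →
      max (ups f ((s : ℂ) * Complex.I)) (u0 (f ((s : ℂ) * Complex.I))) ≤ M' := by
    intro s hs hs2
    refine max_le (le_max_of_le_left ?_) (le_max_of_le_right ?_)
    · have h2s : 0 < 2 * s := by positivity
      have h2ss : 2 * s / s = 2 := by field_simp
      have h2 := ups_min_le_norm_sub hf hfi (z := (s : ℂ) * Complex.I)
        (w := ((2 * s : ℝ) : ℂ) * Complex.I) (by simpa using hs) (by simpa using hs)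
      rw [hd_vert (by simpa using hs) (by simpa using hs) (by simp), im_yI, im_yI, abs_sub_comm,
        ← Real.log_div h2s.ne' hs.ne', h2ss, abs_of_pos hl2, min_eq_right hl21] at h2
      have h3 : ‖f (((2 * s : ℝ) : ℂ) * Complex.I) - f ((s : ℂ) * Complex.I)‖ ≤ 2 * M := by
        refine (norm_sub_le _ _).trans ?_
        have := hM s hs (by linarith)
        have := hM (2 * s) h2s (by linarith)
        linarith
      rw [le_div_iff₀ hl2]
      linarith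
    · have h2 := (abs_le.1 (u0_sub_le hl (f ((s : ℂ) * Complex.I)) 0)).2
      rw [sub_zero] at h2
      have := hM s hs (by linarith)
      linarith
  have hbound : Jv u0 q f (1 / 2) ≤ ENNReal.ofReal (M' ^ eta) * Lam u0 q eta f := by
    unfold Jv Lam
    rw [← lintegral_const_mul' _ _ ENNReal.ofReal_ne_top]
    refine le_trans (setLIntegral_mono' measurableSet_Ioc fun s hs => ?_)
      (lintegral_mono_set (Ioc_subset_Ioi_self))
    rw [← ENNReal.ofReal_mul (by positivity)]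
    refine ENNReal.ofReal_le_ofReal ?_
    rw [min_rpow_eq (eta := eta) hf hfi h1 hs.1]
    have hU : 0 < ups f ((s : ℂ) * Complex.I) := ups_pos hf hfi (by simpa using hs.1)
    have hmm : 0 < max (ups f ((s : ℂ) * Complex.I)) (u0 (f ((s : ℂ) * Complex.I))) :=
      lt_max_of_lt_left hU
    have hPsi : 0 ≤ Psi u0 q eta f ((s : ℂ) * Complex.I) := by
      unfold Psi; positivity
    have hs0 : 0 < s := hs.1
    rw [← mul_div_assoc, mul_comm (M' ^ eta)]
    have := Real.rpow_le_rpow hmm.le (hm s hs.1 hs.2) heta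
    gcongr
  exact hbound.trans_lt (ENNReal.mul_lt_top ENNReal.ofReal_lt_top hLam)

/-- Existence of a level with `v ≥ θ`, from the normalisation at infinity. -/
theorem exists_le_vv (hf : DifferentiableOn ℂ f Hs) (hfi : InjOn f Hs)
    (h1 : ∀ p, 1 ≤ u0 p) (hθ2 : θ ≤ 1 / 2) {C C' Y : ℝ}
    (hu : ∀ p, u0 p ≤ C' + ‖p‖)
    (hC : ∀ y : ℝ, Y ≤ y → ‖f ((y : ℂ) * Complex.I) - (y : ℂ) * Complex.I‖ ≤ C) :
    ∃ y, 0 < y ∧ θ ≤ vv u0 f y := by
  have hC0 : 0 ≤ C := (norm_nonneg _).trans (hC Y le_rfl)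
  have hC'0 : 0 ≤ C' + 0 := by have := hu 0; have := h1 0; rw [norm_zero] at *; linarith
  set y := max (max Y 1) (3 * C' + 11 * C) with hy
  have hy1 : 1 ≤ y := (le_max_right Y 1).trans (le_max_left _ _)
  have hyY : Y ≤ y := (le_max_left Y 1).trans (le_max_left _ _)
  have hy3 : 3 * C' + 11 * C ≤ y := le_max_right _ _
  have hy0 : 0 < y := by linarith
  refine ⟨y, hy0, ?_⟩
  have e1 := norm_sub_le_up hf hfi hy0 (show y ≤ 2 * y by linarith)
  rw [mul_div_assoc, div_self hy0.ne', mul_one] at e1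
  have e2 := hC y hyY
  have e3 := hC (2 * y) (by linarith)
  have e4 : y ≤ ‖f (((2 * y : ℝ) : ℂ) * Complex.I) - f ((y : ℂ) * Complex.I)‖ + 2 * C := by
    have h5 : ((2 * y : ℝ) : ℂ) * Complex.I - (y : ℂ) * Complex.I =
        (f (((2 * y : ℝ) : ℂ) * Complex.I) - f ((y : ℂ) * Complex.I)) -
        (f (((2 * y : ℝ) : ℂ) * Complex.I) - ((2 * y : ℝ) : ℂ) * Complex.I) +
        (f ((y : ℂ) * Complex.I) - (y : ℂ) * Complex.I) := by ring
    have h6 : ‖((2 * y : ℝ) : ℂ) * Complex.I - (y : ℂ) * Complex.I‖ = y := by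
      rw [← sub_mul, norm_mul, Complex.norm_I, mul_one, ← Complex.ofReal_sub,
        Complex.norm_real, Real.norm_eq_abs, show 2 * y - y = y by ring, abs_of_pos hy0]
    have h7 := norm_add_le ((f (((2 * y : ℝ) : ℂ) * Complex.I) - f ((y : ℂ) * Complex.I)) -
        (f (((2 * y : ℝ) : ℂ) * Complex.I) - ((2 * y : ℝ) : ℂ) * Complex.I))
        (f ((y : ℂ) * Complex.I) - (y : ℂ) * Complex.I)
    have h8 := norm_sub_le (f (((2 * y : ℝ) : ℂ) * Complex.I) - f ((y : ℂ) * Complex.I))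
        (f (((2 * y : ℝ) : ℂ) * Complex.I) - ((2 * y : ℝ) : ℂ) * Complex.I)
    rw [← h5, h6] at h7
    linarith
  have e5 : ‖f ((y : ℂ) * Complex.I)‖ ≤ y + C := by
    have h9 := norm_sub_le (f ((y : ℂ) * Complex.I) - (y : ℂ) * Complex.I)
      (-((y : ℂ) * Complex.I))
    rw [sub_neg_eq_add, sub_add_cancel, norm_neg, norm_mul, Complex.norm_I, mul_one,
      Complex.norm_real, Real.norm_eq_abs, abs_of_pos hy0] at h9
    linarith
  have e6 := hu (f ((y : ℂ) * Complex.I))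
  have hV : 0 < u0 (f ((y : ℂ) * Complex.I)) := u0_pos h1 _
  rw [vv, le_div_iff₀ hV]
  have hVle : u0 (f ((y : ℂ) * Complex.I)) ≤ C' + (y + C) := by linarith
  calc θ * u0 (f ((y : ℂ) * Complex.I)) ≤ 1 / 2 * u0 (f ((y : ℂ) * Complex.I)) := by gcongr
    _ ≤ 1 / 2 * (C' + (y + C)) := by gcongr
    _ ≤ ups f ((y : ℂ) * Complex.I) := by linarith

theorem bad_nonempty (hf : DifferentiableOn ℂ f Hs) (hfi : InjOn f Hs)
    (h1 : ∀ p, 1 ≤ u0 p) (hθ2 : θ ≤ 1 / 2) {C C' : ℝ} (hu : ∀ p, u0 p ≤ C' + ‖p‖)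
    (hC : ∀ z ∈ Hs, ‖f z - z‖ ≤ C) : (bad u0 q f θ K3).Nonempty := by
  obtain ⟨y, hy, hv⟩ := exists_le_vv (Y := 1) (C := C) (C' := C') hf hfi h1 hθ2 hu
    (fun y hy => hC _ (mem_Hs (by linarith)))
  exact ⟨y, hy, Or.inl hv⟩


/-- consequences of (P1) -/
theorem u0_comparable (hl : LipschitzWith 1 u0) {p x : ℂ} (hp : ‖p - x‖ ≤ u0 x / 64) :
    63 / 64 * u0 x ≤ u0 p ∧ u0 p ≤ 65 / 64 * u0 x := by
  have h := abs_le.1 (u0_sub_le hl p x)
  constructor <;> linarith [h.1, h.2]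

end Crest.Agent.R162.LB0
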