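import Mathlib
import Crest.Agent.R162.FLDef
import Crest.Agent.R162.FLC2
import Crest.Agent.R162.Base
import Crest.Agent.R162.KB1

/-!
Row 162 (S0243), LOWER BOUND: FROZEN definitions of blueprint part 3 (note 14736) in the captain's
format (note 14843 + LB FIX 1, 2), owner helper888.

* `f : ℂ → ℂ` is the FIXED univalent state map (`DifferentiableOn`, `InjOn` on `{0 < im}`),
  `W : ℝ → ℝ` the FRESH driving path (time `0` = the stopping time); `f_t = f ∘ ffl W t`.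
* `u0 : ℂ → ℝ` abstract, `1`-Lipschitz, `≥ 1`; `B : Set ℂ` with `u0 ≤ max 1 (dist · w)`, `w ∈ B`.
* every possibly infinite integral is an `lintegral` with values in `ℝ≥0∞`.
* everything about points is in the `z`-coordinate (`w = f z`); dead points have `ups = 0`, so
  they have density `0`.
-/

set_option autoImplicit false

open Set MeasureTheory Complex
open scoped ENNReal

namespace Crest.Agent.R162.LB

open Crest.Agent.R162.FL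
open Crest.Agent.R162.OP (sfl gr)

/-! ### the state functionals of a univalent map `f` (vocabulary of 791 / 411) -/

/-- `v(y) = Υ_f(iy) / u₀(f(iy))` -/
noncomputable def vv (u0 : ℂ → ℝ) (f : ℂ → ℂ) (y : ℝ) : ℝ := KB1.ups f (y * I) / u0 (f (y * I))

/-- `m = max Υ_f (u₀ ∘ f)` -/
noncomputable def mm (u0 : ℂ → ℝ) (f : ℂ → ℂ) (z : ℂ) : ℝ := max (KB1.ups f z) (u0 (f z))

/-- `Ψ = u^q m^{-q-η'}` -/
noncomputable def Psi (u0 : ℂ → ℝ) (q η : ℝ) (f : ℂ → ℂ) (z : ℂ) : ℝ :=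
  KB1.ups f z ^ q * mm u0 f z ^ (-q - η)

/-- the potential `Λ(f) = ∫_0^∞ Ψ(iy) dy/y` -/
noncomputable def Lam (u0 : ℂ → ℝ) (q η : ℝ) (f : ℂ → ℂ) : ℝ≥0∞ :=
  ∫⁻ y in Set.Ioi (0 : ℝ), ENNReal.ofReal (Psi u0 q η f (y * I) / y)

/-- `J(y) = ∫_0^y min(v,1)^q ds/s` -/
noncomputable def Jv (u0 : ℂ → ℝ) (q : ℝ) (f : ℂ → ℂ) (y : ℝ) : ℝ≥0∞ :=
  ∫⁻ s in Set.Ioc (0 : ℝ) y, ENNReal.ofReal ((min (vv u0 f s) 1) ^ q / s)

/-- the physical set `{w ∈ D : Υ_D(w) ≥ θ₁ u₀(w)}`, `D = f(ℍ)` -/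
def areaSet (u0 : ℂ → ℝ) (θ1 : ℝ) (f : ℂ → ℂ) : Set ℂ :=
  {w | ∃ z : ℂ, 0 < z.im ∧ f z = w ∧ θ1 * u0 w ≤ KB1.ups f z}

/-- the area functional `A(f) = ∫ 1{w ∈ D, Υ_D(w) ≥ θ₁ u₀(w)} u₀(w)^{-2-η'} dw` -/
noncomputable def area (u0 : ℂ → ℝ) (η θ1 : ℝ) (f : ℂ → ℂ) : ℝ≥0∞ :=
  ∫⁻ w in areaSet u0 θ1 f, ENNReal.ofReal (u0 w ^ (-2 - η))

/-- `y_x = inf {y > 0 : v(y) ≥ θ or J(y) ≥ K₃}` (LB FIX 1) -/
noncomputable def yx (u0 : ℂ → ℝ) (q : ℝ) (f : ℂ → ℂ) (θ K3 : ℝ) : ℝ :=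
  sInf {y | 0 < y ∧ (θ ≤ vv u0 f y ∨ ENNReal.ofReal K3 ≤ Jv u0 q f y)}

/-! ### radius and clocks of the fresh path -/

/-- `ρ_t = max (√t) (sup_{s ≤ t} |W_s|)` -/
noncomputable def rad (W : ℝ → ℝ) (t : ℝ) : ℝ :=
  max (Real.sqrt t) (sSup ((fun s => |W s|) '' Set.Icc 0 t))

/-! ### content -/

/-- the bump `χ` on `[1,2]`, `∫ χ(v) dv/v = 1` -/
noncomputable def chi (v : ℝ) : ℝ := if 1 ≤ v ∧ v ≤ 2 then (Real.log 2)⁻¹ else 0

/-- density in time of the content carried by `z` under a state map with `|f'(z)| = lam`: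
`χ(Υ/ε) Υ^{d-2} S^b 1{S ≥ c₁} 4 S² |Z|^{-2}`, `Υ = lam · ups W s z` -/
noncomputable def cd (κ ε c1 lam : ℝ) (W : ℝ → ℝ) (s : ℝ) (z : ℂ) : ℝ :=
  chi (lam * OP.ups W s z / ε) * (lam * OP.ups W s z) ^ (κ / 8 - 1) * sfl W s z ^ (8 / κ - 1) *
    (if c1 ≤ sfl W s z then 1 else 0) * (4 * sfl W s z ^ 2 / ‖Zfl W s z‖ ^ 2)

/-- content per unit physical area carried by `z` collected at times `s ∈ E` -/
noncomputable def cz (κ ε c1 lam : ℝ) (W : ℝ → ℝ) (E : Set ℝ) (z : ℂ) : ℝ≥0∞ :=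
  ∫⁻ s in E, ENNReal.ofReal (cd κ ε c1 lam W s z)

/-- content of the physical set `B` collected at times `s ∈ E`, state map `f`, fresh path `W`
(pulled back to `z`, `w = f z`) -/
noncomputable def content (κ ε c1 : ℝ) (f : ℂ → ℂ) (W : ℝ → ℝ) (E : Set ℝ) (B : Set ℂ) : ℝ≥0∞ :=
  ∫⁻ z in {z : ℂ | 0 < z.im ∧ f z ∈ B},
    ENNReal.ofReal (‖deriv f z‖ ^ 2) * cz κ ε c1 ‖deriv f z‖ W E z

/-- the global content of the point `w` collected during `(0,t]` -/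
noncomputable def Ct (κ ε c1 : ℝ) (W : ℝ → ℝ) (t : ℝ) (w : ℂ) : ℝ≥0∞ :=
  cz κ ε c1 1 W (Set.Ioc 0 t) w

/-- the measure `μ^ε_t(dw) = C_t(w) dw` -/
noncomputable def mu (κ ε c1 : ℝ) (W : ℝ → ℝ) (t : ℝ) : Measure ℂ :=
  volume.withDensity (Ct κ ε c1 W t)

/-- time window `0 < s ≤ t`, `2^k ≤ ρ_s < 2^{k+1}` -/
def win (W : ℝ → ℝ) (t : ℝ) (k : ℤ) : Set ℝ :=
  {s | 0 < s ∧ s ≤ t ∧ (2 : ℝ) ^ k ≤ rad W s ∧ rad W s < (2 : ℝ) ^ (k + 1)}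

/-! ### parameters -/

/-- the parameters of the lower bound -/
structure Par where
  /-- the SLE parameter -/
  κ : ℝ
  /-- level of the content -/
  ε : ℝ
  /-- cutoff `S ≥ c₁` in the content -/
  c1 : ℝ
  /-- exponent `q` -/
  q : ℝ
  /-- exponent `η'` -/
  η : ℝ
  /-- threshold `θ` (`θ₁ = θ/10`) -/
  θ : ℝ
  /-- `K₃` -/
  K3 : ℝ
  /-- `K₄` -/
  K4 : ℝ
  /-- `c*` -/
  cs : ℝ
  /-- `u₀` -/
  u0 : ℂ → ℝ
  /-- the physical ball `B_R` -/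
  B : Set ℂ

/-- standing assumptions on `u₀` and `B` -/
structure Par.Adm (p : Par) : Prop where
  lip : LipschitzWith 1 p.u0
  one_le : ∀ z, 1 ≤ p.u0 z
  meas : MeasurableSet p.B
  le_dist : ∀ w ∈ p.B, ∀ z, p.u0 z ≤ max 1 (dist z w)

namespace Par

variable (p : Par)

/-- `Λ(f)` -/
noncomputable abbrev Λ (f : ℂ → ℂ) : ℝ≥0∞ := Lam p.u0 p.q p.η f

/-- `A(f)`, `θ₁ = θ/10` -/
noncomputable abbrev A (f : ℂ → ℂ) : ℝ≥0∞ := area p.u0 p.η (p.θ / 10) f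

/-- `y_x` -/
noncomputable abbrev y (f : ℂ → ℂ) : ℝ := yx p.u0 p.q f p.θ p.K3

/-- `x = f(i y_x)` -/
noncomputable def x (f : ℂ → ℂ) : ℂ := f (p.y f * I)

/-- case A: `v(y_x) ≥ θ` -/
def CaseA (f : ℂ → ℂ) : Prop := p.θ ≤ vv p.u0 f (p.y f)

open Classical in
/-- `ρ₁ = K₄ y_x` in case A, `y_x / 10` in case B -/
noncomputable def rho1 (f : ℂ → ℂ) : ℝ := if p.CaseA f then p.K4 * p.y f else p.y f / 10

/-- `ϖ = u₀(x)^{-η'}` -/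
noncomputable def varpi (f : ℂ → ℂ) : ℝ := p.u0 (p.x f) ^ (-p.η)

/-- the near part `B ∩ ball (x, u₀(x)/4)` (empty if `u₀(x) > 1`) -/
def near (f : ℂ → ℂ) : Set ℂ := p.B ∩ Metric.ball (p.x f) (p.u0 (p.x f) / 4)

/-- content of `B` collected at times `s ∈ E` -/
noncomputable def cont (f : ℂ → ℂ) (W : ℝ → ℝ) (E : Set ℝ) : ℝ≥0∞ :=
  content p.κ p.ε p.c1 f W E p.B

/-- near content collected at times `s ∈ E` -/
noncomputable def nearC (f : ℂ → ℂ) (W : ℝ → ℝ) (E : Set ℝ) : ℝ≥0∞ :=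
  content p.κ p.ε p.c1 f W E (p.near f)

/-- far content collected at times `s ∈ E` -/
noncomputable def farC (f : ℂ → ℂ) (W : ℝ → ℝ) (E : Set ℝ) : ℝ≥0∞ :=
  content p.κ p.ε p.c1 f W E (p.B \ p.near f)

/-- `T₁`-condition (open): `ρ_t > ρ₁` -/
def Bad1 (f : ℂ → ℂ) (W : ℝ → ℝ) (t : ℝ) : Prop := p.rho1 f < rad W t

/-- `T₂`-condition (lower semicontinuous): the tip is not near `x` -/
def Bad2 (f : ℂ → ℂ) (W : ℝ → ℝ) (t : ℝ) : Prop :=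
  ∃ y : ℝ, 0 < y ∧ y ≤ 10 * rad W t ∧
    p.u0 (p.x f) / 16 < ‖f (ffl W t (y * I)) - f ((10 * rad W t : ℝ) * I)‖

/-- `T₃`-condition at scale `2^k`: near content of the window exceeds `v(2^k)^{c*/2}` -/
def Bad3 (f : ℂ → ℂ) (W : ℝ → ℝ) (t : ℝ) (k : ℤ) : Prop :=
  ENNReal.ofReal (vv p.u0 f (2 ^ k) ^ (p.cs / 2)) < p.nearC f W (win W t k)

/-- one of the three conditions holds -/
def Bad (f : ℂ → ℂ) (W : ℝ → ℝ) (t : ℝ) : Prop :=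
  p.Bad1 f W t ∨ p.Bad2 f W t ∨ ∃ k : ℤ, p.Bad3 f W t k

/-- the end `T` of the step: the first time a (strict) bad condition holds -/
noncomputable def T (f : ℂ → ℂ) (W : ℝ → ℝ) : ℝ := sInf {t | 0 < t ∧ p.Bad f W t}

/-- the new state map at time `t` -/
noncomputable def st (f : ℂ → ℂ) (W : ℝ → ℝ) (t : ℝ) : ℂ → ℂ := f ∘ ffl W t

end Par

/-! ### basic facts -/

lemma log_two_pos' : 0 < Real.log 2 := Real.log_pos (by norm_num)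

lemma chi_nonneg (v : ℝ) : 0 ≤ chi v := by
  have := log_two_pos'
  unfold chi; split_ifs <;> positivity

lemma chi_le (v : ℝ) : chi v ≤ (Real.log 2)⁻¹ := by
  have := log_two_pos'
  unfold chi; split_ifs
  · exact le_rfl
  · positivity

lemma chi_of_mem {v : ℝ} (h : v ∈ Set.Icc (1:ℝ) 2) : chi v = (Real.log 2)⁻¹ := if_pos h

lemma chi_of_not_mem {v : ℝ} (h : v ∉ Set.Icc (1:ℝ) 2) : chi v = 0 := if_neg h

lemma mem_of_chi_ne_zero {v : ℝ} (h : chi v ≠ 0) : v ∈ Set.Icc (1:ℝ) 2 := by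
  by_contra h'; exact h (chi_of_not_mem h')

lemma measurable_chi : Measurable chi :=
  Measurable.ite (measurableSet_Icc : MeasurableSet (Set.Icc (1:ℝ) 2)) measurable_const
    measurable_const



lemma ups_of_dead {W : ℝ → ℝ} {t : ℝ} {z : ℂ} (h : ¬ Alive W z t) : OP.ups W t z = 0 := by
  simp [OP.ups, gfl, h]

lemma cd_of_dead {κ ε c1 lam : ℝ} {W : ℝ → ℝ} {s : ℝ} {z : ℂ} (h : ¬ Alive W z s) :
    cd κ ε c1 lam W s z = 0 := by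
  have : chi (lam * OP.ups W s z / ε) = 0 := by
    rw [ups_of_dead h, mul_zero, zero_div]
    exact chi_of_not_mem (by simp)
  simp [cd, this]

/-- where the density is not zero: alive, `ε ≤ Υ ≤ 2ε`, `S ≥ c₁` -/
lemma of_cd_ne_zero {κ ε c1 lam : ℝ} (hε : 0 < ε) {W : ℝ → ℝ} {s : ℝ} {z : ℂ}
    (h : cd κ ε c1 lam W s z ≠ 0) :
    Alive W z s ∧ ε ≤ lam * OP.ups W s z ∧ lam * OP.ups W s z ≤ 2 * ε ∧ c1 ≤ sfl W s z := by
  have h1 : chi (lam * OP.ups W s z / ε) ≠ 0 := fun h0 => h (by simp [cd, h0])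
  have h2 : c1 ≤ sfl W s z := by
    by_contra h0; exact h (by simp [cd, h0])
  have h3 := mem_of_chi_ne_zero h1
  refine ⟨by_contra fun h0 => h (cd_of_dead h0), ?_, ?_, h2⟩
  · have := (one_le_div hε).1 h3.1; exact this
  · exact (div_le_iff₀ hε).1 h3.2

lemma cz_mono {κ ε c1 lam : ℝ} {W : ℝ → ℝ} {E E' : Set ℝ} (h : E ⊆ E') (z : ℂ) :
    cz κ ε c1 lam W E z ≤ cz κ ε c1 lam W E' z := lintegral_mono_set h

lemma cz_union {κ ε c1 lam : ℝ} {W : ℝ → ℝ} {E E' : Set ℝ} (hE' : MeasurableSet E')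
    (h : Disjoint E E') (z : ℂ) :
    cz κ ε c1 lam W (E ∪ E') z = cz κ ε c1 lam W E z + cz κ ε c1 lam W E' z :=
  lintegral_union hE' h

lemma content_mono {κ ε c1 : ℝ} {f : ℂ → ℂ} {W : ℝ → ℝ} {E E' : Set ℝ} {B B' : Set ℂ}
    (hE : E ⊆ E') (hB : B ⊆ B') : content κ ε c1 f W E B ≤ content κ ε c1 f W E' B' := by
  have hs : {z : ℂ | 0 < z.im ∧ f z ∈ B} ⊆ {z : ℂ | 0 < z.im ∧ f z ∈ B'} := by
    intro z hz
    exact ⟨hz.1, hB hz.2⟩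
  refine (lintegral_mono_set hs).trans (lintegral_mono fun z => ?_)
  exact mul_le_mul' le_rfl (cz_mono hE z)

lemma T_nonneg (p : Par) (f : ℂ → ℂ) (W : ℝ → ℝ) : 0 ≤ p.T f W :=
  Real.sInf_nonneg fun _ ht => ht.1.le

lemma T_bdd (p : Par) (f : ℂ → ℂ) (W : ℝ → ℝ) : BddBelow {t | 0 < t ∧ p.Bad f W t} :=
  ⟨0, fun _ ht => ht.1.le⟩

/-- nothing bad strictly before `T` -/
lemma not_bad_of_lt (p : Par) {f : ℂ → ℂ} {W : ℝ → ℝ} {t : ℝ} (h0 : 0 < t) (h : t < p.T f W) :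
    ¬ p.Bad f W t := by
  intro hb
  have : p.T f W ≤ t := csInf_le (T_bdd p f W) ⟨h0, hb⟩
  linarith

lemma sqrt_le_rad (W : ℝ → ℝ) (t : ℝ) : Real.sqrt t ≤ rad W t := le_max_left _ _

lemma rad_nonneg (W : ℝ → ℝ) (t : ℝ) : 0 ≤ rad W t := (Real.sqrt_nonneg t).trans (sqrt_le_rad W t)


lemma bddAbove_abs {W : ℝ → ℝ} {t : ℝ} (hW : ContinuousOn W (Set.Ici 0)) :
    BddAbove ((fun s => |W s|) '' Set.Icc 0 t) := by
  apply IsCompact.bddAbove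
  exact isCompact_Icc.image_of_continuousOn
    ((hW.mono fun s hs => hs.1).abs)

lemma abs_le_rad {W : ℝ → ℝ} {s t : ℝ} (hW : ContinuousOn W (Set.Ici 0)) (hs : 0 ≤ s)
    (hst : s ≤ t) : |W s| ≤ rad W t :=
  (le_csSup (bddAbove_abs hW) ⟨s, ⟨hs, hst⟩, rfl⟩).trans (le_max_right _ _)

lemma le_rad_sq {W : ℝ → ℝ} {t : ℝ} (ht : 0 ≤ t) : t ≤ rad W t ^ 2 := by
  calc t = Real.sqrt t ^ 2 := (Real.sq_sqrt ht).symm
    _ ≤ _ := pow_le_pow_left₀ (Real.sqrt_nonneg t) (sqrt_le_rad W t) 2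

lemma rad_mono {W : ℝ → ℝ} {s t : ℝ} (hW : ContinuousOn W (Set.Ici 0)) (hs : 0 ≤ s)
    (hst : s ≤ t) : rad W s ≤ rad W t := by
  refine max_le_max (Real.sqrt_le_sqrt hst) ?_
  exact csSup_le_csSup (bddAbove_abs hW) ⟨_, 0, ⟨le_rfl, hs⟩, rfl⟩
    (Set.image_mono (Set.Icc_subset_Icc_right hst))

end Crest.Agent.R162.LB
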