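import Mathlib
import Crest.Agent.R162.LB0
import Crest.Agent.R162.LBDefs

/-!
Row 162 (S0243), lower bound, node LB0 (helper411): the old geodesic of one step in the frozen
vocabulary of `LBDefs`.
-/

set_option autoImplicit false

open MeasureTheory Set Filter Topology
open scoped ENNReal NNReal

namespace Crest.Agent.R162.LB0

open Crest.Agent.R162.KB1
open Crest.Agent.R162

/-- smallness of the constants needed for the old geodesic -/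
structure Small (p : LB.Par) : Prop where
  q_pos : 0 < p.q
  q_lt : p.q < 1
  η_nonneg : 0 ≤ p.η
  θ_pos : 0 < p.θ
  K3_pos : 0 < p.K3
  K4_ge : 1 ≤ p.K4
  sm1 : p.K3 * p.θ ^ (1 - p.q) ≤ 1 / 130
  sm2 : 3200 * p.K4 ^ 2 * p.θ ≤ 1

/-- the facts about the old geodesic -/
structure Geo (p : LB.Par) (f : ℂ → ℂ) : Prop where
  y_pos : 0 < p.y f
  rho_pos : 0 < p.rho1 f
  y_le : p.y f ≤ 10 * p.rho1 f
  /-- (P1) -/
  near : ∀ y : ℝ, 0 < y → y ≤ 10 * p.rho1 f → ‖f (y * Complex.I) - p.x f‖ ≤ p.u0 (p.x f) / 64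
  /-- (P2) -/
  vv_le : ∀ y : ℝ, 0 < y → y ≤ 10 * p.rho1 f → LB.vv p.u0 f y ≤ 102 * p.K4 ^ 2 * p.θ
  vv_le_one : ∀ y : ℝ, 0 < y → y ≤ 10 * p.rho1 f → LB.vv p.u0 f y ≤ 1
  /-- (P3) -/
  Jv_le : LB.Jv p.u0 p.q f (10 * p.rho1 f) ≤ ENNReal.ofReal (p.K3 + Real.log (10 * p.K4))
  Jv_lt_top : ∀ y : ℝ, LB.Jv p.u0 p.q f y < ⊤
  lt_y : ∀ y : ℝ, 0 < y → y < p.y f → LB.vv p.u0 f y < p.θ ∧
    LB.Jv p.u0 p.q f y < ENNReal.ofReal p.K3
  vv_y_le : LB.vv p.u0 f (p.y f) ≤ p.θ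
  Jv_y_le : LB.Jv p.u0 p.q f (p.y f) ≤ ENNReal.ofReal p.K3
  caseA : p.CaseA f → LB.vv p.u0 f (p.y f) = p.θ ∧ p.rho1 f = p.K4 * p.y f
  caseB : ¬ p.CaseA f → 10 * p.rho1 f = p.y f ∧
    LB.Jv p.u0 p.q f (p.y f) = ENNReal.ofReal p.K3
  /-- comparability of `u0` along the old geodesic -/
  u0_near : ∀ y : ℝ, 0 < y → y ≤ 10 * p.rho1 f →
    63 / 64 * p.u0 (p.x f) ≤ p.u0 (f (y * Complex.I)) ∧
      p.u0 (f (y * Complex.I)) ≤ 65 / 64 * p.u0 (p.x f)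
  norm_sub : ∀ y y' : ℝ, 0 < y → y ≤ 10 * p.rho1 f → 0 < y' → y' ≤ 10 * p.rho1 f →
    ‖f (y * Complex.I) - f (y' * Complex.I)‖ ≤ p.u0 (p.x f) / 32


/-- `θ` can be chosen small after `K₃`, `K₄`, `q`. -/
theorem exists_theta {q K3 K4 : ℝ} (hq : 0 < q) (hq1 : q < 1) (hK3 : 0 < K3) (hK4 : 1 ≤ K4) :
    ∃ θ0 : ℝ, 0 < θ0 ∧ ∀ θ : ℝ, 0 < θ → θ ≤ θ0 →
      K3 * θ ^ (1 - q) ≤ 1 / 130 ∧ 3200 * K4 ^ 2 * θ ≤ 1 := by
  refine ⟨min ((1 / (130 * K3)) ^ (1 / (1 - q))) (1 / (3200 * K4 ^ 2)), ?_, ?_⟩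
  · have : 0 < K4 := by linarith
    refine lt_min ?_ (by positivity)
    exact Real.rpow_pos_of_pos (by positivity) _
  · intro θ hθ hle
    have h1q : 0 < 1 - q := by linarith
    constructor
    · have h1 := hle.trans (min_le_left _ _)
      have h2 := Real.rpow_le_rpow hθ.le h1 h1q.le
      rw [← Real.rpow_mul (by positivity), one_div_mul_cancel h1q.ne', Real.rpow_one] at h2
      calc K3 * θ ^ (1 - q) ≤ K3 * (1 / (130 * K3)) := by gcongr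
        _ = 1 / 130 := by field_simp
    · have h1 := hle.trans (min_le_right _ _)
      have : 0 < K4 := by linarith
      rw [le_div_iff₀ (by positivity)] at h1
      linarith

end Crest.Agent.R162.LB0
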