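import Mathlib
import Crest.Agent.R162.OP3
import Crest.Agent.R162.OPDefs
import Crest.Agent.R162.LBDefs

/-!
Row 162, node LB2b+c (helper376): bridge from OP1, OP2 (frozen forms of note 14880) to the hypothesis
`hOP3` of `LB2d.key`, with `R = LB.rad`; facts about `LB.rad`.
-/

set_option autoImplicit false

open MeasureTheory Set ProbabilityTheory Filter Topology
open scoped ENNReal NNReal
open Crest.ProbabilityR.Loewner

namespace Crest.Agent.R162.LB2br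

open Crest.Agent.R162.FL Crest.Agent.R162.OP Crest.Agent.R162.OS
open Crest.Agent.R162.LB (rad)

universe u

/-! ### the frozen statements OP1, OP2 -/

/-- (OP1) of note 14880 -/
def OP1S (κ : ℝ) : Prop :=
  ∀ c0 : ℝ, 0 < c0 → ∃ C lam : ℝ, 0 < C ∧ 0 < lam ∧
    ∀ {Ω : Type u} {m : MeasurableSpace Ω} {P : Measure Ω} [IsProbabilityMeasure P]
      {Fl : Filtration ℝ≥0 m} {B : ℝ≥0 → Ω → ℝ} (_ : IsBM Fl B P)
      {w : ℂ} (_ : 0 < w.im) {σ : Ω → ℝ≥0} (_ : IsST Fl σ) {A : Set Ω} (_ : EvST Fl σ A)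
      (a : ℝ) (_ : 0 ≤ a),
      P.real {ω | ω ∈ A ∧ ∃ t : ℝ≥0, σ ω ≤ t ∧ AliveP κ B w t ω ∧
        c0 ≤ sfl (driving κ B ω) t w ∧
        a ≤ ath (driving κ B ω) t w - ath (driving κ B ω) (σ ω) w} ≤
      C * Real.exp (-(lam * a)) * P.real A

/-- (OP2) of note 14880 -/
def OP2S (κ : ℝ) : Prop :=
  ∃ C K : ℝ, 0 < C ∧ 0 < K ∧
    ∀ {Ω : Type u} {m : MeasurableSpace Ω} {P : Measure Ω} [IsProbabilityMeasure P]
      {Fl : Filtration ℝ≥0 m} {B : ℝ≥0 → Ω → ℝ} (_ : IsBM Fl B P)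
      {w : ℂ} (_ : 0 < w.im) {σ : Ω → ℝ≥0} (_ : IsST Fl σ) {A : Set Ω} (_ : EvST Fl σ A)
      (a b : ℝ) (_ : 0 ≤ a) (_ : 0 ≤ b),
      P.real {ω | ω ∈ A ∧ ∃ t : ℝ≥0, σ ω ≤ t ∧ AliveP κ B w t ω ∧
        ath (driving κ B ω) t w - ath (driving κ B ω) (σ ω) w ≤ a ∧
        Real.exp b * ‖Zfl (driving κ B ω) (σ ω) w‖ ≤ ‖Zfl (driving κ B ω) t w‖} ≤
        C * Real.exp (K * a - b) * P.real A ∧
      P.real {ω | ω ∈ A ∧ ∃ t : ℝ≥0, σ ω ≤ t ∧ AliveP κ B w t ω ∧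
        ath (driving κ B ω) t w - ath (driving κ B ω) (σ ω) w ≤ a ∧
        ‖Zfl (driving κ B ω) t w‖ ≤ Real.exp (-b) * ‖Zfl (driving κ B ω) (σ ω) w‖} ≤
        C * Real.exp (K * a - b) * P.real A

/-- the hypothesis `hOP3` of `LB2d.key`, for all Brownian motions -/
def HOP3 (κ : ℝ) : Prop :=
  ∃ C c' : ℝ, 0 < C ∧ 0 < c' ∧
    ∀ {Ω : Type u} {m : MeasurableSpace Ω} {P : Measure Ω} [IsProbabilityMeasure P]
      {Fl : Filtration ℝ≥0 m} {B : ℝ≥0 → Ω → ℝ} (_ : IsBM Fl B P)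
      (z : ℂ) (_ : 0 < z.im) (lam : ℝ) (_ : 0 < lam),
      P {ω | ∃ t : ℝ, 0 ≤ t ∧ Alive (driving κ B ω) z t ∧ 1 / 2 ≤ sfl (driving κ B ω) t z ∧
        ‖Zfl (driving κ B ω) t z‖ ≤ lam * rad (driving κ B ω) t} ≤
      ENNReal.ofReal (C * lam ^ c')

/-! ### facts about `rad` -/

section rad

variable {W : ℝ → ℝ} {t : ℝ}

theorem rad_le_of {b : ℝ} (ht : 0 ≤ t) (h1 : Real.sqrt t ≤ b)
    (h2 : ∀ s ∈ Icc 0 t, |W s| ≤ b) : rad W t ≤ b := by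
  refine max_le h1 (csSup_le ⟨_, 0, ⟨le_rfl, ht⟩, rfl⟩ ?_)
  rintro _ ⟨s, hs, rfl⟩
  exact h2 s hs






end rad

/-! ### the driving path -/

theorem driving_cont {Ω : Type*} {m : MeasurableSpace Ω} {P : Measure Ω} {Fl : Filtration ℝ≥0 m}
    {B : ℝ≥0 → Ω → ℝ} (hB : IsBM Fl B P) (κ : ℝ) (ω : Ω) : Continuous (driving κ B ω) := by
  unfold driving
  exact continuous_const.mul ((hB.cont ω).comp continuous_real_toNNReal)

theorem driving_zero {Ω : Type*} {m : MeasurableSpace Ω} {P : Measure Ω} {Fl : Filtration ℝ≥0 m}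
    {B : ℝ≥0 → Ω → ℝ} (hB : IsBM Fl B P) (κ : ℝ) (ω : Ω) : driving κ B ω 0 = 0 := by
  unfold driving
  simp [hB.zero ω]

/-! ### the bridge -/

theorem isST_zero {Ω : Type*} {m : MeasurableSpace Ω} (Fl : Filtration ℝ≥0 m) :
    IsST Fl (fun _ : Ω => (0 : ℝ≥0)) := by
  intro t
  simp

theorem evST_univ {Ω : Type*} {m : MeasurableSpace Ω} (Fl : Filtration ℝ≥0 m) :
    EvST Fl (fun _ : Ω => (0 : ℝ≥0)) univ := by
  intro t
  simp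

/-- from `ℝ≥0` times to real times -/
theorem bridge_of {Ω : Type*} {m : MeasurableSpace Ω} {P : Measure Ω} [IsProbabilityMeasure P]
    {Fl : Filtration ℝ≥0 m} {B : ℝ≥0 → Ω → ℝ} (hB : IsBM Fl B P) {κ : ℝ} {z : ℂ}
    {C₁ lmb C₂ K : ℝ} (hC₁ : 0 ≤ C₁) (hl : 0 < lmb) (hC₂ : 0 ≤ C₂) (hK : 0 ≤ K)
    (h1 : ∀ a : ℝ, 0 ≤ a → P.real {ω | ω ∈ (univ : Set Ω) ∧ ∃ t : ℝ≥0, (0 : ℝ≥0) ≤ t ∧
        AliveP κ B z t ω ∧ (1 / 2 : ℝ) ≤ sfl (driving κ B ω) t z ∧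
        a ≤ ath (driving κ B ω) t z - ath (driving κ B ω) ((0 : ℝ≥0) : ℝ) z} ≤
      C₁ * Real.exp (-(lmb * a)) * P.real univ)
    (h2 : ∀ a b : ℝ, 0 ≤ a → 0 ≤ b → P.real {ω | ω ∈ (univ : Set Ω) ∧ ∃ t : ℝ≥0, (0 : ℝ≥0) ≤ t ∧
        AliveP κ B z t ω ∧
        ath (driving κ B ω) t z - ath (driving κ B ω) ((0 : ℝ≥0) : ℝ) z ≤ a ∧
        Real.exp b * ‖Zfl (driving κ B ω) ((0 : ℝ≥0) : ℝ) z‖ ≤ ‖Zfl (driving κ B ω) t z‖} ≤
        C₂ * Real.exp (K * a - b) * P.real univ)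
    (h2' : ∀ a b : ℝ, 0 ≤ a → 0 ≤ b → P.real {ω | ω ∈ (univ : Set Ω) ∧ ∃ t : ℝ≥0, (0 : ℝ≥0) ≤ t ∧
        AliveP κ B z t ω ∧
        ath (driving κ B ω) t z - ath (driving κ B ω) ((0 : ℝ≥0) : ℝ) z ≤ a ∧
        ‖Zfl (driving κ B ω) t z‖ ≤ Real.exp (-b) * ‖Zfl (driving κ B ω) ((0 : ℝ≥0) : ℝ) z‖} ≤
        C₂ * Real.exp (K * a - b) * P.real univ)
    {lam : ℝ} (hlam : 0 < lam) :
    P {ω | ∃ t : ℝ, 0 ≤ t ∧ Alive (driving κ B ω) z t ∧ 1 / 2 ≤ sfl (driving κ B ω) t z ∧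
        ‖Zfl (driving κ B ω) t z‖ ≤ lam * rad (driving κ B ω) t} ≤
      ENNReal.ofReal (OP3.C3 C₁ C₂ * lam ^ OP3.c3 lmb K) := by
  have hcont : ∀ ω, ContinuousOn (driving κ B ω) (Ici 0) :=
    fun ω => (driving_cont hB κ ω).continuousOn
  have key := OP3.OP3_core (P := P) (W := fun ω => driving κ B ω) (z := z) (σ := fun _ => (0 : ℝ))
    (A := univ) (fun ω _ => hcont ω) (fun _ _ => le_rfl) (c₀ := 1 / 2) hC₁ hC₂ hl hK
    (by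
      intro a ha
      refine le_trans (measureReal_mono ?_ (measure_ne_top _ _)) (h1 a ha)
      rintro ω ⟨-, t, ht, hal, hs, h⟩
      exact ⟨mem_univ _, ⟨t, ht⟩, bot_le, hal, hs, h⟩)
    (by
      intro a b ha hb
      refine le_trans (measureReal_mono ?_ (measure_ne_top _ _)) (h2 a b ha hb)
      rintro ω ⟨-, t, ht, hal, h, h'⟩
      exact ⟨mem_univ _, ⟨t, ht⟩, bot_le, hal, h, h'⟩)
    (by
      intro a b ha hb
      refine le_trans (measureReal_mono ?_ (measure_ne_top _ _)) (h2' a b ha hb)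
      rintro ω ⟨-, t, ht, hal, h, h'⟩
      exact ⟨mem_univ _, ⟨t, ht⟩, bot_le, hal, h, h'⟩)
    (R := fun ω t => rad (driving κ B ω) t)
    (by
      intro ω _ t ht C hC
      refine rad_le_of ht ?_ ?_
      · have := (hC t ⟨ht, le_rfl⟩).1
        simpa using this
      · intro s hs
        have := (hC s hs).2
        simpa [driving_zero hB κ ω] using this)
    hlam
  have e1 : P.real (univ : Set Ω) = 1 := by simp
  rw [e1, mul_one] at key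
  have e2 : {ω | ∃ t : ℝ, 0 ≤ t ∧ Alive (driving κ B ω) z t ∧ 1 / 2 ≤ sfl (driving κ B ω) t z ∧
        ‖Zfl (driving κ B ω) t z‖ ≤ lam * rad (driving κ B ω) t} =
      {ω | ω ∈ (univ : Set Ω) ∧ ∃ t : ℝ, 0 ≤ t ∧ Alive (driving κ B ω) z t ∧
        1 / 2 ≤ sfl (driving κ B ω) t z ∧
        ‖Zfl (driving κ B ω) t z‖ ≤ lam * rad (driving κ B ω) t} := by
    ext ω
    simp
  rw [e2, ← ENNReal.ofReal_toReal (measure_ne_top P _)]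
  exact ENNReal.ofReal_le_ofReal key

/-- **bridge**: OP1 + OP2 ⟹ `hOP3`. -/
theorem hOP3_of {κ : ℝ} (h1 : OP1S.{u} κ) (h2 : OP2S.{u} κ) : HOP3.{u} κ := by
  obtain ⟨C₁, lmb, hC₁, hl, h1⟩ := h1 (1 / 2) (by norm_num)
  obtain ⟨C₂, K, hC₂, hK, h2⟩ := h2
  refine ⟨OP3.C3 C₁ C₂, OP3.c3 lmb K, by unfold OP3.C3; positivity, OP3.c3_pos hl hK.le, ?_⟩
  intro Ω m P _ Fl B hB z hz lam hlam
  exact bridge_of hB hC₁.le hl hC₂.le hK.le
    (fun a ha => h1 hB hz (isST_zero Fl) (evST_univ Fl) a ha)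
    (fun a b ha hb => (h2 hB hz (isST_zero Fl) (evST_univ Fl) a b ha hb).1)
    (fun a b ha hb => (h2 hB hz (isST_zero Fl) (evST_univ Fl) a b ha hb).2) hlam

end Crest.Agent.R162.LB2br
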