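import Mathlib
import Crest.Agent.R162.OSDefs

-- ▼ part R162/LB2b
section

/-!
Row 162, node LB2b+c (helper636), abstract part.

* `sig hσ` : the σ-algebra `F_σ` (sets `A` with `EvST F σ A`).
* `union_bound`, `union_bound_exp` : conditional union bound over a random (F_σ-measurable) finite
  family of candidates taken from a fixed countable grid.
* `mix_bound`, `tail_bound`, `exp_moment` : the exponential moment of `Z'`.
-/

set_option autoImplicit false

open MeasureTheory Set
open scoped ENNReal NNReal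

namespace Crest.Agent.R162.LB2b

open Crest.Agent.R162.OS

section sigma

variable {Ω : Type*} {m : MeasurableSpace Ω}

/-- the σ-algebra of `σ`-past events -/
@[reducible] def sig (F : Filtration ℝ≥0 m) (σ : Ω → ℝ≥0) (hσ : IsST F σ) : MeasurableSpace Ω where
  MeasurableSet' A := EvST F σ A
  measurableSet_empty := by
    intro t
    simp
  measurableSet_compl := by
    intro A hA t
    have h1 : Aᶜ ∩ {ω | σ ω ≤ t} = {ω | σ ω ≤ t} \ (A ∩ {ω | σ ω ≤ t}) := by
      ext ω
      constructor
      · rintro ⟨h1, h2⟩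
        exact ⟨h2, fun h => h1 h.1⟩
      · rintro ⟨h1, h2⟩
        exact ⟨fun h => h2 ⟨h, h1⟩, h1⟩
    rw [h1]
    exact @MeasurableSet.diff _ (F t) _ _ (hσ t) (hA t)
  measurableSet_iUnion := by
    intro f hf t
    rw [iUnion_inter]
    exact @MeasurableSet.iUnion _ _ (F t) _ _ (fun i => hf i t)



end sigma

section abstract


/-- the geometric tail `Σ_{k ≥ k0} C e^{-c' k} N e^{2 c k}` -/
theorem geom_tail {a : ℝ} (ha : 0 < a) {C : ℝ} (hC : 0 ≤ C) (k0 : ℕ) :
    ∑' k : ℕ, (if k0 ≤ k then ENNReal.ofReal (C * Real.exp (-(a * k))) else 0)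
      ≤ ENNReal.ofReal (C / (1 - Real.exp (-a)) * Real.exp (-(a * k0))) := by
  have hr0 : 0 ≤ Real.exp (-a) := (Real.exp_pos _).le
  have hr1 : Real.exp (-a) < 1 := by
    rw [Real.exp_lt_one_iff]
    linarith
  have h1 : ∀ k : ℕ, Real.exp (-(a * k)) = Real.exp (-a) ^ k := by
    intro k
    rw [← Real.exp_nat_mul]
    congr 1
    ring
  have hinj : Function.Injective (fun j : ℕ => j + k0) := fun a b h => by
    simpa using h
  have h2 : ∑' k : ℕ, (if k0 ≤ k then ENNReal.ofReal (C * Real.exp (-(a * k))) else 0)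
      = ∑' j : ℕ, ENNReal.ofReal (C * Real.exp (-(a * ((j + k0 : ℕ) : ℝ)))) := by
    rw [← hinj.tsum_eq (f := fun k : ℕ =>
      (if k0 ≤ k then ENNReal.ofReal (C * Real.exp (-(a * k))) else 0))]
    · refine tsum_congr (fun j => ?_)
      rw [if_pos (Nat.le_add_left k0 j)]
    · intro k hk
      rw [Function.mem_support] at hk
      by_cases h : k0 ≤ k
      · exact ⟨k - k0, Nat.sub_add_cancel h⟩
      · exact absurd (if_neg h) hk
  rw [h2]
  have h3 : ∀ j : ℕ, C * Real.exp (-(a * ((j + k0 : ℕ) : ℝ)))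
      = (C * Real.exp (-(a * k0))) * Real.exp (-a) ^ j := by
    intro j
    rw [h1 (j + k0), h1 k0, pow_add]
    ring
  simp_rw [h3]
  have hs : Summable (fun j : ℕ => (C * Real.exp (-(a * k0))) * Real.exp (-a) ^ j) :=
    (summable_geometric_of_lt_one hr0 hr1).mul_left _
  rw [← ENNReal.ofReal_tsum_of_nonneg (fun j => by positivity) hs, tsum_mul_left,
    tsum_geometric_of_lt_one hr0 hr1]
  refine ENNReal.ofReal_le_ofReal (le_of_eq ?_)
  field_simp


end abstract

end Crest.Agent.R162.LB2b
end

-- ▼ part R162/LB2c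

/-!
Row 162, node LB2c (helper636): exponential moment of `Z'` (deterministic parameters).
-/

set_option autoImplicit false

open MeasureTheory Set
open scoped ENNReal NNReal

namespace Crest.Agent.R162.LB2c

/-- `min a b ≤ (a b)^{1/2}` -/
theorem min_le_sqrt {a b x : ℝ≥0∞} (ha : x ≤ a) (hb : x ≤ b) :
    x ≤ a ^ (1 / 2 : ℝ) * b ^ (1 / 2 : ℝ) := by
  calc x = x ^ (1 / 2 : ℝ) * x ^ (1 / 2 : ℝ) := by
        rw [← ENNReal.rpow_add_of_nonneg _ _ (by norm_num) (by norm_num)]
        norm_num
    _ ≤ a ^ (1 / 2 : ℝ) * b ^ (1 / 2 : ℝ) := by gcongr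

/-- pointwise: `e^{cz} ≤ 1 + Σ_n (e^{c(n+1)} - e^{cn}) 1_{n<z}` -/
theorem exp_le_tsum {c : ℝ} (hc : 0 ≤ c) (z : ℝ) :
    ENNReal.ofReal (Real.exp (c * z)) ≤ 1 + ∑' n : ℕ,
      (if (n : ℝ) < z then ENNReal.ofReal (Real.exp (c * (n + 1)) - Real.exp (c * n)) else 0) := by
  rcases le_or_gt z 0 with hz | hz
  · refine le_trans ?_ (le_add_right le_rfl)
    rw [← ENNReal.ofReal_one]
    refine ENNReal.ofReal_le_ofReal ?_
    rw [Real.exp_le_one_iff]
    exact mul_nonpos_of_nonneg_of_nonpos hc hz
  · -- let N = ⌈z⌉₊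
    set N := ⌈z⌉₊ with hN
    have h1 : ∀ n ∈ Finset.range N, (n : ℝ) < z := by
      intro n hn
      rw [Finset.mem_range] at hn
      exact Nat.lt_ceil.1 hn
    have h2 : z ≤ N := Nat.le_ceil z
    calc ENNReal.ofReal (Real.exp (c * z)) ≤ ENNReal.ofReal (Real.exp (c * N)) := by
          refine ENNReal.ofReal_le_ofReal (Real.exp_le_exp.2 ?_)
          exact mul_le_mul_of_nonneg_left h2 hc
      _ = ENNReal.ofReal (1 + ∑ n ∈ Finset.range N,
            (Real.exp (c * (n + 1)) - Real.exp (c * n))) := by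
          congr 1
          have := Finset.sum_range_sub (fun n : ℕ => Real.exp (c * n)) N
          push_cast at this
          rw [this]
          simp
      _ = 1 + ∑ n ∈ Finset.range N,
            ENNReal.ofReal (Real.exp (c * (n + 1)) - Real.exp (c * n)) := by
          have hnn : ∀ n ∈ Finset.range N, 0 ≤ Real.exp (c * (n + 1)) - Real.exp (c * n) := by
            intro n _
            rw [sub_nonneg]
            refine Real.exp_le_exp.2 ?_
            nlinarith
          rw [ENNReal.ofReal_add zero_le_one (Finset.sum_nonneg hnn), ENNReal.ofReal_one,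
            ENNReal.ofReal_sum_of_nonneg hnn]
      _ = 1 + ∑ n ∈ Finset.range N, (if (n : ℝ) < z then
            ENNReal.ofReal (Real.exp (c * (n + 1)) - Real.exp (c * n)) else 0) := by
          congr 1
          refine Finset.sum_congr rfl (fun n hn => ?_)
          rw [if_pos (h1 n hn)]
      _ ≤ _ := by
          gcongr
          exact ENNReal.sum_le_tsum _

/-- Exponential moment from tails, `P(Z > n) ≤ D e^{-a n}`, `a = c''/2`. -/
theorem exp_moment_tail {Ω : Type*} [MeasurableSpace Ω] (P : Measure Ω) [IsProbabilityMeasure P]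
    (Z : Ω → ℝ) {a D : ℝ} (ha : 0 < a) (hD : 0 ≤ D)
    (htail : ∀ n : ℕ, P {ω | (n : ℝ) < Z ω} ≤ ENNReal.ofReal (D * Real.exp (-(a * n))))
    {c : ℝ} (hc : 0 ≤ c) (hca : c ≤ a / 2) :
    ∫⁻ ω, ENNReal.ofReal (Real.exp (c * Z ω)) ∂P
      ≤ ENNReal.ofReal (1 + Real.exp (a / 2) * D / (1 - Real.exp (-(a / 2))) * c) := by
  set b : ℕ → ℝ := fun n => Real.exp (c * (n + 1)) - Real.exp (c * n) with hb
  have hb0 : ∀ n, 0 ≤ b n := by
    intro n
    simp only [hb]
    rw [sub_nonneg]
    refine Real.exp_le_exp.2 ?_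
    nlinarith
  have hb1 : ∀ n : ℕ, b n ≤ c * Real.exp (a / 2) * Real.exp (a / 2 * n) := by
    intro n
    have h1 : b n = Real.exp (c * n) * (Real.exp c - 1) := by
      simp only [hb]
      rw [mul_add, mul_one, Real.exp_add]
      ring
    have h2 : Real.exp c - 1 ≤ c * Real.exp c := by
      have h3 := Real.add_one_le_exp (-c)
      have h4 : Real.exp c * Real.exp (-c) = 1 := by
        rw [← Real.exp_add]; simp
      nlinarith [Real.exp_pos c]
    have h5 : Real.exp c ≤ Real.exp (a / 2) := Real.exp_le_exp.2 hca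
    have h6 : Real.exp (c * n) ≤ Real.exp (a / 2 * n) :=
      Real.exp_le_exp.2 (mul_le_mul_of_nonneg_right hca (Nat.cast_nonneg n))
    rw [h1]
    calc Real.exp (c * n) * (Real.exp c - 1)
        ≤ Real.exp (c * n) * (c * Real.exp c) := by gcongr
      _ ≤ Real.exp (a / 2 * n) * (c * Real.exp (a / 2)) := by gcongr
      _ = _ := by ring
  set H : ℕ → Set Ω := fun n => toMeasurable P {ω | (n : ℝ) < Z ω} with hH
  have hHm : ∀ n, MeasurableSet (H n) := fun n => measurableSet_toMeasurable _ _
  have h1 : ∀ ω, ENNReal.ofReal (Real.exp (c * Z ω))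
      ≤ 1 + ∑' n : ℕ, (H n).indicator (fun _ => ENNReal.ofReal (b n)) ω := by
    intro ω
    refine (exp_le_tsum hc (Z ω)).trans ?_
    gcongr with n
    by_cases h : (n : ℝ) < Z ω
    · rw [if_pos h, indicator_of_mem (subset_toMeasurable P _ h)]
    · rw [if_neg h]
      exact zero_le
  calc ∫⁻ ω, ENNReal.ofReal (Real.exp (c * Z ω)) ∂P
      ≤ ∫⁻ ω, (1 + ∑' n : ℕ, (H n).indicator (fun _ => ENNReal.ofReal (b n)) ω) ∂P :=
        lintegral_mono h1
    _ = 1 + ∑' n : ℕ, ENNReal.ofReal (b n) * P {ω | (n : ℝ) < Z ω} := by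
        rw [lintegral_add_left measurable_const, lintegral_const, measure_univ, one_mul,
          lintegral_tsum (fun n => (measurable_const.indicator (hHm n)).aemeasurable)]
        congr 1
        refine tsum_congr (fun n => ?_)
        rw [lintegral_indicator (hHm n), setLIntegral_const, measure_toMeasurable]
    _ ≤ 1 + ∑' n : ℕ, ENNReal.ofReal ((c * Real.exp (a / 2) * D) * Real.exp (-(a / 2 * n))) := by
        gcongr with n
        refine (mul_le_mul' (ENNReal.ofReal_le_ofReal (hb1 n)) (htail n)).trans ?_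
        rw [← ENNReal.ofReal_mul (by positivity)]
        refine ENNReal.ofReal_le_ofReal (le_of_eq ?_)
        have : Real.exp (-(a / 2 * n)) = Real.exp (a / 2 * n) * Real.exp (-(a * n)) := by
          rw [← Real.exp_add]
          congr 1
          ring
        rw [this]
        ring
    _ ≤ 1 + ENNReal.ofReal ((c * Real.exp (a / 2) * D) / (1 - Real.exp (-(a / 2)))) := by
        have h2 := LB2b.geom_tail (a := a / 2) (by linarith) (C := c * Real.exp (a / 2) * D)
          (by positivity) 0
        simp only [Nat.zero_le, if_true, Nat.cast_zero, mul_zero, neg_zero, Real.exp_zero,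
          mul_one] at h2
        gcongr
    _ = _ := by
        have h3 : Real.exp (-(a / 2)) < 1 := by
          rw [Real.exp_lt_one_iff]
          linarith
        have h4 : 0 ≤ (c * Real.exp (a / 2) * D) / (1 - Real.exp (-(a / 2))) := by
          apply div_nonneg (by positivity)
          linarith
        rw [← ENNReal.ofReal_one, ← ENNReal.ofReal_add zero_le_one h4]
        congr 1
        ring


end Crest.Agent.R162.LB2c
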