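import Mathlib
import Crest.Agent.R162.KB1H
import Crest.Agent.R162.FLC2
import Crest.Agent.R162.Base
import Crest.Agent.R162.LB2c
import Crest.Agent.R162.LB2a
import Crest.Agent.R162.LB0D
import Crest.Agent.R162.LBStepIn

-- ▼ part R162/LB2w
section

/-!
Row 162, node LB2b+c, lemma (W) (helper620, for helper636): deterministic bound of the
logarithmic content of a vertical geodesic along which the conformal radius decays.
-/

set_option autoImplicit false
open MeasureTheory Set Filter Topology Complex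
open scoped ENNReal

namespace Crest.Agent.R162.LB2w

open Crest.Agent.R162

lemma lintegral_div_Ioc {a b C : ℝ} (ha : 0 < a) (hab : a ≤ b) (hC : 0 ≤ C) :
    ∫⁻ s in Ioc a b, ENNReal.ofReal (C / s) = ENNReal.ofReal (C * Real.log (b / a)) := by
  have hb : 0 < b := ha.trans_le hab
  have hci : ContinuousOn (fun s : ℝ => C / s) (Icc a b) :=
    continuousOn_const.div continuousOn_id (fun s hs => (ha.trans_le hs.1).ne')
  have hint : IntegrableOn (fun s : ℝ => C / s) (Ioc a b) volume :=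
    (hci.integrableOn_compact isCompact_Icc).mono_set Ioc_subset_Icc_self
  rw [← ofReal_integral_eq_lintegral_ofReal hint]
  · congr 1
    rw [← intervalIntegral.integral_of_le hab]
    simp_rw [div_eq_mul_inv C]
    rw [intervalIntegral.integral_const_mul, integral_inv_of_pos ha hb]
  · refine (ae_restrict_iff' measurableSet_Ioc).2 (Eventually.of_forall fun s hs => ?_)
    exact div_nonneg hC (ha.trans hs.1).le

/-- every `s ∈ (0, y₀]` lies in one of the `(y₀ e^{-(k+1)}, y₀ e^{-k}]` -/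
lemma exists_block {y0 s : ℝ} (hs : 0 < s) (hs1 : s ≤ y0) :
    ∃ k : ℕ, s ∈ Ioc (y0 * Real.exp (-((k : ℝ) + 1))) (y0 * Real.exp (-(k : ℝ))) := by
  have hy : 0 < y0 := hs.trans_le hs1
  have hlog : 0 ≤ Real.log (y0 / s) := Real.log_nonneg (by rw [le_div_iff₀ hs]; linarith)
  refine ⟨⌊Real.log (y0 / s)⌋₊, ?_, ?_⟩
  · have h1 := Nat.lt_floor_add_one (Real.log (y0 / s))
    have h2 : y0 / s < Real.exp ((⌊Real.log (y0 / s)⌋₊ : ℝ) + 1) := by
      rw [← Real.log_lt_iff_lt_exp (by positivity)]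
      exact h1
    rw [Real.exp_neg, ← div_eq_mul_inv, div_lt_iff₀ (Real.exp_pos _)]
    rw [div_lt_iff₀ hs] at h2
    linarith
  · have h1 := Nat.floor_le hlog
    have h2 : Real.exp (⌊Real.log (y0 / s)⌋₊ : ℝ) ≤ y0 / s := by
      rw [← Real.le_log_iff_exp_le (by positivity)]
      exact h1
    rw [Real.exp_neg, ← div_eq_mul_inv, le_div_iff₀ (Real.exp_pos _)]
    rw [le_div_iff₀ hs] at h2
    linarith

lemma exp_two_le : (8 / 7 : ℝ) * Real.exp 2 ≤ 9 := by
  have h := Real.exp_one_lt_d9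
  have h0 := Real.exp_pos 1
  have e : Real.exp 2 = Real.exp 1 * Real.exp 1 := by rw [← Real.exp_add]; norm_num
  rw [e]
  nlinarith

/-- (W) of helper636. -/
theorem Jv_le {h : ℂ → ℂ} (hh : DifferentiableOn ℂ h KB1.Hs) (hi : InjOn h KB1.Hs)
    {u0 : ℂ → ℝ} (hu1 : ∀ p, 1 ≤ u0 p) (hul : LipschitzWith 1 u0) {x : ℂ} {q c r rho : ℝ}
    (hq : 0 < q) (hc : 0 < c) (hrho : 0 < rho) (h1 : rho ≤ r) (h2 : r ≤ 2 * rho)
    (hA : ∀ y : ℝ, 0 < y → y ≤ 10 * r → ‖h (y * I) - x‖ ≤ u0 x / 8) (n : ℕ)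
    (hB : ∀ k : ℕ, n ≤ k → KB1.ups h ((10 * rho * Real.exp (-(k : ℝ)) : ℝ) * I) ≤
      Real.exp (-(c * k)) * u0 x) :
    ∫⁻ s in Ioc 0 (10 * r),
        ENNReal.ofReal ((min (KB1.ups h (s * I) / u0 (h (s * I))) 1) ^ q / s) ≤
      ENNReal.ofReal (n + Real.log 2 + 9 ^ q / (1 - Real.exp (-(c * q)))) := by
  have hr : 0 < r := hrho.trans_le h1
  have hux : 0 < u0 x := zero_lt_one.trans_le (hu1 x)
  have him : ∀ s : ℝ, ((s : ℂ) * I).im = s := fun s => by simp
  have hre : ∀ s : ℝ, ((s : ℂ) * I).re = 0 := fun s => by simp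
  have hups0 : ∀ s : ℝ, 0 < s → 0 < KB1.ups h (s * I) := fun s hs =>
    KB1.ups_pos hh hi (by rw [him]; exact hs)
  -- the generic bounds of the integrand
  have hnn : ∀ s : ℝ, 0 < s → 0 ≤ min (KB1.ups h (s * I) / u0 (h (s * I))) 1 := fun s hs =>
    le_min (div_nonneg (hups0 s hs).le (zero_le_one.trans (hu1 _))) zero_le_one
  have hle1 : ∀ s : ℝ, 0 < s →
      (min (KB1.ups h (s * I) / u0 (h (s * I))) 1) ^ q / s ≤ 1 / s := fun s hs => by
    refine div_le_div_of_nonneg_right ?_ hs.le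
    exact Real.rpow_le_one (hnn s hs) (min_le_right _ _) hq.le
  set y : ℕ → ℝ := fun k => 10 * rho * Real.exp (-(k : ℝ)) with hy_def
  have hypos : ∀ k, 0 < y k := fun k => by positivity
  have hyle : ∀ k, y k ≤ 10 * rho := fun k => by
    have : Real.exp (-(k : ℝ)) ≤ 1 := Real.exp_le_one_iff.2 (by simp)
    calc 10 * rho * Real.exp (-(k : ℝ)) ≤ 10 * rho * 1 := by gcongr
      _ = 10 * rho := mul_one _
  have hysucc : ∀ k, y k = Real.exp 1 * y (k + 1) := fun k => by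
    simp only [hy_def]
    have e : Real.exp (-(k : ℝ)) = Real.exp 1 * Real.exp (-((k + 1 : ℕ) : ℝ)) := by
      rw [← Real.exp_add]
      congr 1
      push_cast
      ring
    rw [e]
    ring
  -- bound on one block
  have hblock : ∀ k : ℕ, n ≤ k → ∀ s ∈ Ioc (y (k + 1)) (y k),
      (min (KB1.ups h (s * I) / u0 (h (s * I))) 1) ^ q / s ≤
        (9 * Real.exp (-(c * k))) ^ q / s := by
    intro k hk s hs
    have hs0 : 0 < s := (hypos _).trans hs.1
    refine div_le_div_of_nonneg_right ?_ hs0.le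
    refine Real.rpow_le_rpow (hnn s hs0) ?_ hq.le
    refine (min_le_left _ _).trans ?_
    have hu : 7 / 8 * u0 x ≤ u0 (h (s * I)) := by
      have hd := hul.dist_le_mul (h (s * I)) x
      rw [NNReal.coe_one, one_mul, Real.dist_eq, dist_eq_norm] at hd
      have hA' := hA s hs0 (hs.2.trans ((hyle k).trans (by linarith)))
      have := (abs_le.1 (hd.trans hA')).1
      linarith
    have hups : KB1.ups h (s * I) ≤ Real.exp 2 * (Real.exp (-(c * k)) * u0 x) := by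
      have hv := KB1.ups_vert_le' hh hi (z := (s : ℂ) * I) (w := ((y k : ℝ) : ℂ) * I)
        (by rw [him]; exact hs0) (by rw [him, him]; exact hs.2) (by rw [hre, hre])
      rw [him, him] at hv
      have hratio : y k / s ≤ Real.exp 1 := by
        rw [div_le_iff₀ hs0, hysucc k]
        exact mul_le_mul_of_nonneg_left hs.1.le (Real.exp_pos _).le
      have hr2 : (y k / s) ^ 2 ≤ Real.exp 2 := by
        have e : Real.exp 2 = Real.exp 1 ^ 2 := by rw [← Real.exp_nat_mul]; norm_num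
        rw [e]
        exact pow_le_pow_left₀ (div_nonneg (hypos k).le hs0.le) hratio 2
      calc KB1.ups h (s * I) ≤ KB1.ups h ((y k : ℝ) * I) * (y k / s) ^ 2 := hv
        _ ≤ (Real.exp (-(c * k)) * u0 x) * Real.exp 2 := by
            refine mul_le_mul (hB k hk) hr2 (by positivity) (by positivity)
        _ = _ := by ring
    rw [div_le_iff₀ (by linarith [hux])]
    have h9 := exp_two_le
    calc KB1.ups h (s * I) ≤ Real.exp 2 * (Real.exp (-(c * k)) * u0 x) := hups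
      _ = (8 / 7 * Real.exp 2) * Real.exp (-(c * k)) * (7 / 8 * u0 x) := by ring
      _ ≤ 9 * Real.exp (-(c * k)) * u0 (h (s * I)) := by
          refine mul_le_mul ?_ hu (by positivity) (by positivity)
          exact mul_le_mul_of_nonneg_right h9 (Real.exp_pos _).le
  -- the covering
  have hcov : Ioc 0 (10 * r) ⊆ Ioc (y n) (10 * r) ∪ ⋃ k : ℕ, Ioc (y (n + k + 1)) (y (n + k)) := by
    intro s hs
    rcases lt_or_ge (y n) s with hlt | hge
    · exact Or.inl ⟨hlt, hs.2⟩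
    · right
      obtain ⟨k, hk⟩ := exists_block hs.1 hge
      refine mem_iUnion.2 ⟨k, ?_⟩
      have e1 : y (n + k + 1) = y n * Real.exp (-((k : ℝ) + 1)) := by
        simp only [hy_def]
        have e : Real.exp (-((n + k + 1 : ℕ) : ℝ)) =
            Real.exp (-(n : ℝ)) * Real.exp (-((k : ℝ) + 1)) := by
          rw [← Real.exp_add]
          congr 1
          push_cast
          ring
        rw [e]
        ring
      have e2 : y (n + k) = y n * Real.exp (-(k : ℝ)) := by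
        simp only [hy_def]
        have e : Real.exp (-((n + k : ℕ) : ℝ)) =
            Real.exp (-(n : ℝ)) * Real.exp (-(k : ℝ)) := by
          rw [← Real.exp_add]
          congr 1
          push_cast
          ring
        rw [e]
        ring
      rw [e1, e2]
      exact hk
  set f : ℝ → ℝ≥0∞ := fun s =>
    ENNReal.ofReal ((min (KB1.ups h (s * I) / u0 (h (s * I))) 1) ^ q / s) with hf_def
  have hynr : y n ≤ 10 * r := (hyle n).trans (by linarith)
  have hpart1 : ∫⁻ s in Ioc (y n) (10 * r), f s ≤ ENNReal.ofReal (n + Real.log 2) := by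
    calc ∫⁻ s in Ioc (y n) (10 * r), f s ≤
        ∫⁻ s in Ioc (y n) (10 * r), ENNReal.ofReal (1 / s) := by
          refine setLIntegral_mono' measurableSet_Ioc fun s hs => ?_
          exact ENNReal.ofReal_le_ofReal (hle1 s ((hypos n).trans hs.1))
      _ = ENNReal.ofReal (1 * Real.log (10 * r / y n)) :=
          lintegral_div_Ioc (hypos n) hynr zero_le_one
      _ ≤ ENNReal.ofReal (n + Real.log 2) := by
          refine ENNReal.ofReal_le_ofReal ?_
          rw [one_mul]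
          have e : (n : ℝ) + Real.log 2 = Real.log (Real.exp n * 2) := by
            rw [Real.log_mul (Real.exp_pos _).ne' two_ne_zero, Real.log_exp]
          rw [e]
          refine Real.log_le_log (div_pos (by linarith) (hypos n)) ?_
          rw [div_le_iff₀ (hypos n)]
          have e2 : Real.exp n * 2 * y n = 20 * rho := by
            simp only [hy_def]
            have : Real.exp (n : ℝ) * Real.exp (-(n : ℝ)) = 1 := by
              rw [← Real.exp_add]; simp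
            calc Real.exp (n : ℝ) * 2 * (10 * rho * Real.exp (-(n : ℝ))) =
                20 * rho * (Real.exp (n : ℝ) * Real.exp (-(n : ℝ))) := by ring
              _ = 20 * rho := by rw [this, mul_one]
          rw [e2]
          linarith
  have hpart2 : ∀ k : ℕ, ∫⁻ s in Ioc (y (n + k + 1)) (y (n + k)), f s ≤
      ENNReal.ofReal (9 ^ q * Real.exp (-(c * q)) ^ k) := by
    intro k
    have hC : 0 ≤ (9 * Real.exp (-(c * ((n + k : ℕ) : ℝ)))) ^ q := by positivity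
    calc ∫⁻ s in Ioc (y (n + k + 1)) (y (n + k)), f s ≤
        ∫⁻ s in Ioc (y (n + k + 1)) (y (n + k)),
          ENNReal.ofReal ((9 * Real.exp (-(c * ((n + k : ℕ) : ℝ)))) ^ q / s) := by
          refine setLIntegral_mono' measurableSet_Ioc fun s hs => ?_
          exact ENNReal.ofReal_le_ofReal (hblock (n + k) (Nat.le_add_right _ _) s hs)
      _ = ENNReal.ofReal ((9 * Real.exp (-(c * ((n + k : ℕ) : ℝ)))) ^ q *
            Real.log (y (n + k) / y (n + k + 1))) := by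
          refine lintegral_div_Ioc (hypos _) ?_ hC
          rw [hysucc (n + k)]
          have : 1 ≤ Real.exp 1 := Real.one_le_exp zero_le_one
          nlinarith [hypos (n + k + 1)]
      _ ≤ ENNReal.ofReal (9 ^ q * Real.exp (-(c * q)) ^ k) := by
          refine ENNReal.ofReal_le_ofReal ?_
          have e : y (n + k) / y (n + k + 1) = Real.exp 1 := by
            rw [div_eq_iff (hypos _).ne']
            exact hysucc (n + k)
          rw [e, Real.log_exp, mul_one, Real.mul_rpow (by norm_num) (Real.exp_pos _).le,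
            ← Real.exp_mul, ← Real.exp_nat_mul]
          refine mul_le_mul_of_nonneg_left ?_ (by positivity)
          refine Real.exp_le_exp.2 ?_
          push_cast
          have : 0 ≤ c * q * n := by positivity
          nlinarith
  have hgeo : 0 ≤ Real.exp (-(c * q)) ∧ Real.exp (-(c * q)) < 1 :=
    ⟨(Real.exp_pos _).le, Real.exp_lt_one_iff.2 (by have := mul_pos hc hq; linarith)⟩
  have hsum : ∑' k : ℕ, ENNReal.ofReal (9 ^ q * Real.exp (-(c * q)) ^ k) =
      ENNReal.ofReal (9 ^ q / (1 - Real.exp (-(c * q)))) := by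
    rw [← ENNReal.ofReal_tsum_of_nonneg (fun k => by positivity)
      ((summable_geometric_of_lt_one hgeo.1 hgeo.2).mul_left _), tsum_mul_left,
      tsum_geometric_of_lt_one hgeo.1 hgeo.2, div_eq_mul_inv]
  calc ∫⁻ s in Ioc 0 (10 * r), f s
      ≤ ∫⁻ s in Ioc (y n) (10 * r) ∪ ⋃ k : ℕ, Ioc (y (n + k + 1)) (y (n + k)), f s :=
        lintegral_mono_set hcov
    _ ≤ (∫⁻ s in Ioc (y n) (10 * r), f s) +
          ∫⁻ s in ⋃ k : ℕ, Ioc (y (n + k + 1)) (y (n + k)), f s := lintegral_union_le _ _ _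
    _ ≤ (∫⁻ s in Ioc (y n) (10 * r), f s) +
          ∑' k : ℕ, ∫⁻ s in Ioc (y (n + k + 1)) (y (n + k)), f s := by
        gcongr
        exact lintegral_iUnion_le _ _
    _ ≤ ENNReal.ofReal (n + Real.log 2) +
          ∑' k : ℕ, ENNReal.ofReal (9 ^ q * Real.exp (-(c * q)) ^ k) :=
        add_le_add hpart1 (ENNReal.tsum_le_tsum hpart2)
    _ = ENNReal.ofReal (n + Real.log 2 + 9 ^ q / (1 - Real.exp (-(c * q)))) := by
        rw [hsum, ← ENNReal.ofReal_add]
        · have := Real.log_nonneg (show (1:ℝ) ≤ 2 by norm_num)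
          positivity
        · have : 0 < 1 - Real.exp (-(c * q)) := by linarith [hgeo.2]
          positivity

end Crest.Agent.R162.LB2w
end

-- ▼ part R162/LB2d
section

/-!
Row 162, node LB2b+c (helper636): the KEY lemma (grid + OP3 + Koebe) for a fixed univalent `f` and a
fresh driving path.
-/

set_option autoImplicit false

open MeasureTheory Set Metric
open scoped ENNReal NNReal

namespace Crest.Agent.R162.LB2d

open Crest.Agent.R162.FL Crest.Agent.R162.FLC Crest.Agent.R162.KB1 Crest.Agent.R162.OP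

/-! ### deterministic part -/

section det

variable {W : ℝ → ℝ} {t : ℝ} {f : ℂ → ℂ}

theorem mapsTo_ffl (hW : ContinuousOn W (Ici 0)) (ht : 0 ≤ t) : MapsTo (ffl W t) Hs Hs :=
  fun _ hz => ffl_im_pos hW ht hz

theorem diffOn_comp (hW : ContinuousOn W (Ici 0)) (ht : 0 ≤ t) (hf : DifferentiableOn ℂ f Hs) :
    DifferentiableOn ℂ (f ∘ ffl W t) Hs :=
  hf.comp (differentiableOn_ffl hW ht) (mapsTo_ffl hW ht)

theorem injOn_comp (hW : ContinuousOn W (Ici 0)) (ht : 0 ≤ t) (hfi : InjOn f Hs) :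
    InjOn (f ∘ ffl W t) Hs :=
  hfi.comp (injOn_ffl hW ht) (mapsTo_ffl hW ht)

/-- Koebe: a point close to `h(iy)` is `h(Z)` with `Z` close to `iy`. -/
theorem exists_close {h : ℂ → ℂ} (hh : DifferentiableOn ℂ h Hs) (hi : InjOn h Hs) {y : ℝ}
    (hy : 0 < y) {w : ℂ} (hw : ‖w - h (y * Complex.I)‖ ≤ KB1.ups h (y * Complex.I) / 16) :
    ∃ Z ∈ Hs, h Z = w ∧ ‖Z‖ ≤ 2 * y ∧ 1 / 2 ≤ Z.im / ‖Z‖ := by
  have hyI : ((y : ℂ) * Complex.I) ∈ Hs := by
    show 0 < ((y : ℂ) * Complex.I).im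
    simpa using hy
  have hu : 0 < KB1.ups h (y * Complex.I) := ups_pos hh hi hyI
  have hmem : w ∈ ball (h (y * Complex.I)) (KB1.ups h (y * Complex.I) / 2) := by
    rw [mem_ball, dist_eq_norm]
    linarith
  obtain ⟨Z, hZ, hZw⟩ := ball_subset_image hh hi hyI hmem
  refine ⟨Z, hZ, hZw, ?_⟩
  have h1 := ups_le_norm_sub hh hi hyI hZ
  rw [hZw] at h1
  have h2 : phd (y * Complex.I) Z ≤ 1 / 8 := by
    have : KB1.ups h (y * Complex.I) * phd (y * Complex.I) Z / 2
        ≤ KB1.ups h (y * Complex.I) / 16 := h1.trans hw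
    by_contra hcon
    push Not at hcon
    have : KB1.ups h (y * Complex.I) * (1 / 8)
        < KB1.ups h (y * Complex.I) * phd (y * Complex.I) Z := mul_lt_mul_of_pos_left hcon hu
    linarith
  have hne : 0 < ‖Z - (starRingEnd ℂ) (y * Complex.I)‖ :=
    norm_pos_iff.2 (sub_conj_ne hyI hZ)
  have h3 : ‖Z - y * Complex.I‖ ≤ 1 / 8 * ‖Z - (starRingEnd ℂ) (y * Complex.I)‖ := by
    rw [phd, div_le_iff₀ hne] at h2
    exact h2
  have h4 : ‖Z - (starRingEnd ℂ) (y * Complex.I)‖ ≤ ‖Z - y * Complex.I‖ + 2 * y := by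
    have e1 : Z - (starRingEnd ℂ) (y * Complex.I) = (Z - y * Complex.I) + 2 * y * Complex.I := by
      simp only [map_mul, Complex.conj_ofReal, Complex.conj_I]
      ring
    rw [e1]
    refine (norm_add_le _ _).trans ?_
    have e2 : ‖(2 : ℂ) * y * Complex.I‖ = 2 * y := by
      simp [abs_of_pos hy]
    rw [e2]
  have h5 : ‖Z - y * Complex.I‖ ≤ 2 / 7 * y := by linarith
  have h6 : ‖Z‖ ≤ 9 / 7 * y := by
    have e1 : Z = (Z - y * Complex.I) + y * Complex.I := by ring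
    have e2 : ‖(y : ℂ) * Complex.I‖ = y := by simp [abs_of_pos hy]
    calc ‖Z‖ = ‖(Z - y * Complex.I) + y * Complex.I‖ := by rw [← e1]
      _ ≤ ‖Z - y * Complex.I‖ + ‖(y : ℂ) * Complex.I‖ := norm_add_le _ _
      _ ≤ 9 / 7 * y := by rw [e2]; linarith
  have h7 : 5 / 7 * y ≤ Z.im := by
    have e1 : |(Z - y * Complex.I).im| ≤ ‖Z - y * Complex.I‖ := Complex.abs_im_le_norm _
    have e2 : (Z - y * Complex.I).im = Z.im - y := by simp
    rw [e2] at e1
    have := abs_le.1 (e1.trans h5)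
    linarith [this.1]
  have hZpos : 0 < ‖Z‖ := by
    have : 0 < Z.im := hZ
    exact lt_of_lt_of_le this (Complex.im_le_norm Z)
  refine ⟨by linarith, ?_⟩
  rw [le_div_iff₀ hZpos]
  nlinarith

/-- the preimage of `w` under `f` (or `I`) -/
noncomputable def pre (f : ℂ → ℂ) (w : ℂ) : ℂ :=
  open Classical in if h : ∃ z ∈ Hs, f z = w then h.choose else Complex.I

theorem pre_im (f : ℂ → ℂ) (w : ℂ) : 0 < (pre f w).im := by
  unfold pre
  split_ifs with h
  · exact h.choose_spec.1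
  · simp

theorem pre_eq (hfi : InjOn f Hs) {z : ℂ} (hz : z ∈ Hs) : pre f (f z) = z := by
  have h : ∃ z' ∈ Hs, f z' = f z := ⟨z, hz, rfl⟩
  unfold pre
  rw [dif_pos h]
  exact hfi h.choose_spec.1 hz h.choose_spec.2

/-- deterministic half of KEY. -/
theorem key_det (hf : DifferentiableOn ℂ f Hs) (hfi : InjOn f Hs)
    (hW : ContinuousOn W (Ici 0)) (ht : 0 ≤ t) {y : ℝ} (hy : 0 < y) {w : ℂ}
    (hw : ‖w - (f ∘ ffl W t) (y * Complex.I)‖ ≤ KB1.ups (f ∘ ffl W t) (y * Complex.I) / 16) :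
    Alive W (pre f w) t ∧ 1 / 2 ≤ sfl W t (pre f w) ∧ ‖Zfl W t (pre f w)‖ ≤ 2 * y := by
  obtain ⟨Z, hZ, hZw, hn, hs⟩ := exists_close (diffOn_comp hW ht hf) (injOn_comp hW ht hfi) hy hw
  have h1 : pre f w = ffl W t Z := by
    rw [← hZw]
    exact pre_eq hfi (mapsTo_ffl hW ht hZ)
  have h2 : Zfl W t (ffl W t Z) = Z := Zfl_ffl hW ht hZ
  rw [h1]
  refine ⟨ffl_alive hW ht hZ, ?_, ?_⟩
  · rw [sfl, h2]
    exact hs
  · rw [h2]
    exact hn

end det

/-! ### the grid -/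

/-- grid point -/
noncomputable def gp (x : ℂ) (δ : ℝ) (j : ℤ × ℤ) : ℂ := x + δ * ((j.1 : ℂ) + (j.2 : ℂ) * Complex.I)

theorem exists_grid {x p : ℂ} {δ : ℝ} (hδ : 0 < δ) {M : ℕ} (hM : ‖p - x‖ ≤ M * δ) :
    ∃ j ∈ (Finset.Icc (-(M : ℤ)) M ×ˢ Finset.Icc (-(M : ℤ)) M), ‖gp x δ j - p‖ ≤ δ := by
  set a : ℝ := (p - x).re / δ with ha
  set b : ℝ := (p - x).im / δ with hb
  have hre : |a| ≤ M := by
    rw [ha, abs_div, abs_of_pos hδ, div_le_iff₀ hδ]
    exact (Complex.abs_re_le_norm _).trans hM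
  have him : |b| ≤ M := by
    rw [hb, abs_div, abs_of_pos hδ, div_le_iff₀ hδ]
    exact (Complex.abs_im_le_norm _).trans hM
  have key : ∀ r : ℝ, |r| ≤ M → round r ∈ Finset.Icc (-(M : ℤ)) M := by
    intro r hr
    rw [Finset.mem_Icc]
    have h1 := abs_le.1 hr
    constructor
    · have h2 : round (-(M : ℝ)) ≤ round r := by
        rw [round_eq, round_eq]
        exact Int.floor_le_floor (by linarith [h1.1])
      have h3 : round (-(M : ℝ)) = -(M : ℤ) := by
        have : (-(M : ℝ)) = ((-(M : ℤ) : ℤ) : ℝ) := by push_cast; rfl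
        rw [this, round_intCast]
      rw [h3] at h2
      exact h2
    · have h2 : round r ≤ round (M : ℝ) := by
        rw [round_eq, round_eq]
        exact Int.floor_le_floor (by linarith [h1.2])
      rw [round_natCast] at h2
      exact h2
  refine ⟨(round a, round b), Finset.mem_product.2 ⟨key a hre, key b him⟩, ?_⟩
  have e1 : gp x δ (round a, round b) - p
      = ((δ * ((round a : ℝ) - a) : ℝ) : ℂ) + ((δ * ((round b : ℝ) - b) : ℝ) : ℂ) * Complex.I := by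
    apply Complex.ext
    · simp [gp, ha]
      field_simp
      ring
    · simp [gp, hb]
      field_simp
      ring
  rw [e1]
  have h1 : |(round a : ℝ) - a| ≤ 1 / 2 := by
    rw [abs_sub_comm]
    exact abs_sub_round a
  have h2 : |(round b : ℝ) - b| ≤ 1 / 2 := by
    rw [abs_sub_comm]
    exact abs_sub_round b
  refine (norm_add_le _ _).trans ?_
  rw [norm_mul, Complex.norm_I, mul_one, Complex.norm_real, Complex.norm_real, Real.norm_eq_abs,
    Real.norm_eq_abs, abs_mul, abs_mul, abs_of_pos hδ]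
  nlinarith

/-- **KEY lemma.** -/
theorem key {Ω : Type*} [MeasurableSpace Ω] (P : Measure Ω) (W : Ω → ℝ → ℝ)
    (hW : ∀ ω, ContinuousOn (W ω) (Ici 0)) (R : Ω → ℝ → ℝ) {C c' : ℝ} (hC : 0 ≤ C)
    (hOP3 : ∀ z : ℂ, 0 < z.im → ∀ lam : ℝ, 0 < lam →
      P {ω | ∃ t, 0 ≤ t ∧ Alive (W ω) z t ∧ 1 / 2 ≤ sfl (W ω) t z
        ∧ ‖Zfl (W ω) t z‖ ≤ lam * R ω t} ≤ ENNReal.ofReal (C * lam ^ c'))
    {f : ℂ → ℂ} (hf : DifferentiableOn ℂ f Hs) (hfi : InjOn f Hs) (x : ℂ) {U a y ρ : ℝ}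
    (hU : 0 < U) (ha : 0 < a) (ha1 : a ≤ 1) (hy : 0 < y) (hρ : 0 < ρ) :
    P {ω | ∃ t, 0 ≤ t ∧ ρ ≤ R ω t ∧ ‖(f ∘ ffl (W ω) t) (y * Complex.I) - x‖ ≤ U / 8
        ∧ a * U ≤ KB1.ups (f ∘ ffl (W ω) t) (y * Complex.I)}
      ≤ ENNReal.ofReal (49 * C / a ^ 2 * (2 * y / ρ) ^ c') := by
  classical
  set δ : ℝ := a * U / 16 with hδ
  have hδ0 : 0 < δ := by positivity
  set M : ℕ := ⌈2 / a⌉₊ with hM
  set I : Finset (ℤ × ℤ) := (Finset.Icc (-(M : ℤ)) M ×ˢ Finset.Icc (-(M : ℤ)) M) with hI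
  set lam : ℝ := 2 * y / ρ with hlam
  have hlam0 : 0 < lam := by positivity
  have hMδ : U / 8 ≤ M * δ := by
    have h1 : 2 / a ≤ M := Nat.le_ceil _
    have h2 : U / 8 = 2 / a * δ := by
      rw [hδ]
      field_simp
      ring
    rw [h2]
    gcongr
  have hsub : {ω | ∃ t, 0 ≤ t ∧ ρ ≤ R ω t ∧ ‖(f ∘ ffl (W ω) t) (y * Complex.I) - x‖ ≤ U / 8
        ∧ a * U ≤ KB1.ups (f ∘ ffl (W ω) t) (y * Complex.I)}
      ⊆ ⋃ j ∈ I, {ω | ∃ t, 0 ≤ t ∧ Alive (W ω) (pre f (gp x δ j)) t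
        ∧ 1 / 2 ≤ sfl (W ω) t (pre f (gp x δ j))
        ∧ ‖Zfl (W ω) t (pre f (gp x δ j))‖ ≤ lam * R ω t} := by
    rintro ω ⟨t, ht, hρt, hclose, hups⟩
    obtain ⟨j, hj, hjd⟩ := exists_grid (x := x) hδ0 (hclose.trans hMδ)
    refine mem_iUnion₂.2 ⟨j, hj, t, ht, ?_⟩
    have h1 : ‖gp x δ j - (f ∘ ffl (W ω) t) (y * Complex.I)‖
        ≤ KB1.ups (f ∘ ffl (W ω) t) (y * Complex.I) / 16 := by
      refine hjd.trans ?_
      rw [hδ]
      linarith
    obtain ⟨h2, h3, h4⟩ := key_det hf hfi (hW ω) ht hy h1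
    refine ⟨h2, h3, h4.trans ?_⟩
    rw [hlam, div_mul_eq_mul_div, le_div_iff₀ hρ]
    gcongr
  have hcard : (I.card : ℝ) ≤ 49 / a ^ 2 := by
    have h1 : (M : ℝ) ≤ 2 / a + 1 := (Nat.ceil_lt_add_one (by positivity)).le
    have h2 : I.card = (2 * M + 1) ^ 2 := by
      rw [hI, Finset.card_product, Int.card_Icc]
      have : ((M : ℤ) + 1 - -(M : ℤ)).toNat = 2 * M + 1 := by omega
      rw [this]
      ring
    rw [h2]
    push_cast
    have h3 : (2 * (M : ℝ) + 1) ≤ 7 / a := by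
      have : (3 : ℝ) ≤ 3 / a := by
        rw [le_div_iff₀ ha]
        linarith
      calc 2 * (M : ℝ) + 1 ≤ 2 * (2 / a + 1) + 1 := by linarith
        _ = 4 / a + 3 := by ring
        _ ≤ 4 / a + 3 / a := by linarith
        _ = 7 / a := by ring
    calc (2 * (M : ℝ) + 1) ^ 2 ≤ (7 / a) ^ 2 := by gcongr
      _ = 49 / a ^ 2 := by ring
  calc P _ ≤ P (⋃ j ∈ I, {ω | ∃ t, 0 ≤ t ∧ Alive (W ω) (pre f (gp x δ j)) t
        ∧ 1 / 2 ≤ sfl (W ω) t (pre f (gp x δ j))
        ∧ ‖Zfl (W ω) t (pre f (gp x δ j))‖ ≤ lam * R ω t}) := measure_mono hsub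
    _ ≤ ∑ j ∈ I, P {ω | ∃ t, 0 ≤ t ∧ Alive (W ω) (pre f (gp x δ j)) t
        ∧ 1 / 2 ≤ sfl (W ω) t (pre f (gp x δ j))
        ∧ ‖Zfl (W ω) t (pre f (gp x δ j))‖ ≤ lam * R ω t} := measure_biUnion_finset_le _ _
    _ ≤ ∑ j ∈ I, ENNReal.ofReal (C * lam ^ c') :=
        Finset.sum_le_sum (fun j _ => hOP3 _ (pre_im f _) lam hlam0)
    _ = ENNReal.ofReal ((I.card : ℝ) * (C * lam ^ c')) := by
        rw [Finset.sum_const, nsmul_eq_mul, ENNReal.ofReal_mul (p := (I.card : ℝ)) (by positivity),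
          ENNReal.ofReal_natCast]
    _ ≤ ENNReal.ofReal (49 * C / a ^ 2 * lam ^ c') := by
        refine ENNReal.ofReal_le_ofReal ?_
        calc (I.card : ℝ) * (C * lam ^ c') ≤ 49 / a ^ 2 * (C * lam ^ c') := by gcongr
          _ = _ := by ring

end Crest.Agent.R162.LB2d
end

-- ▼ part R162/LB2e
section


/-!
Row 162, node LB2b+c (helper636): (b) probability that the tip escapes at scale `ρ`; (c) tail of
`Z'` at scale `ρ`.
-/

set_option autoImplicit false

open MeasureTheory Set Metric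
open scoped ENNReal NNReal

namespace Crest.Agent.R162.LB2e

open Crest.Agent.R162.FL Crest.Agent.R162.FLC Crest.Agent.R162.KB1 Crest.Agent.R162.LB2a

/-! ### (B') : the localised form of 328's `exists_scale` -/

theorem chain_point' {g : ℂ → ℂ} (hg : DifferentiableOn ℂ g Hs) (hgi : InjOn g Hs) {ρ y : ℝ}
    (hρ : 0 < ρ) (hy0 : 0 < y) (hy : y ≤ 10 * ρ) :
    ∃ n : ℕ, y ≤ yk ρ n ∧ ‖g (y * Complex.I) - g ((10 * ρ : ℝ) * Complex.I)‖ ≤
      ∑ k ∈ Finset.range (n + 1), 4 * KB1.ups g (yk ρ k * Complex.I) := by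
  have hq : 1 ≤ 10 * ρ / y := by rw [le_div_iff₀ hy0]; linarith
  have hl : 0 ≤ Real.log (10 * ρ / y) := Real.log_nonneg hq
  set n := ⌊Real.log (10 * ρ / y)⌋₊ with hn
  have h1 : (n : ℝ) ≤ Real.log (10 * ρ / y) := Nat.floor_le hl
  have h2 : Real.log (10 * ρ / y) < n + 1 := Nat.lt_floor_add_one _
  have e0 : y = 10 * ρ * Real.exp (-Real.log (10 * ρ / y)) := by
    rw [Real.exp_neg, Real.exp_log (by positivity)]
    field_simp
  have h3 : y ≤ yk ρ n := by
    rw [e0]; unfold yk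
    gcongr
  have h4 : yk ρ (n + 1) ≤ y := by
    rw [e0]; unfold yk
    gcongr
    push_cast
    linarith
  refine ⟨n, h3, ?_⟩
  have h5 := (dist_axis hg hgi hy0 h3 ((yk_le_three hρ n).trans (by linarith))).1
  rw [Finset.sum_range_succ]
  have e : g (y * Complex.I) - g ((10 * ρ : ℝ) * Complex.I) =
      (g (yk ρ n * Complex.I) - g (yk ρ 0 * Complex.I)) +
        (g (y * Complex.I) - g (yk ρ n * Complex.I)) := by
    rw [yk_zero]; ring
  rw [e]
  exact (norm_add_le _ _).trans (add_le_add (chain_scales hg hgi hρ n) h5)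

lemma yk_anti {ρ : ℝ} (hρ : 0 < ρ) {k n : ℕ} (h : k ≤ n) : yk ρ n ≤ yk ρ k := by
  unfold yk
  gcongr

section Main

variable {f F : ℂ → ℂ} {r : ℝ} (hf : DifferentiableOn ℂ f Hs) (hfi : InjOn f Hs) (hF : Step F r)
include hf hfi hF

/-- bound at the top: `|h(i10r) - f(i10r)| ≤ 400 ups f (iρ)`. -/
theorem top_bound {ρ : ℝ} (hρ : 0 < ρ) (hr1 : ρ ≤ r) (hr2 : r ≤ 2 * ρ) :
    ‖f (F ((10 * r : ℝ) * Complex.I)) - f ((10 * r : ℝ) * Complex.I)‖
      ≤ 400 * KB1.ups f (ρ * Complex.I) := by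
  have him : 0 < ((ρ : ℂ) * Complex.I).im := by rw [mulI_im]; exact hρ
  have hu0 := ups_pos hf hfi him
  refine (dist_comp_axis hf hfi hF (y := 10 * r) le_rfl).trans ?_
  have h3 := (ups_axis hf hfi hρ (by linarith : ρ ≤ 10 * r)).2
  refine h3.trans ?_
  have h4 : 10 * r / ρ ≤ 20 := by rw [div_le_iff₀ hρ]; linarith
  have h5 : 0 ≤ 10 * r / ρ := by have := hF.pos; positivity
  have h6 : (10 * r / ρ) ^ 2 ≤ 400 := by nlinarith
  exact mul_le_mul_of_nonneg_right h6 hu0.le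

omit hf hfi hF in
theorem th_small {c v : ℝ} (hc0 : 0 < c) (hc1 : c ≤ 1) (hv0 : 0 < v) (h : v ≤ th c) :
    v ≤ 1 / 4000000 := by
  have hv1 : v ≤ 1 := h.trans (th_le_one hc0 hc1)
  have hvc : v ≤ v ^ (c / 8) := by
    have := Real.rpow_le_rpow_of_exponent_ge hv0 hv1 (by linarith : c / 8 ≤ 1)
    rwa [Real.rpow_one] at this
  exact hvc.trans ((rpow_le_of_le_th hc0 hv0 h).trans (by linarith))

/-- **(B')** as `exists_scale`, with the additional localisation `y ≤ y_k`. -/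
theorem exists_scale' {c U ρ y : ℝ} (hc0 : 0 < c) (hc1 : c ≤ 1) (hU : 0 < U) (hρ : 0 < ρ)
    (hr1 : ρ ≤ r) (hr2 : r ≤ 2 * ρ) (hv : KB1.ups f (ρ * Complex.I) ≤ th c * U) (hy0 : 0 < y)
    (hy : y ≤ 10 * r)
    (hT : U / 20 ≤ ‖f (F (y * Complex.I)) - f ((10 * r : ℝ) * Complex.I)‖) :
    ∃ k : ℕ, 1 / 4 * Real.log (U / KB1.ups f (ρ * Complex.I)) < k ∧ y ≤ yk ρ k ∧
      c * U * Real.exp (-(c * k)) ≤ KB1.ups (f ∘ F) (yk ρ k * Complex.I) := by
  by_contra hcon
  push Not at hcon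
  have hg := comp_diff hf hF
  have hgi := comp_inj hfi hF
  have him : 0 < ((ρ : ℂ) * Complex.I).im := by rw [mulI_im]; exact hρ
  have hu0 := ups_pos hf hfi him
  set v := KB1.ups f (ρ * Complex.I) / U with hvdef
  have hv0 : 0 < v := div_pos hu0 hU
  have hvU : v * U = KB1.ups f (ρ * Complex.I) := by rw [hvdef]; field_simp
  have hvth : v ≤ th c := by rw [hvdef, div_le_iff₀ hU]; exact hv
  have hv1 : v ≤ 1 := hvth.trans (th_le_one hc0 hc1)
  have hinv : U / KB1.ups f (ρ * Complex.I) = 1 / v := by rw [hvdef]; field_simp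
  rw [hinv] at hcon
  have hlog0 : 0 ≤ 1 / 4 * Real.log (1 / v) := by
    have : 0 ≤ Real.log (1 / v) := Real.log_nonneg (by rw [le_div_iff₀ hv0]; linarith)
    linarith
  classical
  set a : ℕ → ℝ := fun k => if k = 0 ∨ y ≤ yk ρ k then
    KB1.ups (f ∘ F) (yk ρ k * Complex.I) else 0 with ha
  have hpos : ∀ k, 0 < KB1.ups (f ∘ F) (yk ρ k * Complex.I) := fun k =>
    ups_pos hg hgi (by rw [mulI_im]; exact yk_pos hρ k)
  have ha0 : ∀ k, 0 ≤ a k := by
    intro k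
    simp only [ha]
    split_ifs
    · exact (hpos k).le
    · exact le_rfl
  have h1 : ∀ k : ℕ, a k ≤ 6400 * v * Real.exp (2 * k) * U := by
    intro k
    have h := ups_comp_le hf hfi hF hρ hr2 (yk_pos hρ k) ((yk_le hρ k).trans (by linarith))
    have e : (20 * ρ / yk ρ k) ^ 2 = 4 * Real.exp (2 * k) := by
      unfold yk
      rw [Real.exp_neg]
      have h2 : Real.exp (2 * k) = Real.exp k ^ 2 := by
        rw [← Real.exp_nat_mul]; norm_num
      rw [h2]
      field_simp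
      ring
    rw [e, ← hvU] at h
    have h' : KB1.ups (f ∘ F) (yk ρ k * Complex.I) ≤ 6400 * v * Real.exp (2 * k) * U := by
      calc KB1.ups (f ∘ F) (yk ρ k * Complex.I) ≤ _ := h
        _ = _ := by ring
    simp only [ha]
    split_ifs
    · exact h'
    · exact (hpos k).le.trans h'
  have h2 : ∀ k : ℕ, 1 / 4 * Real.log (1 / v) < k → a k ≤ c * U * Real.exp (-(c * k)) := by
    intro k hk
    simp only [ha]
    split_ifs with hcase
    · rcases hcase with h0 | h0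
      · exfalso
        rw [h0] at hk
        push_cast at hk
        linarith
      · exact (hcon k hk h0).le
    · positivity
  have hS := sum_bound hc0 hc1 hv0 hv1 hU (by norm_num : (0:ℝ) ≤ 6400) h1 h2
  have ha00 : a 0 = KB1.ups (f ∘ F) (yk ρ 0 * Complex.I) := by
    simp [ha]
  -- the three pieces
  have p3 := top_bound hf hfi hF hρ hr1 hr2
  rw [← hvU] at p3
  have p2 : ‖f (F ((10 * r : ℝ) * Complex.I)) - f (F ((10 * ρ : ℝ) * Complex.I))‖ ≤ 4 * a 0 := by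
    have := (dist_axis hg hgi (by linarith : 0 < 10 * ρ) (by linarith : 10 * ρ ≤ 10 * r)
      (by linarith)).2
    rw [ha00, yk_zero]
    exact this
  have p1 : ∃ n : ℕ, ‖f (F (y * Complex.I)) - f (F ((10 * ρ : ℝ) * Complex.I))‖ ≤
      ∑ k ∈ Finset.range (n + 1), 4 * a k := by
    rcases le_or_gt y (10 * ρ) with hle | hgt
    · obtain ⟨n, hn1, hn2⟩ := chain_point' hg hgi hρ hy0 hle
      refine ⟨n, hn2.trans (le_of_eq (Finset.sum_congr rfl (fun k hk => ?_)))⟩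
      have : y ≤ yk ρ k := hn1.trans (yk_anti hρ (Nat.lt_succ_iff.1 (Finset.mem_range.1 hk)))
      simp only [ha, this, or_true, if_true]
    · refine ⟨0, ?_⟩
      have := (dist_axis hg hgi (by linarith : 0 < 10 * ρ) hgt.le (by linarith)).2
      rw [zero_add, Finset.sum_range_one, ha00, yk_zero]
      exact this
  obtain ⟨n, hn⟩ := p1
  rw [← Finset.mul_sum] at hn
  have hSn := hS (n + 1)
  have ha0n : a 0 ≤ ∑ k ∈ Finset.range (n + 1), a k :=
    Finset.single_le_sum (fun k _ => ha0 k) (Finset.mem_range.2 (Nat.succ_pos n))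
  have htri : ‖f (F (y * Complex.I)) - f ((10 * r : ℝ) * Complex.I)‖ ≤
      8 * ∑ k ∈ Finset.range (n + 1), a k + 400 * (v * U) := by
    have e : f (F (y * Complex.I)) - f ((10 * r : ℝ) * Complex.I) =
        (f (F (y * Complex.I)) - f (F ((10 * ρ : ℝ) * Complex.I))) -
          (f (F ((10 * r : ℝ) * Complex.I)) - f (F ((10 * ρ : ℝ) * Complex.I))) +
          (f (F ((10 * r : ℝ) * Complex.I)) - f ((10 * r : ℝ) * Complex.I)) := by ring
    rw [e]
    refine (norm_add_le _ _).trans ?_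
    have := norm_sub_le (f (F (y * Complex.I)) - f (F ((10 * ρ : ℝ) * Complex.I)))
      (f (F ((10 * r : ℝ) * Complex.I)) - f (F ((10 * ρ : ℝ) * Complex.I)))
    linarith
  have hvt := rpow_le_of_le_th hc0 hv0 hvth
  have hfin : 8 * ((6400 + 1) * (3 / c) * v ^ (c / 8) * U) + 400 * (v * U) ≤
      154024 / 4000000 * U := by
    have e1 : (6400 + 1) * (3 / c) * v ^ (c / 8) * U = 19203 * U * (v ^ (c / 8) / c) := by ring
    have e2 : v ^ (c / 8) / c ≤ 1 / 4000000 := by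
      rw [div_le_iff₀ hc0]; linarith
    have e3 : v ≤ 1 / 4000000 := th_small hc0 hc1 hv0 hvth
    rw [e1]
    nlinarith
  have : U / 20 ≤ 154024 / 4000000 * U := by
    linarith [hT.trans htri]
  linarith

/-- **localised scale**: the tip escapes `⟹` some `u_t(iy_k)` is large at a point `f_t(iy_k)` close
to `x`. -/
theorem exists_scale_near {c U ρ y : ℝ} {x : ℂ} (hc0 : 0 < c) (hc1 : c ≤ 1) (hU : 0 < U)
    (hρ : 0 < ρ) (hr1 : ρ ≤ r) (hr2 : r ≤ 2 * ρ) (hv : KB1.ups f (ρ * Complex.I) ≤ th c * U)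
    (hx : ‖f ((10 * r : ℝ) * Complex.I) - x‖ ≤ U / 32) (hy0 : 0 < y) (hy : y ≤ 10 * r)
    (hT : U / 16 < ‖f (F (y * Complex.I)) - f ((10 * r : ℝ) * Complex.I)‖) :
    ∃ k : ℕ, 1 / 4 * Real.log (U / KB1.ups f (ρ * Complex.I)) < k ∧
      ‖(f ∘ F) (yk ρ k * Complex.I) - x‖ ≤ U / 8 ∧
      c * U * Real.exp (-(c * k)) ≤ KB1.ups (f ∘ F) (yk ρ k * Complex.I) := by
  have hg := comp_diff hf hF
  have him : 0 < ((ρ : ℂ) * Complex.I).im := by rw [mulI_im]; exact hρ
  have hu0 := ups_pos hf hfi him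
  set v := KB1.ups f (ρ * Complex.I) / U with hvdef
  have hv0 : 0 < v := div_pos hu0 hU
  have hvU : v * U = KB1.ups f (ρ * Complex.I) := by rw [hvdef]; field_simp
  have hvth : v ≤ th c := by rw [hvdef, div_le_iff₀ hU]; exact hv
  have hv1 : v ≤ 1 := hvth.trans (th_le_one hc0 hc1)
  -- the function
  set φ : ℝ → ℝ := fun s => ‖f (F (s * Complex.I)) - f ((10 * r : ℝ) * Complex.I)‖ with hφ
  have hcont : ContinuousOn φ (Icc y (10 * r)) := by
    have h1 : ContinuousOn (fun s : ℝ => (f ∘ F) (s * Complex.I)) (Icc y (10 * r)) := by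
      refine hg.continuousOn.comp (by fun_prop) ?_
      intro s hs
      show 0 < ((s : ℂ) * Complex.I).im
      rw [mulI_im]
      exact lt_of_lt_of_le hy0 hs.1
    exact (h1.sub continuousOn_const).norm
  have htop : φ (10 * r) < U / 16 := by
    have := top_bound hf hfi hF hρ hr1 hr2
    rw [← hvU] at this
    have e3 : v ≤ 1 / 4000000 := th_small hc0 hc1 hv0 hvth
    have h3 : φ (10 * r) ≤ 400 * (v * U) := this
    nlinarith
  -- the greatest point with `φ ≥ U/16`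
  have hSc : IsCompact (Icc y (10 * r) ∩ φ ⁻¹' Ici (U / 16)) :=
    isCompact_Icc.of_isClosed_subset
      (hcont.preimage_isClosed_of_isClosed isClosed_Icc isClosed_Ici) inter_subset_left
  have hSne : (Icc y (10 * r) ∩ φ ⁻¹' Ici (U / 16)).Nonempty := ⟨y, ⟨le_rfl, hy⟩, hT.le⟩
  obtain ⟨y', ⟨hy'1, hy'2⟩, hy'3⟩ := hSc.exists_isGreatest hSne
  have hy'2' : U / 16 ≤ φ y' := hy'2
  have hy'lt : y' < 10 * r := by
    rcases hy'1.2.lt_or_eq with h | h
    · exact h
    · rw [h] at hy'2'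
      linarith
  have hy'0 : 0 < y' := lt_of_lt_of_le hy0 hy'1.1
  have hy'eq : φ y' ≤ U / 16 := by
    by_contra hgt
    push Not at hgt
    have hc2 : ContinuousOn φ (Icc y' (10 * r)) := hcont.mono (Icc_subset_Icc hy'1.1 le_rfl)
    obtain ⟨s, hs, hsv⟩ := intermediate_value_Icc' hy'1.2 hc2
      (show (U / 16) ∈ Icc (φ (10 * r)) (φ y') from ⟨htop.le, hgt.le⟩)
    have hs2 : s ≤ y' := hy'3 ⟨⟨hy'1.1.trans hs.1, hs.2⟩, by
      show U / 16 ≤ φ s
      rw [hsv]⟩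
    have : s = y' := le_antisymm hs2 hs.1
    rw [this] at hsv
    linarith
  obtain ⟨k, hk1, hk2, hk3⟩ := exists_scale' hf hfi hF hc0 hc1 hU hρ hr1 hr2 hv hy'0 hy'1.2
    (le_trans (by linarith) hy'2')
  refine ⟨k, hk1, ?_, hk3⟩
  have hk4 : φ (yk ρ k) ≤ U / 16 := by
    rcases hk2.lt_or_eq with h | h
    · by_contra hgt
      push Not at hgt
      have : yk ρ k ≤ y' := hy'3 ⟨⟨hy'1.1.trans hk2, (yk_le hρ k).trans (by linarith)⟩, hgt.le⟩
      linarith
    · rw [← h]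
      exact hy'eq
  have e : (f ∘ F) (yk ρ k * Complex.I) - x
      = (f (F (yk ρ k * Complex.I)) - f ((10 * r : ℝ) * Complex.I))
        + (f ((10 * r : ℝ) * Complex.I) - x) := by
    simp only [Function.comp_apply]
    ring
  rw [e]
  refine (norm_add_le _ _).trans ?_
  have : ‖f (F (yk ρ k * Complex.I)) - f ((10 * r : ℝ) * Complex.I)‖ ≤ U / 16 := hk4
  linarith

end Main

end Crest.Agent.R162.LB2e
end

-- ▼ part R162/LB2f
section

/-!
Row 162, node LB2b+c (helper636): (b) escape probability at scale `ρ`, (c) tail of `Z'`.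
-/

set_option autoImplicit false

open MeasureTheory Set Metric
open scoped ENNReal NNReal

namespace Crest.Agent.R162.LB2f

open Crest.Agent.R162.FL Crest.Agent.R162.FLC Crest.Agent.R162.KB1 Crest.Agent.R162.LB2a
open Crest.Agent.R162.LB2e Crest.Agent.R162.OP

/-- OP3 for a fixed start point, at time `0` (`c₀ = 1/2`). -/
def OP3 {Ω : Type*} [MeasurableSpace Ω] (P : Measure Ω) (W : Ω → ℝ → ℝ) (R : Ω → ℝ → ℝ)
    (C c' : ℝ) : Prop :=
  ∀ z : ℂ, 0 < z.im → ∀ lam : ℝ, 0 < lam →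
      P {ω | ∃ t, 0 ≤ t ∧ Alive (W ω) z t ∧ 1 / 2 ≤ sfl (W ω) t z
        ∧ ‖Zfl (W ω) t z‖ ≤ lam * R ω t} ≤ ENNReal.ofReal (C * lam ^ c')

/-- the event of KEY at scale `k` -/
def Ev {Ω : Type*} (W : Ω → ℝ → ℝ) (R : Ω → ℝ → ℝ) (f : ℂ → ℂ) (x : ℂ) (U ρ c b : ℝ) (k : ℕ) :
    Set Ω :=
  {ω | ∃ t, 0 ≤ t ∧ ρ ≤ R ω t ∧ ‖(f ∘ ffl (W ω) t) (yk ρ k * Complex.I) - x‖ ≤ U / 8
        ∧ b * Real.exp (-(c * k)) * U ≤ KB1.ups (f ∘ ffl (W ω) t) (yk ρ k * Complex.I)}

variable {Ω : Type*} [MeasurableSpace Ω] {P : Measure Ω} {W : Ω → ℝ → ℝ} {R : Ω → ℝ → ℝ}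
  {C c' : ℝ} {f : ℂ → ℂ} {x : ℂ} {U ρ c b : ℝ}

theorem ev_le (hW : ∀ ω, ContinuousOn (W ω) (Ici 0)) (hC : 0 ≤ C) (hOP3 : OP3 P W R C c')
    (hf : DifferentiableOn ℂ f Hs) (hfi : InjOn f Hs) (hU : 0 < U) (hρ : 0 < ρ) (hc0 : 0 < c)
    (hb : 0 < b) (hb1 : b ≤ 1) (k : ℕ) :
    P (Ev W R f x U ρ c b k)
      ≤ ENNReal.ofReal (49 * C / b ^ 2 * 20 ^ c' * Real.exp (-((c' - 2 * c) * k))) := by
  have ha : 0 < b * Real.exp (-(c * k)) := by positivity
  have ha1 : b * Real.exp (-(c * k)) ≤ 1 := by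
    have : Real.exp (-(c * k)) ≤ 1 := Real.exp_le_one_iff.2 (by
      have : 0 ≤ c * k := by positivity
      linarith)
    calc b * Real.exp (-(c * k)) ≤ 1 * 1 := by gcongr
      _ = 1 := by ring
  refine (LB2d.key P W hW R hC hOP3 hf hfi x hU ha ha1 (yk_pos hρ k) hρ).trans ?_
  refine ENNReal.ofReal_le_ofReal (le_of_eq ?_)
  have e1 : 2 * yk ρ k / ρ = 20 * Real.exp (-(k : ℝ)) := by
    unfold yk
    field_simp
    ring
  have e2 : (20 * Real.exp (-(k : ℝ))) ^ c' = 20 ^ c' * Real.exp (-(k * c')) := by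
    rw [Real.mul_rpow (by norm_num) (Real.exp_pos _).le, ← Real.exp_mul]
    congr 2
    ring
  have e3 : Real.exp (-((c' - 2 * c) * k)) = Real.exp (-(k * c')) * Real.exp (2 * (c * k)) := by
    rw [← Real.exp_add]
    congr 1
    ring
  have e4 : (b * Real.exp (-(c * k))) ^ 2 * Real.exp (2 * (c * k)) = b ^ 2 := by
    rw [mul_pow, ← Real.exp_nat_mul, mul_assoc, ← Real.exp_add]
    have : ((2 : ℕ) : ℝ) * -(c * k) + 2 * (c * k) = 0 := by push_cast; ring
    rw [this, Real.exp_zero, mul_one]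
  rw [e1, e2, e3]
  have h5 : (b * Real.exp (-(c * k))) ^ 2 ≠ 0 := by positivity
  have h6 : b ^ 2 ≠ 0 := by positivity
  rw [div_mul_eq_mul_div, div_mul_eq_mul_div, div_mul_eq_mul_div, div_eq_div_iff h5 h6, ← e4]
  ring

/-- union over the scales `k > L`. -/
theorem ev_tail (hW : ∀ ω, ContinuousOn (W ω) (Ici 0)) (hC : 0 ≤ C) (hOP3 : OP3 P W R C c')
    (hf : DifferentiableOn ℂ f Hs) (hfi : InjOn f Hs) (hU : 0 < U) (hρ : 0 < ρ) (hc0 : 0 < c)
    (hb : 0 < b) (hb1 : b ≤ 1) (hcc : 2 * c < c') (k0 : ℕ) :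
    P (⋃ k ∈ {k : ℕ | k0 ≤ k}, Ev W R f x U ρ c b k)
      ≤ ENNReal.ofReal (49 * C / b ^ 2 * 20 ^ c' / (1 - Real.exp (-(c' - 2 * c)))
          * Real.exp (-((c' - 2 * c) * k0))) := by
  have h0 : 0 ≤ 49 * C / b ^ 2 * 20 ^ c' := by positivity
  refine le_trans ?_ (LB2b.geom_tail (a := c' - 2 * c) (by linarith) h0 k0)
  refine (measure_iUnion_le _).trans (ENNReal.tsum_le_tsum (fun k => ?_))
  by_cases hk : k0 ≤ k
  · rw [if_pos hk]
    refine le_trans (measure_mono ?_) (ev_le (x := x) hW hC hOP3 hf hfi hU hρ hc0 hb hb1 k)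
    intro ω hω
    obtain ⟨_, h⟩ := mem_iUnion.1 hω
    exact h
  · rw [if_neg hk]
    have : (⋃ (_ : k ∈ {k : ℕ | k0 ≤ k}), Ev W R f x U ρ c b k) = ∅ := by
      rw [iUnion_eq_empty]
      intro h
      exact absurd h hk
    rw [this, measure_empty]

/-- **(b)** escape at scale `ρ`. -/
theorem esc (hW : ∀ ω, ContinuousOn (W ω) (Ici 0))
    (hR0 : ∀ ω t, 0 ≤ t → t ≤ R ω t ^ 2) (hRW : ∀ ω t, 0 ≤ t → |W ω t| ≤ R ω t)
    (hC : 0 ≤ C) (hOP3 : OP3 P W R C c')
    (hf : DifferentiableOn ℂ f Hs) (hfi : InjOn f Hs) (hU : 0 < U) (hρ : 0 < ρ)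
    (hc0 : 0 < c) (hc1 : c ≤ 1) (hcc : 2 * c < c')
    (hv : KB1.ups f (ρ * Complex.I) ≤ th c * U)
    (hx : ∀ y : ℝ, 10 * ρ ≤ y → y ≤ 20 * ρ → ‖f (y * Complex.I) - x‖ ≤ U / 32) :
    P {ω | ∃ t, 0 ≤ t ∧ ρ ≤ R ω t ∧ R ω t ≤ 2 * ρ ∧ ∃ y : ℝ, 0 < y ∧ y ≤ 10 * R ω t ∧
        U / 16 < ‖f (ffl (W ω) t (y * Complex.I)) - f ((10 * R ω t : ℝ) * Complex.I)‖}
      ≤ ENNReal.ofReal (49 * C / c ^ 2 * 20 ^ c' / (1 - Real.exp (-(c' - 2 * c)))
          * (KB1.ups f (ρ * Complex.I) / U) ^ ((c' - 2 * c) / 4)) := by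
  have him : 0 < ((ρ : ℂ) * Complex.I).im := by rw [mulI_im]; exact hρ
  have hu0 := ups_pos hf hfi him
  set v := KB1.ups f (ρ * Complex.I) / U with hvdef
  have hv0 : 0 < v := div_pos hu0 hU
  have hvth : v ≤ th c := by rw [hvdef, div_le_iff₀ hU]; exact hv
  have hv1 : v ≤ 1 := hvth.trans (th_le_one hc0 hc1)
  have hinv : U / KB1.ups f (ρ * Complex.I) = 1 / v := by rw [hvdef]; field_simp
  set L := 1 / 4 * Real.log (1 / v) with hL
  have hL0 : 0 ≤ L := by
    have : 0 ≤ Real.log (1 / v) := Real.log_nonneg (by rw [le_div_iff₀ hv0]; linarith)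
    rw [hL]
    linarith
  set k0 : ℕ := ⌊L⌋₊ + 1 with hk0
  have hsub : {ω | ∃ t, 0 ≤ t ∧ ρ ≤ R ω t ∧ R ω t ≤ 2 * ρ ∧ ∃ y : ℝ, 0 < y ∧ y ≤ 10 * R ω t ∧
        U / 16 < ‖f (ffl (W ω) t (y * Complex.I)) - f ((10 * R ω t : ℝ) * Complex.I)‖}
      ⊆ ⋃ k ∈ {k : ℕ | k0 ≤ k}, Ev W R f x U ρ c c k := by
    rintro ω ⟨t, ht, h1, h2, y, hy0, hy, hT⟩
    have hstep : Step (ffl (W ω) t) (R ω t) :=
      step_of_ffl (hW ω) ht (hρ.trans_le h1) (hR0 ω t ht) (hRW ω t ht)
    obtain ⟨k, hk1, hk2, hk3⟩ := exists_scale_near hf hfi hstep hc0 hc1 hU hρ h1 h2 hv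
      (hx (10 * R ω t) (by linarith) (by linarith)) hy0 hy hT
    rw [hinv] at hk1
    have hk : k0 ≤ k := by
      have : ⌊L⌋₊ < k := (Nat.floor_lt hL0).2 hk1
      omega
    refine mem_iUnion₂.2 ⟨k, hk, t, ht, h1, hk2, ?_⟩
    refine le_trans (le_of_eq ?_) hk3
    ring
  have hc1' : c ≤ 1 := hc1
  refine (measure_mono hsub).trans ((ev_tail hW hC hOP3 hf hfi hU hρ hc0 hc0 hc1 hcc k0).trans ?_)
  refine ENNReal.ofReal_le_ofReal ?_
  have hexp : Real.exp (-((c' - 2 * c) * k0)) ≤ v ^ ((c' - 2 * c) / 4) := by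
    have h1 : L ≤ k0 := by
      rw [hk0]
      push_cast
      exact (Nat.lt_floor_add_one L).le
    have h2 : v ^ ((c' - 2 * c) / 4) = Real.exp (-((c' - 2 * c) * L)) := by
      rw [Real.rpow_def_of_pos hv0, hL, one_div v, Real.log_inv]
      congr 1
      ring
    rw [h2]
    refine Real.exp_le_exp.2 ?_
    have : (c' - 2 * c) * L ≤ (c' - 2 * c) * k0 :=
      mul_le_mul_of_nonneg_left h1 (by linarith)
    linarith
  have hpos : 0 ≤ 49 * C / c ^ 2 * 20 ^ c' / (1 - Real.exp (-(c' - 2 * c))) := by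
    have : Real.exp (-(c' - 2 * c)) < 1 := by
      rw [Real.exp_lt_one_iff]
      linarith
    apply div_nonneg (by positivity)
    linarith
  exact mul_le_mul_of_nonneg_left hexp hpos

/-- **(c)** tail of `Z'` at scale `ρ`.  `J` is any functional for which the deterministic bound
`hJ` holds. -/
theorem tail' (hW : ∀ ω, ContinuousOn (W ω) (Ici 0))
    (hC : 0 ≤ C) (hOP3 : OP3 P W R C c')
    (hf : DifferentiableOn ℂ f Hs) (hfi : InjOn f Hs) (hU : 0 < U) (hρ : 0 < ρ)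
    (hc0 : 0 < c) (hcc : 2 * c < c') (J : (ℂ → ℂ) → ℝ → ℝ≥0∞) (K : ℕ → ℝ≥0∞)
    (hJ : ∀ (h : ℂ → ℂ) (r : ℝ) (n : ℕ), DifferentiableOn ℂ h Hs → InjOn h Hs → ρ ≤ r →
      r ≤ 2 * ρ → (∀ y : ℝ, 0 < y → y ≤ 10 * r → ‖h (y * Complex.I) - x‖ ≤ U / 8) →
      (∀ k : ℕ, n ≤ k → KB1.ups h (yk ρ k * Complex.I) ≤ Real.exp (-(c * k)) * U) →
      J h (10 * r) ≤ K n) (n : ℕ) :
    P {ω | ∃ t, 0 ≤ t ∧ ρ ≤ R ω t ∧ R ω t ≤ 2 * ρ ∧
        (∀ y : ℝ, 0 < y → y ≤ 10 * R ω t → ‖(f ∘ ffl (W ω) t) (y * Complex.I) - x‖ ≤ U / 8) ∧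
        K n < J (f ∘ ffl (W ω) t) (10 * R ω t)}
      ≤ ENNReal.ofReal (49 * C * 20 ^ c' / (1 - Real.exp (-(c' - 2 * c)))
          * Real.exp (-((c' - 2 * c) * n))) := by
  have hsub : {ω | ∃ t, 0 ≤ t ∧ ρ ≤ R ω t ∧ R ω t ≤ 2 * ρ ∧
        (∀ y : ℝ, 0 < y → y ≤ 10 * R ω t → ‖(f ∘ ffl (W ω) t) (y * Complex.I) - x‖ ≤ U / 8) ∧
        K n < J (f ∘ ffl (W ω) t) (10 * R ω t)}
      ⊆ ⋃ k ∈ {k : ℕ | n ≤ k}, Ev W R f x U ρ c 1 k := by
    rintro ω ⟨t, ht, h1, h2, hloc, hlt⟩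
    have hg := LB2d.diffOn_comp (f := f) (hW ω) ht hf
    have hgi := LB2d.injOn_comp (f := f) (hW ω) ht hfi
    by_contra hcon
    have hall : ∀ k : ℕ, n ≤ k →
        KB1.ups (f ∘ ffl (W ω) t) (yk ρ k * Complex.I) ≤ Real.exp (-(c * k)) * U := by
      intro k hk
      by_contra hgt
      push Not at hgt
      refine hcon (mem_iUnion₂.2 ⟨k, hk, t, ht, h1, hloc _ (yk_pos hρ k)
        ((yk_le hρ k).trans (by linarith)), ?_⟩)
      rw [one_mul]
      exact hgt.le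
    exact absurd (hJ _ _ n hg hgi h1 h2 hloc hall) (not_le.2 hlt)
  refine (measure_mono hsub).trans ((ev_tail hW hC hOP3 hf hfi hU hρ hc0 one_pos le_rfl hcc n).trans ?_)
  refine ENNReal.ofReal_le_ofReal (le_of_eq ?_)
  ring

end Crest.Agent.R162.LB2f
end

-- ▼ part R162/LB2h

/-!
Row 162, node LB2b+c (helper636): `In2 κ` and `InZ κ` (561's input Props) from OP3 at time `0`.
-/

set_option autoImplicit false

open MeasureTheory ProbabilityTheory Set Filter Topology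
open scoped ENNReal NNReal
open Crest.ProbabilityR.Loewner

namespace Crest.Agent.R162.LB2h

open Crest.Agent.R162.FL Crest.Agent.R162.KB1 Crest.Agent.R162.OS Crest.Agent.R162.LBStep
open Crest.Agent.R162.LB Crest.Agent.R162.LB2a

universe u

/-- OP3 at time `0`, all probability spaces. -/
def OP3K (κ : ℝ) : Prop :=
  ∃ C c' : ℝ, 0 ≤ C ∧ 0 < c' ∧ ∀ (Ω : Type u) [MeasurableSpace Ω] (P : Measure Ω)
    [IsProbabilityMeasure P] (F : Filtration ℝ≥0 (inferInstance : MeasurableSpace Ω))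
    (B : ℝ≥0 → Ω → ℝ) (_ : IsBM F B P),
    LB2f.OP3 P (fun ω => driving κ B ω) (fun ω t => rad (driving κ B ω) t) C c'

/-- the old geodesic from `State` -/
theorem geo_state {p : LB.Par} (hA : p.Adm) (hc : LB0.Small p) {f : ℂ → ℂ} (hS : State p f)
    (hθ : p.θ ≤ 1 / 2) : LB0.Geo p f := by
  have hf := hS.diff
  have hfi := hS.inj
  have hv : ∃ y : ℝ, 0 < y ∧ p.θ ≤ LB.vv p.u0 f y := by
    have h1 : ∀ᶠ y in atTop, (1 / 2 : ℝ) < LB.vv p.u0 f y :=
      hS.v_tendsto.eventually (lt_mem_nhds (by norm_num))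
    obtain ⟨y, hy1, hy2⟩ := (h1.and (eventually_gt_atTop 0)).exists
    exact ⟨y, hy2, hθ.trans hy1.le⟩
  obtain ⟨y0, hy0, hvy0⟩ := hv
  have hK42 : 1 ≤ p.K4 ^ 2 := one_le_pow₀ hc.K4_ge
  have hθ1 : p.θ ≤ 1 := by linarith
  have hJ : ∀ y, LB0.Jv p.u0 p.q f y < ⊤ := fun y => lt_top_iff_ne_top.2 (hS.J y)
  have hne : (LB0.bad p.u0 p.q f p.θ p.K3).Nonempty := ⟨y0, hy0, Or.inl hvy0⟩
  obtain ⟨g1, g2, g3, g4, g5, g6⟩ := LB0.geo (K4 := p.K4) hf hfi hA.lip hA.one_le hc.q_pos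
    hc.q_lt hc.θ_pos hc.K3_pos hc.K4_ge hc.sm1 hc.sm2 ⟨1, one_pos, hJ 1⟩ hne
  have hrho : p.rho1 f = LB0.rho1 p.u0 p.q f p.θ p.K3 p.K4 := by
    unfold LB.Par.rho1 LB0.rho1
    rfl
  rw [← hrho] at g2 g3 g4 g5 g6
  have hvy : LB.vv p.u0 f (p.y f) ≤ p.θ := LB0.vv_yx_le hf hA.lip hA.one_le g1
  have hJy : LB.Jv p.u0 p.q f (p.y f) ≤ ENNReal.ofReal p.K3 :=
    LB0.Jv_yx_le hf hfi hA.one_le hc.q_pos g1
  have hnear : ∀ y : ℝ, 0 < y → y ≤ 10 * p.rho1 f →
      ‖f (y * Complex.I) - p.x f‖ ≤ p.u0 (p.x f) / 64 := fun y hy hy2 => g4 y hy hy2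
  refine
    { y_pos := g1
      rho_pos := g2
      y_le := g3
      near := hnear
      vv_le := fun y hy hy2 => g5 y hy hy2
      vv_le_one := fun y hy hy2 => (g5 y hy hy2).trans (by have := hc.sm2; nlinarith)
      Jv_le := g6
      Jv_lt_top := hJ
      lt_y := fun y hy hy2 => LB0.good_of_lt hy hy2
      vv_y_le := hvy
      Jv_y_le := hJy
      caseA := fun h => ⟨le_antisymm hvy h, by unfold LB.Par.rho1; rw [if_pos h]⟩
      caseB := fun h => ?_
      u0_near := fun y hy hy2 => LB0.u0_comparable hA.lip (hnear y hy hy2)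
      norm_sub := fun y y' hy hy2 hy' hy2' => ?_ }
  · refine ⟨by unfold LB.Par.rho1; rw [if_neg h]; ring, le_antisymm hJy ?_⟩
    exact LB0.le_Jv_yx hf hfi hA.lip hA.one_le hc.q_pos hne g1 (not_le.1 h)
  · have h3 := hnear y hy hy2
    have h4 := hnear y' hy' hy2'
    calc ‖f (y * Complex.I) - f (y' * Complex.I)‖
        = ‖(f (y * Complex.I) - p.x f) - (f (y' * Complex.I) - p.x f)‖ := by ring_nf
      _ ≤ ‖f (y * Complex.I) - p.x f‖ + ‖f (y' * Complex.I) - p.x f‖ := norm_sub_le _ _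
      _ ≤ _ := by linarith

/-- consequences of `Geo` used below: bound up to `20 ρ₁`. -/
theorem near20 {p : LB.Par} (hA : p.Adm) {f : ℂ → ℂ} (hS : State p f) (hG : LB0.Geo p f)
    (hsm : 3200 * p.K4 ^ 2 * p.θ ≤ 1 / 10) {y : ℝ} (hy0 : 0 < y) (hy : y ≤ 20 * p.rho1 f) :
    ‖f (y * Complex.I) - p.x f‖ ≤ p.u0 (p.x f) / 32 := by
  have hU : 0 < p.u0 (p.x f) := lt_of_lt_of_le one_pos (hA.one_le _)
  rcases le_or_gt y (10 * p.rho1 f) with h | h
  · have := hG.near y hy0 h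
    linarith
  · have h10 : 0 < 10 * p.rho1 f := by have := hG.rho_pos; linarith
    have h1 := (dist_axis hS.diff hS.inj h10 h.le (by linarith)).2
    have h2 := hG.near (10 * p.rho1 f) h10 le_rfl
    have h3 := hG.vv_le (10 * p.rho1 f) h10 le_rfl
    have h4 := (hG.u0_near (10 * p.rho1 f) h10 le_rfl).2
    have h5 : KB1.ups f ((10 * p.rho1 f : ℝ) * Complex.I)
        = LB.vv p.u0 f (10 * p.rho1 f) * p.u0 (f ((10 * p.rho1 f : ℝ) * Complex.I)) := by
      have : 0 < p.u0 (f ((10 * p.rho1 f : ℝ) * Complex.I)) :=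
        lt_of_lt_of_le one_pos (hA.one_le _)
      unfold LB.vv
      field_simp
    have h6 : LB.vv p.u0 f (10 * p.rho1 f) ≤ 1 / 300 := by
      refine h3.trans ?_
      linarith
    have h7 : KB1.ups f ((10 * p.rho1 f : ℝ) * Complex.I) ≤ 1 / 300 * (65 / 64 * p.u0 (p.x f)) := by
      rw [h5]
      have h0 : 0 ≤ p.u0 (f ((10 * p.rho1 f : ℝ) * Complex.I)) :=
        le_trans zero_le_one (hA.one_le _)
      exact mul_le_mul h6 h4 h0 (by norm_num)
    have e : f (y * Complex.I) - p.x f = (f (y * Complex.I) - f ((10 * p.rho1 f : ℝ) * Complex.I))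
        + (f ((10 * p.rho1 f : ℝ) * Complex.I) - p.x f) := by ring
    rw [e]
    refine (norm_add_le _ _).trans ?_
    linarith

/-- the exponents: `c = min (c'/4) 1` -/
noncomputable def cE (c' : ℝ) : ℝ := min (c' / 4) 1

lemma cE_pos {c' : ℝ} (h : 0 < c') : 0 < cE c' := lt_min (by linarith) one_pos
lemma cE_le_one (c' : ℝ) : cE c' ≤ 1 := min_le_right _ _
lemma cE_le (c' : ℝ) : cE c' ≤ c' / 4 := min_le_left _ _
lemma cE_lt {c' : ℝ} (h : 0 < c') : 2 * cE c' < c' := by have := cE_le c'; linarith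

/-- choice of `θ₀` -/
theorem exists_th0 {q K3 K4 c : ℝ} (hq : 0 < q) (hq1 : q < 1) (hK3 : 0 < K3) (hK4 : 1 ≤ K4)
    (hc : 0 < c) :
    ∃ θ0 : ℝ, 0 < θ0 ∧ ∀ θ : ℝ, 0 < θ → θ ≤ θ0 →
      K3 * θ ^ (1 - q) ≤ 1 / 130 ∧ 3200 * K4 ^ 2 * θ ≤ 1 / 10 ∧ θ ≤ 1 / 2 ∧
        204 * K4 ^ 2 * θ ≤ th c := by
  obtain ⟨θ1, h1, h2⟩ := LB0.exists_theta hq hq1 hK3 hK4
  have hK40 : 0 < K4 := by linarith
  have hth := th_pos hc
  refine ⟨min (min θ1 (1 / 2)) (min (1 / (32000 * K4 ^ 2)) (th c / (204 * K4 ^ 2))), ?_, ?_⟩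
  · refine lt_min (lt_min h1 (by norm_num)) (lt_min (by positivity) (by positivity))
  · intro θ hθ hle
    have a1 := hle.trans ((min_le_left _ _).trans (min_le_left _ _))
    have a2 := hle.trans ((min_le_left _ _).trans (min_le_right _ _))
    have a3 := hle.trans ((min_le_right _ _).trans (min_le_left _ _))
    have a4 := hle.trans ((min_le_right _ _).trans (min_le_right _ _))
    refine ⟨(h2 θ hθ a1).1, ?_, a2, ?_⟩
    · rw [le_div_iff₀ (by positivity)] at a3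
      linarith
    · rw [le_div_iff₀ (by positivity)] at a4
      linarith

lemma cont_driving {Ω : Type*} [MeasurableSpace Ω] {P : Measure Ω}
    {F : Filtration ℝ≥0 (inferInstance : MeasurableSpace Ω)} {B : ℝ≥0 → Ω → ℝ}
    (hB : IsBM F B P) (κ : ℝ) (ω : Ω) : ContinuousOn (driving κ B ω) (Ici 0) := by
  have h1 : Continuous (driving κ B ω) := by
    unfold driving
    exact continuous_const.mul ((hB.cont ω).comp continuous_real_toNNReal)
  exact h1.continuousOn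

/-- **LB2b**: `In2 κ`. -/
theorem in2 {κ : ℝ} (h3 : OP3K.{u} κ) : In2.{u} κ := by
  obtain ⟨C, c', hC, hc', hall⟩ := h3
  set c := cE c' with hcdef
  have hc0 : 0 < c := cE_pos hc'
  have hc1 : c ≤ 1 := cE_le_one c'
  have hcc : 2 * c < c' := cE_lt hc'
  set e : ℝ := (c' - 2 * c) / 4 with he
  have he0 : 0 < e := by rw [he]; linarith
  set Cb : ℝ := 49 * C / c ^ 2 * 20 ^ c' / (1 - Real.exp (-(c' - 2 * c))) with hCb
  have hCb0 : 0 ≤ Cb := by
    have : Real.exp (-(c' - 2 * c)) < 1 := by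
      rw [Real.exp_lt_one_iff]
      linarith
    apply div_nonneg (by positivity)
    linarith
  refine ⟨e, Cb * 2 ^ e, he0, by positivity, ?_⟩
  intro cs q η K3 K4 hcs hcs2 hq hq8 hη hη8 hK3 hK4
  obtain ⟨θ0, hθ0, hθall⟩ := exists_th0 hq (by linarith : q < 1) hK3 hK4 hc0
  refine ⟨θ0, hθ0, ?_⟩
  intro p hκ hpcs hpq hpη hpK3 hpK4 hpθ0 hpθ hA f hS Ω _ P _ F B hB k hk
  obtain ⟨s1, s2, s3, s4⟩ := hθall p.θ hpθ0 hpθ
  have hsmall : LB0.Small p :=
    { q_pos := by rw [hpq]; exact hq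
      q_lt := by rw [hpq]; linarith
      η_nonneg := by rw [hpη]; exact hη.le
      θ_pos := hpθ0
      K3_pos := by rw [hpK3]; exact hK3
      K4_ge := by rw [hpK4]; exact hK4
      sm1 := by rw [hpK3, hpq]; exact s1
      sm2 := by rw [hpK4]; linarith }
  have hG := geo_state hA hsmall hS s3
  have hρ : (0 : ℝ) < (2 : ℝ) ^ k := by positivity
  set ρ : ℝ := (2 : ℝ) ^ k with hρdef
  have hρ10 : ρ ≤ 10 * p.rho1 f := by have := hG.rho_pos; linarith
  have hU : 0 < p.u0 (p.x f) := lt_of_lt_of_le one_pos (hA.one_le _)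
  set U := p.u0 (p.x f) with hUdef
  have hu0p : 0 < p.u0 (f (ρ * Complex.I)) := lt_of_lt_of_le one_pos (hA.one_le _)
  have hvv : KB1.ups f (ρ * Complex.I) = LB.vv p.u0 f ρ * p.u0 (f (ρ * Complex.I)) := by
    unfold LB.vv
    field_simp
  have hups0 : 0 < KB1.ups f (ρ * Complex.I) :=
    ups_pos hS.diff hS.inj (by rw [mulI_im]; exact hρ)
  have hvv0 : 0 < LB.vv p.u0 f ρ := div_pos hups0 hu0p
  have hvv1 : LB.vv p.u0 f ρ ≤ 1 := hG.vv_le_one ρ hρ hρ10
  have hratio : KB1.ups f (ρ * Complex.I) ≤ 2 * LB.vv p.u0 f ρ * U := by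
    rw [hvv]
    have h1 := (hG.u0_near ρ hρ hρ10).2
    have h2 : p.u0 (f (ρ * Complex.I)) ≤ 2 * U := by rw [hUdef]; linarith
    calc LB.vv p.u0 f ρ * p.u0 (f (ρ * Complex.I)) ≤ LB.vv p.u0 f ρ * (2 * U) := by gcongr
      _ = _ := by ring
  have hv : KB1.ups f (ρ * Complex.I) ≤ th c * U := by
    refine hratio.trans ?_
    have h1 := hG.vv_le ρ hρ hρ10
    rw [hpK4] at h1
    have : 2 * LB.vv p.u0 f ρ ≤ th c := by linarith
    gcongr
  have hx : ∀ y : ℝ, 10 * ρ ≤ y → y ≤ 20 * ρ → ‖f (y * Complex.I) - p.x f‖ ≤ U / 32 := by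
    intro y hy1 hy2
    refine near20 hA hS hG (by rw [hpK4]; exact s2) (by linarith) ?_
    linarith
  have hesc := LB2f.esc (P := P) (W := fun ω => driving κ B ω)
    (R := fun ω t => rad (driving κ B ω) t) (x := p.x f) (cont_driving hB κ)
    (fun ω t ht => le_rad_sq ht) (fun ω t ht => abs_le_rad (cont_driving hB κ ω) ht le_rfl)
    hC (hall Ω P F B hB) hS.diff hS.inj hU hρ hc0 hc1 hcc hv hx
  refine (measure_mono ?_).trans (hesc.trans ?_)
  · rintro ω ⟨t, ht, h1, h2, hbad⟩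
    refine ⟨t, ht.le, h1, ?_, ?_⟩
    · have : (2 : ℝ) ^ (k + 1) = 2 * ρ := by
        rw [hρdef, zpow_add₀ (by norm_num), zpow_one]
        ring
      rw [this] at h2
      exact h2.le
    · exact hbad
  · refine ENNReal.ofReal_le_ofReal ?_
    rw [mul_assoc]
    refine mul_le_mul_of_nonneg_left ?_ hCb0
    have h1 : KB1.ups f (ρ * Complex.I) / U ≤ 2 * LB.vv p.u0 f ρ := by
      rw [div_le_iff₀ hU]
      exact hratio
    calc (KB1.ups f (ρ * Complex.I) / U) ^ e ≤ (2 * LB.vv p.u0 f ρ) ^ e :=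
          Real.rpow_le_rpow (by positivity) h1 he0.le
      _ = 2 ^ e * LB.vv p.u0 f ρ ^ e := Real.mul_rpow (by norm_num) hvv0.le
      _ ≤ 2 ^ e * LB.vv p.u0 f ρ ^ cs := by
          gcongr ?_ * ?_
          exact Real.rpow_le_rpow_of_exponent_ge hvv0 hvv1 hcs2

/-- **LB2c**: `InZ κ`. -/
theorem inZ {κ : ℝ} (h3 : OP3K.{u} κ) : InZ.{u} κ := by
  obtain ⟨C, c', hC, hc', hall⟩ := h3
  set c := cE c' with hcdef
  have hc0 : 0 < c := cE_pos hc'
  have hc1 : c ≤ 1 := cE_le_one c'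
  have hcc : 2 * c < c' := cE_lt hc'
  intro q hq hq8
  set a : ℝ := c' - 2 * c with ha
  have ha0 : 0 < a := by rw [ha]; linarith
  set D : ℝ := 49 * C * 20 ^ c' / (1 - Real.exp (-(c' - 2 * c))) with hD
  have hD0 : 0 ≤ D := by
    have : Real.exp (-(c' - 2 * c)) < 1 := by
      rw [Real.exp_lt_one_iff]
      linarith
    apply div_nonneg (by positivity)
    linarith
  set K : ℝ := Real.log 2 + 9 ^ q / (1 - Real.exp (-(c * q))) with hK
  set N0 : ℕ := ⌈K⌉₊ with hN0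
  refine ⟨a, max D 1 * Real.exp (a * N0), ha0, by positivity, ?_⟩
  intro cs η K3 K4 hcs hη hη8 hK3 hK4
  obtain ⟨θ0, hθ0, hθall⟩ := exists_th0 hq (by linarith : q < 1) hK3 hK4 hc0
  refine ⟨θ0, hθ0, ?_⟩
  intro p hκ hpcs hpq hpη hpK3 hpK4 hpθ0 hpθ hA f hS Ω _ P _ F B hB k n hk
  obtain ⟨s1, s2, s3, s4⟩ := hθall p.θ hpθ0 hpθ
  have hsmall : LB0.Small p :=
    { q_pos := by rw [hpq]; exact hq
      q_lt := by rw [hpq]; linarith
      η_nonneg := by rw [hpη]; exact hη.le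
      θ_pos := hpθ0
      K3_pos := by rw [hpK3]; exact hK3
      K4_ge := by rw [hpK4]; exact hK4
      sm1 := by rw [hpK3, hpq]; exact s1
      sm2 := by rw [hpK4]; linarith }
  have hG := geo_state hA hsmall hS s3
  have hρ : (0 : ℝ) < (2 : ℝ) ^ k := by positivity
  set ρ : ℝ := (2 : ℝ) ^ k with hρdef
  have hU : 0 < p.u0 (p.x f) := lt_of_lt_of_le one_pos (hA.one_le _)
  -- small n
  rcases lt_or_ge n N0 with hn | hn
  · refine (prob_le_one).trans ?_
    rw [← ENNReal.ofReal_one]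
    refine ENNReal.ofReal_le_ofReal ?_
    have h1 : (1 : ℝ) ≤ Real.exp (a * N0) * Real.exp (-(a * n)) := by
      rw [← Real.exp_add]
      refine Real.one_le_exp ?_
      have : (n : ℝ) ≤ N0 := by exact_mod_cast hn.le
      nlinarith
    calc (1 : ℝ) ≤ 1 * (Real.exp (a * N0) * Real.exp (-(a * n))) := by linarith
      _ ≤ max D 1 * (Real.exp (a * N0) * Real.exp (-(a * n))) := by
          gcongr
          exact le_max_right _ _
      _ = _ := by ring
  · obtain ⟨m, rfl⟩ := Nat.exists_eq_add_of_le hn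
    have htail := LB2f.tail' (P := P) (W := fun ω => driving κ B ω)
      (R := fun ω t => rad (driving κ B ω) t) (x := p.x f) (U := p.u0 (p.x f)) (ρ := ρ)
      (cont_driving hB κ) hC (hall Ω P F B hB) hS.diff hS.inj hU hρ hc0 hcc
      (LB.Jv p.u0 p.q) (fun n => ENNReal.ofReal (n + Real.log 2 + 9 ^ q
        / (1 - Real.exp (-(c * q)))))
      (fun h r n hh hi h1 h2 hA1 hB1 => by
        have := LB2w.Jv_le hh hi hA.one_le hA.lip (x := p.x f) hq hc0 hρ h1 h2 hA1 n hB1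
        rw [hpq]
        exact this) m
    refine (measure_mono ?_).trans (htail.trans ?_)
    · rintro ω ⟨t, ht, h1, h2, hbad, hJ⟩
      have h2' : rad (driving κ B ω) t ≤ 2 * ρ := by
        have : (2 : ℝ) ^ (k + 1) = 2 * ρ := by
          rw [hρdef, zpow_add₀ (by norm_num), zpow_one]
          ring
        rw [this] at h2
        exact h2.le
      refine ⟨t, ht.le, h1, h2', ?_, ?_⟩
      · intro y hy0 hy
        have h3 : ‖f (ffl (driving κ B ω) t (y * Complex.I))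
            - f ((10 * rad (driving κ B ω) t : ℝ) * Complex.I)‖ ≤ p.u0 (p.x f) / 16 := by
          by_contra hgt
          push Not at hgt
          exact hbad ⟨y, hy0, hy, hgt⟩
        have h4 : ‖f ((10 * rad (driving κ B ω) t : ℝ) * Complex.I) - p.x f‖
            ≤ p.u0 (p.x f) / 32 := by
          refine near20 hA hS hG (by rw [hpK4]; exact s2) ?_ ?_
          · have : 0 < rad (driving κ B ω) t := hρ.trans_le h1
            linarith
          · linarith
        have e : (f ∘ ffl (driving κ B ω) t) (y * Complex.I) - p.x f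
            = (f (ffl (driving κ B ω) t (y * Complex.I))
              - f ((10 * rad (driving κ B ω) t : ℝ) * Complex.I))
              + (f ((10 * rad (driving κ B ω) t : ℝ) * Complex.I) - p.x f) := by
          simp only [Function.comp_apply]
          ring
        rw [e]
        refine (norm_add_le _ _).trans ?_
        linarith
      · refine lt_of_le_of_lt (ENNReal.ofReal_le_ofReal ?_) hJ
        have : K ≤ N0 := Nat.le_ceil K
        push_cast
        rw [hK] at this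
        linarith
    · refine ENNReal.ofReal_le_ofReal ?_
      have h1 : Real.exp (-((c' - 2 * c) * m)) = Real.exp (a * N0) * Real.exp (-(a * (N0 + m : ℕ))) := by
        rw [← Real.exp_add]
        congr 1
        push_cast
        rw [ha]
        ring
      rw [h1, ← hD]
      calc D * (Real.exp (a * N0) * Real.exp (-(a * (N0 + m : ℕ))))
          ≤ max D 1 * (Real.exp (a * N0) * Real.exp (-(a * (N0 + m : ℕ)))) := by
            gcongr
            exact le_max_left _ _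
        _ = _ := by ring

end Crest.Agent.R162.LB2h
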