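import Mathlib
import Crest.Agent.R162.Base
import Crest.Agent.Lib.Bieberbach
import Crest.Prelude.Def_Loewner
import Crest.Agent.R162.LB3a
import Crest.Agent.R162.LB2a
import Crest.Agent.R162.FLC3

-- ▼ part R162/LB3b
section

/-!
Row 162 (S0243), node LB3b, deterministic part: the Green mass near the tip, weighted with
`min (1, (ρ/|Z|)²)`, is a sum over dyadic shells; numerical summation of the shells.
-/

set_option autoImplicit false

open MeasureTheory Set
open scoped ENNReal NNReal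

namespace Crest.Agent.R162.LB3b

/-- `u_f(z) = Im z |f'(z)|`. -/
noncomputable def uf (f : ℂ → ℂ) (z : ℂ) : ℝ := z.im * ‖deriv f z‖

/-- `S(z) = Im z / |z|`. -/
noncomputable def Sf (z : ℂ) : ℝ := z.im / ‖z‖

/-- the shell `{r ≤ |z| ≤ 2 r}` intersected with `{f z ∈ closed ball x r0}`. -/
def shell (f : ℂ → ℂ) (x : ℂ) (r0 r : ℝ) : Set ℂ :=
  {z | 0 < z.im ∧ r ≤ ‖z‖ ∧ ‖z‖ ≤ 2 * r ∧ ‖f z - x‖ ≤ r0}

/-- the mass density of the Green function in the half-plane: `u^d S^b / y²`. -/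
noncomputable def gd (d b : ℝ) (f : ℂ → ℂ) (z : ℂ) : ℝ := uf f z ^ d * Sf z ^ b / z.im ^ 2

theorem isOpen_H : IsOpen {z : ℂ | 0 < z.im} := isOpen_lt continuous_const Complex.continuous_im

theorem measurableSet_H : MeasurableSet {z : ℂ | 0 < z.im} := isOpen_H.measurableSet

/-- change of variables for an injective holomorphic function on the half-plane -/
theorem lintegral_image_H {f : ℂ → ℂ} (hf : DifferentiableOn ℂ f {z | 0 < z.im})
    (hinj : InjOn f {z | 0 < z.im}) {s : Set ℂ} (hs : MeasurableSet s) (hsH : s ⊆ {z | 0 < z.im})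
    (g : ℂ → ℝ≥0∞) :
    ∫⁻ w in f '' s, g w = ∫⁻ z in s, ENNReal.ofReal (‖deriv f z‖ ^ 2) * g (f z) := by
  have hder : ∀ z ∈ s, HasFDerivWithinAt f
      ((ContinuousLinearMap.toSpanSingleton ℂ (deriv f z)).restrictScalars ℝ) s z := by
    intro z hz
    have h1 : HasDerivAt f (deriv f z) z :=
      (hf.differentiableAt (isOpen_H.mem_nhds (hsH hz))).hasDerivAt
    exact (h1.hasFDerivAt.restrictScalars ℝ).hasFDerivWithinAt
  rw [lintegral_image_eq_lintegral_abs_det_fderiv_mul volume hs hder (hinj.mono hsH) g]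
  refine setLIntegral_congr_fun hs (fun z _ => ?_)
  congr 2
  simp [ContinuousLinearMap.det, LinearMap.det_restrictScalars, Algebra.norm_complex_eq,
    Complex.normSq_eq_norm_sq]

theorem uf_nonneg {f : ℂ → ℂ} {z : ℂ} (hz : 0 < z.im) : 0 ≤ uf f z :=
  mul_nonneg hz.le (norm_nonneg _)

theorem Sf_nonneg {z : ℂ} (hz : 0 < z.im) : 0 ≤ Sf z := div_nonneg hz.le (norm_nonneg _)

theorem gd_nonneg {d b : ℝ} {f : ℂ → ℂ} {z : ℂ} (hz : 0 < z.im) : 0 ≤ gd d b f z := by
  have h1 := uf_nonneg (f := f) hz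
  have h2 := Sf_nonneg hz
  unfold gd
  positivity

theorem measurableSet_near {f : ℂ → ℂ} (hf : DifferentiableOn ℂ f {z | 0 < z.im}) (x : ℂ)
    (r0 : ℝ) : MeasurableSet {z : ℂ | 0 < z.im ∧ ‖f z - x‖ ≤ r0} := by
  have h1 : {z : ℂ | 0 < z.im ∧ ‖f z - x‖ ≤ r0}
      = {z : ℂ | 0 < z.im} \ ({z : ℂ | 0 < z.im} ∩ f ⁻¹' (Metric.closedBall x r0)ᶜ) := by
    ext z
    simp only [mem_setOf_eq, mem_diff, mem_inter_iff, mem_preimage, mem_compl_iff,
      Metric.mem_closedBall, dist_eq_norm]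
    tauto
  rw [h1]
  have h2 : IsOpen ({z : ℂ | 0 < z.im} ∩ f ⁻¹' (Metric.closedBall x r0)ᶜ) :=
    hf.continuousOn.isOpen_inter_preimage isOpen_H Metric.isClosed_closedBall.isOpen_compl
  exact measurableSet_H.diff h2.measurableSet

theorem measurableSet_shell {f : ℂ → ℂ} (hf : DifferentiableOn ℂ f {z | 0 < z.im}) (x : ℂ)
    (r0 r : ℝ) : MeasurableSet (shell f x r0 r) := by
  have h1 : shell f x r0 r = {z : ℂ | 0 < z.im ∧ ‖f z - x‖ ≤ r0} ∩
      ({z | r ≤ ‖z‖} ∩ {z | ‖z‖ ≤ 2 * r}) := by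
    ext z
    simp only [shell, mem_setOf_eq, mem_inter_iff]
    tauto
  rw [h1]
  exact (measurableSet_near hf x r0).inter
    ((measurableSet_le measurable_const measurable_norm).inter
      (measurableSet_le measurable_norm measurable_const))

/-- Shell decomposition of the mass in the half-plane. -/
theorem mass_le_shells {f : ℂ → ℂ} (hf : DifferentiableOn ℂ f {z | 0 < z.im})
    {d b : ℝ} {x : ℂ} {r0 ρ : ℝ} (hρ : 0 < ρ) (B : ℤ → ℝ≥0∞)
    (hsh : ∀ j : ℤ, ∫⁻ z in shell f x r0 ((2 : ℝ) ^ j * ρ), ENNReal.ofReal (gd d b f z) ≤ B j) :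
    ∫⁻ z in {z | 0 < z.im ∧ ‖f z - x‖ ≤ r0},
        ENNReal.ofReal (gd d b f z * min 1 ((ρ / ‖z‖) ^ 2))
      ≤ ∑' j : ℤ, ENNReal.ofReal (min 1 (((2 : ℝ) ^ j)⁻¹ ^ 2)) * B j := by
  have hsub : {z : ℂ | 0 < z.im ∧ ‖f z - x‖ ≤ r0} ⊆ ⋃ j : ℤ, shell f x r0 ((2 : ℝ) ^ j * ρ) := by
    intro z hz
    have hz0 : 0 < ‖z‖ := by
      rw [norm_pos_iff]
      rintro rfl
      simp at hz
    obtain ⟨j, hj⟩ := exists_mem_Ico_zpow (x := ‖z‖ / ρ) (y := (2 : ℝ)) (by positivity)
      (by norm_num)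
    refine mem_iUnion.2 ⟨j, hz.1, ?_, ?_, hz.2⟩
    · have := hj.1
      rwa [le_div_iff₀ hρ] at this
    · have := hj.2.le
      rw [div_le_iff₀ hρ, zpow_add₀ (by norm_num : (2 : ℝ) ≠ 0), zpow_one] at this
      linarith
  calc ∫⁻ z in {z | 0 < z.im ∧ ‖f z - x‖ ≤ r0},
        ENNReal.ofReal (gd d b f z * min 1 ((ρ / ‖z‖) ^ 2))
      ≤ ∫⁻ z in ⋃ j : ℤ, shell f x r0 ((2 : ℝ) ^ j * ρ),
        ENNReal.ofReal (gd d b f z * min 1 ((ρ / ‖z‖) ^ 2)) := lintegral_mono_set hsub
    _ ≤ ∑' j : ℤ, ∫⁻ z in shell f x r0 ((2 : ℝ) ^ j * ρ),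
        ENNReal.ofReal (gd d b f z * min 1 ((ρ / ‖z‖) ^ 2)) := lintegral_iUnion_le _ _
    _ ≤ ∑' j : ℤ, ENNReal.ofReal (min 1 (((2 : ℝ) ^ j)⁻¹ ^ 2)) * B j := by
        refine ENNReal.tsum_le_tsum fun j => ?_
        refine le_trans ?_ (mul_le_mul_right (hsh j) _)
        rw [← lintegral_const_mul' _ _ ENNReal.ofReal_ne_top]
        refine setLIntegral_mono' (measurableSet_shell hf x r0 _) fun z hz => ?_
        rw [← ENNReal.ofReal_mul (by positivity)]
        refine ENNReal.ofReal_le_ofReal ?_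
        rw [mul_comm]
        refine mul_le_mul_of_nonneg_right ?_ (gd_nonneg hz.1)
        refine min_le_min le_rfl ?_
        have h2j : (0 : ℝ) < (2 : ℝ) ^ j := by positivity
        have hz1 := hz.2.1
        have hz0 : 0 < ‖z‖ := lt_of_lt_of_le (by positivity) hz1
        refine pow_le_pow_left₀ (by positivity) ?_ 2
        rw [div_le_iff₀ hz0, inv_mul_eq_div, le_div_iff₀ h2j]
        linarith [mul_comm ρ ((2 : ℝ) ^ j)]


/-! ### numerical summation -/

/-- splitting of a sum over `ℤ` at `3`, with the negative part split into even and odd terms -/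
theorem tsum_int_le (F : ℤ → ℝ≥0∞) :
    ∑' j : ℤ, F j ≤ (∑' i : ℕ, F (4 + i)) + (∑' i : ℕ, F (3 - 2 * i)) + ∑' i : ℕ, F (2 - 2 * i) := by
  let e : Fin 3 × ℕ → ℤ := fun p =>
    if p.1 = 0 then 4 + (p.2 : ℤ) else if p.1 = 1 then 3 - 2 * (p.2 : ℤ) else 2 - 2 * (p.2 : ℤ)
  have he : Function.Surjective e := by
    intro j
    rcases le_or_gt 4 j with hj | hj
    · exact ⟨(0, (j - 4).toNat), by simp [e]; omega⟩
    · rcases Int.emod_two_eq_zero_or_one j with h | h
      · exact ⟨(2, ((2 - j) / 2).toNat), by simp [e]; omega⟩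
      · exact ⟨(1, ((3 - j) / 2).toNat), by simp [e]; omega⟩
  refine (ENNReal.tsum_le_tsum_comp_of_surjective he F).trans ?_
  rw [ENNReal.tsum_prod']
  simp only [tsum_fintype, Fin.sum_univ_three]
  simp [e]

/-- `y_k = 10 ρ e^{-k}` -/
noncomputable def yk (ρ : ℝ) (k : ℕ) : ℝ := 10 * ρ * Real.exp (-(k : ℝ))

theorem yk_pos {ρ : ℝ} (hρ : 0 < ρ) (k : ℕ) : 0 < yk ρ k := by unfold yk; positivity

theorem min_rpow_le {m1 m2 c E : ℝ} (hc : 0 < c) (hE : 1 ≤ E) (h0 : 0 ≤ m1) (h0' : 0 ≤ m2)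
    (h : m1 ≤ E * m2) : (min 1 m1) ^ c ≤ E ^ c * (min 1 m2) ^ c := by
  rw [← Real.mul_rpow (by linarith) (by positivity)]
  refine Real.rpow_le_rpow (by positivity) ?_ hc.le
  rcases le_total 1 m2 with h1 | h1
  · rw [min_eq_left h1]
    exact (min_le_left _ _).trans (by linarith)
  · rw [min_eq_right h1]
    exact (min_le_right _ _).trans h

/-- the sum over the small shells is a sum over the `y_k` -/
theorem small_shells {m : ℝ → ℝ} {ρ c a : ℝ} (hρ : 0 < ρ) (hc : 0 < c) (hm : ∀ y, 0 < y → 0 ≤ m y)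
    (hlip : ∀ y y', 0 < y' → y' ≤ y → y ≤ Real.exp 1 * y' → m y' ≤ Real.exp 2 * m y)
    (ha : 0 < a) (ha10 : a ≤ 10) :
    ∑' i : ℕ, ENNReal.ofReal ((min 1 (m (a * (4 : ℝ)⁻¹ ^ i * ρ))) ^ c)
      ≤ ENNReal.ofReal (Real.exp 2 ^ c) * ∑' k : ℕ, ENNReal.ofReal ((min 1 (m (yk ρ k))) ^ c) := by
  have h4 : (1 : ℝ) < Real.log 4 := by
    have h2 := Real.log_two_gt_d9
    have : Real.log 4 = 2 * Real.log 2 := by
      rw [show (4 : ℝ) = 2 ^ 2 by norm_num, Real.log_pow]; norm_num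
    rw [this]; linarith
  have hL0 : 0 ≤ Real.log (10 / a) := Real.log_nonneg ((one_le_div ha).2 ha10)
  let κ : ℕ → ℕ := fun i => ⌊Real.log (10 / a) + i * Real.log 4⌋₊
  have harg : ∀ i : ℕ, 0 ≤ Real.log (10 / a) + i * Real.log 4 := fun i => by positivity
  have hκinj : Function.Injective κ := by
    have : StrictMono κ := by
      refine strictMono_nat_of_lt_succ fun i => ?_
      have h1 : (κ i : ℝ) ≤ Real.log (10 / a) + i * Real.log 4 := Nat.floor_le (harg i)
      have h2 : (κ i + 1 : ℕ) ≤ κ (i + 1) := by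
        refine Nat.le_floor ?_
        push_cast
        nlinarith
      omega
    exact this.injective
  have hterm : ∀ i : ℕ, (min 1 (m (a * (4 : ℝ)⁻¹ ^ i * ρ))) ^ c
      ≤ Real.exp 2 ^ c * (min 1 (m (yk ρ (κ i)))) ^ c := by
    intro i
    have hy' : 0 < a * (4 : ℝ)⁻¹ ^ i * ρ := by positivity
    have hexp : Real.exp (Real.log (10 / a) + i * Real.log 4) = 10 / a * 4 ^ i := by
      rw [Real.exp_add, Real.exp_log (by positivity), ← Real.log_pow, Real.exp_log (by positivity)]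
    have hy'eq : a * (4 : ℝ)⁻¹ ^ i * ρ
        = 10 * ρ * Real.exp (-(Real.log (10 / a) + i * Real.log 4)) := by
      rw [Real.exp_neg, hexp, inv_pow]
      field_simp
    have h1 : (κ i : ℝ) ≤ Real.log (10 / a) + i * Real.log 4 := Nat.floor_le (harg i)
    have h2 : Real.log (10 / a) + i * Real.log 4 < κ i + 1 := Nat.lt_floor_add_one _
    refine min_rpow_le hc (Real.one_le_exp (by norm_num)) (hm _ hy') (hm _ (yk_pos hρ _)) ?_
    refine hlip _ _ hy' ?_ ?_
    · rw [hy'eq]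
      unfold yk
      gcongr
    · rw [hy'eq]
      unfold yk
      rw [show Real.exp 1 * (10 * ρ * Real.exp (-(Real.log (10 / a) + i * Real.log 4)))
        = 10 * ρ * Real.exp (1 - (Real.log (10 / a) + i * Real.log 4)) by
          rw [sub_eq_add_neg, Real.exp_add]; ring]
      gcongr
      linarith
  calc ∑' i : ℕ, ENNReal.ofReal ((min 1 (m (a * (4 : ℝ)⁻¹ ^ i * ρ))) ^ c)
      ≤ ∑' i : ℕ, ENNReal.ofReal (Real.exp 2 ^ c) * ENNReal.ofReal ((min 1 (m (yk ρ (κ i)))) ^ c) := by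
        refine ENNReal.tsum_le_tsum fun i => ?_
        rw [← ENNReal.ofReal_mul (by positivity)]
        exact ENNReal.ofReal_le_ofReal (hterm i)
    _ = ENNReal.ofReal (Real.exp 2 ^ c) * ∑' i : ℕ, ENNReal.ofReal ((min 1 (m (yk ρ (κ i)))) ^ c) :=
        ENNReal.tsum_mul_left
    _ ≤ _ := mul_le_mul_right (ENNReal.tsum_comp_le_tsum_of_injective hκinj
          (fun k => ENNReal.ofReal ((min 1 (m (yk ρ k))) ^ c))) _

/-- the sum over the large shells -/
theorem large_shells {m : ℝ → ℝ} {ρ c M : ℝ} (hρ : 0 < ρ) (hc : 0 < c) (hc2 : c ≤ 1 / 2)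
    (hM : 0 ≤ M) (hm : ∀ y, 0 < y → 0 ≤ m y)
    (hbig : ∀ y, 10 * ρ ≤ y → m y ≤ M * (y / ρ) ^ 2) :
    ∑' i : ℕ, ENNReal.ofReal (min 1 (((2 : ℝ) ^ (4 + (i : ℤ)))⁻¹ ^ 2)
        * (min 1 (m ((2 : ℝ) ^ (4 + (i : ℤ)) * ρ))) ^ c) ≤ ENNReal.ofReal (M ^ c) := by
  have hterm : ∀ i : ℕ, min 1 (((2 : ℝ) ^ (4 + (i : ℤ)))⁻¹ ^ 2)
        * (min 1 (m ((2 : ℝ) ^ (4 + (i : ℤ)) * ρ))) ^ c ≤ M ^ c * ((1 / 2) * (1 / 2 : ℝ) ^ i) := by
    intro i
    set t : ℝ := (2 : ℝ) ^ (4 + i : ℕ) with ht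
    have htz : (2 : ℝ) ^ (4 + (i : ℤ)) = t := by
      rw [ht]; exact_mod_cast (zpow_natCast (2 : ℝ) (4 + i))
    rw [htz]
    have ht16 : 16 ≤ t := by
      rw [ht, pow_add]
      have : (1 : ℝ) ≤ 2 ^ i := one_le_pow₀ (by norm_num)
      nlinarith
    have ht0 : 0 < t := by linarith
    have h1 : m (t * ρ) ≤ M * t ^ 2 := by
      have := hbig (t * ρ) (by nlinarith)
      rwa [mul_div_assoc, div_self hρ.ne', mul_one] at this
    have h2 : (min 1 (m (t * ρ))) ^ c ≤ M ^ c * t := by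
      calc (min 1 (m (t * ρ))) ^ c ≤ (M * t ^ 2) ^ c := by
            refine Real.rpow_le_rpow ?_ ((min_le_right _ _).trans h1) hc.le
            exact le_min zero_le_one (hm _ (by positivity))
        _ = M ^ c * (t ^ 2) ^ c := Real.mul_rpow hM (by positivity)
        _ ≤ M ^ c * t := by
            have hMc : 0 ≤ M ^ c := Real.rpow_nonneg hM c
            refine mul_le_mul_of_nonneg_left ?_ hMc
            rw [← Real.rpow_natCast t 2, ← Real.rpow_mul ht0.le]
            calc t ^ (((2 : ℕ) : ℝ) * c) ≤ t ^ (1 : ℝ) :=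
                  Real.rpow_le_rpow_of_exponent_le (by linarith) (by push_cast; linarith)
              _ = t := Real.rpow_one t
    calc min 1 ((t)⁻¹ ^ 2) * (min 1 (m (t * ρ))) ^ c ≤ (t⁻¹ ^ 2) * (M ^ c * t) := by
          have := min_le_right 1 (t⁻¹ ^ 2)
          gcongr
          exact Real.rpow_nonneg (le_min zero_le_one (hm _ (by positivity))) _
      _ = M ^ c * t⁻¹ := by field_simp
      _ ≤ M ^ c * ((1 / 2) * (1 / 2 : ℝ) ^ i) := by
          have hMc : 0 ≤ M ^ c := Real.rpow_nonneg hM c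
          refine mul_le_mul_of_nonneg_left ?_ hMc
          rw [ht, pow_add, mul_inv, one_div, inv_pow]
          gcongr
          norm_num
  calc ∑' i : ℕ, ENNReal.ofReal (min 1 (((2 : ℝ) ^ (4 + (i : ℤ)))⁻¹ ^ 2)
        * (min 1 (m ((2 : ℝ) ^ (4 + (i : ℤ)) * ρ))) ^ c)
      ≤ ∑' i : ℕ, ENNReal.ofReal (M ^ c * ((1 / 2) * (1 / 2 : ℝ) ^ i)) :=
        ENNReal.tsum_le_tsum fun i => ENNReal.ofReal_le_ofReal (hterm i)
    _ = ENNReal.ofReal (∑' i : ℕ, M ^ c * ((1 / 2) * (1 / 2 : ℝ) ^ i)) := by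
        rw [ENNReal.ofReal_tsum_of_nonneg]
        · intro i
          have hMc : 0 ≤ M ^ c := Real.rpow_nonneg hM c
          positivity
        · exact (summable_geometric_two.mul_left _).mul_left _
    _ = ENNReal.ofReal (M ^ c) := by
        rw [tsum_mul_left, tsum_mul_left, tsum_geometric_two]
        congr 1
        ring

/-- total: the weighted sum over all dyadic shells -/
theorem all_shells {m : ℝ → ℝ} {ρ c M A : ℝ} (hρ : 0 < ρ) (hc : 0 < c) (hc2 : c ≤ 1 / 2)
    (hM : 0 ≤ M) (hA : 0 ≤ A) (hm : ∀ y, 0 < y → 0 ≤ m y)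
    (hlip : ∀ y y', 0 < y' → y' ≤ y → y ≤ Real.exp 1 * y' → m y' ≤ Real.exp 2 * m y)
    (hbig : ∀ y, 10 * ρ ≤ y → m y ≤ M * (y / ρ) ^ 2) :
    ∑' j : ℤ, ENNReal.ofReal (min 1 (((2 : ℝ) ^ j)⁻¹ ^ 2))
        * ENNReal.ofReal (A * (min 1 (m ((2 : ℝ) ^ j * ρ))) ^ c)
      ≤ ENNReal.ofReal A * (ENNReal.ofReal (M ^ c)
        + 2 * (ENNReal.ofReal (Real.exp 2 ^ c)
          * ∑' k : ℕ, ENNReal.ofReal ((min 1 (m (yk ρ k))) ^ c))) := by
  have hpt : ∀ j : ℤ, 0 ≤ (min 1 (m ((2 : ℝ) ^ j * ρ))) ^ c := fun j =>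
    Real.rpow_nonneg (le_min zero_le_one (hm _ (by positivity))) _
  have h0 : ∀ j : ℤ, ENNReal.ofReal (min 1 (((2 : ℝ) ^ j)⁻¹ ^ 2))
        * ENNReal.ofReal (A * (min 1 (m ((2 : ℝ) ^ j * ρ))) ^ c)
      = ENNReal.ofReal A * ENNReal.ofReal (min 1 (((2 : ℝ) ^ j)⁻¹ ^ 2)
        * (min 1 (m ((2 : ℝ) ^ j * ρ))) ^ c) := by
    intro j
    rw [← ENNReal.ofReal_mul (by positivity), ← ENNReal.ofReal_mul hA]
    congr 1
    ring
  simp_rw [h0]
  rw [ENNReal.tsum_mul_left]
  gcongr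
  refine (tsum_int_le _).trans ?_
  have hs : ∀ (a : ℝ) (z : ℤ), 0 < a → a ≤ 10 → (2 : ℝ) ^ z = a →
      ∑' i : ℕ, ENNReal.ofReal (min 1 (((2 : ℝ) ^ (z - 2 * (i : ℤ)))⁻¹ ^ 2)
        * (min 1 (m ((2 : ℝ) ^ (z - 2 * (i : ℤ)) * ρ))) ^ c)
      ≤ ENNReal.ofReal (Real.exp 2 ^ c)
          * ∑' k : ℕ, ENNReal.ofReal ((min 1 (m (yk ρ k))) ^ c) := by
    intro a z ha ha10 hz
    refine le_trans ?_ (small_shells hρ hc hm hlip ha ha10)
    refine ENNReal.tsum_le_tsum fun i => ENNReal.ofReal_le_ofReal ?_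
    have h2 : (2 : ℝ) ^ (z - 2 * (i : ℤ)) = a * (4 : ℝ)⁻¹ ^ i := by
      rw [zpow_sub₀ (by norm_num), hz, zpow_mul, zpow_natCast, inv_pow]
      norm_num
      rfl
    rw [← h2]
    have h3 := hpt (z - 2 * (i : ℤ))
    calc min 1 (((2 : ℝ) ^ (z - 2 * (i : ℤ)))⁻¹ ^ 2) * (min 1 (m ((2 : ℝ) ^ (z - 2 * (i : ℤ)) * ρ))) ^ c
        ≤ 1 * (min 1 (m ((2 : ℝ) ^ (z - 2 * (i : ℤ)) * ρ))) ^ c :=
          mul_le_mul_of_nonneg_right (min_le_left _ _) h3
      _ = _ := one_mul _
  have h8 := hs 8 3 (by norm_num) (by norm_num) (by norm_num)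
  have h4 := hs 4 2 (by norm_num) (by norm_num) (by norm_num)
  have hl := large_shells hρ hc hc2 hM hm hbig
  rw [two_mul, ← add_assoc]
  exact add_le_add (add_le_add hl h8) h4

end Crest.Agent.R162.LB3b
end

-- ▼ part R162/KB6
section

/-!
Row 162 (S0243), node KB6 (Lemma A): for a univalent `f` on the upper half-plane and
`Ups_f z = Im z * |f' z|`, the mass of `{Ups_f ∈ [v, L v]}` at scale `r` for the measure
`(Im z / |z|) dxdy / (Im z)^2` is at most `C min(1, (Ups_f (i r) / v)^α)`.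
-/

set_option autoImplicit false

namespace Crest.Agent.R162.KB6

open MeasureTheory Set Filter Topology

/-! ### Part 1: real variable lemma -/

theorem ibp2 {p q : ℝ} (hpq : p ≤ q) {F F1 F2 g g1 g2 : ℝ → ℝ}
    (hF : ∀ t ∈ Icc p q, HasDerivAt F (F1 t) t) (hF1 : ∀ t ∈ Icc p q, HasDerivAt F1 (F2 t) t)
    (hg : ∀ t ∈ Icc p q, HasDerivAt g (g1 t) t) (hg1 : ∀ t ∈ Icc p q, HasDerivAt g1 (g2 t) t)
    (hF2 : ContinuousOn F2 (Icc p q)) (hg2 : ContinuousOn g2 (Icc p q)) :
    ∫ t in Icc p q, F2 t * g t = (F1 q * g q - F q * g1 q) - (F1 p * g p - F p * g1 p) +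
      ∫ t in Icc p q, F t * g2 t := by
  rw [integral_Icc_eq_integral_Ioc, integral_Icc_eq_integral_Ioc,
    ← intervalIntegral.integral_of_le hpq, ← intervalIntegral.integral_of_le hpq]
  have hFc : ContinuousOn F (Icc p q) := fun t ht => (hF t ht).continuousAt.continuousWithinAt
  have hgc : ContinuousOn g (Icc p q) := fun t ht => (hg t ht).continuousAt.continuousWithinAt
  have i1 : IntervalIntegrable (fun t => F2 t * g t) volume p q := by
    apply ContinuousOn.intervalIntegrable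
    rw [uIcc_of_le hpq]; exact hF2.mul hgc
  have i2 : IntervalIntegrable (fun t => F t * g2 t) volume p q := by
    apply ContinuousOn.intervalIntegrable
    rw [uIcc_of_le hpq]; exact hFc.mul hg2
  have h := intervalIntegral.integral_eq_sub_of_hasDerivAt
    (f := fun t => F1 t * g t - F t * g1 t) (f' := fun t => F2 t * g t - F t * g2 t)
    (a := p) (b := q) (by
      intro t ht
      rw [uIcc_of_le hpq] at ht
      have h1 := ((hF1 t ht).mul (hg t ht)).sub ((hF t ht).mul (hg1 t ht))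
      have e : F2 t * g t - F t * g2 t =
          F2 t * g t + F1 t * g1 t - (F1 t * g1 t + F t * g2 t) := by ring
      rw [e]
      exact h1) (i1.sub i2)
  rw [intervalIntegral.integral_sub i1 i2] at h
  linarith

/-- data of the abstract lemma: a function on the upper half-plane with its pure second partial
derivatives -/
structure Dat (al : ℝ) (B B1 B11 B2 B22 : ℝ × ℝ → ℝ) : Prop where
  d1 : ∀ x y : ℝ, 0 < y → HasDerivAt (fun t => B (t, y)) (B1 (x, y)) x
  d11 : ∀ x y : ℝ, 0 < y → HasDerivAt (fun t => B1 (t, y)) (B11 (x, y)) x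
  d2 : ∀ x y : ℝ, 0 < y → HasDerivAt (fun t => B (x, t)) (B2 (x, y)) y
  d22 : ∀ x y : ℝ, 0 < y → HasDerivAt (fun t => B2 (x, t)) (B22 (x, y)) y
  cB : ContinuousOn B {p | 0 < p.2}
  c1 : ContinuousOn B1 {p | 0 < p.2}
  c11 : ContinuousOn B11 {p | 0 < p.2}
  c2 : ContinuousOn B2 {p | 0 < p.2}
  c22 : ContinuousOn B22 {p | 0 < p.2}
  lap : ∀ x y : ℝ, 0 < y → B11 (x, y) + B22 (x, y) = - al / y ^ 2
  grad : ∀ x y : ℝ, 0 < y → B1 (x, y) ^ 2 + B2 (x, y) ^ 2 ≤ 4 * al ^ 2 / y ^ 2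

variable {al : ℝ} {B B1 B11 B2 B22 : ℝ × ℝ → ℝ}

/-- the composed function -/
noncomputable def FF (B : ℝ × ℝ → ℝ) (p : ℝ × ℝ) : ℝ := Real.sigmoid (B p)
noncomputable def FF1 (B B1 : ℝ × ℝ → ℝ) (p : ℝ × ℝ) : ℝ := FF B p * (1 - FF B p) * B1 p
noncomputable def FF11 (B B1 B11 : ℝ × ℝ → ℝ) (p : ℝ × ℝ) : ℝ :=
  FF B p * (1 - FF B p) * (B11 p + (1 - 2 * FF B p) * B1 p ^ 2)

theorem FF_pos (p : ℝ × ℝ) : 0 < FF B p := Real.sigmoid_pos _
theorem FF_lt_one (p : ℝ × ℝ) : FF B p < 1 := Real.sigmoid_lt_one _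

theorem FF_le_exp (p : ℝ × ℝ) : FF B p ≤ Real.exp (B p) := by
  rw [FF, Real.sigmoid_def, inv_le_comm₀ (by positivity) (Real.exp_pos _), ← Real.exp_neg]
  linarith

theorem hd_FF {b : ℝ → ℝ} {b' t : ℝ} (h : HasDerivAt b b' t) :
    HasDerivAt (fun s => Real.sigmoid (b s))
      (Real.sigmoid (b t) * (1 - Real.sigmoid (b t)) * b') t :=
  (Real.hasDerivAt_sigmoid (b t)).comp t h

theorem hd_FF1 {b b1 : ℝ → ℝ} {b2 t : ℝ} (h : HasDerivAt b (b1 t) t) (h1 : HasDerivAt b1 b2 t) :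
    HasDerivAt (fun s => Real.sigmoid (b s) * (1 - Real.sigmoid (b s)) * b1 s)
      (Real.sigmoid (b t) * (1 - Real.sigmoid (b t)) *
        (b2 + (1 - 2 * Real.sigmoid (b t)) * b1 t ^ 2)) t := by
  have hs := hd_FF h
  have h2 := (hs.mul (hs.const_sub 1)).mul h1
  refine h2.congr_deriv ?_
  simp only [Pi.mul_apply]
  ring

theorem cont_FF (D : Dat al B B1 B11 B2 B22) : ContinuousOn (FF B) {p | 0 < p.2} :=
  continuous_sigmoid.comp_continuousOn D.cB

theorem cont_FF11 (D : Dat al B B1 B11 B2 B22) :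
    ContinuousOn (FF11 B B1 B11) {p | 0 < p.2} :=
  ((cont_FF D).mul (continuousOn_const.sub (cont_FF D))).mul
    (D.c11.add ((continuousOn_const.sub (continuousOn_const.mul (cont_FF D))).mul (D.c1.pow 2)))

theorem cont_FF22 (D : Dat al B B1 B11 B2 B22) :
    ContinuousOn (FF11 B B2 B22) {p | 0 < p.2} :=
  ((cont_FF D).mul (continuousOn_const.sub (cont_FF D))).mul
    (D.c22.add ((continuousOn_const.sub (continuousOn_const.mul (cont_FF D))).mul (D.c2.pow 2)))

/-- lower bound for the Laplacian -/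
theorem lap_lower (D : Dat al B B1 B11 B2 B22) (h0 : 0 < al) (h8 : al ≤ 1 / 8) {x y : ℝ}
    (hy : 0 < y) :
    al / 2 * (FF B (x, y) * (1 - FF B (x, y))) / y ^ 2 ≤
      - FF11 B B1 B11 (x, y) - FF11 B B2 B22 (x, y) := by
  have h1 := D.lap x y hy
  have h2 := D.grad x y hy
  have hp := FF_pos (B := B) (x, y)
  have hq := FF_lt_one (B := B) (x, y)
  set s := FF B (x, y) with hs
  have e : - FF11 B B1 B11 (x, y) - FF11 B B2 B22 (x, y) =
      s * (1 - s) * (al / y ^ 2 - (1 - 2 * s) * (B1 (x, y) ^ 2 + B2 (x, y) ^ 2)) := by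
    have : al / y ^ 2 = - (B11 (x, y) + B22 (x, y)) := by rw [h1]; ring
    rw [this, FF11, FF11, ← hs]
    ring
  rw [e]
  have e2 : al / 2 * (s * (1 - s)) / y ^ 2 = s * (1 - s) * (al / 2 / y ^ 2) := by ring
  rw [e2]
  apply mul_le_mul_of_nonneg_left _ (mul_nonneg hp.le (by linarith))
  have hG : 0 ≤ B1 (x, y) ^ 2 + B2 (x, y) ^ 2 := by positivity
  have h3 : (1 - 2 * s) * (B1 (x, y) ^ 2 + B2 (x, y) ^ 2) ≤ 4 * al ^ 2 / y ^ 2 := by
    have : (1 - 2 * s) * (B1 (x, y) ^ 2 + B2 (x, y) ^ 2) ≤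
        1 * (B1 (x, y) ^ 2 + B2 (x, y) ^ 2) := mul_le_mul_of_nonneg_right (by linarith) hG
    linarith
  have h4 : 4 * al ^ 2 / y ^ 2 ≤ al / 2 / y ^ 2 := by
    apply div_le_div_of_nonneg_right _ (by positivity)
    nlinarith
  have h5 : al / y ^ 2 = al / 2 / y ^ 2 + al / 2 / y ^ 2 := by ring
  linarith

theorem grad2 (D : Dat al B B1 B11 B2 B22) (h0 : 0 < al) (h8 : al ≤ 1 / 8) {x y : ℝ}
    (hy : 0 < y) : FF1 B B2 (x, y) * y ≤ FF B (x, y) / 4 := by
  have h2 := D.grad x y hy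
  have hp := FF_pos (B := B) (x, y)
  have hq := FF_lt_one (B := B) (x, y)
  have h3 : (B2 (x, y) * y) ^ 2 ≤ (1 / 4) ^ 2 := by
    have h4 : B2 (x, y) ^ 2 ≤ 4 * al ^ 2 / y ^ 2 := by
      have := sq_nonneg (B1 (x, y)); linarith
    rw [le_div_iff₀ (by positivity)] at h4
    nlinarith
  have h5 : B2 (x, y) * y ≤ 1 / 4 := by
    exact le_of_sq_le_sq h3 (by norm_num) 
  rw [FF1]
  have h6 : FF B (x, y) * (1 - FF B (x, y)) * B2 (x, y) * y =
      (FF B (x, y) * (1 - FF B (x, y))) * (B2 (x, y) * y) := by ring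
  rw [h6]
  have h7 : (FF B (x, y) * (1 - FF B (x, y))) * (B2 (x, y) * y) ≤
      (FF B (x, y) * (1 - FF B (x, y))) * (1 / 4) :=
    mul_le_mul_of_nonneg_left h5 (mul_nonneg hp.le (by linarith))
  nlinarith [mul_pos hp hp]

theorem B_vert (D : Dat al B B1 B11 B2 B22) (h0 : 0 < al) (x : ℝ) {y y' : ℝ}
    (hy : 0 < y) (hy' : 0 < y') :
    |B (x, y') - B (x, y)| ≤ 2 * al * |Real.log y' - Real.log y| := by
  have h := Convex.norm_image_sub_le_of_norm_hasDerivWithin_le
    (f := fun u => B (x, Real.exp u)) (f' := fun u => B2 (x, Real.exp u) * Real.exp u)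
    (C := 2 * al) (s := univ) (x := Real.log y) (y := Real.log y')
    (fun u _ => ((D.d2 x (Real.exp u) (Real.exp_pos u)).comp u
      (Real.hasDerivAt_exp u)).hasDerivWithinAt) (by
      intro u _
      have hp := Real.exp_pos u
      have h4 : B2 (x, Real.exp u) ^ 2 ≤ 4 * al ^ 2 / (Real.exp u) ^ 2 := by
        have := sq_nonneg (B1 (x, Real.exp u))
        have := D.grad x _ hp
        linarith
      rw [le_div_iff₀ (by positivity)] at h4
      rw [Real.norm_eq_abs]
      apply abs_le_of_sq_le_sq _ (by positivity)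
      nlinarith) convex_univ (mem_univ _) (mem_univ _)
  simp only [Real.exp_log hy, Real.exp_log hy', Real.norm_eq_abs] at h
  exact h

theorem B_hor (D : Dat al B B1 B11 B2 B22) (h0 : 0 < al) (x x' : ℝ) {y : ℝ} (hy : 0 < y) :
    |B (x', y) - B (x, y)| ≤ 2 * al / y * |x' - x| := by
  have h := Convex.norm_image_sub_le_of_norm_hasDerivWithin_le
    (f := fun u => B (u, y)) (f' := fun u => B1 (u, y))
    (C := 2 * al / y) (s := univ) (x := x) (y := x')
    (fun u _ => (D.d1 u y hy).hasDerivWithinAt) (by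
      intro u _
      have h4 : B1 (u, y) ^ 2 ≤ (2 * al / y) ^ 2 := by
        have := sq_nonneg (B2 (u, y))
        have := D.grad u _ hy
        have e : (2 * al / y) ^ 2 = 4 * al ^ 2 / y ^ 2 := by ring
        rw [e]; linarith
      rw [Real.norm_eq_abs]
      exact abs_le_of_sq_le_sq h4 (by positivity)) convex_univ (mem_univ _) (mem_univ _)
  simpa only [Real.norm_eq_abs] using h

/-- growth of `B` -/
theorem B_le (D : Dat al B B1 B11 B2 B22) (h0 : 0 < al) {r x y : ℝ}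
    (hr : 0 < r) (hx : |x| ≤ 3 * r) (hy : 0 < y) (hy3 : y ≤ 3 * r) :
    B (x, y) ≤ B (0, r) + al * (2 * Real.log (3 * r / y) + 2 + 2 * Real.log 3) := by
  have h3r : 0 < 3 * r := by linarith
  have h1 := B_vert D h0 x h3r hy
  have h2 := B_hor D h0 0 x h3r
  have h3 := B_vert D h0 0 hr h3r
  have l1 : Real.log (3 * r / y) = Real.log (3 * r) - Real.log y := Real.log_div h3r.ne' hy.ne'
  have l2 : Real.log (3 * r) = Real.log 3 + Real.log r := Real.log_mul (by norm_num) hr.ne'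
  have l3 : Real.log y ≤ Real.log (3 * r) := Real.log_le_log hy hy3
  have l4 : 0 < Real.log 3 := Real.log_pos (by norm_num)
  rw [abs_of_nonpos (by linarith : Real.log y - Real.log (3 * r) ≤ 0)] at h1
  rw [abs_of_nonneg (by linarith : 0 ≤ Real.log (3 * r) - Real.log r)] at h3
  have h2' : 2 * al / (3 * r) * |x - 0| ≤ 2 * al := by
    rw [sub_zero, div_mul_eq_mul_div, div_le_iff₀ h3r]
    exact mul_le_mul_of_nonneg_left hx (by positivity)
  have e1 := (abs_le.1 h1).2
  have e2 := (abs_le.1 h2).2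
  have e3 := (abs_le.1 h3).2
  rw [l1]
  nlinarith

/-! ### cutoffs -/

noncomputable def aa (r x : ℝ) : ℝ := ((9 * r ^ 2 - x ^ 2) / (5 * r ^ 2)) ^ 2
noncomputable def aa1 (r x : ℝ) : ℝ := -4 * x * (9 * r ^ 2 - x ^ 2) / (25 * r ^ 4)
noncomputable def aa2 (r x : ℝ) : ℝ := (-36 * r ^ 2 + 12 * x ^ 2) / (25 * r ^ 4)
noncomputable def gg (r y : ℝ) : ℝ := y * (3 * r - y) ^ 2 / r ^ 2
noncomputable def gg1 (r y : ℝ) : ℝ := (3 * r - y) * (3 * r - 3 * y) / r ^ 2
noncomputable def gg2 (r y : ℝ) : ℝ := (-12 * r + 6 * y) / r ^ 2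

theorem hd_aa {r : ℝ} (hr : 0 < r) (x : ℝ) : HasDerivAt (aa r) (aa1 r x) x := by
  have h1 := ((((hasDerivAt_pow 2 x).const_sub (9 * r ^ 2)).div_const (5 * r ^ 2)).pow 2)
  refine (h1.congr_of_eventuallyEq ?_).congr_deriv ?_
  · exact Eventually.of_forall fun t => rfl
  · rw [aa1]; norm_num; field_simp; ring

theorem hd_aa1 {r : ℝ} (hr : 0 < r) (x : ℝ) : HasDerivAt (aa1 r) (aa2 r x) x := by
  have h1 := (((hasDerivAt_id x).const_mul (-4)).mul
    ((hasDerivAt_pow 2 x).const_sub (9 * r ^ 2))).div_const (25 * r ^ 4)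
  refine (h1.congr_of_eventuallyEq ?_).congr_deriv ?_
  · exact Eventually.of_forall fun t => rfl
  · rw [aa2]; simp; field_simp; ring

theorem hd_gg {r : ℝ} (hr : 0 < r) (y : ℝ) : HasDerivAt (gg r) (gg1 r y) y := by
  have h1 := ((hasDerivAt_id y).mul (((hasDerivAt_id y).const_sub (3 * r)).pow 2)).div_const (r ^ 2)
  refine (h1.congr_of_eventuallyEq ?_).congr_deriv ?_
  · exact Eventually.of_forall fun t => rfl
  · rw [gg1]; simp; field_simp; ring

theorem hd_gg1 {r : ℝ} (hr : 0 < r) (y : ℝ) : HasDerivAt (gg1 r) (gg2 r y) y := by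
  have h1 := (((hasDerivAt_id y).const_sub (3 * r)).mul
    (((hasDerivAt_id y).const_mul 3).const_sub (3 * r))).div_const (r ^ 2)
  refine (h1.congr_of_eventuallyEq ?_).congr_deriv ?_
  · exact Eventually.of_forall fun t => rfl
  · rw [gg2]; simp; field_simp; ring

theorem aa_nonneg (r x : ℝ) : 0 ≤ aa r x := by rw [aa]; positivity

theorem gg_nonneg {r y : ℝ} (hy : 0 ≤ y) : 0 ≤ gg r y := by rw [gg]; positivity

theorem one_le_aa {r x : ℝ} (hr : 0 < r) (hx : |x| ≤ 2 * r) : 1 ≤ aa r x := by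
  have h1 : x ^ 2 ≤ (2 * r) ^ 2 := sq_le_sq' (by linarith [(abs_le.1 hx).1]) (abs_le.1 hx).2
  have h2 : 1 ≤ (9 * r ^ 2 - x ^ 2) / (5 * r ^ 2) := by
    rw [le_div_iff₀ (by positivity)]; nlinarith
  rw [aa]
  nlinarith

theorem le_gg {r y : ℝ} (hr : 0 < r) (hy : 0 ≤ y) (hy2 : y ≤ 2 * r) : y ≤ gg r y := by
  rw [gg, le_div_iff₀ (by positivity)]
  have : r ^ 2 ≤ (3 * r - y) ^ 2 := by nlinarith
  nlinarith

theorem cut_bound {r x y : ℝ} (hr : 0 < r) (hx : x ∈ Icc (-(3 * r)) (3 * r))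
    (hy : y ∈ Icc 0 (3 * r)) : -(aa2 r x * gg r y) - aa r x * gg2 r y ≤ 120 / r := by
  obtain ⟨hx1, hx2⟩ := hx
  obtain ⟨hy1, hy2⟩ := hy
  have hxx : x ^ 2 ≤ (3 * r) ^ 2 := sq_le_sq' hx1 hx2
  have g0 : 0 ≤ gg r y := gg_nonneg hy1
  have g1 : gg r y ≤ 27 * r := by
    rw [gg, div_le_iff₀ (by positivity)]
    have h1 : (3 * r - y) ^ 2 ≤ (3 * r) ^ 2 := by nlinarith
    have h2 : y * (3 * r - y) ^ 2 ≤ (3 * r) * (3 * r) ^ 2 :=
      mul_le_mul hy2 h1 (by positivity) (by positivity)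
    nlinarith
  have a2 : -aa2 r x ≤ 36 / (25 * r ^ 2) := by
    rw [aa2, ← neg_div, div_le_div_iff₀ (by positivity) (by positivity)]
    have : 0 ≤ r ^ 2 * x ^ 2 := by positivity
    nlinarith
  have t1 : -(aa2 r x * gg r y) ≤ 39 / r := by
    calc -(aa2 r x * gg r y) = -aa2 r x * gg r y := by ring
      _ ≤ 36 / (25 * r ^ 2) * gg r y := mul_le_mul_of_nonneg_right a2 g0
      _ ≤ 36 / (25 * r ^ 2) * (27 * r) := mul_le_mul_of_nonneg_left g1 (by positivity)
      _ = (36 * 27 / 25) / r := by field_simp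
      _ ≤ 39 / r := div_le_div_of_nonneg_right (by norm_num) hr.le
  have b2 : -gg2 r y ≤ 12 / r := by
    rw [gg2, ← neg_div, div_le_div_iff₀ (by positivity) hr]
    nlinarith
  have a0 := aa_nonneg r x
  have a1 : aa r x ≤ 81 / 25 := by
    rw [aa]
    have h0 : 0 ≤ (9 * r ^ 2 - x ^ 2) / (5 * r ^ 2) := by
      apply div_nonneg _ (by positivity); nlinarith
    have h1 : (9 * r ^ 2 - x ^ 2) / (5 * r ^ 2) ≤ 9 / 5 := by
      rw [div_le_div_iff₀ (by positivity) (by norm_num)]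
      nlinarith [sq_nonneg x]
    nlinarith
  have t2 : -(aa r x * gg2 r y) ≤ 39 / r := by
    calc -(aa r x * gg2 r y) = aa r x * (-gg2 r y) := by ring
      _ ≤ aa r x * (12 / r) := mul_le_mul_of_nonneg_left b2 a0
      _ ≤ 81 / 25 * (12 / r) := mul_le_mul_of_nonneg_right a1 (by positivity)
      _ = (81 * 12 / 25) / r := by ring
      _ ≤ 39 / r := div_le_div_of_nonneg_right (by norm_num) hr.le
  have : 39 / r + 39 / r ≤ 120 / r := by
    rw [← add_div]; exact div_le_div_of_nonneg_right (by norm_num) hr.le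
  linarith

/-! ### the box -/

/-- the box -/
def QQ (r e : ℝ) : Set (ℝ × ℝ) := Icc (-(3 * r)) (3 * r) ×ˢ Icc e (3 * r)

theorem isCompact_QQ (r e : ℝ) : IsCompact (QQ r e) := isCompact_Icc.prod isCompact_Icc

theorem QQ_sub {r e : ℝ} (he : 0 < e) : QQ r e ⊆ {p | 0 < p.2} := fun _ hp =>
  lt_of_lt_of_le he hp.2.1

theorem cont_aa (r : ℝ) : Continuous (aa r) := by unfold aa; fun_prop
theorem cont_aa2 (r : ℝ) : Continuous (aa2 r) := by unfold aa2; fun_prop
theorem cont_gg (r : ℝ) : Continuous (gg r) := by unfold gg; fun_prop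
theorem cont_gg2 (r : ℝ) : Continuous (gg2 r) := by unfold gg2; fun_prop

theorem int_QQ {r e : ℝ} (he : 0 < e) {f : ℝ × ℝ → ℝ} (hf : ContinuousOn f {p | 0 < p.2}) :
    IntegrableOn f (QQ r e) (volume.prod volume) := by
  rw [← Measure.volume_eq_prod]
  exact (hf.mono (QQ_sub he)).integrableOn_compact (isCompact_QQ r e)

theorem prod_symm {S T : Set ℝ} {f : ℝ × ℝ → ℝ}
    (hf : IntegrableOn f (S ×ˢ T) (volume.prod volume)) :
    ∫ p in S ×ˢ T, f p ∂(volume.prod volume) = ∫ y in T, ∫ x in S, f (x, y) := by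
  have h2 : IntegrableOn (fun z => f z.swap) (T ×ˢ S) (volume.prod volume) := hf.swap
  rw [← setIntegral_prod_swap S T f, setIntegral_prod _ h2]
  rfl

theorem boxY (D : Dat al B B1 B11 B2 B22) (h0 : 0 < al) (h8 : al ≤ 1 / 8) {r e : ℝ}
    (hr : 0 < r) (he : 0 < e) (her : e ≤ r / 2) :
    ∫ p in QQ r e, FF B p * (aa r p.1 * gg2 r p.2) ∂(volume.prod volume) ≤
      ∫ p in QQ r e, FF11 B B2 B22 p * (aa r p.1 * gg r p.2) ∂(volume.prod volume) := by
  have c1 : ContinuousOn (fun p : ℝ × ℝ => FF B p * (aa r p.1 * gg2 r p.2)) {p | 0 < p.2} :=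
    (cont_FF D).mul ((((cont_aa r).comp continuous_fst).mul
      ((cont_gg2 r).comp continuous_snd)).continuousOn)
  have c2 : ContinuousOn (fun p : ℝ × ℝ => FF11 B B2 B22 p * (aa r p.1 * gg r p.2))
      {p | 0 < p.2} :=
    (cont_FF22 D).mul ((((cont_aa r).comp continuous_fst).mul
      ((cont_gg r).comp continuous_snd)).continuousOn)
  have i1 := int_QQ (r := r) he c1
  have i2 := int_QQ (r := r) he c2
  unfold QQ at i1 i2 ⊢
  rw [setIntegral_prod _ i1, setIntegral_prod _ i2]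
  apply setIntegral_mono_on
  · have := i1
    rw [IntegrableOn, ← Measure.prod_restrict] at this
    exact this.integral_prod_left
  · have := i2
    rw [IntegrableOn, ← Measure.prod_restrict] at this
    exact this.integral_prod_left
  · exact measurableSet_Icc
  intro x _
  have h3 : e ≤ 3 * r := by linarith
  have key := ibp2 h3 (F := fun t => FF B (x, t)) (F1 := fun t => FF1 B B2 (x, t))
    (F2 := fun t => FF11 B B2 B22 (x, t)) (g := gg r) (g1 := gg1 r) (g2 := gg2 r)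
    (fun t ht => hd_FF (D.d2 x t (he.trans_le ht.1)))
    (fun t ht => hd_FF1 (b1 := fun t => B2 (x, t)) (D.d2 x t (he.trans_le ht.1))
      (D.d22 x t (he.trans_le ht.1)))
    (fun t _ => hd_gg hr t) (fun t _ => hd_gg1 hr t)
    ((cont_FF22 D).comp (by fun_prop) (fun t ht => he.trans_le ht.1))
    (cont_gg2 r).continuousOn
  have z1 : gg r (3 * r) = 0 := by simp [gg]
  have z2 : gg1 r (3 * r) = 0 := by simp [gg1]
  rw [z1, z2] at key
  have bd : FF1 B B2 (x, e) * gg r e - FF B (x, e) * gg1 r e ≤ 0 := by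
    have h4 := grad2 D h0 h8 (x := x) he
    have hF := FF_pos (B := B) (x, e)
    have h5 : FF1 B B2 (x, e) * gg r e = FF1 B B2 (x, e) * e * ((3 * r - e) ^ 2 / r ^ 2) := by
      rw [gg]; ring
    have h6 : FF1 B B2 (x, e) * e * ((3 * r - e) ^ 2 / r ^ 2) ≤
        FF B (x, e) / 4 * ((3 * r - e) ^ 2 / r ^ 2) :=
      mul_le_mul_of_nonneg_right h4 (by positivity)
    have h7 : FF B (x, e) / 4 * ((3 * r - e) ^ 2 / r ^ 2) ≤ FF B (x, e) * gg1 r e := by
      rw [gg1]
      have h8 : (3 * r - e) ^ 2 / 4 ≤ (3 * r - e) * (3 * r - 3 * e) := by nlinarith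
      have h9 := mul_le_mul_of_nonneg_left
        (div_le_div_of_nonneg_right h8 (by positivity : 0 ≤ r ^ 2)) hF.le
      calc FF B (x, e) / 4 * ((3 * r - e) ^ 2 / r ^ 2)
          = FF B (x, e) * ((3 * r - e) ^ 2 / 4 / r ^ 2) := by ring
        _ ≤ _ := h9
    linarith
  have e1 : ∀ t, FF B (x, t) * (aa r x * gg2 r t) = aa r x * (FF B (x, t) * gg2 r t) := by
    intro t; ring
  have e2 : ∀ t, FF11 B B2 B22 (x, t) * (aa r x * gg r t) =
      aa r x * (FF11 B B2 B22 (x, t) * gg r t) := by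
    intro t; ring
  simp only [e1, e2]
  rw [integral_const_mul, integral_const_mul]
  apply mul_le_mul_of_nonneg_left _ (aa_nonneg r x)
  linarith

theorem boxX (D : Dat al B B1 B11 B2 B22) {r e : ℝ}
    (hr : 0 < r) (he : 0 < e) :
    ∫ p in QQ r e, FF11 B B1 B11 p * (aa r p.1 * gg r p.2) ∂(volume.prod volume) =
      ∫ p in QQ r e, FF B p * (aa2 r p.1 * gg r p.2) ∂(volume.prod volume) := by
  have c1 : ContinuousOn (fun p : ℝ × ℝ => FF B p * (aa2 r p.1 * gg r p.2)) {p | 0 < p.2} :=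
    (cont_FF D).mul ((((cont_aa2 r).comp continuous_fst).mul
      ((cont_gg r).comp continuous_snd)).continuousOn)
  have c2 : ContinuousOn (fun p : ℝ × ℝ => FF11 B B1 B11 p * (aa r p.1 * gg r p.2))
      {p | 0 < p.2} :=
    (cont_FF11 D).mul ((((cont_aa r).comp continuous_fst).mul
      ((cont_gg r).comp continuous_snd)).continuousOn)
  have i1 := int_QQ (r := r) he c1
  have i2 := int_QQ (r := r) he c2
  unfold QQ at i1 i2 ⊢
  rw [prod_symm i1, prod_symm i2]
  apply setIntegral_congr_fun measurableSet_Icc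
  intro y hy
  have hy0 : 0 < y := he.trans_le hy.1
  have h3 : -(3 * r) ≤ 3 * r := by linarith
  have key := ibp2 h3 (F := fun t => FF B (t, y)) (F1 := fun t => FF1 B B1 (t, y))
    (F2 := fun t => FF11 B B1 B11 (t, y)) (g := aa r) (g1 := aa1 r) (g2 := aa2 r)
    (fun t _ => hd_FF (D.d1 t y hy0))
    (fun t _ => hd_FF1 (b1 := fun t => B1 (t, y)) (D.d1 t y hy0) (D.d11 t y hy0))
    (fun t _ => hd_aa hr t) (fun t _ => hd_aa1 hr t)
    ((cont_FF11 D).comp (by fun_prop) (fun t _ => hy0))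
    (cont_aa2 r).continuousOn
  have z1 : aa r (3 * r) = 0 := by rw [aa]; ring
  have z2 : aa1 r (3 * r) = 0 := by rw [aa1]; ring
  have z3 : aa r (-(3 * r)) = 0 := by rw [aa]; ring
  have z4 : aa1 r (-(3 * r)) = 0 := by rw [aa1]; ring
  rw [z1, z2, z3, z4] at key
  have e1 : ∀ t, FF B (t, y) * (aa2 r t * gg r y) = gg r y * (FF B (t, y) * aa2 r t) := by
    intro t; ring
  have e2 : ∀ t, FF11 B B1 B11 (t, y) * (aa r t * gg r y) =
      gg r y * (FF11 B B1 B11 (t, y) * aa r t) := by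
    intro t; ring
  simp only [e1, e2]
  rw [integral_const_mul, integral_const_mul, key]
  ring

theorem box_bound (D : Dat al B B1 B11 B2 B22) (h0 : 0 < al) (h8 : al ≤ 1 / 8) {r e : ℝ}
    (hr : 0 < r) (he : 0 < e) (her : e ≤ r / 2) :
    ∫ p in QQ r e, (- FF11 B B1 B11 p - FF11 B B2 B22 p) * (aa r p.1 * gg r p.2)
      ∂(volume.prod volume) ≤ 120 / r * ∫ p in QQ r e, FF B p ∂(volume.prod volume) := by
  have hX := boxX D (e := e) hr he
  have hY := boxY D h0 h8 hr he her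
  have cag : Continuous fun p : ℝ × ℝ => aa r p.1 * gg r p.2 :=
    ((cont_aa r).comp continuous_fst).mul ((cont_gg r).comp continuous_snd)
  have ca2g : Continuous fun p : ℝ × ℝ => aa2 r p.1 * gg r p.2 :=
    ((cont_aa2 r).comp continuous_fst).mul ((cont_gg r).comp continuous_snd)
  have cag2 : Continuous fun p : ℝ × ℝ => aa r p.1 * gg2 r p.2 :=
    ((cont_aa r).comp continuous_fst).mul ((cont_gg2 r).comp continuous_snd)
  have i1 : IntegrableOn (fun p => -(FF11 B B1 B11 p * (aa r p.1 * gg r p.2))) (QQ r e)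
      (volume.prod volume) := (int_QQ (r := r) he ((cont_FF11 D).mul cag.continuousOn)).neg
  have i2 : IntegrableOn (fun p => FF11 B B2 B22 p * (aa r p.1 * gg r p.2)) (QQ r e)
      (volume.prod volume) := int_QQ (r := r) he ((cont_FF22 D).mul cag.continuousOn)
  have i3 : IntegrableOn (fun p => -(FF B p * (aa2 r p.1 * gg r p.2))) (QQ r e)
      (volume.prod volume) := (int_QQ (r := r) he ((cont_FF D).mul ca2g.continuousOn)).neg
  have i4 : IntegrableOn (fun p => FF B p * (aa r p.1 * gg2 r p.2)) (QQ r e)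
      (volume.prod volume) := int_QQ (r := r) he ((cont_FF D).mul cag2.continuousOn)
  have i5 : IntegrableOn (FF B) (QQ r e) (volume.prod volume) := int_QQ (r := r) he (cont_FF D)
  have e1 : ∫ p in QQ r e, (- FF11 B B1 B11 p - FF11 B B2 B22 p) * (aa r p.1 * gg r p.2)
      ∂(volume.prod volume) =
      - (∫ p in QQ r e, FF11 B B1 B11 p * (aa r p.1 * gg r p.2) ∂(volume.prod volume)) -
        ∫ p in QQ r e, FF11 B B2 B22 p * (aa r p.1 * gg r p.2) ∂(volume.prod volume) := by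
    rw [← integral_neg, ← integral_sub i1 i2]
    apply integral_congr_ae
    exact Eventually.of_forall fun p => by simp only; ring
  rw [e1, hX]
  calc _ ≤ - (∫ p in QQ r e, FF B p * (aa2 r p.1 * gg r p.2) ∂(volume.prod volume)) -
        ∫ p in QQ r e, FF B p * (aa r p.1 * gg2 r p.2) ∂(volume.prod volume) := by linarith
    _ = ∫ p in QQ r e, FF B p * (-(aa2 r p.1 * gg r p.2) - aa r p.1 * gg2 r p.2)
        ∂(volume.prod volume) := by
      rw [← integral_neg, ← integral_sub i3 i4]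
      apply integral_congr_ae
      exact Eventually.of_forall fun p => by simp only; ring
    _ ≤ ∫ p in QQ r e, 120 / r * FF B p ∂(volume.prod volume) := by
      apply setIntegral_mono_on
      · exact int_QQ (r := r) he ((cont_FF D).mul ((ca2g.neg.sub cag2).continuousOn))
      · exact i5.const_mul _
      · exact (isCompact_QQ r e).isClosed.measurableSet
      · intro p hp
        have h1 := cut_bound hr hp.1 ⟨he.le.trans hp.2.1, hp.2.2⟩
        have h2 := FF_pos (B := B) p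
        nlinarith
    _ = _ := by rw [integral_const_mul]

/-- the integral of `F` over the box -/
theorem int_FF (D : Dat al B B1 B11 B2 B22) (h0 : 0 < al) (h8 : al ≤ 1 / 8) {r e : ℝ}
    (hr : 0 < r) (he : 0 < e) (her : e ≤ r / 2) :
    ∫ p in QQ r e, FF B p ∂(volume.prod volume) ≤ 72 * r ^ 2 * min 1 (Real.exp (B (0, r))) := by
  have i5 : IntegrableOn (FF B) (QQ r e) (volume.prod volume) := int_QQ (r := r) he (cont_FF D)
  have h3r : 0 < 3 * r := by linarith
  have h3 : e ≤ 3 * r := by linarith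
  set T := Real.exp (B (0, r)) with hT
  have hTp : 0 < T := Real.exp_pos _
  have cy : ContinuousOn (fun p : ℝ × ℝ => 2 * T * Real.sqrt (3 * r) * (1 / Real.sqrt p.2))
      {p | 0 < p.2} := by
    apply continuousOn_const.mul
    apply continuousOn_const.div
    · exact (Real.continuous_sqrt.comp continuous_snd).continuousOn
    · intro p hp
      exact (Real.sqrt_pos.2 hp).ne'
  have A1 : ∫ p in QQ r e, FF B p ∂(volume.prod volume) ≤ 72 * r ^ 2 := by
    have h1 : ∫ p in QQ r e, FF B p ∂(volume.prod volume) ≤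
        ∫ p in QQ r e, (1 : ℝ) ∂(volume.prod volume) := by
      apply setIntegral_mono_on i5
      · exact int_QQ (r := r) he continuousOn_const
      · exact (isCompact_QQ r e).isClosed.measurableSet
      · intro p _
        exact (FF_lt_one p).le
    have h2 : ∫ p in QQ r e, (1 : ℝ) ∂(volume.prod volume) = 6 * r * (3 * r - e) := by
      have : IntegrableOn (fun _ : ℝ × ℝ => (1 : ℝ)) (QQ r e) (volume.prod volume) :=
        int_QQ (r := r) he continuousOn_const
      unfold QQ at this ⊢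
      rw [setIntegral_prod _ this]
      simp only [setIntegral_const, smul_eq_mul, mul_one, measureReal_def, Real.volume_Icc]
      rw [ENNReal.toReal_ofReal (by linarith), ENNReal.toReal_ofReal (by linarith)]
      ring
    rw [h2] at h1
    nlinarith
  have A2 : ∫ p in QQ r e, FF B p ∂(volume.prod volume) ≤ 72 * r ^ 2 * T := by
    have h1 : ∫ p in QQ r e, FF B p ∂(volume.prod volume) ≤
        ∫ p in QQ r e, 2 * T * Real.sqrt (3 * r) * (1 / Real.sqrt p.2) ∂(volume.prod volume) := by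
      apply setIntegral_mono_on i5
      · exact int_QQ (r := r) he cy
      · exact (isCompact_QQ r e).isClosed.measurableSet
      · rintro ⟨x, y⟩ hp
        have hy : 0 < y := he.trans_le hp.2.1
        have hy3 : y ≤ 3 * r := hp.2.2
        have hx : |x| ≤ 3 * r := abs_le.2 hp.1
        refine (FF_le_exp (x, y)).trans ?_
        have hB := B_le D h0 hr hx hy hy3
        have hl : 0 ≤ Real.log (3 * r / y) := Real.log_nonneg (by rw [le_div_iff₀ hy]; linarith)
        have hl3 : Real.log 3 ≤ 1.1 := by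
          rw [Real.log_le_iff_le_exp (by norm_num)]
          have h5 : (1.1 : ℝ) + 1.1 ^ 2 / 2 + 1 + 1.1 ^ 3 / 6 + 1.1^4 / 24 + 1.1^5/120 ≤
            Real.exp 1.1 := by
            have := Real.sum_le_exp_of_nonneg (x := 1.1) (by norm_num) 6
            simp [Finset.sum_range_succ, Nat.factorial] at this
            linarith
          refine le_trans ?_ h5
          norm_num
        have hl3' : 0 ≤ Real.log 3 := Real.log_nonneg (by norm_num)
        have h6 : al * (2 * Real.log (3 * r / y) + 2 + 2 * Real.log 3) ≤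
            (1 / 2) * Real.log (3 * r / y) + 0.53 := by nlinarith
        have h7 : B (x, y) ≤ B (0, r) + (1 / 2) * Real.log (3 * r / y) + 0.53 := by linarith
        have h8 : Real.exp (0.53 : ℝ) ≤ 2 := by
          rw [← Real.le_log_iff_exp_le (by norm_num)]
          have := Real.log_two_gt_d9
          linarith
        calc Real.exp (B (x, y)) ≤ Real.exp (B (0, r) + (1 / 2) * Real.log (3 * r / y) + 0.53) :=
              Real.exp_le_exp.2 h7
          _ = T * Real.sqrt (3 * r / y) * Real.exp 0.53 := by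
              rw [Real.exp_add, Real.exp_add, ← hT]
              congr 2
              rw [Real.sqrt_eq_rpow, Real.rpow_def_of_pos (by positivity)]
              congr 1; ring
          _ ≤ T * Real.sqrt (3 * r / y) * 2 := mul_le_mul_of_nonneg_left h8 (by positivity)
          _ = 2 * T * Real.sqrt (3 * r) * (1 / Real.sqrt y) := by
              rw [Real.sqrt_div h3r.le]; ring
    have h2 : ∫ p in QQ r e, 2 * T * Real.sqrt (3 * r) * (1 / Real.sqrt p.2)
        ∂(volume.prod volume) ≤ 72 * r ^ 2 * T := by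
      have hi : IntegrableOn (fun p : ℝ × ℝ => 2 * T * Real.sqrt (3 * r) * (1 / Real.sqrt p.2))
        (QQ r e) (volume.prod volume) := int_QQ (r := r) he cy
      unfold QQ at hi ⊢
      rw [setIntegral_prod _ hi]
      simp only
      rw [setIntegral_const, integral_const_mul, integral_Icc_eq_integral_Ioc,
        ← intervalIntegral.integral_of_le h3]
      have hd : ∫ t in e..(3 * r), 1 / Real.sqrt t = 2 * Real.sqrt (3 * r) - 2 * Real.sqrt e := by
        apply intervalIntegral.integral_eq_sub_of_hasDerivAt (f := fun t => 2 * Real.sqrt t)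
        · intro t ht
          rw [uIcc_of_le h3] at ht
          have ht0 : 0 < t := he.trans_le ht.1
          have := (Real.hasDerivAt_sqrt ht0.ne').const_mul 2
          refine this.congr_deriv ?_
          have : Real.sqrt t ≠ 0 := (Real.sqrt_pos.2 ht0).ne'
          field_simp
        · apply ContinuousOn.intervalIntegrable
          rw [uIcc_of_le h3]
          apply continuousOn_const.div Real.continuous_sqrt.continuousOn
          intro t ht
          exact (Real.sqrt_pos.2 (he.trans_le ht.1)).ne'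
      rw [hd, measureReal_def, Real.volume_Icc, ENNReal.toReal_ofReal (by linarith), smul_eq_mul]
      have hs : Real.sqrt (3 * r) * Real.sqrt (3 * r) = 3 * r := Real.mul_self_sqrt h3r.le
      have hs0 : 0 ≤ Real.sqrt (3 * r) := Real.sqrt_nonneg _
      have hs1 : 0 ≤ Real.sqrt e := Real.sqrt_nonneg _
      calc (3 * r - -(3 * r)) * (2 * T * Real.sqrt (3 * r) *
            (2 * Real.sqrt (3 * r) - 2 * Real.sqrt e))
          = 24 * r * T * (Real.sqrt (3 * r) * Real.sqrt (3 * r)) -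
            24 * r * T * (Real.sqrt (3 * r) * Real.sqrt e) := by ring
        _ ≤ 24 * r * T * (3 * r) := by
            rw [hs]
            have : 0 ≤ 24 * r * T * (Real.sqrt (3 * r) * Real.sqrt e) := by positivity
            linarith
        _ = 72 * r ^ 2 * T := by ring
    exact h1.trans h2
  rcases min_cases 1 T with h | h
  · rw [h.1]; linarith
  · rw [h.1]; exact A2

/-- **abstract form** -/
theorem abstract_bound (D : Dat al B B1 B11 B2 B22) (h0 : 0 < al) (h8 : al ≤ 1 / 8) {r e M : ℝ}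
    (hr : 0 < r) (he : 0 < e) (her : e ≤ r / 2) :
    ∫⁻ p in {p : ℝ × ℝ | |p.1| ≤ 2 * r ∧ e ≤ p.2 ∧ p.2 ≤ 2 * r ∧ 0 ≤ B p ∧ B p ≤ M},
      ENNReal.ofReal (1 / p.2) ∂(volume.prod volume) ≤
      ENNReal.ofReal (34560 * (1 + Real.exp M) / al * r * min 1 (Real.exp (B (0, r)))) := by
  set E := {p : ℝ × ℝ | |p.1| ≤ 2 * r ∧ e ≤ p.2 ∧ p.2 ≤ 2 * r ∧ 0 ≤ B p ∧ B p ≤ M} with hE
  have hEQ : E ⊆ QQ r e := by
    rintro p ⟨h1, h2, h3, -, -⟩
    have := abs_le.1 h1
    exact ⟨⟨by linarith, by linarith⟩, ⟨h2, by linarith⟩⟩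
  set K : ℝ := 4 * (1 + Real.exp M) / al with hK
  have hKp : 0 < K := by positivity
  set Φ : ℝ × ℝ → ℝ := fun p => (- FF11 B B1 B11 p - FF11 B B2 B22 p) * (aa r p.1 * gg r p.2)
    with hΦ
  have hcΦ : ContinuousOn Φ {p | 0 < p.2} :=
    ((cont_FF11 D).neg.sub (cont_FF22 D)).mul
      (((cont_aa r).comp continuous_fst).mul ((cont_gg r).comp continuous_snd)).continuousOn
  have hΦ0 : ∀ p ∈ QQ r e, 0 ≤ Φ p := by
    rintro ⟨x, y⟩ hp
    have hy : 0 < y := he.trans_le hp.2.1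
    have h1 := lap_lower D h0 h8 (x := x) hy
    have hp' := FF_pos (B := B) (x, y)
    have hq := FF_lt_one (B := B) (x, y)
    have h2 : 0 ≤ al / 2 * (FF B (x, y) * (1 - FF B (x, y))) / y ^ 2 := by
      have : 0 < 1 - FF B (x, y) := by linarith
      positivity
    exact mul_nonneg (by linarith) (mul_nonneg (aa_nonneg r x) (gg_nonneg hy.le))
  have hlow : ∀ p ∈ E, 1 / p.2 ≤ K * Φ p := by
    rintro ⟨x, y⟩ hp
    have hpQ := hEQ hp
    obtain ⟨h1, h2, h3, h4, h5⟩ := hp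
    simp only at h1 h2 h3 h4 h5 ⊢
    have hy : 0 < y := he.trans_le h2
    have hl := lap_lower D h0 h8 (x := x) hy
    have s1 : 1 / 2 ≤ FF B (x, y) := by
      have : Real.sigmoid 0 ≤ Real.sigmoid (B (x, y)) := Real.sigmoid_le h4
      rw [Real.sigmoid_zero] at this
      rw [FF]; linarith
    have s2 : 1 / (1 + Real.exp M) ≤ 1 - FF B (x, y) := by
      rw [FF, ← Real.sigmoid_neg]
      have : Real.sigmoid (-M) ≤ Real.sigmoid (-B (x, y)) := Real.sigmoid_le (by linarith)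
      rw [Real.sigmoid_def (-M), neg_neg] at this
      rw [one_div]; exact this
    have s3 : 1 / (2 * (1 + Real.exp M)) ≤ FF B (x, y) * (1 - FF B (x, y)) := by
      calc 1 / (2 * (1 + Real.exp M)) = (1 / 2) * (1 / (1 + Real.exp M)) := by field_simp
        _ ≤ _ := mul_le_mul s1 s2 (by positivity) (by linarith)
    have s4 : al / 2 * (1 / (2 * (1 + Real.exp M))) / y ^ 2 ≤
        - FF11 B B1 B11 (x, y) - FF11 B B2 B22 (x, y) := by
      refine le_trans ?_ hl
      apply div_le_div_of_nonneg_right _ (by positivity)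
      exact mul_le_mul_of_nonneg_left s3 (by positivity)
    have s5 : y ≤ aa r x * gg r y := by
      have a1 := one_le_aa hr h1
      have g1 := le_gg hr hy.le h3
      calc y ≤ gg r y := g1
        _ = 1 * gg r y := by ring
        _ ≤ aa r x * gg r y := mul_le_mul_of_nonneg_right a1 (gg_nonneg hy.le)
    have s6 : al / 2 * (1 / (2 * (1 + Real.exp M))) / y ^ 2 * y ≤ Φ (x, y) := by
      apply mul_le_mul s4 s5 hy.le
      refine le_trans ?_ s4
      positivity
    calc 1 / y = K * (al / 2 * (1 / (2 * (1 + Real.exp M))) / y ^ 2 * y) := by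
          rw [hK]; field_simp; norm_num
      _ ≤ K * Φ (x, y) := mul_le_mul_of_nonneg_left s6 hKp.le
  have hmQ : MeasurableSet (QQ r e) := (isCompact_QQ r e).isClosed.measurableSet
  calc ∫⁻ p in E, ENNReal.ofReal (1 / p.2) ∂(volume.prod volume)
      ≤ ∫⁻ p in E, ENNReal.ofReal (K * Φ p) ∂(volume.prod volume) := by
        have hmE : MeasurableSet E := by
          have : E = (QQ r e ∩ {p | |p.1| ≤ 2 * r ∧ p.2 ≤ 2 * r}) ∩
              (QQ r e ∩ B ⁻¹' Icc 0 M) := by
            ext p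
            constructor
            · intro hp
              exact ⟨⟨hEQ hp, hp.1, hp.2.2.1⟩, hEQ hp, hp.2.2.2⟩
            · rintro ⟨⟨h1, h2, h3⟩, -, h4⟩
              exact ⟨h2, h1.2.1, h3, h4⟩
          rw [this]
          apply MeasurableSet.inter
          · apply hmQ.inter
            apply MeasurableSet.inter
            · exact measurableSet_le (measurable_fst.abs) measurable_const
            · exact measurableSet_le measurable_snd measurable_const
          · exact ((D.cB.mono (QQ_sub he)).preimage_isClosed_of_isClosed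
              (isCompact_QQ r e).isClosed isClosed_Icc).measurableSet
        apply setLIntegral_mono_ae' hmE
        exact Eventually.of_forall fun p hp => ENNReal.ofReal_le_ofReal (hlow p hp)
    _ ≤ ∫⁻ p in QQ r e, ENNReal.ofReal (K * Φ p) ∂(volume.prod volume) :=
        lintegral_mono_set hEQ
    _ = ENNReal.ofReal (∫ p in QQ r e, K * Φ p ∂(volume.prod volume)) := by
        rw [ofReal_integral_eq_lintegral_ofReal]
        · exact int_QQ (r := r) he (continuousOn_const.mul hcΦ)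
        · rw [EventuallyLE, ae_restrict_iff' hmQ]
          exact Eventually.of_forall fun p hp => mul_nonneg hKp.le (hΦ0 p hp)
    _ ≤ _ := by
        apply ENNReal.ofReal_le_ofReal
        rw [integral_const_mul]
        have b1 := box_bound D h0 h8 hr he her
        have b2 := int_FF D h0 h8 hr he her
        have b3 : 120 / r * ∫ p in QQ r e, FF B p ∂(volume.prod volume) ≤
            120 / r * (72 * r ^ 2 * min 1 (Real.exp (B (0, r)))) :=
          mul_le_mul_of_nonneg_left b2 (by positivity)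
        calc K * ∫ p in QQ r e, Φ p ∂(volume.prod volume)
            ≤ K * (120 / r * (72 * r ^ 2 * min 1 (Real.exp (B (0, r))))) :=
              mul_le_mul_of_nonneg_left (b1.trans b3) hKp.le
          _ = _ := by rw [hK]; field_simp; norm_num

/-! ### Part 2: complex part -/

/-- the conformal radius seen from `z` -/
noncomputable def ups (f : ℂ → ℂ) (z : ℂ) : ℝ := z.im * ‖deriv f z‖

/-- the pre-Schwarzian -/
noncomputable def kk (f : ℂ → ℂ) (z : ℂ) : ℂ := deriv (deriv f) z / deriv f z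

theorem isOpen_H : IsOpen {z : ℂ | 0 < z.im} := isOpen_lt continuous_const Complex.continuous_im

theorem hd_mk_x (x y : ℝ) : HasDerivAt (fun t : ℝ => (⟨t, y⟩ : ℂ)) 1 x := by
  have h : HasDerivAt (fun t : ℝ => (t : ℂ) + y * Complex.I) 1 x :=
    (Complex.ofRealCLM.hasDerivAt (x := x)).add_const _
  refine h.congr_of_eventuallyEq (Eventually.of_forall fun t => ?_)
  simp only [Complex.mk_eq_add_mul_I]

theorem hd_mk_y (x y : ℝ) : HasDerivAt (fun t : ℝ => (⟨x, t⟩ : ℂ)) Complex.I y := by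
  have h : HasDerivAt (fun t : ℝ => (x : ℂ) + t * Complex.I) (1 * Complex.I) y :=
    ((Complex.ofRealCLM.hasDerivAt (x := y)).mul_const _).const_add _
  rw [one_mul] at h
  refine h.congr_of_eventuallyEq (Eventually.of_forall fun t => ?_)
  simp only [Complex.mk_eq_add_mul_I]

theorem hd_log_norm {c : ℝ → ℂ} {c' : ℂ} {t : ℝ} (hc : HasDerivAt c c' t) (h0 : c t ≠ 0) :
    HasDerivAt (fun t => Real.log ‖c t‖) ((c' / c t).re) t := by
  have h1 : HasDerivAt (fun t => ‖c t‖ ^ 2) (2 * inner ℝ (c t) c') t := hc.norm_sq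
  have hn : 0 < ‖c t‖ := norm_pos_iff.2 h0
  have h2 := (h1.log (by positivity)).const_mul (1 / 2)
  refine (h2.congr_of_eventuallyEq (Eventually.of_forall fun t => ?_)).congr_deriv ?_
  · simp only [Real.log_pow]; push_cast; ring
  · rw [Complex.inner, Complex.div_re, ← Complex.normSq_eq_norm_sq]
    simp only [Complex.mul_re, Complex.conj_re, Complex.conj_im]
    field_simp
    ring

variable {f : ℂ → ℂ}

theorem f'_ne (hf : DifferentiableOn ℂ f {z | 0 < z.im}) (hfi : InjOn f {z | 0 < z.im}) {z : ℂ}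
    (hz : 0 < z.im) : deriv f z ≠ 0 :=
  Crest.Agent.Lib.deriv_ne_zero_of_injOn isOpen_H hf hfi hz

theorem diff_f' (hf : DifferentiableOn ℂ f {z | 0 < z.im}) :
    DifferentiableOn ℂ (deriv f) {z | 0 < z.im} := hf.deriv isOpen_H

theorem diff_kk (hf : DifferentiableOn ℂ f {z | 0 < z.im}) (hfi : InjOn f {z | 0 < z.im}) :
    DifferentiableOn ℂ (kk f) {z | 0 < z.im} :=
  ((diff_f' hf).deriv isOpen_H).div (diff_f' hf) (fun _ hz => f'_ne hf hfi hz)

theorem diff_kk' (hf : DifferentiableOn ℂ f {z | 0 < z.im}) (hfi : InjOn f {z | 0 < z.im}) :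
    DifferentiableOn ℂ (deriv (kk f)) {z | 0 < z.im} := (diff_kk hf hfi).deriv isOpen_H

theorem hdat {g : ℂ → ℂ} (hg : DifferentiableOn ℂ g {z | 0 < z.im}) {z : ℂ} (hz : 0 < z.im) :
    HasDerivAt g (deriv g z) z := (hg.differentiableAt (isOpen_H.mem_nhds hz)).hasDerivAt

theorem cont_mk : Continuous (fun p : ℝ × ℝ => (⟨p.1, p.2⟩ : ℂ)) := by
  have : Continuous (fun p : ℝ × ℝ => (p.1 : ℂ) + p.2 * Complex.I) := by fun_prop
  refine this.congr fun p => ?_
  simp only [Complex.mk_eq_add_mul_I]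

theorem cont_comp {g : ℂ → ℂ} (hg : DifferentiableOn ℂ g {z | 0 < z.im}) :
    ContinuousOn (fun p : ℝ × ℝ => g ⟨p.1, p.2⟩) {p | 0 < p.2} :=
  hg.continuousOn.comp cont_mk.continuousOn (fun _ hp => hp)

theorem grad_bound (hf : DifferentiableOn ℂ f {z | 0 < z.im}) (hfi : InjOn f {z | 0 < z.im})
    {z : ℂ} (hz : 0 < z.im) : (z.im * (kk f z).re) ^ 2 + (z.im * (kk f z).im - 1) ^ 2 ≤ 4 := by
  have h := Crest.Agent.Lib.Bieberbach.bieberbach_halfplane' hf hfi hz
  have e : (z.im : ℂ) * deriv (deriv f) z / deriv f z - Complex.I =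
      (z.im : ℂ) * kk f z - Complex.I := by rw [kk, mul_div_assoc]
  rw [e] at h
  have h2 : ‖(z.im : ℂ) * kk f z - Complex.I‖ ^ 2 ≤ 2 ^ 2 :=
    pow_le_pow_left₀ (norm_nonneg _) h 2
  rw [← Complex.normSq_eq_norm_sq, Complex.normSq_apply] at h2
  simp at h2
  nlinarith

theorem dat (hf : DifferentiableOn ℂ f {z | 0 < z.im}) (hfi : InjOn f {z | 0 < z.im}) (al v : ℝ) :
    Dat al (fun p => al * (Real.log p.2 + Real.log ‖deriv f ⟨p.1, p.2⟩‖ - Real.log v))
      (fun p => al * (kk f ⟨p.1, p.2⟩).re) (fun p => al * (deriv (kk f) ⟨p.1, p.2⟩).re)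
      (fun p => al * (p.2⁻¹ - (kk f ⟨p.1, p.2⟩).im))
      (fun p => al * (-(p.2 ^ 2)⁻¹ - (deriv (kk f) ⟨p.1, p.2⟩).re)) := by
  have hk := diff_kk hf hfi
  have hk' := diff_kk' hf hfi
  have hf' := diff_f' hf
  constructor
  · intro x y hy
    have hz : 0 < (⟨x, y⟩ : ℂ).im := hy
    have h1 := (hdat hf' hz).comp x (hd_mk_x x y)
    have h2 := hd_log_norm h1 (f'_ne hf hfi hz)
    have h3 := ((h2.const_add (Real.log y)).sub_const (Real.log v)).const_mul al
    refine h3.congr_deriv ?_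
    simp only [mul_one, kk, Function.comp]
  · intro x y hy
    have hz : 0 < (⟨x, y⟩ : ℂ).im := hy
    have h1 := (hdat hk hz).comp x (hd_mk_x x y)
    have h2 := (Complex.reCLM.hasFDerivAt.comp_hasDerivAt x h1).const_mul al
    refine h2.congr_deriv ?_
    simp
  · intro x y hy
    have hz : 0 < (⟨x, y⟩ : ℂ).im := hy
    have h1 := (hdat hf' hz).comp y (hd_mk_y x y)
    have h2 := hd_log_norm h1 (f'_ne hf hfi hz)
    have h3 := (((Real.hasDerivAt_log hy.ne').add h2).sub_const (Real.log v)).const_mul al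
    refine h3.congr_deriv ?_
    simp only [Function.comp]
    rw [mul_div_right_comm]
    congr 1
    simp [kk]
    ring
  · intro x y hy
    have hz : 0 < (⟨x, y⟩ : ℂ).im := hy
    have h1 := (hdat hk hz).comp y (hd_mk_y x y)
    have h2 := Complex.imCLM.hasFDerivAt.comp_hasDerivAt y h1
    have h3 := ((hasDerivAt_inv hy.ne').sub h2).const_mul al
    refine h3.congr_deriv ?_
    simp
  · apply continuousOn_const.mul
    apply ContinuousOn.sub _ continuousOn_const
    apply ContinuousOn.add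
    · exact Real.continuousOn_log.comp continuous_snd.continuousOn (fun p hp => (ne_of_gt hp))
    · exact Real.continuousOn_log.comp (cont_comp hf').norm
        (fun p hp => norm_ne_zero_iff.2 (f'_ne hf hfi hp))
  · exact continuousOn_const.mul (Complex.continuous_re.comp_continuousOn (cont_comp hk))
  · exact continuousOn_const.mul (Complex.continuous_re.comp_continuousOn (cont_comp hk'))
  · apply continuousOn_const.mul
    apply ContinuousOn.sub
    · exact continuousOn_snd.inv₀ (fun p hp => (ne_of_gt hp))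
    · exact Complex.continuous_im.comp_continuousOn (cont_comp hk)
  · apply continuousOn_const.mul
    apply ContinuousOn.sub
    · exact ((continuousOn_snd.pow 2).inv₀ (fun p hp => pow_ne_zero 2 (ne_of_gt hp))).neg
    · exact Complex.continuous_re.comp_continuousOn (cont_comp hk')
  · intro x y hy
    simp only
    field_simp
    ring
  · intro x y hy
    have h := grad_bound hf hfi (z := ⟨x, y⟩) hy
    simp only at h ⊢
    rw [le_div_iff₀ (by positivity)]
    have e : ((al * (kk f ⟨x, y⟩).re) ^ 2 + (al * (y⁻¹ - (kk f ⟨x, y⟩).im)) ^ 2) * y ^ 2 =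
        al ^ 2 * ((y * (kk f ⟨x, y⟩).re) ^ 2 + (y * (kk f ⟨x, y⟩).im - 1) ^ 2) := by
      field_simp
      ring
    rw [e]
    have := sq_nonneg al
    nlinarith

theorem log_ups {z : ℂ} (hf : DifferentiableOn ℂ f {z | 0 < z.im})
    (hfi : InjOn f {z | 0 < z.im}) (hz : 0 < z.im) :
    Real.log (ups f z) = Real.log z.im + Real.log ‖deriv f z‖ :=
  Real.log_mul hz.ne' (norm_ne_zero_iff.2 (f'_ne hf hfi hz))

theorem ups_pos {z : ℂ} (hf : DifferentiableOn ℂ f {z | 0 < z.im})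
    (hfi : InjOn f {z | 0 < z.im}) (hz : 0 < z.im) : 0 < ups f z :=
  mul_pos hz (norm_pos_iff.2 (f'_ne hf hfi hz))

/-- version away from the real line -/
theorem kb6_eps (hf : DifferentiableOn ℂ f {z | 0 < z.im}) (hfi : InjOn f {z | 0 < z.im})
    {al r v L e : ℝ} (h0 : 0 < al) (h8 : al ≤ 1 / 8) (hr : 0 < r) (hv : 0 < v) (hL : 1 ≤ L)
    (he : 0 < e) (her : e ≤ r / 2) :
    ∫⁻ z in {z : ℂ | e ≤ z.im ∧ r ≤ ‖z‖ ∧ ‖z‖ ≤ 2 * r ∧ v ≤ ups f z ∧ ups f z ≤ L * v},
      ENNReal.ofReal (z.im / ‖z‖ / z.im ^ 2) ≤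
    ENNReal.ofReal (34560 * (1 + L) / al *
      min 1 ((ups f ((r : ℂ) * Complex.I) / v) ^ al)) := by
  have D := dat hf hfi al v
  have hA := abstract_bound (M := al * Real.log L) D h0 h8 hr he her
  set B : ℝ × ℝ → ℝ :=
    fun p => al * (Real.log p.2 + Real.log ‖deriv f ⟨p.1, p.2⟩‖ - Real.log v) with hB
  set E := {p : ℝ × ℝ | |p.1| ≤ 2 * r ∧ e ≤ p.2 ∧ p.2 ≤ 2 * r ∧ 0 ≤ B p ∧
    B p ≤ al * Real.log L} with hE
  have hri : (((r : ℂ) * Complex.I)).im = r := by simp
  have hrI : (r : ℂ) * Complex.I = ⟨0, r⟩ := by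
    apply Complex.ext <;> simp
  have hT : Real.exp (B (0, r)) = (ups f ((r : ℂ) * Complex.I) / v) ^ al := by
    have hu : 0 < ups f ((r : ℂ) * Complex.I) := ups_pos hf hfi (by rw [hri]; exact hr)
    rw [Real.rpow_def_of_pos (div_pos hu hv), Real.log_div hu.ne' hv.ne',
      log_ups hf hfi (by rw [hri]; exact hr), hri, hrI]
    congr 1
    simp only [hB]
    ring
  rw [hT] at hA
  have hsub : {z : ℂ | e ≤ z.im ∧ r ≤ ‖z‖ ∧ ‖z‖ ≤ 2 * r ∧ v ≤ ups f z ∧ ups f z ≤ L * v} ⊆
      Complex.measurableEquivRealProd ⁻¹' E := by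
    rintro z ⟨h1, h2, h3, h4, h5⟩
    have hz : 0 < z.im := he.trans_le h1
    have hBz : B (z.re, z.im) = al * (Real.log (ups f z) - Real.log v) := by
      rw [log_ups hf hfi hz]
    have hlv := Real.log_le_log hv h4
    have hlL : Real.log (ups f z) ≤ Real.log L + Real.log v := by
      rw [← Real.log_mul (by linarith) hv.ne']
      exact Real.log_le_log (ups_pos hf hfi hz) h5
    refine ⟨?_, h1, ?_, ?_, ?_⟩
    · exact (Complex.abs_re_le_norm z).trans h3
    · exact (le_abs_self _).trans ((Complex.abs_im_le_norm z).trans h3)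
    · change 0 ≤ B (z.re, z.im)
      rw [hBz]
      exact mul_nonneg h0.le (by linarith)
    · change B (z.re, z.im) ≤ _
      rw [hBz]
      exact mul_le_mul_of_nonneg_left (by linarith) h0.le
  have hmp := Complex.volume_preserving_equiv_real_prod
  calc ∫⁻ z in {z : ℂ | e ≤ z.im ∧ r ≤ ‖z‖ ∧ ‖z‖ ≤ 2 * r ∧ v ≤ ups f z ∧ ups f z ≤ L * v},
        ENNReal.ofReal (z.im / ‖z‖ / z.im ^ 2)
      ≤ ∫⁻ z in {z : ℂ | e ≤ z.im ∧ r ≤ ‖z‖ ∧ ‖z‖ ≤ 2 * r ∧ v ≤ ups f z ∧ ups f z ≤ L * v},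
        ENNReal.ofReal (1 / r) * ENNReal.ofReal (1 / z.im) := by
        apply setLIntegral_mono (by
          apply Measurable.const_mul
          exact ENNReal.measurable_ofReal.comp (measurable_const.div Complex.measurable_im))
        rintro z ⟨h1, h2, -⟩
        have hz : 0 < z.im := he.trans_le h1
        rw [← ENNReal.ofReal_mul (by positivity)]
        apply ENNReal.ofReal_le_ofReal
        have hzn : 0 < ‖z‖ := hr.trans_le h2
        have e1 : z.im / ‖z‖ / z.im ^ 2 = 1 / ‖z‖ * (1 / z.im) := by field_simp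
        rw [e1]
        apply mul_le_mul_of_nonneg_right _ (by positivity)
        exact one_div_le_one_div_of_le hr h2
    _ ≤ ∫⁻ z in Complex.measurableEquivRealProd ⁻¹' E,
        ENNReal.ofReal (1 / r) * ENNReal.ofReal (1 / z.im) := lintegral_mono_set hsub
    _ = ENNReal.ofReal (1 / r) * ∫⁻ z in Complex.measurableEquivRealProd ⁻¹' E,
        ENNReal.ofReal (1 / z.im) := by
        rw [lintegral_const_mul]
        exact ENNReal.measurable_ofReal.comp (measurable_const.div Complex.measurable_im)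
    _ = ENNReal.ofReal (1 / r) * ∫⁻ p in E, ENNReal.ofReal (1 / p.2) ∂(volume.prod volume) := by
        congr 1
        have := hmp.setLIntegral_comp_preimage_emb
          Complex.measurableEquivRealProd.measurableEmbedding
          (fun p : ℝ × ℝ => ENNReal.ofReal (1 / p.2)) E
        rw [← Measure.volume_eq_prod]
        rw [← this]
        rfl
    _ ≤ ENNReal.ofReal (1 / r) * ENNReal.ofReal (34560 * (1 + Real.exp (al * Real.log L)) / al *
        r * min 1 ((ups f ((r : ℂ) * Complex.I) / v) ^ al)) := by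
        gcongr
    _ ≤ _ := by
        rw [← ENNReal.ofReal_mul (by positivity)]
        apply ENNReal.ofReal_le_ofReal
        have hu : 0 < ups f ((r : ℂ) * Complex.I) := ups_pos hf hfi (by rw [hri]; exact hr)
        have hm : 0 ≤ min 1 ((ups f ((r : ℂ) * Complex.I) / v) ^ al) := by
          apply le_min zero_le_one
          positivity
        have hl : Real.exp (al * Real.log L) ≤ L := by
          have h1 : al * Real.log L ≤ Real.log L := by
            have := Real.log_nonneg hL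
            nlinarith
          calc Real.exp (al * Real.log L) ≤ Real.exp (Real.log L) := Real.exp_le_exp.2 h1
            _ = L := Real.exp_log (by linarith)
        calc 1 / r * (34560 * (1 + Real.exp (al * Real.log L)) / al * r *
              min 1 ((ups f ((r : ℂ) * Complex.I) / v) ^ al))
            = 34560 * (1 + Real.exp (al * Real.log L)) / al *
              min 1 ((ups f ((r : ℂ) * Complex.I) / v) ^ al) := by
              field_simp
          _ ≤ _ := by
              apply mul_le_mul_of_nonneg_right _ hm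
              apply div_le_div_of_nonneg_right _ h0.le
              nlinarith

/-- **Node KB6 (Lemma A).** -/
theorem kb6 (hf : DifferentiableOn ℂ f {z | 0 < z.im}) (hfi : InjOn f {z | 0 < z.im})
    {al r v L : ℝ} (h0 : 0 < al) (h8 : al ≤ 1 / 8) (hr : 0 < r) (hv : 0 < v) (hL : 1 ≤ L) :
    ∫⁻ z in {z : ℂ | 0 < z.im ∧ r ≤ ‖z‖ ∧ ‖z‖ ≤ 2 * r ∧ v ≤ ups f z ∧ ups f z ≤ L * v},
      ENNReal.ofReal (z.im / ‖z‖ / z.im ^ 2) ≤
    ENNReal.ofReal (34560 * (1 + L) / al *
      min 1 ((ups f ((r : ℂ) * Complex.I) / v) ^ al)) := by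
  have hU : {z : ℂ | 0 < z.im ∧ r ≤ ‖z‖ ∧ ‖z‖ ≤ 2 * r ∧ v ≤ ups f z ∧ ups f z ≤ L * v} =
      ⋃ n : ℕ, {z : ℂ | r / (n + 2) ≤ z.im ∧ r ≤ ‖z‖ ∧ ‖z‖ ≤ 2 * r ∧ v ≤ ups f z ∧
        ups f z ≤ L * v} := by
    ext z
    simp only [mem_ofPred_eq, mem_iUnion]
    constructor
    · rintro ⟨h1, h2⟩
      obtain ⟨n, hn⟩ := exists_nat_gt (r / z.im)
      refine ⟨n, ?_, h2⟩
      rw [div_lt_iff₀ h1] at hn
      rw [div_le_iff₀ (by positivity)]
      nlinarith
    · rintro ⟨n, h1, h2⟩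
      exact ⟨lt_of_lt_of_le (by positivity) h1, h2⟩
  rw [hU, setLIntegral_iUnion_of_directed]
  · apply iSup_le
    intro n
    apply kb6_eps hf hfi h0 h8 hr hv hL (by positivity)
    apply div_le_div_of_nonneg_left hr.le (by norm_num)
    have : (0 : ℝ) ≤ n := Nat.cast_nonneg n
    linarith
  · apply Monotone.directed_le
    intro n m hnm z hz
    refine ⟨le_trans ?_ hz.1, hz.2⟩
    apply div_le_div_of_nonneg_left hr.le (by positivity)
    have : (n : ℝ) ≤ m := Nat.cast_le.2 hnm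
    linarith

end Crest.Agent.R162.KB6
end

-- ▼ part R162/LB3aF
section

/-!
Row 162, node LB3a (helper429): unconditional shell lemma (KB6 of helper668 plugged in).
-/

set_option autoImplicit false

open MeasureTheory Set
open scoped ENNReal NNReal
open Crest.ProbabilityR.Loewner

namespace Crest.Agent.R162.LB3a

open Crest.Agent.R162.KB1 (Hs ups isOpen_Hs ups_pos)

theorem kb6Stmt : KB6Stmt (1 / 8) := by
  refine ⟨34560 * (1 + 2) / (1 / 8), by norm_num, ?_⟩
  intro f hf hfi v r hv hr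
  have h := Crest.Agent.R162.KB6.kb6 hf hfi (al := 1 / 8) (r := r) (v := v) (L := 2)
    (by norm_num) le_rfl hr hv (by norm_num)
  have e : Complex.I * (r : ℂ) = (r : ℂ) * Complex.I := mul_comm _ _
  rw [e]
  exact h

/-- **LB3a**, unconditional. -/
theorem shell' {κ : ℝ} (hκ : 0 < κ) (hκ8 : κ < 8) :
    ∃ C c : ℝ, 0 < C ∧ 0 < c ∧ ∀ f : ℂ → ℂ, DifferentiableOn ℂ f Hs → InjOn f Hs →
      ∀ (x : ℂ) (r L : ℝ), 0 < r → 0 < L →
      ∫⁻ z in {z : ℂ | 0 < z.im ∧ r ≤ ‖z‖ ∧ ‖z‖ ≤ 2 * r ∧ ‖f z - x‖ ≤ L ∧ ups f z ≤ L},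
        ENNReal.ofReal ((ups f z) ^ (dimParam κ) * (z.im / ‖z‖) ^ (8 / κ - 1) / z.im ^ 2)
      ≤ ENNReal.ofReal (C * L ^ (dimParam κ) * (min 1 (ups f (Complex.I * r) / L)) ^ c) :=
  shell (by norm_num) kb6Stmt hκ hκ8


end Crest.Agent.R162.LB3a
end

-- ▼ part R162/LB3b1

/-!
Row 162 (S0243), node LB3b, second part (helper268): the Green mass near the tip at one time.
-/

set_option autoImplicit false

open MeasureTheory Set
open scoped ENNReal NNReal
open Crest.ProbabilityR.Loewner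

namespace Crest.Agent.R162.LB3b

open Crest.Agent.R162.KB1 (Hs ups isOpen_Hs ups_pos)
open Crest.Agent.R162.FL

theorem dim_sub_two {κ : ℝ} : dimParam κ - 2 = κ / 8 - 1 := by
  unfold dimParam; ring

/-- The Green mass near the tip for one univalent map. -/
theorem mass_bound {κ : ℝ} (hκ : 0 < κ) (hκ8 : κ < 8) :
    ∃ C c : ℝ, 0 < C ∧ 0 < c ∧ c ≤ 1 / 2 ∧ ∀ f : ℂ → ℂ, DifferentiableOn ℂ f Hs → InjOn f Hs →
      ∀ (x : ℂ) (r0 L ρ M : ℝ), 0 < ρ → 0 < L → r0 ≤ L →
      (∀ z : ℂ, 0 < z.im → ‖f z - x‖ ≤ r0 → ups f z ≤ L) → 0 ≤ M →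
      ups f (((10 * ρ : ℝ) : ℂ) * Complex.I) ≤ M * L →
      ∫⁻ z in {z | 0 < z.im ∧ ‖f z - x‖ ≤ r0},
        ENNReal.ofReal (gd (dimParam κ) (8 / κ - 1) f z * min 1 ((ρ / ‖z‖) ^ 2))
      ≤ ENNReal.ofReal (C * L ^ dimParam κ) * (ENNReal.ofReal (M ^ c)
        + ∑' k : ℕ, ENNReal.ofReal ((min 1 (ups f ((yk ρ k : ℂ) * Complex.I) / L)) ^ c)) := by
  obtain ⟨C0, c0, hC0, hc0, hsh⟩ := LB3a.shell' hκ hκ8
  set c : ℝ := min c0 (1 / 2) with hc
  have hcpos : 0 < c := lt_min hc0 (by norm_num)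
  have hc2 : c ≤ 1 / 2 := min_le_right _ _
  have hcc : c ≤ c0 := min_le_left _ _
  refine ⟨C0 * (2 * Real.exp 2 ^ c), c, by positivity, hcpos, hc2, ?_⟩
  intro f hf hfi x r0 L ρ M hρ hL hr0 hups hM hM10
  have hLd : 0 < L ^ dimParam κ := Real.rpow_pos_of_pos hL _
  set m : ℝ → ℝ := fun y => ups f ((y : ℂ) * Complex.I) / L with hm
  have him : ∀ y : ℝ, ((y : ℂ) * Complex.I).im = y := fun y => by simp
  have hm0 : ∀ y, 0 < y → 0 ≤ m y := fun y hy =>
    div_nonneg (ups_pos hf hfi (by show 0 < _; rw [him]; exact hy)).le hL.le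
  have hlip : ∀ y y', 0 < y' → y' ≤ y → y ≤ Real.exp 1 * y' → m y' ≤ Real.exp 2 * m y := by
    intro y y' hy' h h2
    have h3 := (LB2a.ups_axis hf hfi hy' h).1
    have hy : 0 < y := lt_of_lt_of_le hy' h
    have h4 : (y / y') ^ 2 ≤ Real.exp 2 := by
      have : y / y' ≤ Real.exp 1 := by rwa [div_le_iff₀ hy']
      calc (y / y') ^ 2 ≤ (Real.exp 1) ^ 2 := by gcongr
        _ = Real.exp 2 := by rw [← Real.exp_nat_mul]; norm_num
    simp only [hm]
    rw [← mul_div_assoc]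
    refine div_le_div_of_nonneg_right ?_ hL.le
    refine h3.trans (mul_le_mul_of_nonneg_right h4 ?_)
    exact (ups_pos hf hfi (by show 0 < _; rw [him]; exact hy)).le
  have hbig : ∀ y, 10 * ρ ≤ y → m y ≤ M * (y / ρ) ^ 2 := by
    intro y hy
    have hρ10 : 0 < 10 * ρ := by positivity
    have h3 := (LB2a.ups_axis hf hfi hρ10 hy).2
    have hy0 : 0 < y := by linarith
    simp only [hm]
    rw [div_le_iff₀ hL]
    refine h3.trans ?_
    calc (y / (10 * ρ)) ^ 2 * ups f (((10 * ρ : ℝ) : ℂ) * Complex.I)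
        ≤ (y / (10 * ρ)) ^ 2 * (M * L) := by gcongr
      _ = (1 / 100) * (M * (y / ρ) ^ 2 * L) := by
          rw [div_pow, div_pow, mul_pow]
          have hρ2 : ρ ^ 2 ≠ 0 := by positivity
          field_simp
          ring
      _ ≤ M * (y / ρ) ^ 2 * L := by
          have : 0 ≤ M * (y / ρ) ^ 2 * L := by positivity
          linarith
  have hB : ∀ j : ℤ, ∫⁻ z in shell f x r0 ((2 : ℝ) ^ j * ρ),
      ENNReal.ofReal (gd (dimParam κ) (8 / κ - 1) f z)
      ≤ ENNReal.ofReal (C0 * L ^ dimParam κ * (min 1 (m ((2 : ℝ) ^ j * ρ))) ^ c) := by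
    intro j
    set r : ℝ := (2 : ℝ) ^ j * ρ with hr
    have hrpos : 0 < r := by positivity
    have h1 := hsh f hf hfi x r L hrpos hL
    refine le_trans (le_trans (lintegral_mono_set ?_) h1) ?_
    · rintro z ⟨h1, h2, h3, h4⟩
      exact ⟨h1, h2, h3, h4.trans hr0, hups z h1 h4⟩
    · refine ENNReal.ofReal_le_ofReal ?_
      have e : Complex.I * (r : ℂ) = (r : ℂ) * Complex.I := mul_comm _ _
      rw [e]
      have h5 : 0 < ups f ((r : ℂ) * Complex.I) / L :=
        div_pos (ups_pos hf hfi (by show 0 < _; rw [him]; exact hrpos)) hL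
      refine mul_le_mul_of_nonneg_left ?_ (by positivity)
      exact Real.rpow_le_rpow_of_exponent_ge (lt_min one_pos h5) (min_le_left _ _) hcc
  have hE : (1 : ℝ) ≤ 2 * Real.exp 2 ^ c := by
    have : (1 : ℝ) ≤ Real.exp 2 ^ c :=
      Real.one_le_rpow (Real.one_le_exp (by norm_num)) hcpos.le
    linarith
  have h1 := mass_le_shells (f := f) hf (d := dimParam κ) (b := 8 / κ - 1) (x := x) (r0 := r0) hρ _ hB
  refine h1.trans ((all_shells hρ hcpos hc2 hM (by positivity) hm0 hlip hbig).trans ?_)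
  rw [show C0 * (2 * Real.exp 2 ^ c) * L ^ dimParam κ = (C0 * L ^ dimParam κ) * (2 * Real.exp 2 ^ c)
    by ring, ENNReal.ofReal_mul (p := C0 * L ^ dimParam κ) (by positivity), mul_assoc]
  refine mul_le_mul_right ?_ _
  rw [mul_add]
  refine add_le_add ?_ ?_
  · refine le_mul_of_one_le_left zero_le ?_
    rw [← ENNReal.ofReal_one]
    exact ENNReal.ofReal_le_ofReal hE
  · rw [← mul_assoc]
    refine mul_le_mul_left (le_of_eq ?_) _
    rw [ENNReal.ofReal_mul (by norm_num)]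
    norm_num

end Crest.Agent.R162.LB3b
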