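import Mathlib
import Crest.Agent.R162.KB1

-- ▼ part R162/LB3b2
section

/-!
Row 162 (S0243), node LB3b, third part (helper268): numerical summation over the small shells,
in expectation.
-/

set_option autoImplicit false

open MeasureTheory Set
open scoped ENNReal NNReal

namespace Crest.Agent.R162.LB3b

/-- small `k` -/
theorem term_small {c e v K m : ℝ} (hc : 0 < c) (hv : 0 < v) (hv1 : v ≤ 1) (hK : 1 ≤ K)
    (hm0 : 0 ≤ m) {k : ℕ} (hm : m ≤ K * v * Real.exp (2 * k)) (he : 4 * e ≤ c) (he0 : 0 < e)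
    (hk : (k : ℝ) ≤ 1 / 4 * Real.log (1 / v)) :
    (min 1 m) ^ c ≤ K ^ c * (v ^ e * Real.exp (-(e * k))) := by
  have hk4 : Real.exp (4 * k) ≤ 1 / v := by
    have h1 : (4 : ℝ) * k ≤ Real.log (1 / v) := by linarith
    calc Real.exp (4 * k) ≤ Real.exp (Real.log (1 / v)) := Real.exp_le_exp.2 h1
      _ = 1 / v := Real.exp_log (by positivity)
  have hkl : Real.log v ≤ -(4 * k) := by
    rw [one_div v, Real.log_inv] at hk
    linarith
  have h1 : v * Real.exp (2 * k) ≤ v ^ (1 / 4 : ℝ) * Real.exp (-(k : ℝ)) := by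
    rw [Real.rpow_def_of_pos hv, ← Real.exp_add]
    nth_rewrite 1 [← Real.exp_log hv]
    rw [← Real.exp_add]
    refine Real.exp_le_exp.2 ?_
    nlinarith
  have h2 : (min 1 m) ^ c ≤ (K * (v ^ (1 / 4 : ℝ) * Real.exp (-(k : ℝ)))) ^ c := by
    refine Real.rpow_le_rpow (le_min zero_le_one hm0) ?_ hc.le
    refine (min_le_right _ _).trans (hm.trans ?_)
    rw [mul_assoc]
    exact mul_le_mul_of_nonneg_left h1 (by linarith)
  refine h2.trans ?_
  have hK0 : 0 ≤ K := by linarith
  rw [Real.mul_rpow hK0 (by positivity)]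
  refine mul_le_mul_of_nonneg_left ?_ (by positivity)
  rw [Real.mul_rpow (by positivity) (Real.exp_pos _).le, ← Real.rpow_mul hv.le]
  refine mul_le_mul ?_ ?_ (by positivity) (by positivity)
  · exact Real.rpow_le_rpow_of_exponent_ge hv hv1 (by linarith)
  · rw [← Real.exp_mul]
    refine Real.exp_le_exp.2 ?_
    have : (0 : ℝ) ≤ k := Nat.cast_nonneg k
    nlinarith

/-- decay in `k` beyond `k0` is decay in `v` -/
theorem exp_large {a e v : ℝ} (hv : 0 < v) (hv1 : v ≤ 1) {k : ℕ} (he : 8 * e ≤ a) (he0 : 0 < e)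
    (hk : 1 / 4 * Real.log (1 / v) ≤ k) :
    Real.exp (-(a * k)) ≤ v ^ e * Real.exp (-(e * k)) := by
  rw [Real.rpow_def_of_pos hv, ← Real.exp_add]
  refine Real.exp_le_exp.2 ?_
  rw [one_div v, Real.log_inv] at hk
  have h0 : (0 : ℝ) ≤ k := Nat.cast_nonneg k
  have h1 : -Real.log v ≤ 4 * k := by linarith
  nlinarith

/-- large `k`, good -/
theorem term_large {c c2 e v m : ℝ} (hc : 0 < c) (hv : 0 < v) (hv1 : v ≤ 1)
    (hm0 : 0 ≤ m) {k : ℕ} (hm : m ≤ Real.exp (-(c2 * k))) (he : 8 * e ≤ c * c2) (he0 : 0 < e)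
    (hk : 1 / 4 * Real.log (1 / v) ≤ k) :
    (min 1 m) ^ c ≤ v ^ e * Real.exp (-(e * k)) := by
  refine le_trans ?_ (exp_large (a := c * c2) hv hv1 he he0 hk)
  calc (min 1 m) ^ c ≤ (Real.exp (-(c2 * k))) ^ c :=
        Real.rpow_le_rpow (le_min zero_le_one hm0) ((min_le_right _ _).trans hm) hc.le
    _ = Real.exp (-(c * c2 * k)) := by
        rw [← Real.exp_mul]; congr 1; ring

theorem tsum_exp_neg {e : ℝ} (he : 0 < e) :
    ∑' k : ℕ, ENNReal.ofReal (Real.exp (-(e * k))) = ENNReal.ofReal ((1 - Real.exp (-e))⁻¹) := by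
  have h1 : ∀ k : ℕ, Real.exp (-(e * k)) = (Real.exp (-e)) ^ k := fun k => by
    rw [← Real.exp_nat_mul]; congr 1; ring
  have h2 : Real.exp (-e) < 1 := by
    rw [Real.exp_lt_one_iff]; linarith
  simp_rw [h1]
  rw [← ENNReal.ofReal_tsum_of_nonneg (fun k => by positivity)
    (summable_geometric_of_lt_one (Real.exp_pos _).le h2),
    tsum_geometric_of_lt_one (Real.exp_pos _).le h2]

/-- The sum over the small shells in expectation. -/
theorem exp_sum {c c2 c' C2 K : ℝ} (hc : 0 < c) (hc2 : 0 < c2) (hc' : 0 < c') (hC2 : 0 ≤ C2)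
    (hK : 1 ≤ K) :
    ∃ C e : ℝ, 0 < C ∧ 0 < e ∧ ∀ {Ω : Type*} [MeasurableSpace Ω] (P : Measure Ω)
      [IsProbabilityMeasure P] (A : Set Ω) (_ : MeasurableSet A) (m : Ω → ℕ → ℝ)
      (_ : ∀ ω k, 0 ≤ m ω k) (v : ℝ) (_ : 0 < v) (_ : v ≤ 1)
      (_ : ∀ ω ∈ A, ∀ k : ℕ, m ω k ≤ K * v * Real.exp (2 * k))
      (_ : ∀ k : ℕ, 1 / 4 * Real.log (1 / v) < k →
        P (A ∩ {ω | Real.exp (-(c2 * k)) ≤ m ω k}) ≤ ENNReal.ofReal (C2 * Real.exp (-(c' * k)))),
      ∫⁻ ω in A, (ENNReal.ofReal ((K * v) ^ c)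
        + ∑' k : ℕ, ENNReal.ofReal ((min 1 (m ω k)) ^ c)) ∂P ≤ ENNReal.ofReal (C * v ^ e) := by
  set e : ℝ := min (c / 4) (min (c * c2 / 8) (c' / 8)) with he
  have he0 : 0 < e := by positivity
  have he1 : 4 * e ≤ c := by
    have : e ≤ c / 4 := min_le_left _ _
    linarith
  have he2 : 8 * e ≤ c * c2 := by
    have : e ≤ c * c2 / 8 := (min_le_right _ _).trans (min_le_left _ _)
    linarith
  have he3 : 8 * e ≤ c' := by
    have : e ≤ c' / 8 := (min_le_right _ _).trans (min_le_right _ _)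
    linarith
  have hg : Real.exp (-e) < 1 := by rw [Real.exp_lt_one_iff]; linarith
  have hg' : 0 < (1 - Real.exp (-e))⁻¹ := by
    rw [inv_pos]; linarith
  refine ⟨K ^ c + (K ^ c + 1 + C2) * (1 - Real.exp (-e))⁻¹, e, by positivity, he0, ?_⟩
  intro Ω _ P _ A hA m hm0 v hv hv1 hm hbad
  classical
  have hKc : 0 < K ^ c := by positivity
  have hve : 0 < v ^ e := by positivity
  -- the measurable bad sets
  set S : ℕ → Set Ω := fun k => toMeasurable P (A ∩ {ω | Real.exp (-(c2 * k)) ≤ m ω k}) with hS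
  set I : ℕ → Ω → ℝ≥0∞ := fun k ω =>
    if 1 / 4 * Real.log (1 / v) < k then (S k).indicator (fun _ => 1) ω else 0 with hI
  have hSm : ∀ k, MeasurableSet (S k) := fun k => measurableSet_toMeasurable _ _
  have hIm : ∀ k, Measurable (I k) := by
    intro k
    simp only [hI]
    split_ifs with h
    · exact measurable_const.indicator (hSm k)
    · exact measurable_const
  set a : ℕ → ℝ := fun k => (K ^ c + 1) * (v ^ e * Real.exp (-(e * k))) with ha
  have ha0 : ∀ k, 0 ≤ a k := fun k => by simp only [ha]; positivity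
  have hterm : ∀ ω ∈ A, ∀ k : ℕ, ENNReal.ofReal ((min 1 (m ω k)) ^ c)
      ≤ ENNReal.ofReal (a k) + I k ω := by
    intro ω hω k
    rcases le_or_gt (k : ℝ) (1 / 4 * Real.log (1 / v)) with hk | hk
    · refine le_trans (ENNReal.ofReal_le_ofReal ?_) le_self_add
      refine (term_small hc hv hv1 hK (hm0 ω k) (hm ω hω k) he1 he0 hk).trans ?_
      simp only [ha]
      gcongr
      linarith
    · by_cases hb : Real.exp (-(c2 * k)) ≤ m ω k
      · have h1 : I k ω = 1 := by
          simp only [hI, if_pos hk]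
          have hmem : ω ∈ S k := subset_toMeasurable P _ (show ω ∈ A ∩ {ω | Real.exp (-(c2 * k)) ≤ m ω k} from ⟨hω, hb⟩)
          exact indicator_of_mem hmem _
        rw [h1]
        refine le_trans ?_ le_add_self
        rw [← ENNReal.ofReal_one]
        refine ENNReal.ofReal_le_ofReal ?_
        exact Real.rpow_le_one (le_min zero_le_one (hm0 ω k)) (min_le_left _ _) hc.le
      · refine le_trans (ENNReal.ofReal_le_ofReal ?_) le_self_add
        push Not at hb
        refine (term_large hc hv hv1 (hm0 ω k) hb.le he2 he0 hk.le).trans ?_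
        simp only [ha]
        nth_rewrite 1 [← one_mul (v ^ e * Real.exp (-(e * k)))]
        gcongr
        linarith
  have hIint : ∀ k, ∫⁻ ω in A, I k ω ∂P ≤ ENNReal.ofReal (C2 * (v ^ e * Real.exp (-(e * k)))) := by
    intro k
    by_cases hk : 1 / 4 * Real.log (1 / v) < k
    · simp only [hI, if_pos hk]
      rw [lintegral_indicator_const (hSm k), one_mul]
      calc (P.restrict A) (S k) ≤ P (S k) := Measure.restrict_apply_le _ _
        _ = P (A ∩ {ω | Real.exp (-(c2 * k)) ≤ m ω k}) := measure_toMeasurable _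
        _ ≤ ENNReal.ofReal (C2 * Real.exp (-(c' * k))) := hbad k hk
        _ ≤ _ := by
            refine ENNReal.ofReal_le_ofReal ?_
            exact mul_le_mul_of_nonneg_left (exp_large hv hv1 he3 he0 hk.le) hC2
    · simp only [hI, if_neg hk, lintegral_zero]
      exact zero_le
  have hPA : P A ≤ 1 := prob_le_one
  have hKv : (K * v) ^ c ≤ K ^ c * v ^ e := by
    rw [Real.mul_rpow (by linarith) hv.le]
    exact mul_le_mul_of_nonneg_left (Real.rpow_le_rpow_of_exponent_ge hv hv1 (by linarith)) hKc.le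
  calc ∫⁻ ω in A, (ENNReal.ofReal ((K * v) ^ c)
        + ∑' k : ℕ, ENNReal.ofReal ((min 1 (m ω k)) ^ c)) ∂P
      ≤ ∫⁻ ω in A, (ENNReal.ofReal (K ^ c * v ^ e)
        + ∑' k : ℕ, (ENNReal.ofReal (a k) + I k ω)) ∂P := by
        refine setLIntegral_mono' hA fun ω hω => ?_
        exact add_le_add (ENNReal.ofReal_le_ofReal hKv)
          (ENNReal.tsum_le_tsum fun k => hterm ω hω k)
    _ = ENNReal.ofReal (K ^ c * v ^ e) * P A
        + ∑' k : ℕ, (ENNReal.ofReal (a k) * P A + ∫⁻ ω in A, I k ω ∂P) := by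
        rw [lintegral_add_left measurable_const, lintegral_const, Measure.restrict_apply_univ,
          lintegral_tsum (f := fun k ω => ENNReal.ofReal (a k) + I k ω)
            (fun k => (measurable_const.add (hIm k)).aemeasurable)]
        congr 1
        refine tsum_congr fun k => ?_
        rw [lintegral_add_left measurable_const, lintegral_const, Measure.restrict_apply_univ]
    _ ≤ ENNReal.ofReal (K ^ c * v ^ e)
        + ∑' k : ℕ, (ENNReal.ofReal (a k) + ENNReal.ofReal (C2 * (v ^ e * Real.exp (-(e * k))))) := by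
        refine add_le_add (mul_le_of_le_one_right' hPA) (ENNReal.tsum_le_tsum fun k => ?_)
        exact add_le_add (mul_le_of_le_one_right' hPA) (hIint k)
    _ = ENNReal.ofReal (K ^ c * v ^ e)
        + ENNReal.ofReal ((K ^ c + 1 + C2) * v ^ e)
          * ∑' k : ℕ, ENNReal.ofReal (Real.exp (-(e * k))) := by
        congr 1
        rw [← ENNReal.tsum_mul_left]
        refine tsum_congr fun k => ?_
        rw [← ENNReal.ofReal_add (ha0 k) (by positivity), ← ENNReal.ofReal_mul (by positivity)]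
        congr 1
        simp only [ha]
        ring
    _ = ENNReal.ofReal ((K ^ c + (K ^ c + 1 + C2) * (1 - Real.exp (-e))⁻¹) * v ^ e) := by
        rw [tsum_exp_neg he0, ← ENNReal.ofReal_mul (by positivity),
          ← ENNReal.ofReal_add (by positivity) (by positivity)]
        congr 1
        ring

end Crest.Agent.R162.LB3b
end

-- ▼ part R162/LB3bAx

/-!
Row 162 (S0243), node LB3b: the conformal radius of `f` at `z` is bounded by the distance of `f z`
to the image of a short piece of the imaginary axis (the curve at its tip).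
-/

set_option autoImplicit false

namespace Crest.Agent.R162.LB3bAx

open Complex Set Metric Filter Topology
open Crest.Agent.R162.KB1

/-- if `f (iy)` stays in the ball `closedBall x r1` as `y ↓ 0`, then that ball is not contained in
a compact part of the image; so `ups f z ≤ 2 (‖f z - x‖ + r1)`. -/
theorem ups_le_of_axis {f : ℂ → ℂ} (hf : DifferentiableOn ℂ f Hs) (hfi : InjOn f Hs)
    {x : ℂ} {r1 y0 : ℝ} (hy0 : 0 < y0)
    (hax : ∀ y ∈ Ioc 0 y0, ‖f (y * Complex.I) - x‖ ≤ r1) {z : ℂ} (hz : z ∈ Hs) :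
    ups f z ≤ 2 * (‖f z - x‖ + r1) := by
  by_contra hcon
  push Not at hcon
  have hsub : closedBall x r1 ⊆ f '' Hs := by
    intro w hw
    apply ball_subset_image hf hfi hz
    rw [mem_ball, dist_eq_norm]
    have h1 : ‖w - x‖ ≤ r1 := by
      rw [← dist_eq_norm]; exact mem_closedBall.1 hw
    have h2 : ‖w - f z‖ ≤ ‖w - x‖ + ‖f z - x‖ := by
      have h3 := norm_sub_le (w - x) (f z - x)
      have h4 : w - x - (f z - x) = w - f z := by ring
      rwa [h4] at h3
    linarith
  obtain ⟨g, hgd, -, hgim, hgl, hgr⟩ := Crest.Agent.Lib.exists_holomorphic_inverse isOpen_Hs hf hfi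
  have hgc : ContinuousOn g (closedBall x r1) := hgd.continuousOn.mono hsub
  have hcomp : IsCompact (closedBall x r1) := isCompact_closedBall x r1
  have hmemax : ∀ y ∈ Ioc 0 y0, f (y * Complex.I) ∈ closedBall x r1 := by
    intro y hy
    rw [mem_closedBall, dist_eq_norm]
    exact hax y hy
  have hne : (closedBall x r1).Nonempty := ⟨_, hmemax y0 ⟨hy0, le_rfl⟩⟩
  obtain ⟨w0, hw0, hmin⟩ := hcomp.exists_isMinOn hne
    (Complex.continuous_im.comp_continuousOn hgc)
  have hpos : 0 < (g w0).im := by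
    have : g w0 ∈ g '' (f '' Hs) := mem_image_of_mem g (hsub hw0)
    rw [hgim] at this
    exact this
  set y : ℝ := min y0 ((g w0).im / 2) with hy
  have hy1 : 0 < y := lt_min hy0 (by positivity)
  have hy2 : y ≤ y0 := min_le_left _ _
  have hy3 : y ≤ (g w0).im / 2 := min_le_right _ _
  have hyH : ((y : ℂ) * Complex.I) ∈ Hs := by
    show 0 < ((y : ℂ) * Complex.I).im
    simpa using hy1
  have h5 := hmin (hmemax y ⟨hy1, hy2⟩)
  simp only [Set.mem_ofPred_eq, Function.comp_apply] at h5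
  rw [hgl _ hyH] at h5
  have h6 : ((y : ℂ) * Complex.I).im = y := by simp
  rw [h6] at h5
  linarith

end Crest.Agent.R162.LB3bAx
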