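import Crest.Agent.R162.OS5b
import Crest.Prelude.Def_Loewner
import Crest.Agent.R162.LBDefs
import Crest.Agent.R162.OS

-- ▼ part R162/OS5c
section

/-!
Row 162, node OS5c (helper430): the running maximum `runMax B u = max_{t ≤ u} |B t|`, its tail and
its fourth moment; conditional (past-independent) form.
-/

set_option autoImplicit false

open MeasureTheory ProbabilityTheory Filter Topology Set
open scoped NNReal ENNReal

noncomputable section

namespace Crest.Agent.R162.OS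

variable {Ω : Type*} {m : MeasurableSpace Ω} {P : Measure Ω}

/-- running maximum of `|B|` on `[0,u]`. -/
def runMax (B : ℝ≥0 → Ω → ℝ) (u : ℝ≥0) (ω : Ω) : ℝ :=
  ⨆ q : ℚ, |B (u * Real.toNNReal (min (q : ℝ) 1)) ω|

section

variable {F : Filtration ℝ≥0 m} {B : ℝ≥0 → Ω → ℝ}

lemma runMax_arg_le (u : ℝ≥0) (r : ℝ) : u * Real.toNNReal (min r 1) ≤ u := by
  have : Real.toNNReal (min r 1) ≤ 1 := by
    rw [Real.toNNReal_le_one]; exact min_le_right _ _
  calc u * Real.toNNReal (min r 1) ≤ u * 1 := by gcongr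
    _ = u := mul_one u

lemma runMax_bdd {ω : Ω} (hc : Continuous fun t => B t ω) (u : ℝ≥0) :
    ∃ t ≤ u, ∀ s ≤ u, |B s ω| ≤ |B t ω| := by
  obtain ⟨t, ht, hmax⟩ := (isCompact_Icc (a := (0 : ℝ≥0)) (b := u)).exists_isMaxOn
    ⟨0, ⟨le_rfl, zero_le⟩⟩ (hc.abs.continuousOn)
  exact ⟨t, ht.2, fun s hs => hmax ⟨zero_le, hs⟩⟩

lemma le_runMax {ω : Ω} (hc : Continuous fun t => B t ω) {t u : ℝ≥0} (ht : t ≤ u) :
    |B t ω| ≤ runMax B u ω := by
  obtain ⟨t0, ht0, hmax⟩ := runMax_bdd hc u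
  have hbdd : BddAbove (range fun q : ℚ => |B (u * Real.toNNReal (min (q : ℝ) 1)) ω|) := by
    refine ⟨|B t0 ω|, ?_⟩
    rintro _ ⟨q, rfl⟩
    exact hmax _ (runMax_arg_le u q)
  have hφ : Continuous fun r : ℝ => |B (u * Real.toNNReal (min r 1)) ω| := by
    refine (hc.comp ?_).abs
    exact continuous_const.mul (continuous_real_toNNReal.comp (by fun_prop))
  have hall : ∀ r : ℝ, |B (u * Real.toNNReal (min r 1)) ω| ≤ runMax B u ω := by
    intro r
    have hcl : IsClosed {r : ℝ | |B (u * Real.toNNReal (min r 1)) ω| ≤ runMax B u ω} :=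
      isClosed_le hφ continuous_const
    have hsub : range ((↑) : ℚ → ℝ) ⊆
        {r : ℝ | |B (u * Real.toNNReal (min r 1)) ω| ≤ runMax B u ω} := by
      rintro _ ⟨q, rfl⟩
      exact le_ciSup hbdd q
    have := hcl.closure_subset_iff.2 hsub
    rw [Rat.denseRange_cast.closure_range] at this
    exact this (mem_univ r)
  rcases eq_or_ne u 0 with hu | hu
  · have : t = 0 := le_antisymm (hu ▸ ht) zero_le
    have h1 := hall 0
    rw [hu, zero_mul] at h1
    rw [this]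
    rw [hu]
    exact h1
  · have h1 := hall ((t : ℝ) / u)
    have hu' : (0 : ℝ) < u := NNReal.coe_pos.2 (pos_iff_ne_zero.2 hu)
    have h2 : min ((t : ℝ) / u) 1 = (t : ℝ) / u := by
      rw [min_eq_left]
      rw [div_le_one hu']
      exact_mod_cast ht
    have h3 : u * Real.toNNReal (min ((t : ℝ) / u) 1) = t := by
      rw [h2, Real.toNNReal_div' (NNReal.coe_nonneg u), Real.toNNReal_coe, Real.toNNReal_coe]
      field_simp
    rwa [h3] at h1


lemma le_runMax_iff {ω : Ω} (hc : Continuous fun t => B t ω) {u : ℝ≥0} {x : ℝ} :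
    x ≤ runMax B u ω ↔ ∃ t ≤ u, x ≤ |B t ω| := by
  constructor
  · intro h
    obtain ⟨t0, ht0, hmax⟩ := runMax_bdd hc u
    refine ⟨t0, ht0, h.trans ?_⟩
    exact ciSup_le fun q => hmax _ (runMax_arg_le u q)
  · rintro ⟨t, ht, h⟩
    exact h.trans (le_runMax hc ht)


lemma IsBM.measurable_runMax (h : IsBM F B P) (u : ℝ≥0) : Measurable[F u] (runMax B u) := by
  let _ : MeasurableSpace Ω := F u
  have h1 : ∀ q : ℚ, Measurable fun ω => |B (u * Real.toNNReal (min (q : ℝ) 1)) ω| := fun q =>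
    (((h.adapted _).mono (F.mono (runMax_arg_le u q)) le_rfl)).abs
  exact Measurable.iSup h1




end

end Crest.Agent.R162.OS
end
end

-- ▼ part R162/LB3bTk

/-!
Row 162 (S0243), node LB3b: the first time `tk` at which `rad` reaches `2^k` (helper127).
-/

set_option autoImplicit false

open MeasureTheory ProbabilityTheory Set Filter Topology
open scoped NNReal ENNReal
open Crest.ProbabilityR.Loewner

namespace Crest.Agent.R162.LB3b

open Crest.Agent.R162.OS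

theorem mset_le {Ω : Type*} (m' : MeasurableSpace Ω) {f g : Ω → ℝ} (hf : Measurable[m'] f)
    (hg : Measurable[m'] g) : MeasurableSet[m'] {ω | f ω ≤ g ω} := measurableSet_le hf hg

theorem mset_le' {Ω : Type*} (m' : MeasurableSpace Ω) {f g : Ω → ℝ≥0} (hf : Measurable[m'] f)
    (hg : Measurable[m'] g) : MeasurableSet[m'] {ω | f ω ≤ g ω} := measurableSet_le hf hg

theorem meas_of_Iic {Ω : Type*} (m' : MeasurableSpace Ω) {f : Ω → ℝ≥0}
    (hf : ∀ x, MeasurableSet[m'] (f ⁻¹' Iic x)) : Measurable[m'] f := measurable_of_Iic hf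

/-! ### continuity of `rad` -/

theorem image_Icc_eq (W : ℝ → ℝ) {t : ℝ} (ht : 0 ≤ t) :
    (fun s => |W s|) '' Icc 0 t = (fun u => |W (t * u)|) '' Icc 0 1 := by
  have h : Icc 0 t = (fun u => t * u) '' Icc (0:ℝ) 1 := by
    rw [Set.image_mul_left_Icc ht zero_le_one]; simp
  rw [h, image_image]

theorem continuous_sSup_rad {W : ℝ → ℝ} (hW : Continuous W) :
    Continuous fun t : ℝ => sSup ((fun u => |W (t * u)|) '' Icc (0:ℝ) 1) := by
  have := (isCompact_Icc (a := (0:ℝ)) (b := 1)).continuous_sSup (f := fun t u : ℝ => |W (t * u)|)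
    (by
      have : Continuous fun p : ℝ × ℝ => |W (p.1 * p.2)| :=
        (hW.comp (continuous_fst.mul continuous_snd)).abs
      exact this)
  exact this

theorem continuousOn_rad {W : ℝ → ℝ} (hW : Continuous W) : ContinuousOn (LB.rad W) (Ici 0) := by
  have h : ContinuousOn (fun t => max (Real.sqrt t) (sSup ((fun u => |W (t * u)|) '' Icc (0:ℝ) 1)))
      (Ici 0) := (Real.continuous_sqrt.max (continuous_sSup_rad hW)).continuousOn
  refine h.congr fun t ht => ?_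
  rw [LB.rad, image_Icc_eq W ht]

theorem rad_zero {W : ℝ → ℝ} (h0 : W 0 = 0) : LB.rad W 0 = 0 := by
  simp [LB.rad, h0]

/-! ### the deterministic first time -/

/-- first time at which `rad W ≥ c` -/
noncomputable def tc (W : ℝ → ℝ) (c : ℝ) : ℝ≥0 := sInf {t : ℝ≥0 | c ≤ LB.rad W t}

variable {W : ℝ → ℝ} {c : ℝ}

theorem sq_mem (hc : 0 ≤ c) : c.toNNReal ^ 2 ∈ {t : ℝ≥0 | c ≤ LB.rad W t} := by
  have h := LB.sqrt_le_rad W ((c.toNNReal ^ 2 : ℝ≥0) : ℝ)
  show c ≤ LB.rad W ((c.toNNReal ^ 2 : ℝ≥0) : ℝ)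
  refine le_trans (le_of_eq ?_) h
  push_cast
  rw [Real.coe_toNNReal c hc, Real.sqrt_sq hc]

theorem tc_mem (hW : Continuous W) (hc : 0 ≤ c) : c ≤ LB.rad W (tc W c) := by
  have hcl : IsClosed {t : ℝ≥0 | c ≤ LB.rad W t} := by
    apply isClosed_le continuous_const
    have h := (continuousOn_rad hW)
    rw [continuousOn_iff_continuous_domRestrict] at h
    exact h
  exact hcl.csInf_mem ⟨_, sq_mem hc⟩ (OrderBot.bddBelow _)

theorem tc_le_sq (hc : 0 ≤ c) : (tc W c : ℝ) ≤ c ^ 2 := by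
  have h : tc W c ≤ c.toNNReal ^ 2 := csInf_le (OrderBot.bddBelow _) (sq_mem hc)
  have h' : (tc W c : ℝ) ≤ ((c.toNNReal ^ 2 : ℝ≥0) : ℝ) := NNReal.coe_le_coe.2 h
  push_cast at h'
  rwa [Real.coe_toNNReal c hc] at h'

theorem le_rad_iff' (hW : Continuous W) (hc : 0 ≤ c) {t : ℝ≥0} :
    c ≤ LB.rad W t ↔ tc W c ≤ t := by
  constructor
  · intro h; exact csInf_le (OrderBot.bddBelow _) h
  · intro h
    exact (tc_mem hW hc).trans (LB.rad_mono hW.continuousOn (tc W c).2 (NNReal.coe_le_coe.2 h))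

theorem tc_le_rad_iff (hW : Continuous W) (hc : 0 ≤ c) {s : ℝ} (hs : 0 ≤ s) :
    c ≤ LB.rad W s ↔ (tc W c : ℝ) ≤ s := by
  lift s to ℝ≥0 using hs
  rw [le_rad_iff' hW hc, NNReal.coe_le_coe]

theorem tc_pos (hW : Continuous W) (h0 : W 0 = 0) (hc : 0 < c) : 0 < tc W c := by
  rw [pos_iff_ne_zero]
  intro h
  have h1 := tc_mem hW hc.le
  rw [h, NNReal.coe_zero, rad_zero h0] at h1
  linarith

theorem rad_tc (hW : Continuous W) (h0 : W 0 = 0) (hc : 0 < c) : LB.rad W (tc W c) = c := by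
  apply le_antisymm _ (tc_mem hW hc.le)
  have hp := tc_pos hW h0 hc
  have hcont : ContinuousWithinAt (LB.rad W) (Ico 0 (tc W c : ℝ)) (tc W c) :=
    (continuousOn_rad hW _ (tc W c).2).mono fun _ h => h.1
  have hcl : (tc W c : ℝ) ∈ closure (Ico 0 (tc W c : ℝ)) := by
    rw [closure_Ico (by exact_mod_cast hp.ne)]
    exact ⟨(tc W c).2, le_rfl⟩
  have : (nhdsWithin (tc W c : ℝ) (Ico 0 (tc W c : ℝ))).NeBot :=
    mem_closure_iff_nhdsWithin_neBot.1 hcl
  refine le_of_tendsto hcont ?_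
  filter_upwards [self_mem_nhdsWithin] with s hs
  by_contra hcon
  have h1 := (tc_le_rad_iff hW hc.le hs.1).1 (not_le.1 hcon).le
  linarith [hs.2]

theorem tc_mono (hc : 0 ≤ c) {c' : ℝ} (hcc' : c ≤ c') : tc W c ≤ tc W c' :=
  csInf_le_csInf (OrderBot.bddBelow _) ⟨_, sq_mem (hc.trans hcc')⟩ fun _ h => hcc'.trans h

/-! ### the stopping time -/

variable {Ω : Type*} {mΩ : MeasurableSpace Ω} {F : Filtration ℝ≥0 mΩ} {B : ℝ≥0 → Ω → ℝ}
  {P : Measure Ω}

/-- first time at which `rad ≥ 2^k` -/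
noncomputable def tk (κ : ℝ) (B : ℝ≥0 → Ω → ℝ) (k : ℤ) (ω : Ω) : ℝ≥0 :=
  sInf {t : ℝ≥0 | (2:ℝ) ^ k ≤ LB.rad (driving κ B ω) t}


theorem continuous_drv (hB : IsBM F B P) (κ : ℝ) (ω : Ω) : Continuous (driving κ B ω) := by
  unfold driving
  exact continuous_const.mul ((hB.cont ω).comp continuous_real_toNNReal)

theorem drv_zero (hB : IsBM F B P) (κ : ℝ) (ω : Ω) : driving κ B ω 0 = 0 := by
  simp [driving, hB.zero ω]

/-- `rad` of the driving function through the running maximum -/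
theorem rad_driving (hB : IsBM F B P) (κ : ℝ) (ω : Ω) (t : ℝ≥0) :
    LB.rad (driving κ B ω) t = max (Real.sqrt t) (Real.sqrt κ * runMax B t ω) := by
  rw [LB.rad]
  congr 1
  have hc := hB.cont ω
  apply le_antisymm
  · apply csSup_le (Set.image_nonempty.2 (nonempty_Icc.2 t.2))
    rintro _ ⟨s, hs, rfl⟩
    simp only [driving, abs_mul, abs_of_nonneg (Real.sqrt_nonneg κ)]
    apply mul_le_mul_of_nonneg_left _ (Real.sqrt_nonneg κ)
    apply le_runMax hc
    rw [Real.toNNReal_le_iff_le_coe]; exact hs.2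
  · obtain ⟨s, hst, hs⟩ := (le_runMax_iff hc (x := runMax B t ω)).1 le_rfl
    refine le_csSup_of_le (LB.bddAbove_abs (continuous_drv hB κ ω).continuousOn)
      ⟨(s : ℝ), ⟨s.2, NNReal.coe_le_coe.2 hst⟩, rfl⟩ ?_
    simp only [driving, abs_mul, abs_of_nonneg (Real.sqrt_nonneg κ), Real.toNNReal_coe]
    exact mul_le_mul_of_nonneg_left hs (Real.sqrt_nonneg κ)

/-- `rad` at a fixed time is adapted -/
theorem measurable_rad (hB : IsBM F B P) (κ : ℝ) (t : ℝ≥0) :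
    Measurable[F t] fun ω => LB.rad (driving κ B ω) t := by
  have h : (fun ω => LB.rad (driving κ B ω) t)
      = fun ω => max (Real.sqrt t) (Real.sqrt κ * runMax B t ω) := by
    funext ω; exact rad_driving hB κ ω t
  rw [h]
  exact measurable_const.max ((hB.measurable_runMax t).const_mul _)

theorem isST_tc (hB : IsBM F B P) (κ : ℝ) {c : ℝ} (hc : 0 ≤ c) :
    IsST F (fun ω => tc (driving κ B ω) c) := by
  intro t
  have h : {ω | tc (driving κ B ω) c ≤ t} = {ω | c ≤ LB.rad (driving κ B ω) t} := by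
    ext ω
    exact (le_rad_iff' (continuous_drv hB κ ω) hc).symm
  rw [h]
  exact mset_le (F t) (@measurable_const _ _ _ (F t) c) (measurable_rad hB κ t)

theorem isST_tk (hB : IsBM F B P) (κ : ℝ) (k : ℤ) : IsST F (tk κ B k) :=
  isST_tc hB κ (by positivity)

theorem tk_pos (hB : IsBM F B P) (κ : ℝ) (k : ℤ) (ω : Ω) : 0 < tk κ B k ω :=
  tc_pos (continuous_drv hB κ ω) (drv_zero hB κ ω) (by positivity)

theorem rad_tk (hB : IsBM F B P) (κ : ℝ) (k : ℤ) (ω : Ω) :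
    LB.rad (driving κ B ω) (tk κ B k ω) = (2:ℝ) ^ k :=
  rad_tc (continuous_drv hB κ ω) (drv_zero hB κ ω) (by positivity)

theorem tk_le_sq (κ : ℝ) (B : ℝ≥0 → Ω → ℝ) (k : ℤ) (ω : Ω) :
    (tk κ B k ω : ℝ) ≤ ((2:ℝ) ^ k) ^ 2 := tc_le_sq (by positivity)

theorem le_rad_iff (hB : IsBM F B P) (κ : ℝ) (k : ℤ) (ω : Ω) {s : ℝ} (hs : 0 ≤ s) :
    (2:ℝ) ^ k ≤ LB.rad (driving κ B ω) s ↔ (tk κ B k ω : ℝ) ≤ s :=
  tc_le_rad_iff (continuous_drv hB κ ω) (by positivity) hs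

theorem tk_le_succ (κ : ℝ) (B : ℝ≥0 → Ω → ℝ) (k : ℤ) (ω : Ω) : tk κ B k ω ≤ tk κ B (k + 1) ω :=
  tc_mono (by positivity) (zpow_le_zpow_right₀ one_le_two (by lia))

theorem win_eq (hB : IsBM F B P) (κ : ℝ) (k : ℤ) (ω : Ω) (t : ℝ) :
    LB.win (driving κ B ω) t k
      = {s | (tk κ B k ω : ℝ) ≤ s ∧ s < tk κ B (k + 1) ω ∧ s ≤ t} := by
  ext s
  simp only [LB.win, mem_ofPred_eq]
  constructor
  · rintro ⟨h0, h1, h2, h3⟩
    refine ⟨(le_rad_iff hB κ k ω h0.le).1 h2, ?_, h1⟩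
    by_contra hcon
    exact absurd ((le_rad_iff hB κ (k + 1) ω h0.le).2 (not_lt.1 hcon)) (not_le.2 h3)
  · rintro ⟨h1, h2, h3⟩
    have h0 : 0 < s := lt_of_lt_of_le (NNReal.coe_pos.2 (tk_pos hB κ k ω)) h1
    refine ⟨h0, h3, (le_rad_iff hB κ k ω h0.le).2 h1, ?_⟩
    by_contra hcon
    exact absurd ((le_rad_iff hB κ (k + 1) ω h0.le).1 (not_lt.1 hcon)) (not_le.2 h2)

/-- on the window `[t_k, t_{k+1}]` the driving function moves by at most `3 · 2^k` -/
theorem osc_le (hB : IsBM F B P) (κ : ℝ) (k : ℤ) (ω : Ω) {s : ℝ}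
    (hs : s ∈ Icc (tk κ B k ω : ℝ) (tk κ B (k + 1) ω)) :
    |driving κ B ω s - driving κ B ω (tk κ B k ω)| ≤ 3 * (2:ℝ) ^ k := by
  have hc := (continuous_drv hB κ ω).continuousOn (s := Ici 0)
  have h0 : (0:ℝ) ≤ tk κ B k ω := (tk κ B k ω).2
  have h1 := LB.abs_le_rad hc h0 le_rfl
  rw [rad_tk hB κ k ω] at h1
  have h2 := LB.abs_le_rad hc (h0.trans hs.1) hs.2
  rw [rad_tk hB κ (k + 1) ω, zpow_add_one₀ (by norm_num)] at h2
  calc |driving κ B ω s - driving κ B ω (tk κ B k ω)|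
      ≤ |driving κ B ω s| + |driving κ B ω (tk κ B k ω)| := abs_sub _ _
    _ ≤ 3 * (2:ℝ) ^ k := by linarith

theorem tk_succ_sub_le (κ : ℝ) (B : ℝ≥0 → Ω → ℝ) (k : ℤ) (ω : Ω) :
    (tk κ B (k + 1) ω : ℝ) - tk κ B k ω ≤ 4 * ((2:ℝ) ^ k) ^ 2 := by
  have h1 := tk_le_sq κ B (k + 1) ω
  have h2 : (0:ℝ) ≤ tk κ B k ω := (tk κ B k ω).2
  rw [zpow_add_one₀ (by norm_num)] at h1
  nlinarith

theorem evST_lt {σ τ : Ω → ℝ≥0} (hσ : IsST F σ) (hτ : IsST F τ) : EvST F σ {ω | σ ω < τ ω} := by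
  intro t
  have h : {ω | σ ω < τ ω} ∩ {ω | σ ω ≤ t}
      = {ω | σ ω ≤ t} \ ({ω | τ ω ≤ σ ω} ∩ {ω | σ ω ≤ t}) := by
    ext ω
    simp only [mem_inter_iff, mem_ofPred_eq, Set.mem_sdiff, not_and, not_le]
    constructor
    · rintro ⟨h1, h2⟩; exact ⟨h2, fun h3 => absurd h3 (not_le.2 h1)⟩
    · rintro ⟨h1, h2⟩
      refine ⟨?_, h1⟩
      by_contra h3
      exact absurd (h2 (not_lt.1 h3)) (not_lt.2 h1)
  rw [h]
  refine (hσ t).diff ?_
  -- `{τ ≤ σ} ∩ {σ ≤ t} = {min τ t ≤ min σ t} ∩ {τ ≤ t} ∩ {σ ≤ t}`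
  have h2 : {ω | τ ω ≤ σ ω} ∩ {ω | σ ω ≤ t}
      = ({ω | min (τ ω) t ≤ min (σ ω) t} ∩ {ω | τ ω ≤ t}) ∩ {ω | σ ω ≤ t} := by
    ext ω
    simp only [mem_inter_iff, mem_ofPred_eq]
    constructor
    · rintro ⟨h1, h2⟩
      exact ⟨⟨min_le_min h1 le_rfl, h1.trans h2⟩, h2⟩
    · rintro ⟨⟨h1, h2⟩, h3⟩
      rw [min_eq_left h2, min_eq_left h3] at h1
      exact ⟨h1, h3⟩
  rw [h2]
  have hmin : ∀ {ρ : Ω → ℝ≥0}, IsST F ρ → Measurable[F t] (fun ω => min (ρ ω) t) := by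
    intro ρ hρ
    refine meas_of_Iic (F t) fun x => ?_
    by_cases hx : t ≤ x
    · have : (fun ω => min (ρ ω) t) ⁻¹' Iic x = univ := by
        ext ω; simp only [mem_preimage, mem_Iic, mem_univ, iff_true]
        exact (min_le_right _ _).trans hx
      rw [this]; exact MeasurableSet.univ
    · have : (fun ω => min (ρ ω) t) ⁻¹' Iic x = {ω | ρ ω ≤ x} := by
        ext ω; simp only [mem_preimage, mem_Iic, mem_ofPred_eq, min_le_iff]
        constructor
        · rintro (h | h)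
          · exact h
          · exact absurd h hx
        · intro h; exact Or.inl h
      rw [this]
      exact F.mono (not_le.1 hx).le _ (hρ x)
  exact ((mset_le' (F t) (hmin hτ) (hmin hσ)).inter (hτ t)).inter (hσ t)

end Crest.Agent.R162.LB3b
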