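import Mathlib
import Crest.Agent.R162.OSDefs
import Crest.Agent.R162.FLC2

-- ▼ part R162/LB6
section

/-!
Row 162 (S0243), node LB6: iteration of the one-step exponential inequality (abstract), summability
of the powers `ϖ_n`, and the deterministic end of the argument (the stopping times tend to `∞`).
-/

set_option autoImplicit false

open MeasureTheory ProbabilityTheory Filter Topology
open scoped NNReal ENNReal

namespace Crest.Agent.R162.LB6

open OS

variable {Ω : Type*} {m0 : MeasurableSpace Ω}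

/-- Transfer of an inequality of set integrals over `m`-measurable sets to `m`-measurable weights. -/
theorem weight_transfer {μ : Measure Ω} {m : MeasurableSpace Ω} (hm : m ≤ m0)
    {f g : Ω → ℝ≥0∞} (hf : Measurable[m0] f) (hg : Measurable[m0] g)
    (h : ∀ B, MeasurableSet[m] B → ∫⁻ ω in B, f ω ∂μ ≤ ∫⁻ ω in B, g ω ∂μ)
    {W : Ω → ℝ≥0∞} (hW : Measurable[m] W) :
    ∫⁻ ω, W ω * f ω ∂μ ≤ ∫⁻ ω, W ω * g ω ∂μ := by
  have hW' : Measurable[m0] W := hW.mono hm le_rfl
  have key : ∀ {φ : Ω → ℝ≥0∞}, Measurable[m0] φ →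
      ∫⁻ ω, W ω * φ ω ∂μ = ∫⁻ ω, W ω ∂((μ.withDensity φ).trim hm) := by
    intro φ hφ
    rw [lintegral_trim hm hW, lintegral_withDensity_eq_lintegral_mul μ hφ hW']
    refine lintegral_congr fun ω => ?_
    simp [mul_comm]
  rw [key hf, key hg]
  refine lintegral_mono' ?_ le_rfl
  refine Measure.le_iff.2 fun s hs => ?_
  rw [trim_measurableSet_eq hm hs, trim_measurableSet_eq hm hs,
    withDensity_apply _ (hm s hs), withDensity_apply _ (hm s hs)]
  exact h s hs

/-- Iteration: the supermartingale property of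
`exp (∑_{i<n} (a_i + b_i) + V_n)`, integrated over sets of `F 0`. -/
theorem iterate {μ : Measure Ω} {F : ℕ → MeasurableSpace Ω} (hF : ∀ n, F n ≤ m0)
    (hmono : Monotone F) {a b V : ℕ → Ω → ℝ}
    (ha : ∀ n, Measurable[F (n + 1)] (a n)) (hb : ∀ n, Measurable[F n] (b n))
    (hV : ∀ n, Measurable[F n] (V n))
    (step : ∀ n B, MeasurableSet[F n] B →
      ∫⁻ ω in B, ENNReal.ofReal (Real.exp (a n ω + V (n + 1) ω - V n ω)) ∂μ
        ≤ ∫⁻ ω in B, ENNReal.ofReal (Real.exp (-b n ω)) ∂μ)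
    {B : Set Ω} (hB : MeasurableSet[F 0] B) (n : ℕ) :
    ∫⁻ ω in B, ENNReal.ofReal
        (Real.exp (∑ i ∈ Finset.range n, (a i ω + b i ω) + V n ω)) ∂μ
      ≤ ∫⁻ ω in B, ENNReal.ofReal (Real.exp (V 0 ω)) ∂μ := by
  induction n with
  | zero => simp
  | succ n ih =>
    refine le_trans ?_ ih
    have hBn : MeasurableSet[F n] B := hmono (Nat.zero_le n) B hB
    have hB0 : MeasurableSet[m0] B := hF 0 B hB
    -- partial sums are `F n`-measurable
    have hS : Measurable[F n] fun ω => ∑ i ∈ Finset.range n, (a i ω + b i ω) := by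
      refine Finset.measurable_sum _ fun i hi => ?_
      have hi' : i < n := Finset.mem_range.1 hi
      exact ((ha i).mono (hmono (by omega)) le_rfl).add ((hb i).mono (hmono hi'.le) le_rfl)
    set Wr : Ω → ℝ := fun ω => ∑ i ∈ Finset.range n, (a i ω + b i ω) + b n ω + V n ω with hWr
    have hWrm : Measurable[F n] Wr := (hS.add (hb n)).add (hV n)
    have hWm : Measurable[F n] fun ω => B.indicator (fun ω => ENNReal.ofReal (Real.exp (Wr ω))) ω :=
      ((Real.measurable_exp.comp hWrm).ennreal_ofReal).indicator hBn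
    have hf : Measurable[m0] fun ω => ENNReal.ofReal (Real.exp (a n ω + V (n + 1) ω - V n ω)) := by
      refine (Real.measurable_exp.comp ?_).ennreal_ofReal
      exact (((ha n).mono (hF _) le_rfl).add ((hV (n + 1)).mono (hF _) le_rfl)).sub
        ((hV n).mono (hF _) le_rfl)
    have hg : Measurable[m0] fun ω => ENNReal.ofReal (Real.exp (-b n ω)) :=
      (Real.measurable_exp.comp ((hb n).mono (hF _) le_rfl).neg).ennreal_ofReal
    have h1 := weight_transfer (hF n) hf hg (step n) hWm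
    have e1 : ∫⁻ ω in B, ENNReal.ofReal
        (Real.exp (∑ i ∈ Finset.range (n + 1), (a i ω + b i ω) + V (n + 1) ω)) ∂μ
        = ∫⁻ ω, B.indicator (fun ω => ENNReal.ofReal (Real.exp (Wr ω))) ω
          * ENNReal.ofReal (Real.exp (a n ω + V (n + 1) ω - V n ω)) ∂μ := by
      rw [← lintegral_indicator hB0]
      refine lintegral_congr fun ω => ?_
      by_cases hω : ω ∈ B
      · simp only [Set.indicator_of_mem hω]
        rw [← ENNReal.ofReal_mul (Real.exp_pos _).le, ← Real.exp_add]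
        congr 2
        simp only [hWr, Finset.sum_range_succ]
        ring
      · simp [Set.indicator_of_notMem hω]
    have e2 : ∫⁻ ω in B, ENNReal.ofReal
        (Real.exp (∑ i ∈ Finset.range n, (a i ω + b i ω) + V n ω)) ∂μ
        = ∫⁻ ω, B.indicator (fun ω => ENNReal.ofReal (Real.exp (Wr ω))) ω
          * ENNReal.ofReal (Real.exp (-b n ω)) ∂μ := by
      rw [← lintegral_indicator hB0]
      refine lintegral_congr fun ω => ?_
      by_cases hω : ω ∈ B
      · simp only [Set.indicator_of_mem hω]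
        rw [← ENNReal.ofReal_mul (Real.exp_pos _).le, ← Real.exp_add]
        congr 2
        simp only [hWr]
        ring
      · simp [Set.indicator_of_notMem hω]
    rw [e1, e2]
    exact h1

/-- Along the iteration the nonnegative increments are a.s. summable. -/
theorem ae_summable {μ : Measure Ω} [IsFiniteMeasure μ] {F : ℕ → MeasurableSpace Ω}
    (hF : ∀ n, F n ≤ m0) (hmono : Monotone F) {a b V : ℕ → Ω → ℝ}
    (ha : ∀ n, Measurable[F (n + 1)] (a n)) (hb : ∀ n, Measurable[F n] (b n))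
    (hV : ∀ n, Measurable[F n] (V n))
    (ha0 : ∀ n ω, 0 ≤ a n ω) (hb0 : ∀ n ω, 0 ≤ b n ω) (hV0 : ∀ n ω, 0 ≤ V n ω)
    (step : ∀ n B, MeasurableSet[F n] B →
      ∫⁻ ω in B, ENNReal.ofReal (Real.exp (a n ω + V (n + 1) ω - V n ω)) ∂μ
        ≤ ∫⁻ ω in B, ENNReal.ofReal (Real.exp (-b n ω)) ∂μ) :
    ∀ᵐ ω ∂μ, Summable fun n => a n ω + b n ω := by
  -- partial sums
  set S : ℕ → Ω → ℝ := fun n ω => ∑ i ∈ Finset.range n, (a i ω + b i ω) with hSdef
  have hSm : ∀ n, Measurable[m0] (S n) := fun n =>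
    Finset.measurable_sum _ fun i _ =>
      ((ha i).mono (hF _) le_rfl).add ((hb i).mono (hF _) le_rfl)
  have hSmono : ∀ ω, Monotone fun n => S n ω := by
    intro ω
    refine monotone_nat_of_le_succ fun n => ?_
    simp only [hSdef, Finset.sum_range_succ]
    have := ha0 n ω
    have := hb0 n ω
    linarith
  have key : ∀ k : ℕ, ∀ᵐ ω ∂μ, V 0 ω ≤ k → Summable fun n => a n ω + b n ω := by
    intro k
    have hBk : MeasurableSet[F 0] {ω | V 0 ω ≤ k} := measurableSet_le (hV 0) measurable_const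
    have hBk' : MeasurableSet[m0] {ω | V 0 ω ≤ k} := hF 0 _ hBk
    set f : ℕ → Ω → ℝ≥0∞ := fun n ω => ENNReal.ofReal (Real.exp (S n ω)) with hfdef
    have hfm : ∀ n, Measurable[m0] (f n) := fun n =>
      (Real.measurable_exp.comp (hSm n)).ennreal_ofReal
    have hfmono : Monotone f := by
      intro i j hij ω
      exact ENNReal.ofReal_le_ofReal (Real.exp_le_exp.2 (hSmono ω hij))
    have hbd : ∀ n, ∫⁻ ω in {ω | V 0 ω ≤ k}, f n ω ∂μ ≤ ENNReal.ofReal (Real.exp k) * μ Set.univ := by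
      intro n
      calc ∫⁻ ω in {ω | V 0 ω ≤ k}, f n ω ∂μ
          ≤ ∫⁻ ω in {ω | V 0 ω ≤ k}, ENNReal.ofReal
              (Real.exp (∑ i ∈ Finset.range n, (a i ω + b i ω) + V n ω)) ∂μ := by
            refine lintegral_mono fun ω => ENNReal.ofReal_le_ofReal (Real.exp_le_exp.2 ?_)
            have := hV0 n ω
            simp only [hSdef]
            linarith
        _ ≤ ∫⁻ ω in {ω | V 0 ω ≤ k}, ENNReal.ofReal (Real.exp (V 0 ω)) ∂μ :=
            iterate hF hmono ha hb hV step hBk n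
        _ ≤ ∫⁻ _ω in {ω | V 0 ω ≤ k}, ENNReal.ofReal (Real.exp k) ∂μ := by
            refine setLIntegral_mono' hBk' fun ω hω => ?_
            exact ENNReal.ofReal_le_ofReal (Real.exp_le_exp.2 hω)
        _ = ENNReal.ofReal (Real.exp k) * μ {ω | V 0 ω ≤ k} := by
            rw [setLIntegral_const]
        _ ≤ ENNReal.ofReal (Real.exp k) * μ Set.univ :=
            mul_le_mul_right (measure_mono (Set.subset_univ _)) _
    have hsup : ∫⁻ ω in {ω | V 0 ω ≤ k}, ⨆ n, f n ω ∂μ < ⊤ := by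
      rw [lintegral_iSup hfm hfmono]
      refine lt_of_le_of_lt (iSup_le hbd) ?_
      exact ENNReal.mul_lt_top ENNReal.ofReal_lt_top (measure_lt_top _ _)
    have hae := ae_lt_top (Measurable.iSup hfm) hsup.ne
    rw [ae_restrict_iff' hBk'] at hae
    filter_upwards [hae] with ω hω hle
    have hlt := hω hle
    obtain ⟨M, hM⟩ : ∃ M : ℝ, ∀ n, Real.exp (S n ω) ≤ M := by
      refine ⟨(⨆ n, f n ω).toReal, fun n => ?_⟩
      have h1 : f n ω ≤ ⨆ n, f n ω := le_iSup (fun n => f n ω) n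
      have h2 := ENNReal.toReal_mono hlt.ne h1
      simpa [hfdef, ENNReal.toReal_ofReal (Real.exp_pos _).le] using h2
    refine summable_of_sum_range_le (c := M) (fun n => add_nonneg (ha0 n ω) (hb0 n ω)) fun n => ?_
    have h3 := Real.add_one_le_exp (S n ω)
    have h4 := hM n
    simp only [hSdef] at h3 h4
    linarith
  have hall := ae_all_iff.2 key
  filter_upwards [hall] with ω hω
  obtain ⟨k, hk⟩ := exists_nat_ge (V 0 ω)
  exact hω k hk

/-- Passage to the limit (Fatou) in the iteration. -/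
theorem limit_bound {μ : Measure Ω} {F : ℕ → MeasurableSpace Ω}
    (hF : ∀ n, F n ≤ m0) (hmono : Monotone F) {a b V : ℕ → Ω → ℝ}
    (ha : ∀ n, Measurable[F (n + 1)] (a n)) (hb : ∀ n, Measurable[F n] (b n))
    (hV : ∀ n, Measurable[F n] (V n))
    (hb0 : ∀ n ω, 0 ≤ b n ω) (hV0 : ∀ n ω, 0 ≤ V n ω)
    (step : ∀ n B, MeasurableSet[F n] B →
      ∫⁻ ω in B, ENNReal.ofReal (Real.exp (a n ω + V (n + 1) ω - V n ω)) ∂μ
        ≤ ∫⁻ ω in B, ENNReal.ofReal (Real.exp (-b n ω)) ∂μ)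
    {X : Ω → ℝ}
    (hX : ∀ᵐ ω ∂μ, Tendsto (fun n => ∑ i ∈ Finset.range n, a i ω) atTop (𝓝 (X ω)))
    {B : Set Ω} (hB : MeasurableSet[F 0] B) :
    ∫⁻ ω in B, ENNReal.ofReal (Real.exp (X ω)) ∂μ
      ≤ ∫⁻ ω in B, ENNReal.ofReal (Real.exp (V 0 ω)) ∂μ := by
  have hm : ∀ n, Measurable[m0] fun ω => ENNReal.ofReal (Real.exp (∑ i ∈ Finset.range n, a i ω)) :=
    fun n => (Real.measurable_exp.comp
      (Finset.measurable_sum _ fun i _ => (ha i).mono (hF _) le_rfl)).ennreal_ofReal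
  have hlim : ∀ᵐ ω ∂(μ.restrict B), ENNReal.ofReal (Real.exp (X ω))
      ≤ liminf (fun n => ENNReal.ofReal (Real.exp (∑ i ∈ Finset.range n, a i ω))) atTop := by
    filter_upwards [ae_restrict_of_ae hX] with ω hω
    have h1 : Tendsto (fun n => ENNReal.ofReal (Real.exp (∑ i ∈ Finset.range n, a i ω))) atTop
        (𝓝 (ENNReal.ofReal (Real.exp (X ω)))) :=
      (ENNReal.continuous_ofReal.tendsto _).comp ((Real.continuous_exp.tendsto _).comp hω)
    rw [h1.liminf_eq]
  calc ∫⁻ ω in B, ENNReal.ofReal (Real.exp (X ω)) ∂μ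
      ≤ ∫⁻ ω in B, liminf (fun n => ENNReal.ofReal
          (Real.exp (∑ i ∈ Finset.range n, a i ω))) atTop ∂μ := lintegral_mono_ae hlim
    _ ≤ liminf (fun n => ∫⁻ ω in B, ENNReal.ofReal
          (Real.exp (∑ i ∈ Finset.range n, a i ω)) ∂μ) atTop := lintegral_liminf_le hm
    _ ≤ ∫⁻ ω in B, ENNReal.ofReal (Real.exp (V 0 ω)) ∂μ := by
        refine liminf_le_of_frequently_le' (Frequently.of_forall fun n => ?_)
        refine le_trans (lintegral_mono fun ω => ENNReal.ofReal_le_ofReal (Real.exp_le_exp.2 ?_))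
          (iterate hF hmono ha hb hV step hB n)
        have h2 : ∑ i ∈ Finset.range n, a i ω ≤ ∑ i ∈ Finset.range n, (a i ω + b i ω) :=
          Finset.sum_le_sum fun i _ => by have := hb0 i ω; linarith
        have := hV0 n ω
        linarith


/-- `∑ u_n^{-η} < ∞` with `η > 0`, `u_n ≥ 1` implies `u_n → ∞`. -/
theorem tendsto_of_summable_rpow {u : ℕ → ℝ} {η : ℝ} (hη : 0 < η) (hu : ∀ n, 1 ≤ u n)
    (hs : Summable fun n => u n ^ (-η)) : Tendsto u atTop atTop := by
  have h0 := hs.tendsto_atTop_zero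
  refine tendsto_atTop.2 fun M => ?_
  have hM : (0 : ℝ) < (max M 1) ^ (-η) := Real.rpow_pos_of_pos (by positivity) _
  filter_upwards [h0.eventually_lt_const hM] with n hn
  by_contra hcon
  push Not at hcon
  have hun : 0 < u n := by linarith [hu n]
  have h1 : u n ≤ max M 1 := hcon.le.trans (le_max_left _ _)
  have h2 : (max M 1) ^ (-η) ≤ u n ^ (-η) :=
    Real.rpow_le_rpow_of_nonpos hun h1 (by linarith)
  linarith


end Crest.Agent.R162.LB6
end

-- ▼ part R162/LB6b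

/-!
Row 162 (S0243), node LB6, second part.
* `norm_ffl_sq_le`: barrier bound for the inverse Loewner map, valid up to the real line.
* `tip_bounds`: on a bounded time interval, the point of the old geodesic selected by a threshold
  is bounded.
* `main'`: `LB6.main` without any trace.
-/

set_option autoImplicit false

open Set MeasureTheory Complex Filter Topology
open scoped NNReal ENNReal

namespace Crest.Agent.R162.LB6

open FL FLC

section barrier

variable {W : ℝ → ℝ} {t : ℝ} {g : ℝ → ℂ}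

/-- Barrier: along the backward flow `|g|²` grows at most with slope `9` once it exceeds `4K²`. -/
theorem IsSol.norm_sq_le (h : IsSol W t g) (ht : 0 ≤ t) {K : ℝ}
    (hK : ∀ s ∈ Icc (0 : ℝ) t, |W s| ≤ K) :
    ∀ s ∈ Icc (0 : ℝ) t, ‖g (t - s)‖ ^ 2 ≤ max (‖g t‖ ^ 2) (4 * K ^ 2) + 9 * s := by
  have hG : ∀ s ∈ Icc (0 : ℝ) t, HasDerivWithinAt (fun s => g (t - s))
      (-(2 / (g (t - s) - W (t - s)))) (Icc 0 t) s := by
    intro s hs
    have hmem : t - s ∈ Icc (0 : ℝ) t := ⟨by linarith [hs.2], by linarith [hs.1]⟩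
    have h1 := h.hasDeriv hmem
    have h2 : HasDerivWithinAt (fun s : ℝ => t - s) (-1) (Icc 0 t) s := by
      simpa using (hasDerivWithinAt_id s (Icc 0 t)).const_sub t
    have h3 := h1.scomp s h2 (fun u hu => ⟨by linarith [hu.2], by linarith [hu.1]⟩)
    simpa [Function.comp_def] using h3
  -- coordinates
  have hre : ∀ s ∈ Icc (0 : ℝ) t, HasDerivWithinAt (fun s => (g (t - s)).re)
      (-(2 / (g (t - s) - W (t - s)))).re (Icc 0 t) s := fun s hs =>
    (Complex.reCLM.hasFDerivAt.comp_hasDerivWithinAt s (hG s hs))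
  have him : ∀ s ∈ Icc (0 : ℝ) t, HasDerivWithinAt (fun s => (g (t - s)).im)
      (-(2 / (g (t - s) - W (t - s)))).im (Icc 0 t) s := fun s hs =>
    (Complex.imCLM.hasFDerivAt.comp_hasDerivWithinAt s (hG s hs))
  set f : ℝ → ℝ := fun s => (g (t - s)).re ^ 2 + (g (t - s)).im ^ 2 with hf
  set f' : ℝ → ℝ := fun s => 2 * (g (t - s)).re * (-(2 / (g (t - s) - W (t - s)))).re
    + 2 * (g (t - s)).im * (-(2 / (g (t - s) - W (t - s)))).im with hf'
  have hder : ∀ s ∈ Icc (0 : ℝ) t, HasDerivWithinAt f (f' s) (Icc 0 t) s := by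
    intro s hs
    have := ((hre s hs).pow 2).add ((him s hs).pow 2)
    refine this.congr_deriv ?_
    simp only [hf']
    norm_num
  have hnorm : ∀ s, ‖g (t - s)‖ ^ 2 = f s := by
    intro s
    rw [← Complex.normSq_eq_norm_sq, Complex.normSq_apply]
    simp only [hf]
    ring
  set B0 : ℝ := max (‖g t‖ ^ 2) (4 * K ^ 2) with hB0
  have key := image_le_of_deriv_right_lt_deriv_boundary (f := f) (f' := f') (a := 0) (b := t)
    (B := fun s => B0 + 9 * s) (B' := fun _ => 9)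
    (fun s hs => (hder s hs).continuousWithinAt)
    (fun s hs => (hder s ⟨hs.1, hs.2.le⟩).mono_of_mem_nhdsWithin
      (Icc_mem_nhdsGE_of_mem hs))
    (by
      have : f 0 = ‖g t‖ ^ 2 := by rw [← hnorm 0, sub_zero]
      simp only [this, mul_zero, add_zero]
      exact le_max_left _ _)
    (fun s => by simpa using ((hasDerivAt_id s).const_mul (9 : ℝ)).const_add B0)
    (by
      intro s hs hfs
      have hmem : t - s ∈ Icc (0 : ℝ) t := ⟨by linarith [hs.2.le], by linarith [hs.1]⟩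
      have hY : 0 < (g (t - s)).im := h.im_pos hmem
      have hU := hK _ hmem
      have hK0 : 0 ≤ K := (abs_nonneg _).trans hU
      have hge : 4 * K ^ 2 ≤ f s := by
        rw [hfs]
        have := le_max_right (‖g t‖ ^ 2) (4 * K ^ 2)
        have hs0 := hs.1
        simp only [hB0]
        linarith
      have hU2 := abs_le.1 hU
      simp only [hf] at hge
      simp only [hf']
      set X : ℝ := (g (t - s)).re - W (t - s) with hX
      set Y : ℝ := (g (t - s)).im with hYd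
      set U : ℝ := W (t - s) with hUd
      have hXr : (g (t - s)).re = X + U := by rw [hX]; ring
      have e1 : (-(2 / (g (t - s) - (U : ℂ)))).re = -(2 * X / (X ^ 2 + Y ^ 2)) := by
        rw [Complex.neg_re, Complex.div_re, Complex.normSq_apply]
        simp only [Complex.sub_re, Complex.ofReal_re, Complex.sub_im, Complex.ofReal_im, sub_zero,
          Complex.re_ofNat, Complex.im_ofNat, zero_mul, zero_div, add_zero]
        rw [← hX, ← hYd]
        ring_nf
      have e2 : (-(2 / (g (t - s) - (U : ℂ)))).im = 2 * Y / (X ^ 2 + Y ^ 2) := by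
        rw [Complex.neg_im, Complex.div_im, Complex.normSq_apply]
        simp only [Complex.sub_re, Complex.ofReal_re, Complex.sub_im, Complex.ofReal_im, sub_zero,
          Complex.re_ofNat, Complex.im_ofNat, zero_mul, zero_div, zero_sub]
        rw [← hX, ← hYd]
        ring_nf
      rw [e1, e2, hXr]
      rw [hXr] at hge
      have hYpos : 0 < Y := hY
      have hD : 0 < X ^ 2 + Y ^ 2 := by positivity
      have hKZ : K ^ 2 ≤ X ^ 2 + Y ^ 2 := by
        by_contra hcon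
        push Not at hcon
        have hX2 : X ^ 2 < K ^ 2 := by nlinarith
        have hXK := abs_lt_of_sq_lt_sq hX2 hK0
        have hXK' := abs_lt.1 hXK
        have hUX : U * X ≤ K * K := by
          calc U * X ≤ |U * X| := le_abs_self _
            _ = |U| * |X| := abs_mul _ _
            _ ≤ K * K := mul_le_mul hU hXK.le (abs_nonneg _) hK0
        have hUU : U ^ 2 ≤ K ^ 2 := by nlinarith [abs_nonneg U, sq_abs U]
        nlinarith
      have hmain : 4 * (Y ^ 2 - X ^ 2 - U * X) < 9 * (X ^ 2 + Y ^ 2) := by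
        have h5 : -(U * X) ≤ K * |X| := by
          calc -(U * X) ≤ |U * X| := neg_le_abs _
            _ = |U| * |X| := abs_mul _ _
            _ ≤ K * |X| := mul_le_mul_of_nonneg_right hU (abs_nonneg _)
        have h6 : 2 * (K * |X|) ≤ K ^ 2 + X ^ 2 := by
          have := sq_nonneg (K - |X|)
          have h7 := sq_abs X
          nlinarith
        nlinarith
      have hrw : 2 * (X + U) * -(2 * X / (X ^ 2 + Y ^ 2)) + 2 * Y * (2 * Y / (X ^ 2 + Y ^ 2))
          = 4 * (Y ^ 2 - X ^ 2 - U * X) / (X ^ 2 + Y ^ 2) := by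
        field_simp
        ring
      rw [hrw, div_lt_iff₀ hD]
      exact hmain)
  intro s hs
  rw [hnorm s]
  exact key hs

/-- Growth of the inverse Loewner map, uniform up to the real line. -/
theorem norm_ffl_sq_le (hW : ContinuousOn W (Ici 0)) (ht : 0 ≤ t) {z : ℂ} (hz : 0 < z.im) {K : ℝ}
    (hK : ∀ s ∈ Icc (0 : ℝ) t, |W s| ≤ K) :
    ‖ffl W t z‖ ^ 2 ≤ max (‖z + W t‖ ^ 2) (4 * K ^ 2) + 9 * t := by
  have h := IsSol.norm_sq_le (isSol_ffl hW ht hz) ht hK t (right_mem_Icc.2 ht)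
  simp only [sub_self] at h
  rwa [gfl_zero_ffl hW ht hz, gfl_ffl hW ht hz] at h

/-- On `[0,S]` the geodesic `y ↦ f_t(iy)` is bounded for `y ≤ y1`, and the ratio
`y |f_t'(iy)| / (C + |f_t(iy)|)` is `≥ θ` for `y ≥ y1`. -/
theorem tip_bounds (hW : ContinuousOn W (Ici 0)) {S : ℝ} (hS : 0 ≤ S) {θ C : ℝ} (hθ0 : 0 ≤ θ)
    (hθ : θ < 1) (hC : 0 ≤ C) :
    ∃ y1 : ℝ, 0 < y1 ∧ ∃ M : ℝ, ∀ t ∈ Icc (0 : ℝ) S,
      (∀ y : ℝ, y1 ≤ y → θ * (C + ‖ffl W t (y * I)‖) ≤ y * ‖deriv (ffl W t) (y * I)‖) ∧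
      (∀ y : ℝ, 0 < y → y ≤ y1 → ‖ffl W t (y * I)‖ ≤ M) := by
  obtain ⟨K, hK⟩ : ∃ K : ℝ, ∀ s ∈ Icc (0 : ℝ) S, |W s| ≤ K := by
    obtain ⟨K, hK⟩ := isCompact_Icc.exists_bound_of_continuousOn
      (hW.mono (fun s (hs : s ∈ Icc (0 : ℝ) S) => hs.1))
    exact ⟨K, fun s hs => by simpa using hK s hs⟩
  have hK0 : 0 ≤ K := (abs_nonneg _).trans (hK 0 ⟨le_rfl, hS⟩)
  set r : ℝ := max (Real.sqrt S) K with hr
  have hr0 : 0 ≤ r := hK0.trans (le_max_right _ _)
  have hSr : S ≤ r ^ 2 := by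
    have h1 : Real.sqrt S ≤ r := le_max_left _ _
    calc S = Real.sqrt S ^ 2 := (Real.sq_sqrt hS).symm
      _ ≤ r ^ 2 := pow_le_pow_left₀ (Real.sqrt_nonneg _) h1 2
  have hd : 0 < 1 - θ := by linarith
  set y1 : ℝ := 10 * r + 8 * r / (1 - θ) + 2 * (C + 3 * r) / (1 - θ) + 1 with hy1
  have hq1 : 0 ≤ 8 * r / (1 - θ) := by positivity
  have hq2 : 0 ≤ 2 * (C + 3 * r) / (1 - θ) := by positivity
  refine ⟨y1, by positivity, Real.sqrt ((y1 + K) ^ 2 + 4 * K ^ 2 + 9 * S), fun t ht => ⟨?_, ?_⟩⟩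
  · intro y hy
    have hypos : 0 < y := lt_of_lt_of_le (by positivity) hy
    have h10 : 10 * r ≤ y := by linarith
    have hTr : t ≤ r ^ 2 := ht.2.trans hSr
    have hWr : |W t| ≤ r := (hK t ht).trans (le_max_right _ _)
    have h1 := norm_ffl_I_sub_le hW ht.1 hTr hWr hypos h10
    have h2 := norm_deriv_ffl_I_sub_one_le hW ht.1 hTr hypos
    have hf : ‖ffl W t (y * I)‖ ≤ y + 3 * r := by
      calc ‖ffl W t (y * I)‖ = ‖(ffl W t (y * I) - y * I) + y * I‖ := by ring_nf
        _ ≤ ‖ffl W t (y * I) - y * I‖ + ‖(y : ℂ) * I‖ := norm_add_le _ _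
        _ ≤ 3 * r + y := by
          refine add_le_add h1 (le_of_eq ?_)
          simp [abs_of_pos hypos]
        _ = y + 3 * r := by ring
    -- the exponential
    have hx : 2 * r ^ 2 / y ^ 2 ≤ (1 - θ) / 4 := by
      have h3 : 8 * r / (1 - θ) ≤ y := by linarith
      rw [div_le_iff₀ hd] at h3
      rw [div_le_div_iff₀ (by positivity) (by norm_num)]
      have h4 : 8 * r * y ≤ y * (1 - θ) * y := mul_le_mul_of_nonneg_right h3 hypos.le
      have h5 : r * (10 * r) ≤ r * y := mul_le_mul_of_nonneg_left h10 hr0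
      nlinarith
    have hx0 : 0 ≤ 2 * r ^ 2 / y ^ 2 := by positivity
    have hexp : Real.exp (2 * r ^ 2 / y ^ 2) - 1 ≤ (1 - θ) / 2 := by
      set x : ℝ := 2 * r ^ 2 / y ^ 2 with hxdef
      have hx1 : x ≤ 1 / 4 := by linarith
      have h6 := Real.exp_bound' hx0 (by linarith) (n := 2) (by norm_num)
      simp only [Finset.sum_range_succ, Finset.sum_range_zero] at h6
      norm_num [Nat.factorial] at h6
      nlinarith
    have hder : 1 - (1 - θ) / 2 ≤ ‖deriv (ffl W t) (y * I)‖ := by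
      have h7 : (1 : ℝ) ≤ ‖deriv (ffl W t) (y * I)‖ + ‖deriv (ffl W t) (y * I) - 1‖ := by
        calc (1 : ℝ) = ‖(1 : ℂ)‖ := by simp
          _ = ‖deriv (ffl W t) (y * I) - (deriv (ffl W t) (y * I) - 1)‖ := by ring_nf
          _ ≤ _ := norm_sub_le _ _
      linarith
    have h8 : 2 * (C + 3 * r) / (1 - θ) ≤ y := by linarith
    rw [div_le_iff₀ hd] at h8
    have h9 : θ * (C + ‖ffl W t (y * I)‖) ≤ θ * (C + (y + 3 * r)) :=
      mul_le_mul_of_nonneg_left (by linarith) hθ0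
    have h10' : y * (1 - (1 - θ) / 2) ≤ y * ‖deriv (ffl W t) (y * I)‖ :=
      mul_le_mul_of_nonneg_left hder hypos.le
    have h11 : θ * (C + 3 * r) ≤ C + 3 * r := by
      have : 0 ≤ C + 3 * r := by positivity
      nlinarith
    nlinarith
  · intro y hy0 hyy
    have hz : 0 < ((y : ℂ) * I).im := by simpa using hy0
    have h1 := norm_ffl_sq_le hW ht.1 hz (K := K) (fun s hs => hK s ⟨hs.1, hs.2.trans ht.2⟩)
    have h2 : ‖(y : ℂ) * I + W t‖ ≤ y1 + K := by
      refine (norm_add_le _ _).trans (add_le_add ?_ ?_)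
      · simpa [abs_of_pos hy0] using hyy
      · simpa using hK t ht
    have h3 : ‖(y : ℂ) * I + W t‖ ^ 2 ≤ (y1 + K) ^ 2 := pow_le_pow_left₀ (norm_nonneg _) h2 2
    refine Real.le_sqrt_of_sq_le ?_
    refine h1.trans ?_
    have h4 : max (‖(y : ℂ) * I + W t‖ ^ 2) (4 * K ^ 2) ≤ (y1 + K) ^ 2 + 4 * K ^ 2 :=
      max_le (by nlinarith) (by nlinarith [sq_nonneg (y1 + K)])
    have h5 := ht.2
    linarith

end barrier

section main'

variable {Ω : Type*} {m0 : MeasurableSpace Ω}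

/-- **LB6**, without any trace: the only pathwise input is that `u0 (x n)` is bounded as long as
`T n` is. -/
theorem main' {μ : Measure Ω} [IsFiniteMeasure μ] {F : ℕ → MeasurableSpace Ω}
    (hF : ∀ n, F n ≤ m0) (hmono : Monotone F)
    {T : ℕ → Ω → ℝ≥0} (hT : ∀ ω, Monotone fun n => T n ω)
    {Ct : ℝ≥0 → Ω → ℝ} (hC : ∀ ω, Monotone fun t => Ct t ω)
    (hCm : ∀ n, Measurable[F n] fun ω => Ct (T n ω) ω)
    {Λ A : ℕ → Ω → ℝ} (hΛ : ∀ n, Measurable[F n] (Λ n)) (hA : ∀ n, Measurable[F n] (A n))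
    (hΛ0 : ∀ n ω, 0 ≤ Λ n ω) (hA0 : ∀ n ω, 0 ≤ A n ω)
    {u : ℕ → Ω → ℝ} (hu1 : ∀ n ω, 1 ≤ u n ω)
    (hum : ∀ n, Measurable[F n] (u n)) {η : ℝ} (hη : 0 < η)
    {c0 c δ : ℝ} (hc0 : 0 < c0) (hc : 0 ≤ c) (hδ0 : 0 < δ) (hδ1 : δ < 1)
    (step : ∀ n B, MeasurableSet[F n] B →
      ∫⁻ ω in B, ENNReal.ofReal (Real.exp (c0 * (Ct (T (n + 1) ω) ω - Ct (T n ω) ω)
          + c * (Λ (n + 1) ω - Λ n ω) + (A (n + 1) ω - A n ω))) ∂μ
        ≤ ∫⁻ ω in B, ENNReal.ofReal ((1 - δ) ^ (u n ω ^ (-η))) ∂μ)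
    (hxb : ∀ᵐ ω ∂μ, ∀ S : ℝ≥0, ∃ M : ℝ, ∀ n, T n ω ≤ S → u n ω ≤ M) :
    (∀ᵐ ω ∂μ, Tendsto (fun n => T n ω) atTop atTop) ∧
    (∀ᵐ ω ∂μ, ∃ L, Tendsto (fun t => Ct t ω) atTop (𝓝 L)) ∧
    ∀ X : Ω → ℝ, (∀ᵐ ω ∂μ, Tendsto (fun t => Ct t ω) atTop (𝓝 (X ω))) →
      ∀ B, MeasurableSet[F 0] B →
        ∫⁻ ω in B, ENNReal.ofReal (Real.exp (c0 * (X ω - Ct (T 0 ω) ω))) ∂μ
          ≤ ∫⁻ ω in B, ENNReal.ofReal (Real.exp (c * Λ 0 ω + A 0 ω)) ∂μ := by
  set a : ℕ → Ω → ℝ := fun n ω => c0 * (Ct (T (n + 1) ω) ω - Ct (T n ω) ω) with hadef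
  set b : ℕ → Ω → ℝ := fun n ω => u n ω ^ (-η) * (-Real.log (1 - δ)) with hbdef
  set V : ℕ → Ω → ℝ := fun n ω => c * Λ n ω + A n ω with hVdef
  have hlog : 0 < -Real.log (1 - δ) := by
    have := Real.log_neg (by linarith : 0 < 1 - δ) (by linarith)
    linarith
  have hpos : ∀ n ω, 0 < u n ω := fun n ω => by linarith [hu1 n ω]
  have ha : ∀ n, Measurable[F (n + 1)] (a n) := fun n =>
    ((hCm (n + 1)).sub ((hCm n).mono (hmono (Nat.le_succ n)) le_rfl)).const_mul c0
  have hb : ∀ n, Measurable[F n] (b n) := fun n => ((hum n).pow_const (-η)).mul_const _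
  have hV : ∀ n, Measurable[F n] (V n) := fun n => ((hΛ n).const_mul c).add (hA n)
  have ha0 : ∀ n ω, 0 ≤ a n ω := fun n ω =>
    mul_nonneg hc0.le (sub_nonneg.2 (hC ω (hT ω (Nat.le_succ n))))
  have hb0 : ∀ n ω, 0 ≤ b n ω := fun n ω =>
    mul_nonneg (Real.rpow_nonneg (hpos n ω).le _) hlog.le
  have hV0 : ∀ n ω, 0 ≤ V n ω := fun n ω => add_nonneg (mul_nonneg hc (hΛ0 n ω)) (hA0 n ω)
  have step' : ∀ n B, MeasurableSet[F n] B →
      ∫⁻ ω in B, ENNReal.ofReal (Real.exp (a n ω + V (n + 1) ω - V n ω)) ∂μ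
        ≤ ∫⁻ ω in B, ENNReal.ofReal (Real.exp (-b n ω)) ∂μ := by
    intro n B hB
    refine le_trans (le_of_eq ?_) ((step n B hB).trans (le_of_eq ?_))
    · refine lintegral_congr fun ω => ?_
      congr 2
      simp only [hadef, hVdef]
      ring
    · refine lintegral_congr fun ω => ?_
      congr 1
      rw [Real.rpow_def_of_pos (by linarith : 0 < 1 - δ)]
      congr 1
      simp only [hbdef]
      ring
  have hsum := ae_summable hF hmono ha hb hV ha0 hb0 hV0 step'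
  -- telescoping
  have htel : ∀ ω n, ∑ i ∈ Finset.range n, a i ω = c0 * (Ct (T n ω) ω - Ct (T 0 ω) ω) := by
    intro ω n
    simp only [hadef]
    rw [← Finset.mul_sum, Finset.sum_range_sub (fun i => Ct (T i ω) ω)]
  have hT' : ∀ᵐ ω ∂μ, Tendsto (fun n => T n ω) atTop atTop := by
    filter_upwards [hsum, hxb] with ω hs hxx
    have hsb : Summable fun n => b n ω :=
      Summable.of_nonneg_of_le (fun n => hb0 n ω) (fun n => by have := ha0 n ω; linarith) hs
    have hsw : Summable fun n => u n ω ^ (-η) := by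
      have := hsb.mul_right (-Real.log (1 - δ))⁻¹
      refine this.congr fun n => ?_
      simp only [hbdef]
      rw [mul_assoc, mul_inv_cancel₀ hlog.ne', mul_one]
    have hinf := tendsto_of_summable_rpow hη (fun n => hu1 n ω) hsw
    rcases tendsto_atTop_of_monotone (hT ω) with h | ⟨l, hl⟩
    · exact h
    · exfalso
      obtain ⟨M, hM⟩ := hxx l
      obtain ⟨n, hn⟩ := (hinf.eventually_gt_atTop M).exists
      exact absurd (hM n ((hT ω).ge_of_tendsto hl n)) (not_le.2 hn)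
  have hlimC : ∀ᵐ ω ∂μ, ∃ L, Tendsto (fun t => Ct t ω) atTop (𝓝 L) := by
    filter_upwards [hsum, hT'] with ω hs hTω
    have hsa : Summable fun n => a n ω :=
      Summable.of_nonneg_of_le (fun n => ha0 n ω) (fun n => by have := hb0 n ω; linarith) hs
    have hbdd : BddAbove (Set.range fun t => Ct t ω) := by
      refine ⟨Ct (T 0 ω) ω + c0⁻¹ * ∑' n, a n ω, ?_⟩
      rintro _ ⟨t, rfl⟩
      obtain ⟨n, hn⟩ := (hTω.eventually_ge_atTop t).exists
      have h1 : Ct t ω ≤ Ct (T n ω) ω := hC ω hn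
      have h2 : ∑ i ∈ Finset.range n, a i ω ≤ ∑' n, a n ω :=
        hsa.sum_le_tsum _ fun i _ => ha0 i ω
      rw [htel] at h2
      have h3 : Ct (T n ω) ω - Ct (T 0 ω) ω ≤ c0⁻¹ * ∑' n, a n ω := by
        rw [inv_mul_eq_div, le_div_iff₀ hc0]
        linarith
      linarith
    exact ⟨_, tendsto_atTop_ciSup (hC ω) hbdd⟩
  refine ⟨hT', hlimC, fun X hX B hB => ?_⟩
  have hX' : ∀ᵐ ω ∂μ, Tendsto (fun n => ∑ i ∈ Finset.range n, a i ω) atTop
      (𝓝 (c0 * (X ω - Ct (T 0 ω) ω))) := by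
    filter_upwards [hX, hT'] with ω hXω hTω
    simp only [htel]
    exact ((hXω.comp hTω).sub_const _).const_mul c0
  exact limit_bound hF hmono ha hb hV hb0 hV0 step' hX' hB

end main'

end Crest.Agent.R162.LB6
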