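import Mathlib
import Crest.Agent.R162.LB6b

/-!
Row 162 (S0243), node LB6, third part: `main_top`, the iteration with an extended-valued
potential `Λ`, used only where `Λ 0 < ∞`.
-/

set_option autoImplicit false

open Set MeasureTheory Filter Topology
open scoped NNReal ENNReal

namespace Crest.Agent.R162.LB6

variable {Ω : Type*} {m0 : MeasurableSpace Ω}


/-- **LB6**, extended-valued potential. -/
theorem main_top {μ : Measure Ω} [IsFiniteMeasure μ] {F : ℕ → MeasurableSpace Ω}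
    (hF : ∀ n, F n ≤ m0) (hmono : Monotone F)
    {T : ℕ → Ω → ℝ≥0} (hT : ∀ ω, Monotone fun n => T n ω)
    {Ct : ℝ≥0 → Ω → ℝ} (hC : ∀ ω, Monotone fun t => Ct t ω)
    (hCm : ∀ n, Measurable[F n] fun ω => Ct (T n ω) ω)
    {Λ : ℕ → Ω → ℝ≥0∞} {A : ℕ → Ω → ℝ} (hΛ : ∀ n, Measurable[F n] (Λ n))
    (hA : ∀ n, Measurable[F n] (A n)) (hA0 : ∀ n ω, 0 ≤ A n ω)
    {u : ℕ → Ω → ℝ} (hu1 : ∀ n ω, 1 ≤ u n ω)
    (hum : ∀ n, Measurable[F n] (u n)) {η : ℝ} (hη : 0 < η)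
    {c0 c δ : ℝ} (hc0 : 0 < c0) (hc : 0 ≤ c) (hδ0 : 0 < δ) (hδ1 : δ < 1)
    (s1 : ∀ n, ∀ᵐ ω ∂μ, Λ n ω ≠ ⊤ → Λ (n + 1) ω ≠ ⊤)
    (s2 : ∀ n B, MeasurableSet[F n] B → (∀ ω ∈ B, Λ n ω ≠ ⊤) →
      ∫⁻ ω in B, ENNReal.ofReal (Real.exp (c0 * (Ct (T (n + 1) ω) ω - Ct (T n ω) ω)
          + c * ((Λ (n + 1) ω).toReal - (Λ n ω).toReal) + (A (n + 1) ω - A n ω))) ∂μ
        ≤ ∫⁻ ω in B, ENNReal.ofReal ((1 - δ) ^ (u n ω ^ (-η))) ∂μ)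
    {B : Set Ω} (hB : MeasurableSet[F 0] B) (hBΛ : ∀ᵐ ω ∂μ, ω ∈ B → Λ 0 ω ≠ ⊤)
    (hxb : ∀ᵐ ω ∂μ, ω ∈ B → (∀ n, Λ n ω ≠ ⊤) → ∀ S : ℝ≥0, ∃ M : ℝ, ∀ n, T n ω ≤ S → u n ω ≤ M) :
    (∀ᵐ ω ∂μ, ω ∈ B → ∀ n, Λ n ω ≠ ⊤) ∧
    (∀ᵐ ω ∂μ, ω ∈ B → Tendsto (fun n => T n ω) atTop atTop) ∧
    (∀ᵐ ω ∂μ, ω ∈ B → ∃ L, Tendsto (fun t => Ct t ω) atTop (𝓝 L)) ∧
    ∀ X : Ω → ℝ, (∀ᵐ ω ∂μ, ω ∈ B → Tendsto (fun t => Ct t ω) atTop (𝓝 (X ω))) →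
      ∫⁻ ω in B, ENNReal.ofReal (Real.exp (c0 * (X ω - Ct (T 0 ω) ω))) ∂μ
          ≤ ∫⁻ ω in B, ENNReal.ofReal (Real.exp (c * (Λ 0 ω).toReal + A 0 ω)) ∂μ := by
  have hB0 : MeasurableSet[m0] B := hF 0 B hB
  have hfin : ∀ᵐ ω ∂μ, ω ∈ B → ∀ n, Λ n ω ≠ ⊤ := by
    filter_upwards [hBΛ, ae_all_iff.2 s1] with ω h0 h1 hω n
    induction n with
    | zero => exact h0 hω
    | succ n ih => exact h1 n ih
  have hstep : ∀ n B', MeasurableSet[F n] B' →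
      ∫⁻ ω in B', ENNReal.ofReal (Real.exp (c0 * (Ct (T (n + 1) ω) ω - Ct (T n ω) ω)
          + c * ((Λ (n + 1) ω).toReal - (Λ n ω).toReal) + (A (n + 1) ω - A n ω))) ∂(μ.restrict B)
        ≤ ∫⁻ ω in B', ENNReal.ofReal ((1 - δ) ^ (u n ω ^ (-η))) ∂(μ.restrict B) := by
    intro n B' hB'
    have hB'0 : MeasurableSet[m0] B' := hF n B' hB'
    set D : Set Ω := B' ∩ B ∩ {ω | Λ n ω ≠ ⊤} with hD
    have hDm : MeasurableSet[F n] D :=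
      (hB'.inter (hmono (Nat.zero_le n) B hB)).inter
        ((hΛ n) (measurableSet_singleton ⊤).compl)
    have hr : (μ.restrict B).restrict B' = μ.restrict (B' ∩ B) := Measure.restrict_restrict hB'0
    have hae : D =ᵐ[μ] (B' ∩ B : Set Ω) := by
      refine Filter.eventuallyEq_set.2 ?_
      filter_upwards [hfin] with ω hω
      constructor
      · exact fun h => h.1
      · exact fun h => ⟨h, hω h.2 n⟩
    rw [hr, ← Measure.restrict_congr_set hae]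
    exact s2 n D hDm (fun ω hω => hω.2)
  have hx' : ∀ᵐ ω ∂(μ.restrict B), ∀ S : ℝ≥0, ∃ M : ℝ, ∀ n, T n ω ≤ S → u n ω ≤ M := by
    rw [ae_restrict_iff' hB0]
    filter_upwards [hxb, hfin] with ω h1 h2 hω
    exact h1 hω (h2 hω)
  obtain ⟨r1, r2, r3⟩ := main' (μ := μ.restrict B) hF hmono hT hC hCm
    (Λ := fun n ω => (Λ n ω).toReal) (A := A) (fun n => (hΛ n).ennreal_toReal) hA
    (fun n ω => ENNReal.toReal_nonneg) hA0 hu1 hum hη hc0 hc hδ0 hδ1 hstep hx'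
  rw [ae_restrict_iff' hB0] at r1 r2
  refine ⟨hfin, r1, r2, fun X hX => ?_⟩
  have hX' : ∀ᵐ ω ∂(μ.restrict B), Tendsto (fun t => Ct t ω) atTop (𝓝 (X ω)) := by
    rwa [ae_restrict_iff' hB0]
  have := r3 X hX' Set.univ MeasurableSet.univ
  simpa [Measure.restrict_univ] using this

end Crest.Agent.R162.LB6
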