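import Mathlib
import Crest.Agent.R162.OSDefs

/-!
Row 162, node RAD (helper953), abstract core: level-to-level supermartingale inequality for the
one-point process (with lifetime), from the Dynkin inequality (OPM) on compacts.
-/

set_option autoImplicit false

open MeasureTheory ProbabilityTheory Filter Set
open scoped NNReal ENNReal Topology

namespace Crest.Agent.R162.Rad

open Crest.Agent.R162.OS

/-- state space `(X, Y, L, a)`, `L = log Υ`. -/
abbrev St := ℝ × ℝ × ℝ × ℝ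

/-- The one-point process with lifetime, abstractly. `gen` is the generator. -/
structure OneP {Ω : Type*} {m : MeasurableSpace Ω} (F : Filtration ℝ≥0 m) (P : Measure Ω)
    (gen : (St → ℝ) → St → ℝ) (s₀ : ℝ) where
  /-- alive at time `t` -/
  al : ℝ≥0 → Ω → Prop
  /-- the state -/
  st : ℝ≥0 → Ω → St
  al_anti : ∀ ω s t, s ≤ t → al t ω → al s ω
  al_right : ∀ ω t, al t ω → ∃ t', t < t' ∧ al t' ω
  al_meas : ∀ t, MeasurableSet[F t] {ω | al t ω}
  st_meas : ∀ t, Measurable[F t] (st t)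
  st_cont : ∀ ω, ContinuousOn (fun t => st t ω) {t | al t ω}
  y_pos : ∀ ω t, al t ω → 0 < (st t ω).2.1
  L_anti : ∀ ω s t, s ≤ t → al t ω → (st t ω).2.2.1 ≤ (st s ω).2.2.1
  L_zero : ∀ ω, (st 0 ω).2.2.1 = -s₀
  /-- localising times -/
  e : ℕ → Ω → ℝ≥0
  e_ST : ∀ n, IsST F (e n)
  e_mono : ∀ ω, Monotone fun n => e n ω
  e_le : ∀ n, ∃ T : ℝ≥0, ∀ ω, e n ω ≤ T
  KK : ℕ → Set St
  KK_compact : ∀ n, IsCompact (KK n)
  KK_pos : ∀ n, ∀ p ∈ KK n, 0 < p.2.1
  e_KK : ∀ n ω t, t ≤ e n ω → al t ω ∧ st t ω ∈ KK n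
  e_exh : ∀ ω t, al t ω → ∃ n, t < e n ω
  opm : ∀ (Φ : St → ℝ) (K : Set St), ContDiffOn ℝ 3 Φ {p : St | 0 < p.2.1} → IsCompact K →
    (∀ p ∈ K, 0 < p.2.1) → (∀ p ∈ K, gen Φ p ≤ 0) → ∀ (σ τ : Ω → ℝ≥0), IsST F σ → IsST F τ →
    ∀ T : ℝ≥0, (∀ ω, τ ω ≤ T) → ∀ A : Set Ω, EvST F σ A →
    (∀ ω ∈ A, σ ω ≤ τ ω ∧ ∀ t, σ ω ≤ t → t ≤ τ ω → al t ω ∧ st t ω ∈ K) →
    ∫ ω in A, Φ (st (τ ω) ω) ∂P ≤ ∫ ω in A, Φ (st (σ ω) ω) ∂P

variable {Ω : Type*} {m : MeasurableSpace Ω} {F : Filtration ℝ≥0 m} {P : Measure Ω}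
  {gen : (St → ℝ) → St → ℝ} {s₀ : ℝ}

namespace OneP

variable (D : OneP F P gen s₀)

/-- `{τ_s < ∞}` -/
def alive (s : ℝ) : Set Ω := {ω | ∃ t, D.al t ω ∧ (D.st t ω).2.2.1 ≤ -s}

/-- `τ_s`, the first time `log Υ ≤ -s`. -/
noncomputable def tau (s : ℝ) (ω : Ω) : ℝ≥0 := sInf {t | D.al t ω ∧ (D.st t ω).2.2.1 ≤ -s}

/-- events of the past of `τ_s` -/
def Past (s : ℝ) (A : Set Ω) : Prop :=
  A ⊆ D.alive s ∧ ∀ t : ℝ≥0, MeasurableSet[F t] (A ∩ {ω | D.tau s ω ≤ t})


lemma alive_anti {s t : ℝ} (h : s ≤ t) : D.alive t ⊆ D.alive s := by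
  rintro ω ⟨r, hr, hL⟩
  exact ⟨r, hr, hL.trans (by linarith)⟩

lemma tau_le {s : ℝ} {ω : Ω} {t : ℝ≥0} (h : D.al t ω) (hL : (D.st t ω).2.2.1 ≤ -s) :
    D.tau s ω ≤ t := csInf_le (OrderBot.bddBelow _) ⟨h, hL⟩

/-- the infimum is attained. -/
lemma tau_mem {s : ℝ} {ω : Ω} (h : ω ∈ D.alive s) :
    D.al (D.tau s ω) ω ∧ (D.st (D.tau s ω) ω).2.2.1 ≤ -s := by
  obtain ⟨t, ht, hL⟩ := h
  have hne : {t | D.al t ω ∧ (D.st t ω).2.2.1 ≤ -s}.Nonempty := ⟨t, ht, hL⟩
  have hle : D.tau s ω ≤ t := D.tau_le ht hL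
  have hal : D.al (D.tau s ω) ω := D.al_anti ω _ _ hle ht
  refine ⟨hal, ?_⟩
  by_contra hcon
  push Not at hcon
  -- by continuity, L > -s near tau
  have hc := (D.st_cont ω) (D.tau s ω) hal
  have hc' : Tendsto (fun t => (D.st t ω).2.2.1) (𝓝[{t | D.al t ω}] (D.tau s ω))
      (𝓝 (D.st (D.tau s ω) ω).2.2.1) :=
    ((continuous_fst.comp (continuous_snd.comp continuous_snd)).tendsto _).comp hc
  have hev := hc'.eventually (lt_mem_nhds hcon)
  rw [eventually_nhdsWithin_iff] at hev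
  obtain ⟨u, hu, hus⟩ := exists_Ico_subset_of_mem_nhds hev (⟨D.tau s ω + 1, by simp⟩)
  obtain ⟨v, hv, hvu⟩ := exists_lt_of_csInf_lt hne (show sInf _ < u from hu)
  have h1 : D.tau s ω ≤ v := D.tau_le hv.1 hv.2
  have := hus ⟨h1, hvu⟩ hv.1
  simp only [mem_ofPred_eq] at hv
  linarith [hv.2]

lemma lt_of_lt_tau {s : ℝ} {ω : Ω} {t : ℝ≥0} (h : D.al t ω) (ht : t < D.tau s ω) :
    -s < (D.st t ω).2.2.1 := by
  by_contra hcon
  push Not at hcon
  exact absurd (D.tau_le h hcon) (not_le.mpr ht)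

lemma L_tau {s : ℝ} (hs : s₀ ≤ s) {ω : Ω} (h : ω ∈ D.alive s) :
    (D.st (D.tau s ω) ω).2.2.1 = -s := by
  obtain ⟨hal, hle⟩ := D.tau_mem h
  refine le_antisymm hle ?_
  rcases eq_or_lt_of_le (show (0 : ℝ≥0) ≤ D.tau s ω from zero_le) with h0 | h0
  · rw [← h0, D.L_zero]; linarith
  · -- left limit
    have hc := (D.st_cont ω) (D.tau s ω) hal
    have hc' : Tendsto (fun t => (D.st t ω).2.2.1) (𝓝[<] (D.tau s ω))
        (𝓝 (D.st (D.tau s ω) ω).2.2.1) := by
      refine ((continuous_fst.comp (continuous_snd.comp continuous_snd)).tendsto _).comp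
        (hc.mono_left (nhdsWithin_mono _ ?_))
      intro t ht
      exact D.al_anti ω _ _ (le_of_lt ht) hal
    have : (𝓝[<] (D.tau s ω)).NeBot := nhdsLT_neBot_of_exists_lt ⟨0, h0⟩
    refine ge_of_tendsto hc' ?_
    filter_upwards [self_mem_nhdsWithin] with t ht
    exact (D.lt_of_lt_tau (D.al_anti ω _ _ (le_of_lt ht) hal) ht).le

lemma tau_mono {s t : ℝ} (hst : s ≤ t) {ω : Ω} (h : ω ∈ D.alive t) : D.tau s ω ≤ D.tau t ω := by
  obtain ⟨h1, h2⟩ := D.tau_mem h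
  exact D.tau_le h1 (h2.trans (by linarith))

/-- `{τ_s ≤ t}` is an `F t` event. -/
lemma tau_meas (s : ℝ) (t : ℝ≥0) : MeasurableSet[F t] (D.alive s ∩ {ω | D.tau s ω ≤ t}) := by
  have hset : D.alive s ∩ {ω | D.tau s ω ≤ t} =
      {ω | D.al t ω ∧ (D.st t ω).2.2.1 ≤ -s} ∪
        ⋃ q ∈ {q : ℚ | 0 ≤ q ∧ Real.toNNReal q ≤ t},
          {ω | D.al (Real.toNNReal q) ω ∧ (D.st (Real.toNNReal q) ω).2.2.1 ≤ -s} := by
    ext ω
    constructor
    · rintro ⟨h1, h2⟩
      obtain ⟨ha, hL⟩ := D.tau_mem h1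
      by_cases hat : D.al t ω
      · left
        exact ⟨hat, (D.L_anti ω _ _ h2 hat).trans hL⟩
      · right
        obtain ⟨t', ht', hal'⟩ := D.al_right ω _ ha
        obtain ⟨q, hq1, hq2⟩ := exists_rat_btwn (show (D.tau s ω : ℝ) < t' from ht')
        have hq0 : (0:ℝ) ≤ q := (NNReal.coe_nonneg _).trans hq1.le
        have hqt' : Real.toNNReal q ≤ t' := Real.toNNReal_le_iff_le_coe.mpr hq2.le
        have hqτ : D.tau s ω ≤ Real.toNNReal q := by
          rw [← NNReal.coe_le_coe, Real.coe_toNNReal _ hq0]; exact hq1.le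
        have halq : D.al (Real.toNNReal q) ω := D.al_anti ω _ _ hqt' hal'
        simp only [mem_iUnion, mem_ofPred_eq, exists_prop]
        refine ⟨q, ⟨by exact_mod_cast hq0, ?_⟩, halq, (D.L_anti ω _ _ hqτ halq).trans hL⟩
        by_contra hcon
        push Not at hcon
        exact hat (D.al_anti ω _ _ hcon.le halq)
    · rintro (⟨h1, h2⟩ | h)
      · exact ⟨⟨t, h1, h2⟩, D.tau_le h1 h2⟩
      · simp only [mem_iUnion, mem_ofPred_eq, exists_prop] at h
        obtain ⟨q, ⟨_, hqt⟩, h1, h2⟩ := h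
        exact ⟨⟨_, h1, h2⟩, (D.tau_le h1 h2).trans hqt⟩
  rw [hset]
  have key : ∀ r : ℝ≥0, r ≤ t → MeasurableSet[F t] {ω | D.al r ω ∧ (D.st r ω).2.2.1 ≤ -s} := by
    intro r hr
    refine F.mono hr _ ?_
    have h2 : MeasurableSet[F r] {ω | (D.st r ω).2.2.1 ≤ -s} := by
      have hm : Measurable (fun p : St => p.2.2.1) := by fun_prop
      exact (hm.comp (D.st_meas r)) measurableSet_Iic
    exact (D.al_meas r).inter h2
  refine MeasurableSet.union (key t le_rfl) ?_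
  refine MeasurableSet.biUnion (Set.to_countable _) fun q hq => key _ hq.2

lemma Past.measurableSet {s : ℝ} {A : Set Ω} (h : D.Past s A) : MeasurableSet A := by
  have : A = ⋃ n : ℕ, A ∩ {ω | D.tau s ω ≤ (n : ℝ≥0)} := by
    ext ω
    simp only [mem_iUnion, mem_inter_iff, mem_ofPred_eq]
    constructor
    · intro h
      obtain ⟨n, hn⟩ := exists_nat_ge (D.tau s ω)
      exact ⟨n, h, hn⟩
    · rintro ⟨n, h, _⟩; exact h
  rw [this]
  exact MeasurableSet.iUnion fun n => F.le _ _ (h.2 n)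

lemma alive_past (s : ℝ) : D.Past s (D.alive s) := ⟨subset_rfl, fun t => D.tau_meas s t⟩

lemma measurableSet_alive (s : ℝ) : MeasurableSet (D.alive s) :=
  Past.measurableSet D (D.alive_past s)

lemma Past.step {s t : ℝ} (hst : s ≤ t) {A : Set Ω} (h : D.Past s A) :
    D.Past t (A ∩ D.alive t) := by
  refine ⟨inter_subset_right, fun r => ?_⟩
  have : A ∩ D.alive t ∩ {ω | D.tau t ω ≤ r} =
      (A ∩ {ω | D.tau s ω ≤ r}) ∩ (D.alive t ∩ {ω | D.tau t ω ≤ r}) := by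
    ext ω
    constructor
    · rintro ⟨⟨a, b⟩, c⟩
      exact ⟨⟨a, (D.tau_mono hst b).trans c⟩, b, c⟩
    · rintro ⟨⟨a, _⟩, b, c⟩
      exact ⟨⟨a, b⟩, c⟩
  rw [this]
  exact (h.2 r).inter (D.tau_meas t r)

/-- value of the state at a stopping time, on an event where it is alive: measurability. -/
lemma measurable_at {τ : Ω → ℝ≥0} (hτ : IsST F τ) {B : Set Ω} (hB : MeasurableSet B)
    (hal : ∀ ω ∈ B, D.al (τ ω) ω) : Measurable (B.indicator fun ω => D.st (τ ω) ω) := by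
  have hτm : Measurable τ := measurable_of_Iic fun t => F.le t _ (hτ t)
  -- dyadic approximation from the left
  let Z : ℕ → Ω → St := fun k ω => D.st ((⌊(2 : ℝ≥0) ^ k * τ ω⌋₊ : ℝ≥0) / 2 ^ k) ω
  have hZ : ∀ k, Measurable (Z k) := by
    intro k
    have hfl : Measurable fun ω => ⌊(2 : ℝ≥0) ^ k * τ ω⌋₊ :=
      Nat.measurable_floor.comp (measurable_const.mul hτm)
    intro S hS
    have : Z k ⁻¹' S = ⋃ j : ℕ, {ω | ⌊(2 : ℝ≥0) ^ k * τ ω⌋₊ = j} ∩
        (D.st ((j : ℝ≥0) / 2 ^ k)) ⁻¹' S := by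
      ext ω
      simp only [mem_preimage, mem_iUnion, mem_inter_iff, mem_ofPred_eq, Z]
      constructor
      · intro h; exact ⟨_, rfl, h⟩
      · rintro ⟨j, rfl, h⟩; exact h
    rw [this]
    refine MeasurableSet.iUnion fun j => ?_
    refine MeasurableSet.inter (hfl (measurableSet_singleton j)) ?_
    exact F.le _ _ (D.st_meas _ hS)
  refine measurable_of_tendsto_metrizable (f := fun k => B.indicator (Z k))
    (fun k => (hZ k).indicator hB) ?_
  rw [tendsto_pi_nhds]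
  intro ω
  by_cases hω : ω ∈ B
  · simp only [indicator_of_mem hω]
    have hal' := hal ω hω
    have hc := (D.st_cont ω) (τ ω) hal'
    refine Tendsto.comp (g := fun t => D.st t ω) hc ?_
    rw [tendsto_nhdsWithin_iff]
    have hle : ∀ k : ℕ, ((⌊(2 : ℝ≥0) ^ k * τ ω⌋₊ : ℝ≥0) / 2 ^ k) ≤ τ ω := by
      intro k
      rw [div_le_iff₀ (by positivity), mul_comm]
      exact Nat.floor_le (by positivity)
    refine ⟨?_, Eventually.of_forall fun k => D.al_anti ω _ _ (hle k) hal'⟩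
    rw [← NNReal.tendsto_coe]
    have hlow : ∀ k : ℕ, (τ ω : ℝ) - (1/2)^k ≤ (((⌊(2 : ℝ≥0) ^ k * τ ω⌋₊ : ℝ≥0) / 2 ^ k : ℝ≥0) : ℝ) := by
      intro k
      have h1 : (2 : ℝ≥0) ^ k * τ ω < ⌊(2 : ℝ≥0) ^ k * τ ω⌋₊ + 1 := Nat.lt_floor_add_one _
      have h2 : (2 : ℝ) ^ k * τ ω < ⌊(2 : ℝ≥0) ^ k * τ ω⌋₊ + 1 := by exact_mod_cast h1
      push_cast
      rw [le_div_iff₀ (by positivity)]
      have h3 : ((1:ℝ)/2)^k * 2^k = 1 := by rw [← mul_pow]; norm_num
      nlinarith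
    have hlim : Tendsto (fun k : ℕ => (τ ω : ℝ) - (1/2)^k) atTop (𝓝 ((τ ω : ℝ) - 0)) :=
      tendsto_const_nhds.sub (tendsto_pow_atTop_nhds_zero_of_lt_one (by norm_num) (by norm_num))
    rw [sub_zero] at hlim
    exact tendsto_of_tendsto_of_tendsto_of_le_of_le hlim tendsto_const_nhds hlow
      (fun k => by exact_mod_cast hle k)
  · simp only [indicator_of_notMem hω]
    exact tendsto_const_nhds

open Classical in
/-- `τ_s` capped by `e n` (equal to `e n` if level `s` is never reached). -/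
noncomputable def ctau (s : ℝ) (n : ℕ) (ω : Ω) : ℝ≥0 :=
  if ω ∈ D.alive s then min (D.tau s ω) (D.e n ω) else D.e n ω

lemma ctau_le (s : ℝ) (n : ℕ) (ω : Ω) : D.ctau s n ω ≤ D.e n ω := by
  unfold ctau; split_ifs
  · exact min_le_right _ _
  · exact le_rfl

lemma ctau_ST (s : ℝ) (n : ℕ) : IsST F (D.ctau s n) := by
  intro t
  have : {ω | D.ctau s n ω ≤ t} = (D.alive s ∩ {ω | D.tau s ω ≤ t}) ∪ {ω | D.e n ω ≤ t} := by
    ext ω
    simp only [mem_ofPred_eq, mem_union, mem_inter_iff, ctau]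
    split_ifs with h
    · simp [h]
    · simp [h]
  rw [this]
  exact (D.tau_meas s t).union (D.e_ST n t)

lemma ctau_mono {s t : ℝ} (hst : s ≤ t) (n : ℕ) (ω : Ω) : D.ctau s n ω ≤ D.ctau t n ω := by
  by_cases ht : ω ∈ D.alive t
  · have hs := D.alive_anti hst ht
    simp only [ctau, hs, ht, if_true]
    exact min_le_min_right _ (D.tau_mono hst ht)
  · simp only [ctau, ht, if_false]
    exact D.ctau_le s n ω

/-- the part of `A` on which `τ_s < e n` -/
def cut (s : ℝ) (n : ℕ) (A : Set Ω) : Set Ω := A ∩ {ω | D.tau s ω < D.e n ω}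

lemma cut_EvST {s : ℝ} {n : ℕ} {A : Set Ω} (hA : D.Past s A) :
    EvST F (D.ctau s n) (D.cut s n A) := by
  intro t
  have : D.cut s n A ∩ {ω | D.ctau s n ω ≤ t} =
      ((A ∩ {ω | D.tau s ω ≤ t}) ∩ {ω | D.e n ω ≤ t}ᶜ) ∪
      ⋃ q ∈ {q : ℚ | 0 ≤ q ∧ Real.toNNReal q ≤ t},
        ((A ∩ {ω | D.tau s ω ≤ Real.toNNReal q}) ∩ {ω | D.e n ω ≤ Real.toNNReal q}ᶜ) := by
    ext ω
    simp only [cut, mem_inter_iff, mem_ofPred_eq, mem_union, mem_compl_iff, mem_iUnion,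
      exists_prop, not_le]
    constructor
    · rintro ⟨⟨hA1, h1⟩, h2⟩
      have hal := hA.1 hA1
      simp only [ctau, hal, if_true, min_eq_left h1.le] at h2
      rcases lt_or_ge t (D.e n ω) with h3 | h3
      · left; exact ⟨⟨hA1, h2⟩, h3⟩
      · right
        obtain ⟨q, hq1, hq2⟩ := exists_rat_btwn (show (D.tau s ω : ℝ) < D.e n ω from h1)
        have hq0 : (0:ℝ) ≤ q := (NNReal.coe_nonneg _).trans hq1.le
        have hqe : Real.toNNReal q < D.e n ω := by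
          rw [← NNReal.coe_lt_coe, Real.coe_toNNReal _ hq0]; exact hq2
        have hqτ : D.tau s ω ≤ Real.toNNReal q := by
          rw [← NNReal.coe_le_coe, Real.coe_toNNReal _ hq0]; exact hq1.le
        exact ⟨q, ⟨by exact_mod_cast hq0, hqe.le.trans h3⟩, ⟨hA1, hqτ⟩, hqe⟩
    · rintro (⟨⟨hA1, h1⟩, h2⟩ | ⟨q, ⟨_, hqt⟩, ⟨hA1, h1⟩, h2⟩)
      · have hal := hA.1 hA1
        refine ⟨⟨hA1, h1.trans_lt h2⟩, ?_⟩
        simp only [ctau, hal, if_true]
        exact (min_le_left _ _).trans h1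
      · have hal := hA.1 hA1
        refine ⟨⟨hA1, h1.trans_lt h2⟩, ?_⟩
        simp only [ctau, hal, if_true]
        exact (min_le_left _ _).trans (h1.trans hqt)
  rw [this]
  have key : ∀ r : ℝ≥0, r ≤ t → MeasurableSet[F t]
      ((A ∩ {ω | D.tau s ω ≤ r}) ∩ {ω | D.e n ω ≤ r}ᶜ) := by
    intro r hr
    refine F.mono hr _ ?_
    exact (hA.2 r).inter (D.e_ST n r).compl
  refine MeasurableSet.union (key t le_rfl) ?_
  exact MeasurableSet.biUnion (Set.to_countable _) fun q hq => key _ hq.2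

lemma cut_meas {s : ℝ} {n : ℕ} {A : Set Ω} (hA : D.Past s A) : MeasurableSet (D.cut s n A) := by
  have h := D.cut_EvST (n := n) hA
  have : D.cut s n A = ⋃ k : ℕ, D.cut s n A ∩ {ω | D.ctau s n ω ≤ (k : ℝ≥0)} := by
    ext ω
    simp only [mem_iUnion, mem_inter_iff, mem_ofPred_eq]
    constructor
    · intro h
      obtain ⟨k, hk⟩ := exists_nat_ge (D.ctau s n ω)
      exact ⟨k, h, hk⟩
    · rintro ⟨n, h, _⟩; exact h
  rw [this]
  exact MeasurableSet.iUnion fun k => F.le _ _ (h k)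

/-- **Core inequality.** Level-to-level supermartingale inequality for a nonnegative `Φ` with
`gen Φ ≤ 0` on the relevant slab of radial levels. -/
theorem core [IsFiniteMeasure P] {s c : ℝ} (hs : s₀ ≤ s) (hc : 0 ≤ c) {Φ : St → ℝ}
    (hΦ : ContDiffOn ℝ 3 Φ {p : St | 0 < p.2.1})
    (hpos : ∀ p : St, 0 < p.2.1 → s ≤ -p.2.2.1 → -p.2.2.1 ≤ s + c → 0 ≤ Φ p)
    (hgen : ∀ p : St, 0 < p.2.1 → s ≤ -p.2.2.1 → -p.2.2.1 ≤ s + c → gen Φ p ≤ 0)
    {A : Set Ω} (hA : D.Past s A) :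
    ∫⁻ ω in A ∩ D.alive (s + c), ENNReal.ofReal (Φ (D.st (D.tau (s + c) ω) ω)) ∂P ≤
      ∫⁻ ω in A, ENNReal.ofReal (Φ (D.st (D.tau s ω) ω)) ∂P := by
  have hmA : MeasurableSet A := Past.measurableSet D hA
  have hAs := hA.1
  have hΦc : ContinuousOn Φ {p : St | 0 < p.2.1} := hΦ.continuousOn
  -- step n
  have step : ∀ n : ℕ,
      ∫⁻ ω in D.cut s n A ∩ (D.alive (s + c) ∩ {ω | D.tau (s + c) ω < D.e n ω}),
        ENNReal.ofReal (Φ (D.st (D.tau (s + c) ω) ω)) ∂P ≤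
      ∫⁻ ω in A, ENNReal.ofReal (Φ (D.st (D.tau s ω) ω)) ∂P := by
    intro n
    set K : Set St := D.KK n ∩ {p : St | s ≤ -p.2.2.1 ∧ -p.2.2.1 ≤ s + c} with hK
    have hcl : IsClosed {p : St | s ≤ -p.2.2.1 ∧ -p.2.2.1 ≤ s + c} := by
      refine IsClosed.inter (s₁ := {p : St | s ≤ -p.2.2.1}) (s₂ := {p : St | -p.2.2.1 ≤ s + c}) ?_ ?_
      · exact isClosed_le continuous_const (by fun_prop)
      · exact isClosed_le (by fun_prop) continuous_const
    have hKc : IsCompact K := (D.KK_compact n).inter_right hcl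
    have hKp : ∀ p ∈ K, 0 < p.2.1 := fun p hp => D.KK_pos n p hp.1
    have hKg : ∀ p ∈ K, gen Φ p ≤ 0 := fun p hp => hgen p (hKp p hp) hp.2.1 hp.2.2
    obtain ⟨T, hT⟩ := D.e_le n
    have hmem : ∀ ω ∈ D.cut s n A, D.ctau s n ω ≤ D.ctau (s + c) n ω ∧ ∀ t, D.ctau s n ω ≤ t →
        t ≤ D.ctau (s + c) n ω → D.al t ω ∧ D.st t ω ∈ K := by
      rintro ω ⟨hωA, hω⟩
      have hal := hAs hωA
      refine ⟨D.ctau_mono (by linarith) n ω, fun t h1 h2 => ?_⟩
      have hte : t ≤ D.e n ω := h2.trans (D.ctau_le _ _ _)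
      obtain ⟨hat, hKK⟩ := D.e_KK n ω t hte
      have hω' : D.tau s ω < D.e n ω := hω
      have h1' : D.tau s ω ≤ t := by
        simpa only [ctau, hal, if_true, min_eq_left hω'.le] using h1
      refine ⟨hat, hKK, ?_, ?_⟩
      · have := D.L_anti ω _ _ h1' hat
        have h3 := D.L_tau hs hal
        linarith
      · by_cases hal2 : ω ∈ D.alive (s + c)
        · have h2' : t ≤ D.tau (s + c) ω := by
            simp only [ctau, hal2, if_true] at h2
            exact h2.trans (min_le_left _ _)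
          have := D.L_anti ω _ _ h2' (D.tau_mem hal2).1
          have h3 := D.L_tau (by linarith) hal2
          linarith
        · by_contra hcon
          push Not at hcon
          exact hal2 ⟨t, hat, by linarith⟩
    have hopm := D.opm Φ K hΦ hKc hKp hKg (D.ctau s n) (D.ctau (s + c) n) (D.ctau_ST s n)
      (D.ctau_ST (s + c) n) T (fun ω => (D.ctau_le _ _ _).trans (hT ω)) (D.cut s n A)
      (D.cut_EvST hA) hmem
    have hcm := D.cut_meas (n := n) hA
    -- boundedness and measurability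
    obtain ⟨C, hC⟩ := hKc.exists_bound_of_continuousOn (hΦc.mono fun p hp => hKp p hp)
    have hmeasat : ∀ (τ : Ω → ℝ≥0), IsST F τ → (∀ ω ∈ D.cut s n A, D.al (τ ω) ω ∧ D.st (τ ω) ω ∈ K) →
        Measurable ((D.cut s n A).indicator fun ω => Φ (D.st (τ ω) ω)) := by
      intro τ hτ hmem'
      have h1 := D.measurable_at hτ hcm (fun ω hω => (hmem' ω hω).1)
      -- Φ is measurable on the open set
      have hΦm : Measurable ({p : St | 0 < p.2.1}.indicator Φ) := by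
        have hop : IsOpen {p : St | 0 < p.2.1} := isOpen_lt continuous_const (by fun_prop)
        classical
        have := ContinuousOn.measurable_piecewise (s := {p : St | 0 < p.2.1}) (f := Φ)
          (g := (0 : St → ℝ)) hΦc continuousOn_const hop.measurableSet
        rwa [piecewise_eq_indicator] at this
      have h2 : ((D.cut s n A).indicator fun ω => Φ (D.st (τ ω) ω)) =
          (D.cut s n A).indicator (fun ω => {p : St | 0 < p.2.1}.indicator Φ
            ((D.cut s n A).indicator (fun ω => D.st (τ ω) ω) ω)) := by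
        ext ω
        by_cases hω : ω ∈ D.cut s n A
        · simp only [indicator_of_mem hω]
          rw [indicator_of_mem]
          exact hKp _ (hmem' ω hω).2
        · simp only [indicator_of_notMem hω]
      rw [h2]
      exact (hΦm.comp h1).indicator hcm
    have hmemτ : ∀ ω ∈ D.cut s n A, D.al (D.ctau (s + c) n ω) ω ∧ D.st (D.ctau (s + c) n ω) ω ∈ K :=
      fun ω hω => (hmem ω hω).2 _ (hmem ω hω).1 le_rfl
    have hmemσ : ∀ ω ∈ D.cut s n A, D.al (D.ctau s n ω) ω ∧ D.st (D.ctau s n ω) ω ∈ K :=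
      fun ω hω => (hmem ω hω).2 _ le_rfl (hmem ω hω).1
    have conv : ∀ (τ : Ω → ℝ≥0), IsST F τ → (∀ ω ∈ D.cut s n A, D.al (τ ω) ω ∧ D.st (τ ω) ω ∈ K) →
        ENNReal.ofReal (∫ ω in D.cut s n A, Φ (D.st (τ ω) ω) ∂P) =
          ∫⁻ ω in D.cut s n A, ENNReal.ofReal (Φ (D.st (τ ω) ω)) ∂P := by
      intro τ hτ hmem'
      have hae : AEStronglyMeasurable (fun ω => Φ (D.st (τ ω) ω)) (P.restrict (D.cut s n A)) := by
        have := (hmeasat τ hτ hmem').aestronglyMeasurable (μ := P.restrict (D.cut s n A))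
        refine this.congr ?_
        filter_upwards [ae_restrict_mem hcm] with ω hω
        rw [indicator_of_mem hω]
      refine ofReal_integral_eq_lintegral_ofReal ?_ ?_
      · refine Integrable.of_bound hae C ?_
        filter_upwards [ae_restrict_mem hcm] with ω hω
        exact hC _ (hmem' ω hω).2
      · filter_upwards [ae_restrict_mem hcm] with ω hω
        have := (hmem' ω hω).2
        exact hpos _ (hKp _ this) this.2.1 this.2.2
    have hineq := ENNReal.ofReal_le_ofReal hopm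
    rw [conv _ (D.ctau_ST (s + c) n) hmemτ, conv _ (D.ctau_ST s n) hmemσ] at hineq
    calc ∫⁻ ω in D.cut s n A ∩ (D.alive (s + c) ∩ {ω | D.tau (s + c) ω < D.e n ω}),
          ENNReal.ofReal (Φ (D.st (D.tau (s + c) ω) ω)) ∂P
        = ∫⁻ ω in D.cut s n A ∩ (D.alive (s + c) ∩ {ω | D.tau (s + c) ω < D.e n ω}),
          ENNReal.ofReal (Φ (D.st (D.ctau (s + c) n ω) ω)) ∂P := by
          refine setLIntegral_congr_fun ?_ ?_
          · have hh := D.cut_meas (s := s + c) (n := n) (D.alive_past (s + c))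
            exact hcm.inter hh
          · rintro ω ⟨_, h1, h2⟩
            have h2' : D.tau (s + c) ω < D.e n ω := h2
            simp only [ctau, h1, if_true, min_eq_left h2'.le]
      _ ≤ ∫⁻ ω in D.cut s n A, ENNReal.ofReal (Φ (D.st (D.ctau (s + c) n ω) ω)) ∂P :=
          lintegral_mono_set inter_subset_left
      _ ≤ ∫⁻ ω in D.cut s n A, ENNReal.ofReal (Φ (D.st (D.ctau s n ω) ω)) ∂P := hineq
      _ = ∫⁻ ω in D.cut s n A, ENNReal.ofReal (Φ (D.st (D.tau s ω) ω)) ∂P := by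
          refine setLIntegral_congr_fun hcm ?_
          rintro ω ⟨h1, h2⟩
          have h2' : D.tau s ω < D.e n ω := h2
          simp only [ctau, hAs h1, if_true, min_eq_left h2'.le]
      _ ≤ ∫⁻ ω in A, ENNReal.ofReal (Φ (D.st (D.tau s ω) ω)) ∂P :=
          lintegral_mono_set inter_subset_left
  -- passage to the limit
  have hunion : A ∩ D.alive (s + c) =
      ⋃ n : ℕ, D.cut s n A ∩ (D.alive (s + c) ∩ {ω | D.tau (s + c) ω < D.e n ω}) := by
    ext ω
    simp only [mem_iUnion, mem_inter_iff, cut, mem_ofPred_eq]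
    constructor
    · rintro ⟨h1, h2⟩
      obtain ⟨n, hn⟩ := D.e_exh ω _ (D.tau_mem h2).1
      exact ⟨n, ⟨h1, (D.tau_mono (by linarith) h2).trans_lt hn⟩, h2, hn⟩
    · rintro ⟨n, ⟨h1, _⟩, h2, _⟩
      exact ⟨h1, h2⟩
  have hmono : Monotone fun n : ℕ =>
      D.cut s n A ∩ (D.alive (s + c) ∩ {ω | D.tau (s + c) ω < D.e n ω}) := by
    intro n k hnk ω
    simp only [mem_inter_iff, cut, mem_ofPred_eq]
    rintro ⟨⟨h1, h2⟩, h3, h4⟩
    have := D.e_mono ω hnk
    exact ⟨⟨h1, h2.trans_le this⟩, h3, h4.trans_le this⟩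
  rw [hunion, setLIntegral_iUnion_of_directed _ (directed_of_isDirected_le hmono)]
  exact iSup_le step

end OneP

end Crest.Agent.R162.Rad
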