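import Mathlib
import Crest.Prelude.Def_Loewner
import Crest.Agent.R162.OPDefs
import Crest.Agent.R162.UBDefs
import Crest.Agent.R162.FLB

-- ▼ part R162/SUPGa
section

/-!
Row 162, node SUPG (helper613), part a: the Green weight `Gq κ` is smooth on `{Y > 0}` and is
annihilated by the generator `OP.gen κ`.
-/

set_option autoImplicit false

open Set Filter Topology

namespace Crest.Agent.R162.SUPG

open OP

/-- the half-plane part of the state space -/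
def DD : Set (ℝ × ℝ × ℝ × ℝ) := {q | 0 < q.2.1}


lemma sq_pos_of_im {x y : ℝ} (hy : 0 < y) : 0 < x ^ 2 + y ^ 2 := by positivity

lemma sinq_pos {q : ℝ × ℝ × ℝ × ℝ} (hq : 0 < q.2.1) : 0 < sinq q :=
  div_pos hq (Real.sqrt_pos.2 (sq_pos_of_im hq))

lemma Gq_pos {κ : ℝ} {q : ℝ × ℝ × ℝ × ℝ} (hq : 0 < q.2.1) : 0 < Gq κ q :=
  mul_pos (Real.exp_pos _) (Real.rpow_pos_of_pos (sinq_pos hq) _)

/-- explicit form on `Y > 0` -/
lemma Gq_eq {κ : ℝ} {x y l a : ℝ} (hy : 0 < y) :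
    Gq κ (x, y, l, a) = Real.exp ((κ / 8 - 1) * l) *
      (y ^ (8 / κ - 1) * (x ^ 2 + y ^ 2) ^ (-((8 / κ - 1) / 2))) := by
  have hR : 0 < x ^ 2 + y ^ 2 := sq_pos_of_im hy
  unfold Gq sinq
  simp only
  rw [Real.div_rpow hy.le (Real.sqrt_nonneg _), Real.sqrt_eq_rpow, ← Real.rpow_mul hR.le,
    Real.rpow_neg hR.le, show (1 / 2 : ℝ) * (8 / κ - 1) = (8 / κ - 1) / 2 by ring]
  rfl

lemma contDiffOn_Gq {κ : ℝ} {n : WithTop ℕ∞} : ContDiffOn ℝ n (Gq κ) DD := by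
  unfold Gq sinq
  apply ContDiffOn.mul
  · apply ContDiff.contDiffOn
    fun_prop
  · apply ContDiffOn.rpow_const_of_ne
    · apply ContDiffOn.div
      · exact ContDiff.contDiffOn (by fun_prop)
      · apply ContDiffOn.sqrt
        · exact ContDiff.contDiffOn (by fun_prop)
        · intro q hq
          exact (sq_pos_of_im hq).ne'
      · intro q hq
        exact (Real.sqrt_pos.2 (sq_pos_of_im hq)).ne'
    · intro q hq
      exact (sinq_pos (q := q) hq).ne'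

section gen

variable {κ x y l a : ℝ}

lemma hasDeriv_X (hy : 0 < y) (x : ℝ) :
    HasDerivAt (fun x => Gq κ (x, y, l, a))
      (Real.exp ((κ / 8 - 1) * l) * (y ^ (8 / κ - 1) *
        (-(8 / κ - 1) * x * (x ^ 2 + y ^ 2) ^ (-((8 / κ - 1) / 2) - 1)))) x := by
  have h1 : (fun x => Gq κ (x, y, l, a)) = fun x => Real.exp ((κ / 8 - 1) * l) *
      (y ^ (8 / κ - 1) * (x ^ 2 + y ^ 2) ^ (-((8 / κ - 1) / 2))) := by
    funext x; exact Gq_eq hy
  rw [h1]
  have h2 : HasDerivAt (fun x : ℝ => x ^ 2 + y ^ 2) (2 * x) x := by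
    simpa using ((hasDerivAt_pow 2 x).add_const (y ^ 2))
  have h3 := h2.rpow_const (p := -((8 / κ - 1) / 2)) (Or.inl (sq_pos_of_im hy).ne')
  refine ((h3.const_mul (y ^ (8 / κ - 1))).const_mul (Real.exp ((κ / 8 - 1) * l))).congr_deriv ?_
  ring

lemma hasDeriv_XX (hy : 0 < y) (x : ℝ) :
    HasDerivAt (deriv fun x => Gq κ (x, y, l, a))
      (Real.exp ((κ / 8 - 1) * l) * (y ^ (8 / κ - 1) *
        (-(8 / κ - 1) * (x ^ 2 + y ^ 2) ^ (-((8 / κ - 1) / 2) - 1) +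
          (8 / κ - 1) * (8 / κ - 1 + 2) * x ^ 2 *
            (x ^ 2 + y ^ 2) ^ (-((8 / κ - 1) / 2) - 1 - 1)))) x := by
  have h1 : (deriv fun x => Gq κ (x, y, l, a)) = fun x =>
      Real.exp ((κ / 8 - 1) * l) * (y ^ (8 / κ - 1) *
        (-(8 / κ - 1) * x * (x ^ 2 + y ^ 2) ^ (-((8 / κ - 1) / 2) - 1))) := by
    funext x; exact (hasDeriv_X hy x).deriv
  rw [h1]
  have h2 : HasDerivAt (fun x : ℝ => x ^ 2 + y ^ 2) (2 * x) x := by
    simpa using ((hasDerivAt_pow 2 x).add_const (y ^ 2))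
  have h3 := h2.rpow_const (p := -((8 / κ - 1) / 2) - 1) (Or.inl (sq_pos_of_im hy).ne')
  have h4 : HasDerivAt (fun x : ℝ => -(8 / κ - 1) * x) (-(8 / κ - 1)) x := by
    simpa using (hasDerivAt_id x).const_mul (-(8 / κ - 1))
  refine (((h4.mul h3).const_mul (y ^ (8 / κ - 1))).const_mul
    (Real.exp ((κ / 8 - 1) * l))).congr_deriv ?_
  ring

lemma hasDeriv_Y (hy : 0 < y) :
    HasDerivAt (fun y => Gq κ (x, y, l, a))
      (Real.exp ((κ / 8 - 1) * l) *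
        ((8 / κ - 1) * y ^ (8 / κ - 1 - 1) * (x ^ 2 + y ^ 2) ^ (-((8 / κ - 1) / 2)) +
          y ^ (8 / κ - 1) *
            (-(8 / κ - 1) * y * (x ^ 2 + y ^ 2) ^ (-((8 / κ - 1) / 2) - 1)))) y := by
  have h1 : (fun y => Gq κ (x, y, l, a)) =ᶠ[𝓝 y] fun y => Real.exp ((κ / 8 - 1) * l) *
      (y ^ (8 / κ - 1) * (x ^ 2 + y ^ 2) ^ (-((8 / κ - 1) / 2))) := by
    filter_upwards [lt_mem_nhds hy] with y' hy'
    exact Gq_eq hy'
  refine HasDerivAt.congr_of_eventuallyEq ?_ h1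
  have h2 : HasDerivAt (fun y : ℝ => x ^ 2 + y ^ 2) (2 * y) y := by
    simpa using ((hasDerivAt_pow 2 y).const_add (x ^ 2))
  have h3 := h2.rpow_const (p := -((8 / κ - 1) / 2)) (Or.inl (sq_pos_of_im hy).ne')
  have h4 := (hasDerivAt_id y).rpow_const (p := 8 / κ - 1) (Or.inl hy.ne')
  refine ((h4.mul h3).const_mul (Real.exp ((κ / 8 - 1) * l))).congr_deriv ?_
  simp only [id]
  ring

lemma hasDeriv_L :
    HasDerivAt (fun l => Gq κ (x, y, l, a)) ((κ / 8 - 1) * Gq κ (x, y, l, a)) l := by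
  unfold Gq sinq
  simp only
  have h1 : HasDerivAt (fun l : ℝ => Real.exp ((κ / 8 - 1) * l))
      (Real.exp ((κ / 8 - 1) * l) * (κ / 8 - 1)) l := by
    have := (hasDerivAt_id l).const_mul (κ / 8 - 1)
    simpa using this.exp
  refine (h1.mul_const ((y / Real.sqrt (x ^ 2 + y ^ 2)) ^ (8 / κ - 1))).congr_deriv ?_
  ring

lemma hasDeriv_a : HasDerivAt (fun a => Gq κ (x, y, l, a)) 0 a := by
  unfold Gq sinq
  simp only
  exact hasDerivAt_const _ _

end gen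

/-- the Green weight is annihilated by the generator -/
theorem gen_Gq {κ : ℝ} (hκ : 0 < κ) {q : ℝ × ℝ × ℝ × ℝ} (hq : 0 < q.2.1) :
    gen κ (Gq κ) q = 0 := by
  obtain ⟨x, y, l, a⟩ := q
  simp only at hq
  have hR : 0 < x ^ 2 + y ^ 2 := sq_pos_of_im hq
  unfold gen
  simp only
  rw [(hasDeriv_XX hq x).deriv, (hasDeriv_X hq x).deriv, (hasDeriv_Y hq).deriv,
    hasDeriv_L.deriv, hasDeriv_a.deriv, Gq_eq hq]
  have e1 : (x ^ 2 + y ^ 2) ^ (-((8 / κ - 1) / 2)) =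
      (x ^ 2 + y ^ 2) ^ (-((8 / κ - 1) / 2) - 1 - 1) * (x ^ 2 + y ^ 2) * (x ^ 2 + y ^ 2) := by
    rw [← Real.rpow_add_one hR.ne', ← Real.rpow_add_one hR.ne']
    congr 1; ring
  have e2 : (x ^ 2 + y ^ 2) ^ (-((8 / κ - 1) / 2) - 1) =
      (x ^ 2 + y ^ 2) ^ (-((8 / κ - 1) / 2) - 1 - 1) * (x ^ 2 + y ^ 2) := by
    rw [← Real.rpow_add_one hR.ne']
    congr 1; ring
  have e3 : y ^ (8 / κ - 1) = y ^ (8 / κ - 1 - 1) * y := by
    rw [← Real.rpow_add_one hq.ne']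
    congr 1; ring
  rw [e1, e2, e3]
  set P := (x ^ 2 + y ^ 2) ^ (-((8 / κ - 1) / 2) - 1 - 1) with hP
  set Q := y ^ (8 / κ - 1 - 1) with hQ
  set E := Real.exp ((κ / 8 - 1) * l) with hE
  clear_value P Q E
  field_simp
  ring

end Crest.Agent.R162.SUPG
end

-- ▼ part R162/SUPGb

/-!
Row 162, node SUPG (helper613): `gr` versus `Gq`, initial value.
-/

set_option autoImplicit false

open MeasureTheory ProbabilityTheory Filter Set
open scoped NNReal ENNReal Topology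

namespace Crest.Agent.R162.SUPG

open Crest.Agent.R162.FL Crest.Agent.R162.OS Crest.Agent.R162.OP Crest.Agent.R162.UB
open Crest.ProbabilityR.Loewner

variable {W : ℝ → ℝ} {t κ : ℝ} {z : ℂ}

lemma norm_eq_sqrt (ζ : ℂ) : ‖ζ‖ = Real.sqrt (ζ.re ^ 2 + ζ.im ^ 2) := by
  rw [Complex.norm_eq_sqrt_sq_add_sq]

lemma sinq_stW : sinq (stW W t z) = sfl W t z := by
  unfold sinq stW sfl
  simp only
  rw [norm_eq_sqrt]

/-- on an alive point the Green process is the state function `Gq` -/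
theorem gr_eq_Gq (h : Alive W z t) : gr κ W t z = Gq κ (stW W t z) := by
  unfold gr Gq
  rw [sinq_stW]
  congr 1
  simp only [stW]
  rw [Real.rpow_def_of_pos (ups_pos h), mul_comm]

/-- on a dead point the Green process vanishes -/
theorem gr_of_dead (hκ8 : κ < 8) (h : ¬ Alive W z t) : gr κ W t z = 0 := by
  unfold gr
  have h1 : κ / 8 - 1 ≠ 0 := by
    intro h0
    linarith
  rw [ups_of_not_alive h, Real.zero_rpow h1, zero_mul]

lemma driving_zero {Ω : Type*} {m : MeasurableSpace Ω} {F : Filtration ℝ≥0 m}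
    {P : Measure Ω} {B : ℝ≥0 → Ω → ℝ} (hB : IsBM F B P) (κ : ℝ) (ω : Ω) :
    driving κ B ω 0 = 0 := by
  simp [driving, hB.zero ω]


/-- initial value -/
theorem Gq_stW_zero (hW : W 0 = 0) (hz : 0 < z.im) : Gq κ (stW W 0 z) = green κ z := by
  rw [← gr_eq_Gq (alive_zero hz)]
  unfold gr green sfl
  rw [ups_zero hz]
  simp only [Zfl, gfl_zero hz, hW, Complex.ofReal_zero, sub_zero]

end Crest.Agent.R162.SUPG
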