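import Mathlib
import Crest.Agent.R162.RadCore
import Crest.Agent.R162.LB7u
import Crest.Agent.R162.SUPGb
import Crest.Agent.R162.Rad
import Crest.Agent.R162.LBDefs

-- ▼ part R162/LB7r
section

/-!
Row 162, node LB7b: complements on the radial process `Rad.OneP`: events of the past of `τ_s`
given by the state at `τ_s`; capped level times `min (τ_s, T)`.
-/

set_option autoImplicit false

open MeasureTheory ProbabilityTheory Filter Set
open scoped NNReal ENNReal Topology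

namespace Crest.Agent.R162.Rad.OneP

open Crest.Agent.R162.OS

variable {Ω : Type*} {m : MeasurableSpace Ω} {F : Filtration ℝ≥0 m} {P : Measure Ω}
  {gen : (St → ℝ) → St → ℝ} {s₀ : ℝ}

variable (D : OneP F P gen s₀)

lemma meas_lim {α : Type*} (mα : MeasurableSpace α) {f : ℕ → α → St} {g : α → St}
    (hf : ∀ i, Measurable[mα] (f i)) (lim : Tendsto f atTop (𝓝 g)) : Measurable[mα] g :=
  measurable_of_tendsto_metrizable hf lim

/-- `F t`-measurability of the state at a random time `≤ t`. -/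
lemma measurable_at' {τ : Ω → ℝ≥0} {t : ℝ≥0} {B : Set Ω}
    (hB : ∀ r : ℝ≥0, MeasurableSet[F t] (B ∩ {ω | τ ω ≤ r}))
    (hBt : ∀ ω ∈ B, τ ω ≤ t) (hal : ∀ ω ∈ B, D.al (τ ω) ω) :
    Measurable[F t] (B.indicator fun ω => D.st (τ ω) ω) := by
  have hB0 : MeasurableSet[F t] B := by
    have h := hB t
    have : B ∩ {ω | τ ω ≤ t} = B := inter_eq_left.2 fun ω hω => hBt ω hω
    rwa [this] at h
  -- dyadic approximation from the left
  let Z : ℕ → Ω → St := fun k ω => D.st ((⌊(2 : ℝ≥0) ^ k * τ ω⌋₊ : ℝ≥0) / 2 ^ k) ω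
  have hfl : ∀ k j : ℕ, MeasurableSet[F t] (B ∩ {ω | ⌊(2 : ℝ≥0) ^ k * τ ω⌋₊ = j}) := by
    intro k j
    have hlt : ∀ r : ℝ≥0, MeasurableSet[F t] (B ∩ {ω | τ ω < r}) := by
      intro r
      have : B ∩ {ω | τ ω < r} = ⋃ q ∈ {q : ℚ | Real.toNNReal q < r},
          (B ∩ {ω | τ ω ≤ Real.toNNReal q}) := by
        ext ω
        simp only [mem_inter_iff, mem_ofPred_eq, mem_iUnion, exists_prop]
        constructor
        · rintro ⟨h1, h2⟩
          obtain ⟨q, hq1, hq2⟩ := exists_rat_btwn (show (τ ω : ℝ) < r from h2)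
          have hq0 : (0:ℝ) ≤ q := (NNReal.coe_nonneg _).trans hq1.le
          refine ⟨q, ?_, h1, ?_⟩
          · rw [← NNReal.coe_lt_coe, Real.coe_toNNReal _ hq0]; exact hq2
          · rw [← NNReal.coe_le_coe, Real.coe_toNNReal _ hq0]; exact hq1.le
        · rintro ⟨q, h1, h2, h3⟩
          exact ⟨h2, h3.trans_lt h1⟩
      rw [this]
      exact MeasurableSet.biUnion (Set.to_countable _) fun q _ => hB _
    have : B ∩ {ω | ⌊(2 : ℝ≥0) ^ k * τ ω⌋₊ = j} =
        (B ∩ {ω | τ ω < ((j : ℝ≥0) + 1) / 2 ^ k}) \ (B ∩ {ω | τ ω < (j : ℝ≥0) / 2 ^ k}) := by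
      ext ω
      simp only [mem_inter_iff, mem_ofPred_eq, Set.mem_sdiff, not_and, not_lt]
      have h2k : (0 : ℝ≥0) < 2 ^ k := by positivity
      rw [Nat.floor_eq_iff (by positivity), lt_div_iff₀ h2k, div_le_iff₀ h2k]
      constructor
      · rintro ⟨h1, h2, h3⟩
        refine ⟨⟨h1, ?_⟩, fun _ => ?_⟩
        · rwa [mul_comm]
        · rwa [mul_comm]
      · rintro ⟨⟨h1, h2⟩, h3⟩
        refine ⟨h1, ?_, ?_⟩
        · rw [mul_comm]; exact h3 h1
        · rwa [mul_comm]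
    rw [this]
    exact (hlt _).diff (hlt _)
  have hle : ∀ (k : ℕ) (ω : Ω), ((⌊(2 : ℝ≥0) ^ k * τ ω⌋₊ : ℝ≥0) / 2 ^ k) ≤ τ ω := by
    intro k ω
    rw [div_le_iff₀ (by positivity), mul_comm]
    exact Nat.floor_le (by positivity)
  have hZ : ∀ k, Measurable[F t] (B.indicator (Z k)) := by
    intro k S hS
    classical
    have hrw : (B.indicator (Z k)) ⁻¹' S =
        (⋃ j ∈ {j : ℕ | (j : ℝ≥0) / 2 ^ k ≤ t}, (B ∩ {ω | ⌊(2 : ℝ≥0) ^ k * τ ω⌋₊ = j}) ∩
          (D.st ((j : ℝ≥0) / 2 ^ k)) ⁻¹' S) ∪ (if (0 : St) ∈ S then Bᶜ else ∅) := by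
      ext ω
      simp only [mem_preimage, mem_iUnion, mem_inter_iff, mem_ofPred_eq, mem_union, exists_prop]
      by_cases hω : ω ∈ B
      · rw [indicator_of_mem hω]
        have hn : ω ∉ (if (0 : St) ∈ S then Bᶜ else ∅) := by
          split_ifs
          · simpa using hω
          · simp
        simp only [hn, or_false]
        constructor
        · intro h
          exact ⟨_, (hle k ω).trans (hBt ω hω), ⟨hω, rfl⟩, h⟩
        · rintro ⟨j, _, ⟨_, rfl⟩, h⟩; exact h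
      · rw [indicator_of_notMem hω]
        by_cases h0 : (0 : St) ∈ S
        · simp [h0, hω]
        · simp [h0, hω]
    rw [hrw]
    refine MeasurableSet.union ?_ ?_
    · refine MeasurableSet.biUnion (Set.to_countable _) fun j hj => ?_
      exact (hfl k j).inter (F.mono hj _ (D.st_meas _ hS))
    · split_ifs
      · exact hB0.compl
      · exact @MeasurableSet.empty _ (F t)
  refine meas_lim (F t) (f := fun k => B.indicator (Z k)) hZ ?_
  rw [tendsto_pi_nhds]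
  intro ω
  by_cases hω : ω ∈ B
  · simp only [indicator_of_mem hω]
    have hal' := hal ω hω
    have hc := (D.st_cont ω) (τ ω) hal'
    refine Tendsto.comp (g := fun t => D.st t ω) hc ?_
    rw [tendsto_nhdsWithin_iff]
    refine ⟨?_, Eventually.of_forall fun k => D.al_anti ω _ _ (hle k ω) hal'⟩
    rw [← NNReal.tendsto_coe]
    have hlow : ∀ k : ℕ, (τ ω : ℝ) - (1/2)^k ≤ (((⌊(2 : ℝ≥0) ^ k * τ ω⌋₊ : ℝ≥0) / 2 ^ k : ℝ≥0) : ℝ) := by
      intro k
      have h1 : (2 : ℝ≥0) ^ k * τ ω < ⌊(2 : ℝ≥0) ^ k * τ ω⌋₊ + 1 := Nat.lt_floor_add_one _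
      have h2 : (2 : ℝ) ^ k * τ ω < ⌊(2 : ℝ≥0) ^ k * τ ω⌋₊ + 1 := by exact_mod_cast h1
      push_cast
      rw [le_div_iff₀ (by positivity)]
      have h3 : ((1:ℝ)/2)^k * 2^k = 1 := by rw [← mul_pow]; norm_num
      nlinarith
    have hlim : Tendsto (fun k : ℕ => (τ ω : ℝ) - (1/2)^k) atTop (𝓝 ((τ ω : ℝ) - 0)) :=
      tendsto_const_nhds.sub (tendsto_pow_atTop_nhds_zero_of_lt_one (by norm_num) (by norm_num))
    rw [sub_zero] at hlim
    exact tendsto_of_tendsto_of_tendsto_of_le_of_le hlim tendsto_const_nhds hlow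
      (fun k => by exact_mod_cast hle k ω)
  · simp only [indicator_of_notMem hω]
    exact tendsto_const_nhds

/-- events given by the state at `τ_s` are in the past of `τ_s`. -/
lemma past_st {s : ℝ} {A : Set Ω} (hA : D.Past s A) {S : Set St} (hS : MeasurableSet S) :
    D.Past s (A ∩ {ω | D.st (D.tau s ω) ω ∈ S}) := by
  refine ⟨inter_subset_left.trans hA.1, fun t => ?_⟩
  set B : Set Ω := A ∩ {ω | D.tau s ω ≤ t} with hBdef
  have hB : ∀ r : ℝ≥0, MeasurableSet[F t] (B ∩ {ω | D.tau s ω ≤ r}) := by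
    intro r
    have : B ∩ {ω | D.tau s ω ≤ r} = A ∩ {ω | D.tau s ω ≤ min t r} := by
      ext ω
      simp only [hBdef, mem_inter_iff, mem_ofPred_eq, le_min_iff]
      tauto
    rw [this]
    exact F.mono (min_le_left _ _) _ (hA.2 _)
  have hm := D.measurable_at' hB (fun ω hω => hω.2) (fun ω hω => (D.tau_mem (hA.1 hω.1)).1)
  have h2 := (hA.2 t).inter (hm hS)
  convert h2 using 1
  ext ω
  simp only [mem_inter_iff, mem_ofPred_eq, mem_preimage, hBdef]
  constructor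
  · rintro ⟨⟨h1, h3⟩, h4⟩
    refine ⟨⟨h1, h4⟩, ?_⟩
    rw [indicator_of_mem (show ω ∈ A ∩ {ω | D.tau s ω ≤ t} from ⟨h1, h4⟩)]
    exact h3
  · rintro ⟨⟨h1, h4⟩, h5⟩
    rw [indicator_of_mem (show ω ∈ A ∩ {ω | D.tau s ω ≤ t} from ⟨h1, h4⟩)] at h5
    exact ⟨⟨h1, h5⟩, h4⟩

open Classical in
/-- `min (τ_s, T)` (equal to `T` if the level is never reached). -/
noncomputable def kap (s : ℝ) (T : ℝ≥0) (ω : Ω) : ℝ≥0 :=
  if ω ∈ D.alive s then min (D.tau s ω) T else T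

lemma kap_le (s : ℝ) (T : ℝ≥0) (ω : Ω) : D.kap s T ω ≤ T := by
  unfold kap; split_ifs
  · exact min_le_right _ _
  · exact le_rfl

lemma kap_eq {s : ℝ} {T : ℝ≥0} {ω : Ω} (h : ω ∈ D.alive s) (hT : D.tau s ω ≤ T) :
    D.kap s T ω = D.tau s ω := by
  unfold kap; rw [if_pos h, min_eq_left hT]

lemma kap_ST (s : ℝ) (T : ℝ≥0) : IsST F (D.kap s T) := by
  intro t
  by_cases hTt : T ≤ t
  · have : {ω | D.kap s T ω ≤ t} = univ := by
      ext ω; simp only [mem_ofPred_eq, mem_univ, iff_true]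
      exact (D.kap_le s T ω).trans hTt
    rw [this]; exact MeasurableSet.univ
  · have : {ω | D.kap s T ω ≤ t} = D.alive s ∩ {ω | D.tau s ω ≤ t} := by
      ext ω
      simp only [mem_ofPred_eq, mem_inter_iff, kap]
      split_ifs with h
      · simp [h, hTt]
      · simp [h, hTt]
    rw [this]
    exact D.tau_meas s t

lemma kap_EvST {s : ℝ} {T : ℝ≥0} {A : Set Ω} (hA : D.Past s A) :
    EvST F (D.kap s T) (A ∩ {ω | D.tau s ω ≤ T}) := by
  intro t
  have : (A ∩ {ω | D.tau s ω ≤ T}) ∩ {ω | D.kap s T ω ≤ t} =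
      A ∩ {ω | D.tau s ω ≤ min T t} := by
    ext ω
    simp only [mem_inter_iff, mem_ofPred_eq, le_min_iff]
    constructor
    · rintro ⟨⟨h1, h2⟩, h3⟩
      rw [D.kap_eq (hA.1 h1) h2] at h3
      exact ⟨h1, h2, h3⟩
    · rintro ⟨h1, h2, h3⟩
      exact ⟨⟨h1, h2⟩, by rw [D.kap_eq (hA.1 h1) h2]; exact h3⟩
  rw [this]
  exact F.mono (min_le_right _ _) _ (hA.2 _)

lemma al_zero (ω : Ω) : D.al 0 ω := (D.e_KK 0 ω 0 (zero_le)).1

lemma alive_base : D.alive s₀ = univ := by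
  ext ω
  simp only [mem_univ, iff_true]
  exact ⟨0, D.al_zero ω, (D.L_zero ω).le⟩

lemma tau_base (ω : Ω) : D.tau s₀ ω = 0 :=
  le_antisymm (D.tau_le (D.al_zero ω) (D.L_zero ω).le) zero_le

/-- a monotone-limit principle over the cap `T`. -/
lemma measure_le_of_cap {s : ℝ} {A E : Set Ω} {C : ℝ≥0∞}
    (h : ∀ n : ℕ, P (E ∩ {ω | D.tau s ω ≤ (n : ℝ≥0)}) ≤ C * P (A ∩ {ω | D.tau s ω ≤ (n : ℝ≥0)})) :
    P E ≤ C * P A := by
  have hE : E = ⋃ n : ℕ, E ∩ {ω | D.tau s ω ≤ (n : ℝ≥0)} := by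
    ext ω
    simp only [mem_iUnion, mem_inter_iff, mem_ofPred_eq]
    constructor
    · intro h
      obtain ⟨n, hn⟩ := exists_nat_ge (D.tau s ω)
      exact ⟨n, h, hn⟩
    · rintro ⟨n, h, _⟩; exact h
  have hmono : Monotone fun n : ℕ => E ∩ {ω | D.tau s ω ≤ (n : ℝ≥0)} := by
    intro a b hab ω hω
    exact ⟨hω.1, le_trans (show D.tau s ω ≤ (a : ℝ≥0) from hω.2) (by exact_mod_cast hab)⟩
  rw [hE, hmono.measure_iUnion]
  refine iSup_le fun n => (h n).trans ?_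
  gcongr
  exact inter_subset_left

end Crest.Agent.R162.Rad.OneP
end

-- ▼ part R162/LB7m
section

/-!
Row 162, node LB7b: the Green weight at radial levels: supermartingale inequality, bounds and
moments `gmax^ε ∫ G_l^{1-ε}`.
-/

set_option autoImplicit false

open MeasureTheory ProbabilityTheory Filter Set
open scoped NNReal ENNReal Topology

namespace Crest.Agent.R162.LB7

open Crest.Agent.R162.OS Crest.Agent.R162.Rad Crest.Agent.R162.OP

variable {Ω : Type*} {m : MeasurableSpace Ω} {F : Filtration ℝ≥0 m} {P : Measure Ω}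
  {κ s₀ : ℝ}

/-- the Green weight at level `s` (zero if the level is not reached). -/
noncomputable def gw (D : OneP F P (gen κ) s₀) (s : ℝ) (ω : Ω) : ℝ≥0∞ :=
  (D.alive s).indicator (fun ω => ENNReal.ofReal (Gq κ (D.st (D.tau s ω) ω))) ω

lemma measurable_sinq : Measurable sinq := by
  unfold sinq; fun_prop

lemma measurable_Gq : Measurable (Gq κ) := by
  unfold Gq
  have := measurable_sinq
  fun_prop

variable (D : OneP F P (gen κ) s₀)

lemma gw_of_mem {s : ℝ} {ω : Ω} (h : ω ∈ D.alive s) :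
    gw D s ω = ENNReal.ofReal (Gq κ (D.st (D.tau s ω) ω)) := by
  unfold gw; rw [indicator_of_mem h]

lemma gw_of_notMem {s : ℝ} {ω : Ω} (h : ω ∉ D.alive s) : gw D s ω = 0 := by
  unfold gw; rw [indicator_of_notMem h]

/-- `{c < gw}` is in the past of `τ_s`. -/
lemma past_gw (s : ℝ) (c : ℝ≥0∞) : D.Past s {ω | gw D s ω ≤ c}ᶜ := by
  have hS : MeasurableSet {q : St | c < ENNReal.ofReal (Gq κ q)} :=
    measurableSet_lt measurable_const (measurable_Gq.ennreal_ofReal)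
  have h := D.past_st (D.alive_past s) hS
  convert h using 1
  ext ω
  simp only [mem_compl_iff, mem_ofPred_eq, not_le, mem_inter_iff]
  constructor
  · intro hlt
    by_cases hal : ω ∈ D.alive s
    · exact ⟨hal, by rwa [gw_of_mem D hal] at hlt⟩
    · rw [gw_of_notMem D hal] at hlt
      exact absurd hlt (by simp)
  · rintro ⟨h1, h2⟩
    rwa [gw_of_mem D h1]

lemma past_gw' (s : ℝ) (c : ℝ≥0∞) : D.Past s (D.alive s ∩ {ω | gw D s ω ≤ c}) := by
  have hS : MeasurableSet {q : St | ENNReal.ofReal (Gq κ q) ≤ c} :=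
    measurableSet_le (measurable_Gq.ennreal_ofReal) measurable_const
  have h := D.past_st (D.alive_past s) hS
  convert h using 1
  ext ω
  simp only [mem_ofPred_eq, mem_inter_iff]
  constructor
  · rintro ⟨h1, h2⟩
    exact ⟨h1, by rwa [gw_of_mem D h1] at h2⟩
  · rintro ⟨h1, h2⟩
    exact ⟨h1, by rwa [gw_of_mem D h1]⟩

lemma measurable_gw (s : ℝ) : Measurable (gw D s) := by
  refine measurable_of_Iic fun c => ?_
  have h := OneP.Past.measurableSet D (past_gw D s c)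
  have h2 := h.compl
  rwa [compl_compl] at h2

/-- supermartingale inequality on the events `{gw s ≤ c}`. -/
lemma gw_super [IsFiniteMeasure P] (hκ : 0 < κ) {s t : ℝ} (hs : s₀ ≤ s) (hst : s ≤ t)
    (c : ℝ≥0∞) :
    ∫⁻ ω in {ω | gw D s ω ≤ c}, gw D t ω ∂P ≤ ∫⁻ ω in {ω | gw D s ω ≤ c}, gw D s ω ∂P := by
  have hcore := D.core (P := P) (s := s) (c := t - s) hs (by linarith) (Φ := Gq κ)
    (SUPG.contDiffOn_Gq) (fun p hp _ _ => (SUPG.Gq_pos hp).le)
    (fun p hp _ _ => (SUPG.gen_Gq hκ hp).le) (past_gw' D s c)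
  rw [show s + (t - s) = t by ring] at hcore
  have hm1 : MeasurableSet {ω | gw D s ω ≤ c} := measurableSet_le (measurable_gw D s)
    measurable_const
  have hmt := D.measurableSet_alive t
  have hms := D.measurableSet_alive s
  have e1 : ∫⁻ ω in {ω | gw D s ω ≤ c}, gw D t ω ∂P =
      ∫⁻ ω in D.alive s ∩ {ω | gw D s ω ≤ c} ∩ D.alive t,
        ENNReal.ofReal (Gq κ (D.st (D.tau t ω) ω)) ∂P := by
    have : D.alive s ∩ {ω | gw D s ω ≤ c} ∩ D.alive t = {ω | gw D s ω ≤ c} ∩ D.alive t := by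
      ext ω; constructor
      · rintro ⟨⟨_, h2⟩, h3⟩; exact ⟨h2, h3⟩
      · rintro ⟨h2, h3⟩; exact ⟨⟨D.alive_anti hst h3, h2⟩, h3⟩
    rw [this, inter_comm, ← Measure.restrict_restrict hmt, ← lintegral_indicator hmt]
    rfl
  have e2 : ∫⁻ ω in {ω | gw D s ω ≤ c}, gw D s ω ∂P =
      ∫⁻ ω in D.alive s ∩ {ω | gw D s ω ≤ c},
        ENNReal.ofReal (Gq κ (D.st (D.tau s ω) ω)) ∂P := by
    rw [← Measure.restrict_restrict hms, ← lintegral_indicator hms]
    rfl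
  rw [e1, e2]
  exact hcore

lemma sinq_le_one (q : St) : sinq q ≤ 1 := by
  unfold sinq
  refine div_le_one_of_le₀ ?_ (Real.sqrt_nonneg _)
  exact Real.le_sqrt_of_sq_le (by nlinarith [sq_nonneg q.1])

/-- value of `Gq` at level `s`. -/
lemma Gq_tau {s : ℝ} (hs : s₀ ≤ s) {ω : Ω} (h : ω ∈ D.alive s) :
    Gq κ (D.st (D.tau s ω) ω) =
      Real.exp ((1 - κ / 8) * s) * sinq (D.st (D.tau s ω) ω) ^ (8 / κ - 1) := by
  unfold Gq
  rw [D.L_tau hs h]
  congr 2; ring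

lemma sinq_tau_pos {s : ℝ} {ω : Ω} (h : ω ∈ D.alive s) : 0 < sinq (D.st (D.tau s ω) ω) :=
  SUPG.sinq_pos (D.y_pos ω _ (D.tau_mem h).1)

lemma gw_le (hκ : 0 < κ) (hκ8 : κ < 8) {s : ℝ} (hs : s₀ ≤ s) (ω : Ω) :
    gw D s ω ≤ ENNReal.ofReal (Real.exp ((1 - κ / 8) * s)) := by
  by_cases h : ω ∈ D.alive s
  · rw [gw_of_mem D h, Gq_tau D hs h]
    refine ENNReal.ofReal_le_ofReal ?_
    have h1 : sinq (D.st (D.tau s ω) ω) ^ (8 / κ - 1) ≤ 1 := by
      refine Real.rpow_le_one (sinq_tau_pos D h).le (sinq_le_one _) ?_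
      rw [sub_nonneg, le_div_iff₀ hκ]; linarith
    have := Real.exp_pos ((1 - κ / 8) * s)
    nlinarith
  · rw [gw_of_notMem D h]; exact zero_le

/-- pointwise interpolation: `gmax^ε G_l^{1-ε} = e^{ε (1-κ/8)(t-l)} G_l S^{-bε}`. -/
lemma gw_rpow {ε l t : ℝ} (hε0 : 0 < ε) (hε1 : ε < 1) (hl : s₀ ≤ l) (ω : Ω) :
    ENNReal.ofReal (Real.exp ((1 - κ / 8) * t)) ^ ε * gw D l ω ^ (1 - ε) =
      (D.alive l).indicator (fun ω => ENNReal.ofReal (Real.exp (ε * (1 - κ / 8) * (t - l))) *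
        ENNReal.ofReal (Gq κ (D.st (D.tau l ω) ω) *
          sinq (D.st (D.tau l ω) ω) ^ (-((8 / κ - 1) * ε)))) ω := by
  by_cases h : ω ∈ D.alive l
  · rw [indicator_of_mem h, gw_of_mem D h]
    have hS := sinq_tau_pos D h
    set S := sinq (D.st (D.tau l ω) ω) with hSdef
    have hG0 : 0 < Gq κ (D.st (D.tau l ω) ω) := SUPG.Gq_pos (D.y_pos ω _ (D.tau_mem h).1)
    rw [ENNReal.ofReal_rpow_of_nonneg (Real.exp_pos _).le hε0.le,
      ENNReal.ofReal_rpow_of_nonneg hG0.le (by linarith), ← ENNReal.ofReal_mul (by positivity),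
      ← ENNReal.ofReal_mul (by positivity)]
    congr 1
    rw [Gq_tau D hl h, ← hSdef]
    have hE := Real.exp_pos ((1 - κ / 8) * l)
    rw [Real.mul_rpow hE.le (Real.rpow_nonneg hS.le _), ← Real.exp_mul, ← Real.exp_mul,
      ← Real.rpow_mul hS.le]
    have e1 : Real.exp ((1 - κ / 8) * t * ε) * (Real.exp ((1 - κ / 8) * l * (1 - ε)) *
        S ^ ((8 / κ - 1) * (1 - ε))) =
        (Real.exp ((1 - κ / 8) * t * ε) * Real.exp ((1 - κ / 8) * l * (1 - ε))) *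
        S ^ ((8 / κ - 1) * (1 - ε)) := by ring
    have e2 : Real.exp (ε * (1 - κ / 8) * (t - l)) * (Real.exp ((1 - κ / 8) * l) *
        S ^ (8 / κ - 1) * S ^ (-((8 / κ - 1) * ε))) =
        (Real.exp (ε * (1 - κ / 8) * (t - l)) * Real.exp ((1 - κ / 8) * l)) *
        (S ^ (8 / κ - 1) * S ^ (-((8 / κ - 1) * ε))) := by ring
    rw [e1, e2, ← Real.exp_add, ← Real.exp_add, ← Real.rpow_add hS]
    congr 2
    · ring
    · ring
  · rw [indicator_of_notMem h, gw_of_notMem D h, ENNReal.zero_rpow_of_pos (by linarith), mul_zero]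

/-- total mass of the weight at level `l` at most the initial weight. -/
lemma gw_total [IsFiniteMeasure P] (hκ : 0 < κ) {l : ℝ} (hl : s₀ ≤ l) :
    ∫⁻ ω in D.alive l, ENNReal.ofReal (Gq κ (D.st (D.tau l ω) ω)) ∂P ≤
      ∫⁻ ω, ENNReal.ofReal (Gq κ (D.st 0 ω)) ∂P := by
  have hcore := D.core (P := P) (s := s₀) (c := l - s₀) le_rfl (by linarith) (Φ := Gq κ)
    (SUPG.contDiffOn_Gq) (fun p hp _ _ => (SUPG.Gq_pos hp).le)
    (fun p hp _ _ => (SUPG.gen_Gq hκ hp).le) (D.alive_past s₀)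
  rw [show s₀ + (l - s₀) = l by ring, D.alive_base, univ_inter, Measure.restrict_univ] at hcore
  refine hcore.trans (le_of_eq ?_)
  refine lintegral_congr fun ω => ?_
  rw [D.tau_base ω]

/-- moment bound at the levels used. -/
lemma moment [IsFiniteMeasure P] (hκ : 0 < κ) {ε l t cS Cq : ℝ} (hε0 : 0 < ε)
    (hε1 : ε < 1) (hl : s₀ ≤ l) (hcS : 0 < cS) (hCq : 0 ≤ Cq)
    (hb : 0 ≤ 8 / κ - 1)
    (hS0 : ∀ ω, cS ≤ sinq (D.st 0 ω)) (hlc : l = s₀ ∨ s₀ + 1 ≤ l)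
    (hU2 : ∀ s, s₀ ≤ s → ∫⁻ ω in D.alive (s + 1), ENNReal.ofReal
        (Gq κ (D.st (D.tau (s + 1) ω) ω) *
          sinq (D.st (D.tau (s + 1) ω) ω) ^ (-((8 / κ - 1) * ε))) ∂P ≤
      ENNReal.ofReal Cq * ∫⁻ ω in D.alive s, ENNReal.ofReal (Gq κ (D.st (D.tau s ω) ω)) ∂P) :
    ENNReal.ofReal (Real.exp ((1 - κ / 8) * t)) ^ ε * ∫⁻ ω, gw D l ω ^ (1 - ε) ∂P ≤
      ENNReal.ofReal (Real.exp (ε * (1 - κ / 8) * (t - l)) *
        (Cq + cS ^ (-((8 / κ - 1) * ε)))) * ∫⁻ ω, ENNReal.ofReal (Gq κ (D.st 0 ω)) ∂P := by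
  have hml := D.measurableSet_alive l
  have hfin : ENNReal.ofReal (Real.exp ((1 - κ / 8) * t)) ^ ε ≠ ⊤ :=
    ENNReal.rpow_ne_top_of_nonneg hε0.le ENNReal.ofReal_ne_top
  rw [← lintegral_const_mul' _ _ hfin]
  simp_rw [gw_rpow D hε0 hε1 hl]
  rw [lintegral_indicator hml, lintegral_const_mul' _ _ ENNReal.ofReal_ne_top,
    ENNReal.ofReal_mul (Real.exp_pos _).le,
    mul_assoc (ENNReal.ofReal (Real.exp (ε * (1 - κ / 8) * (t - l))))]
  refine mul_le_mul' le_rfl ?_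
  rcases hlc with h | h
  · -- `l = s₀`
    subst h
    rw [D.alive_base, Measure.restrict_univ, ← lintegral_const_mul' _ _ ENNReal.ofReal_ne_top]
    refine lintegral_mono fun ω => ?_
    rw [D.tau_base ω]
    have hG0 : 0 < Gq κ (D.st 0 ω) := SUPG.Gq_pos (D.y_pos ω _ (D.al_zero ω))
    have hS := hcS.trans_le (hS0 ω)
    rw [← ENNReal.ofReal_mul (by positivity)]
    refine ENNReal.ofReal_le_ofReal ?_
    have h1 : sinq (D.st 0 ω) ^ (-((8 / κ - 1) * ε)) ≤ cS ^ (-((8 / κ - 1) * ε)) := by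
      refine Real.rpow_le_rpow_of_nonpos hcS (hS0 ω) ?_
      have := mul_nonneg hb hε0.le
      linarith
    nlinarith [mul_nonneg hCq hG0.le, mul_le_mul_of_nonneg_left h1 hG0.le]
  · -- `l ≥ s₀ + 1`
    have h2 := hU2 (l - 1) (by linarith)
    rw [show l - 1 + 1 = l by ring] at h2
    refine h2.trans ?_
    calc ENNReal.ofReal Cq * ∫⁻ ω in D.alive (l - 1),
          ENNReal.ofReal (Gq κ (D.st (D.tau (l - 1) ω) ω)) ∂P
        ≤ ENNReal.ofReal Cq * ∫⁻ ω, ENNReal.ofReal (Gq κ (D.st 0 ω)) ∂P :=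
          mul_le_mul_right (gw_total D hκ (by linarith)) _
      _ ≤ _ := by
          gcongr
          have : 0 ≤ cS ^ (-((8 / κ - 1) * ε)) := Real.rpow_nonneg hcS.le _
          linarith

end Crest.Agent.R162.LB7
end

-- ▼ part R162/LB7bI

/-!
Row 162, node LB7b: `∫_{σ<∞, Λ_σ > C'N} G_σ(w₀) ≤ C e^{-2N} G_0(w₀)`, from OP1, U2 and LB7a.
-/

set_option autoImplicit false

open MeasureTheory ProbabilityTheory Filter Set
open scoped NNReal ENNReal Topology

namespace Crest.Agent.R162.LB7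

open Crest.Agent.R162.OS Crest.Agent.R162.Rad Crest.Agent.R162.OP Crest.Agent.R162.FL
open Crest.ProbabilityR.Loewner

universe u

/-- OP1 (149). -/
def OP1Stmt (κ : ℝ) : Prop :=
  ∀ c0 : ℝ, 0 < c0 → ∃ C lam : ℝ, 0 < C ∧ 0 < lam ∧
    ∀ {Ω : Type u} {m : MeasurableSpace Ω} {P : Measure Ω} [IsProbabilityMeasure P]
    {Fl : Filtration ℝ≥0 m} {B : ℝ≥0 → Ω → ℝ} (_ : IsBM Fl B P) {w : ℂ} (_ : 0 < w.im)
    {σ : Ω → ℝ≥0} (_ : IsST Fl σ) {A : Set Ω} (_ : EvST Fl σ A) (a : ℝ),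
    P.real {ω | ω ∈ A ∧ ∃ t : ℝ≥0, σ ω ≤ t ∧ AliveP κ B w t ω ∧ c0 ≤ sfl (driving κ B ω) t w ∧
      a ≤ ath (driving κ B ω) t w - ath (driving κ B ω) (σ ω) w} ≤
      C * Real.exp (-(lam * a)) * P.real A

section

variable {Ω : Type u} {m : MeasurableSpace Ω} {P : Measure Ω} [IsProbabilityMeasure P]
  {Fl : Filtration ℝ≥0 m} {B : ℝ≥0 → Ω → ℝ} {κ s₀ : ℝ}

/-- OP1 from a radial level of `w₀` (uncapped). -/
lemma op1_past {c0 C lam : ℝ} (hC : 0 < C) {w : ℂ}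
    (h : ∀ {σ : Ω → ℝ≥0} (_ : IsST Fl σ) {A : Set Ω} (_ : EvST Fl σ A) (a : ℝ),
    P.real {ω | ω ∈ A ∧ ∃ t : ℝ≥0, σ ω ≤ t ∧ AliveP κ B w t ω ∧ c0 ≤ sfl (driving κ B ω) t w ∧
      a ≤ ath (driving κ B ω) t w - ath (driving κ B ω) (σ ω) w} ≤
      C * Real.exp (-(lam * a)) * P.real A)
    (D : OneP Fl P (gen κ) s₀) {s : ℝ} {A : Set Ω} (hA : D.Past s A) (a : ℝ) :
    P {ω | ω ∈ A ∧ ∃ t : ℝ≥0, D.tau s ω ≤ t ∧ AliveP κ B w t ω ∧
      c0 ≤ sfl (driving κ B ω) t w ∧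
      a ≤ ath (driving κ B ω) t w - ath (driving κ B ω) (D.tau s ω) w} ≤
      ENNReal.ofReal (C * Real.exp (-(lam * a))) * P A := by
  refine D.measure_le_of_cap (s := s) fun n => ?_
  have h1 := h (D.kap_ST s n) (D.kap_EvST (T := n) hA) a
  have hset : {ω | ω ∈ A ∧ ∃ t : ℝ≥0, D.tau s ω ≤ t ∧ AliveP κ B w t ω ∧
      c0 ≤ sfl (driving κ B ω) t w ∧
      a ≤ ath (driving κ B ω) t w - ath (driving κ B ω) (D.tau s ω) w} ∩
      {ω | D.tau s ω ≤ (n : ℝ≥0)} =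
      {ω | ω ∈ A ∩ {ω | D.tau s ω ≤ (n : ℝ≥0)} ∧ ∃ t : ℝ≥0, D.kap s n ω ≤ t ∧ AliveP κ B w t ω ∧
      c0 ≤ sfl (driving κ B ω) t w ∧
      a ≤ ath (driving κ B ω) t w - ath (driving κ B ω) (D.kap s n ω) w} := by
    ext ω
    simp only [mem_inter_iff, mem_ofPred_eq]
    constructor
    · rintro ⟨⟨h1, h2⟩, h3⟩
      rw [D.kap_eq (hA.1 h1) h3]
      exact ⟨⟨h1, h3⟩, h2⟩
    · rintro ⟨⟨h1, h3⟩, h2⟩
      rw [D.kap_eq (hA.1 h1) h3] at h2
      exact ⟨⟨h1, h2⟩, h3⟩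
  rw [hset]
  rw [← ENNReal.ofReal_toReal (measure_ne_top P (A ∩ {ω | D.tau s ω ≤ (n : ℝ≥0)})),
    ← ENNReal.ofReal_mul (by positivity), ← ENNReal.ofReal_toReal (measure_ne_top P _)]
  exact ENNReal.ofReal_le_ofReal h1

end

/-- LB7a (470), for a family of grids. -/
def LB7aStmt (grid : ℂ → ℝ → ℕ → Finset ℂ) (q η CA K9 K : ℝ) : Prop :=
  ∃ C' : ℝ, 0 < C' ∧ ∀ (W : ℝ → ℝ) (w0 : ℂ) (R N σ : ℝ) (s : ℕ → ℝ) (u0 : ℂ → ℝ),
    ContinuousOn W (Ici 0) → 1 ≤ R → 1 ≤ N → Real.log R ≤ N → Alive W w0 σ →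
    ups W σ w0 ≤ K9 * R → (∀ p, max 1 (‖p - w0‖ - R) ≤ u0 p) →
    (∀ j : ℕ, 0 ≤ s j ∧ s j ≤ σ ∧
      ((s j = 0 ∧ w0.im ≤ K * (4 * R * 2 ^ j)) ∨ K * (4 * R * 2 ^ j) ≤ ups W (s j) w0)) →
    (∀ j m : ℕ, ∀ p ∈ grid w0 (4 * R * 2 ^ j) m, Alive W p σ → 1 / 3 ≤ sfl W σ p →
      ath W σ p - ath W (s j) p ≤ CA * (N + j + m)) →
    LB.Lam u0 q η (ffl W σ) ≤ ENNReal.ofReal (C' * N)

/-- U2 (953), for the Loewner one-point process. -/
def U2Stmt {κ : ℝ} (hM : OPM.{u}) (hκ : 0 < κ) : Prop :=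
  ∀ q' : ℝ, 0 < q' → q' < 8 / κ - 1 → q' ≤ 2 → ∃ Cq : ℝ, 0 ≤ Cq ∧
    ∀ {Ω : Type u} {m : MeasurableSpace Ω} {P : Measure Ω} [IsProbabilityMeasure P]
    {Fl : Filtration ℝ≥0 m} {B : ℝ≥0 → Ω → ℝ} (hB : IsBM Fl B P) {w : ℂ} (hw : 0 < w.im)
    (s : ℝ), -Real.log w.im ≤ s →
    ∫⁻ ω in (oneP hM hB hκ hw).alive (s + 1), ENNReal.ofReal
        (Gq κ (stP κ B w ((oneP hM hB hκ hw).tau (s + 1) ω) ω) *
          sinq (stP κ B w ((oneP hM hB hκ hw).tau (s + 1) ω) ω) ^ (-q')) ∂P ≤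
      ENNReal.ofReal Cq * ∫⁻ ω in (oneP hM hB hκ hw).alive s,
        ENNReal.ofReal (Gq κ (stP κ B w ((oneP hM hB hκ hw).tau s ω) ω)) ∂P

/-- **LB7b.** -/
theorem lb7b {κ : ℝ} (hκ : 0 < κ) (hκ8 : κ < 8) (hM : OPM.{u}) (hop1 : OP1Stmt.{u} κ)
    (hU2 : U2Stmt.{u} hM hκ) (grid : ℂ → ℝ → ℕ → Finset ℂ) {Cg : ℝ} (hCg : 0 ≤ Cg)
    (hcard : ∀ (w : ℂ) (ρ : ℝ) (m : ℕ), ((grid w ρ m).card : ℝ) ≤ Cg * Real.exp (2 * m))
    (hlb7a : ∀ {q η CA K9 K : ℝ}, 0 < q → 0 < η → 0 ≤ CA → 0 ≤ K9 → 4 ≤ K →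
      LB7aStmt grid q η CA K9 K)
    {q η K9 cS : ℝ} (hq : 0 < q) (hη : 0 < η) (hK9 : 0 < K9) (hcS : 0 < cS) :
    ∃ C' C : ℝ, 0 < C' ∧ 0 < C ∧
      ∀ {Ω : Type u} {m : MeasurableSpace Ω} {P : Measure Ω} [IsProbabilityMeasure P]
      {Fl : Filtration ℝ≥0 m} {B : ℝ≥0 → Ω → ℝ} (hB : IsBM Fl B P) {w0 : ℂ} (hw : 0 < w0.im)
      (R N : ℝ) (u0 : ℂ → ℝ), 1 ≤ R → 1 ≤ N → Real.log R ≤ N → K9 * R ≤ w0.im →
      cS * ‖w0‖ ≤ w0.im → (∀ p, max 1 (‖p - w0‖ - R) ≤ u0 p) →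
      ∫⁻ ω in {ω | ω ∈ (oneP hM hB hκ hw).alive (-Real.log (K9 * R)) ∧
          ENNReal.ofReal (C' * N) < LB.Lam u0 q η (ffl (driving κ B ω)
            ((oneP hM hB hκ hw).tau (-Real.log (K9 * R)) ω))},
        gw (oneP hM hB hκ hw) (-Real.log (K9 * R)) ω ∂P ≤
        ENNReal.ofReal (C * Real.exp (-2 * N)) * ENNReal.ofReal (UB.green κ w0) := by
  have hb : 0 < 8 / κ - 1 := by rw [sub_pos, lt_div_iff₀ hκ]; linarith
  set b : ℝ := 8 / κ - 1 with hbdef
  set ε : ℝ := min (1 / 2) (1 / b) with hεdef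
  have hε0 : 0 < ε := lt_min (by norm_num) (by positivity)
  have hε2 : ε ≤ 1 / 2 := min_le_left _ _
  have hε1 : ε < 1 := by linarith
  have hbε : b * ε ≤ 1 := by
    have : ε ≤ 1 / b := min_le_right _ _
    calc b * ε ≤ b * (1 / b) := by gcongr
      _ = 1 := by field_simp
  obtain ⟨Cq, hCq, hU⟩ := hU2 (b * ε) (by positivity) (by nlinarith) (by linarith)
  obtain ⟨C1, lam, hC1, hlam, hO⟩ := hop1 (1 / 3) (by norm_num)
  set CA : ℝ := 3 / (ε * lam) with hCAdef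
  have hCA0 : 0 < CA := by positivity
  have hCA : 3 ≤ ε * lam * CA := by
    rw [hCAdef]; field_simp; exact le_rfl
  set K : ℝ := max 4 K9 with hKdef
  have hK4 : 4 ≤ K := le_max_left _ _
  have hK9K : K9 ≤ K := le_max_right _ _
  obtain ⟨C', hC', h7a⟩ := hlb7a (q := q) (η := η) (CA := CA) (K9 := K9) (K := K) hq hη hCA0.le
    hK9.le hK4
  set K2 : ℝ := 4 * Real.exp 1 * K / K9 * (Cq + cS ^ (-(b * ε))) with hK2def
  have hcSr : 0 < cS ^ (-(b * ε)) := Real.rpow_pos_of_pos hcS _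
  have hK2 : 0 < K2 := by positivity
  refine ⟨C', 4 * (Cg * C1) ^ ε * K2 + 1, hC', by positivity, ?_⟩
  intro Ω m P _ Fl B hB w0 hw R N u0 hR hN hRN hRw hSw hu0
  set D := oneP hM hB hκ hw with hD
  set sσ : ℝ := -Real.log (K9 * R) with hsσ
  have hK9R : 0 < K9 * R := by positivity
  -- the levels
  set rj : ℕ → ℝ := fun j => K * (4 * R * 2 ^ j) with hrj
  have hrj0 : ∀ j, 0 < rj j := fun j => by simp only [hrj]; positivity
  set lv : ℕ → ℝ := fun j =>
    if w0.im ≤ Real.exp 1 * rj j then -Real.log w0.im else -Real.log (rj j) with hlv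
  have hlv0 : ∀ j, -Real.log w0.im ≤ lv j := by
    intro j
    simp only [hlv]
    split_ifs with h
    · exact le_rfl
    · push Not at h
      have h2 : rj j ≤ w0.im := by
        have : 1 ≤ Real.exp 1 := Real.one_le_exp (by norm_num)
        have := hrj0 j
        nlinarith
      exact neg_le_neg (Real.log_le_log (hrj0 j) h2)
  have hlvσ : ∀ j, lv j ≤ sσ := by
    intro j
    simp only [hlv, hsσ]
    have h2 : K9 * R ≤ rj j := by
      simp only [hrj]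
      have h2j : (1 : ℝ) ≤ 2 ^ j := one_le_pow₀ (by norm_num)
      have : K9 * R ≤ K * R := by gcongr
      have h3 : K * R ≤ K * (4 * R * 2 ^ j) := by
        have : R ≤ 4 * R * 2 ^ j := by nlinarith
        gcongr
      linarith
    split_ifs with h
    · exact neg_le_neg (Real.log_le_log hK9R hRw)
    · exact neg_le_neg (Real.log_le_log hK9R h2)
  have hlvc : ∀ j, lv j = -Real.log w0.im ∨ -Real.log w0.im + 1 ≤ lv j := by
    intro j
    simp only [hlv]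
    split_ifs with h
    · exact Or.inl rfl
    · right
      push Not at h
      have h2 := Real.log_le_log (mul_pos (Real.exp_pos 1) (hrj0 j)) h.le
      rw [Real.log_mul (Real.exp_pos 1).ne' (hrj0 j).ne', Real.log_exp] at h2
      linarith
  have hlvX : ∀ j, sσ - lv j ≤ Real.log (4 * Real.exp 1 * K / K9 * 2 ^ j) := by
    intro j
    have e1 : 4 * Real.exp 1 * K / K9 * 2 ^ j = Real.exp 1 * rj j / (K9 * R) := by
      simp only [hrj]; field_simp
    rw [e1, Real.log_div (mul_pos (Real.exp_pos 1) (hrj0 j)).ne' hK9R.ne']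
    simp only [hlv, hsσ]
    split_ifs with h
    · have := Real.log_le_log hw h
      linarith
    · have : Real.log (rj j) ≤ Real.log (Real.exp 1 * rj j) := by
        apply Real.log_le_log (hrj0 j)
        have : 1 ≤ Real.exp 1 := Real.one_le_exp (by norm_num)
        have := hrj0 j
        nlinarith
      linarith
  -- the bad events
  set Ev : ℕ → ℕ → Set Ω := fun j n => {ω | ω ∈ D.alive sσ ∧ ∃ p ∈ grid w0 (4 * R * 2 ^ j) n,
    Alive (driving κ B ω) p (D.tau sσ ω) ∧ 1 / 3 ≤ sfl (driving κ B ω) (D.tau sσ ω) p ∧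
    CA * (N + j + n) < ath (driving κ B ω) (D.tau sσ ω) p -
      ath (driving κ B ω) (D.tau (lv j) ω) p} with hEv
  -- inclusion
  have hincl : {ω | ω ∈ D.alive sσ ∧ ENNReal.ofReal (C' * N) <
      LB.Lam u0 q η (ffl (driving κ B ω) (D.tau sσ ω))} ⊆ ⋃ jm : ℕ × ℕ, Ev jm.1 jm.2 := by
    rintro ω ⟨hal, hL⟩
    by_contra hcon
    simp only [mem_iUnion, not_exists] at hcon
    have hτ := D.tau_mem hal
    refine absurd hL (not_lt.2 ?_)
    refine h7a (driving κ B ω) w0 R N (D.tau sσ ω) (fun j => (D.tau (lv j) ω : ℝ)) u0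
      (driving_cont hB κ ω).continuousOn hR hN hRN hτ.1 ?_ hu0 ?_ ?_
    · have h1 : Real.log (ups (driving κ B ω) (D.tau sσ ω) w0) ≤ -sσ := hτ.2
      have h2 : 0 < ups (driving κ B ω) (D.tau sσ ω) w0 := ups_pos hτ.1
      rw [hsσ, neg_neg] at h1
      exact (Real.log_le_log_iff h2 hK9R).1 h1
    · intro j
      refine ⟨NNReal.coe_nonneg _, by exact_mod_cast D.tau_mono (hlvσ j) hal, ?_⟩
      by_cases h : w0.im ≤ Real.exp 1 * rj j
      · have hl : lv j = -Real.log w0.im := by simp only [hlv]; rw [if_pos h]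
        have ht0 : D.tau (lv j) ω = 0 := by rw [hl]; exact D.tau_base ω
        by_cases h2 : w0.im ≤ K * (4 * R * 2 ^ j)
        · left
          exact ⟨by rw [ht0]; simp, h2⟩
        · right
          push Not at h2
          rw [ht0, NNReal.coe_zero, ups_zero hw]
          exact h2.le
      · have hl : lv j = -Real.log (rj j) := by simp only [hlv]; rw [if_neg h]
        right
        have hal' := D.alive_anti (hlvσ j) hal
        have h1 : Real.log (ups (driving κ B ω) (D.tau (lv j) ω) w0) = -lv j :=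
          D.L_tau (hlv0 j) hal'
        have h2 : 0 < ups (driving κ B ω) (D.tau (lv j) ω) w0 := ups_pos (D.tau_mem hal').1
        rw [hl, neg_neg, ← hl] at h1
        have h3 : ups (driving κ B ω) (D.tau (lv j) ω) w0 = rj j :=
          Real.log_injOn_pos h2 (hrj0 j) h1
        rw [h3]
    · intro j n p hp hpal hps
      by_contra hlt
      push Not at hlt
      exact hcon (j, n) ⟨hal, p, hp, hpal, hps, hlt⟩
  -- the union bound
  have hg0 : ∫⁻ ω, ENNReal.ofReal (Gq κ (D.st 0 ω)) ∂P = ENNReal.ofReal (UB.green κ w0) := by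
    have : ∀ ω, Gq κ (D.st 0 ω) = UB.green κ w0 := by
      intro ω
      have : D.st 0 ω = stW (driving κ B ω) 0 w0 := rfl
      rw [this]
      exact SUPG.Gq_stW_zero (driving_zero hB κ ω) hw
    simp_rw [this]
    simp
  have hub := union_bound (P := P) (gs := gw D sσ) (gj := fun j => gw D (lv j)) (E := Ev)
    (gmax := ENNReal.ofReal (Real.exp ((1 - κ / 8) * sσ))) (g0 := ENNReal.ofReal (UB.green κ w0))
    (ε := ε) (lam := lam) (CA := CA) (N := N) (K1 := Cg * C1) (K2 := K2) hε0 hε1 hlam hCA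
    (by linarith) (by positivity) ENNReal.ofReal_ne_top
    (fun ω => gw_le D hκ hκ8 ((hlv0 0).trans (hlvσ 0)) ω) (fun j => measurable_gw D _)
    (fun j c => gw_super D hκ (hlv0 j) (hlvσ j) c) ?_ ?_ hK2.le
  · refine (lintegral_mono_set hincl).trans (hub.trans ?_)
    gcongr
    linarith
  · -- OP1 over the grid
    intro j n c
    set A : Set Ω := {ω | gw D (lv j) ω ≤ c}ᶜ with hA
    have hPast : D.Past (lv j) A := past_gw D (lv j) c
    set S : ℂ → Set Ω := fun p => {ω | ω ∈ A ∧ ∃ t : ℝ≥0, D.tau (lv j) ω ≤ t ∧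
      AliveP κ B p t ω ∧ 1 / 3 ≤ sfl (driving κ B ω) t p ∧
      CA * (N + j + n) ≤ ath (driving κ B ω) t p - ath (driving κ B ω) (D.tau (lv j) ω) p} with hS
    have hsub : Ev j n ∩ A ⊆ ⋃ p ∈ grid w0 (4 * R * 2 ^ j) n, S p := by
      rintro ω ⟨⟨hal, p, hp, h1, h2, h3⟩, hωA⟩
      simp only [mem_iUnion]
      exact ⟨p, hp, hωA, D.tau sσ ω, D.tau_mono (hlvσ j) hal, h1, h2, h3.le⟩
    have hSp : ∀ p, P (S p) ≤ ENNReal.ofReal (C1 * Real.exp (-(lam * (CA * (N + j + n))))) * P A := by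
      intro p
      by_cases hp : 0 < p.im
      · exact op1_past hC1 (fun hσ _ hA' a => hO hB hp hσ hA' a) D hPast _
      · have : S p = ∅ := by
          rw [eq_empty_iff_forall_notMem]
          rintro ω ⟨_, t, _, h1, _⟩
          exact hp (FL.Alive.im_pos h1)
        rw [this]; simp
    calc P (Ev j n ∩ A) ≤ P (⋃ p ∈ grid w0 (4 * R * 2 ^ j) n, S p) := measure_mono hsub
      _ ≤ ∑ p ∈ grid w0 (4 * R * 2 ^ j) n, P (S p) := measure_biUnion_finset_le _ _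
      _ ≤ ∑ _p ∈ grid w0 (4 * R * 2 ^ j) n,
          ENNReal.ofReal (C1 * Real.exp (-(lam * (CA * (N + j + n))))) * P A :=
          Finset.sum_le_sum fun p _ => hSp p
      _ = ((grid w0 (4 * R * 2 ^ j) n).card : ℝ≥0∞) *
          (ENNReal.ofReal (C1 * Real.exp (-(lam * (CA * (N + j + n))))) * P A) := by
          rw [Finset.sum_const, nsmul_eq_mul]
      _ ≤ ENNReal.ofReal (Cg * Real.exp (2 * n)) *
          (ENNReal.ofReal (C1 * Real.exp (-(lam * (CA * (N + j + n))))) * P A) := by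
          gcongr
          rw [← ENNReal.ofReal_natCast]
          exact ENNReal.ofReal_le_ofReal (hcard _ _ _)
      _ = _ := by
          rw [← mul_assoc, ← ENNReal.ofReal_mul (by positivity)]
          congr 2
          rw [show lam * (CA * (N + j + n)) = lam * CA * (N + j + n) by ring]
          ring
  · -- moments
    intro j
    have hmom := moment (P := P) D hκ (ε := ε) (l := lv j) (t := sσ) (cS := cS) (Cq := Cq) hε0 hε1
      (hlv0 j) hcS hCq hb.le ?_ (hlvc j) (fun s hs => hU hB hw s hs)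
    · rw [hg0] at hmom
      refine hmom.trans (mul_le_mul' (ENNReal.ofReal_le_ofReal ?_) le_rfl)
      have hθ0 : 0 ≤ ε * (1 - κ / 8) := mul_nonneg hε0.le (by linarith)
      have hθ1 : ε * (1 - κ / 8) ≤ 1 := by nlinarith
      set X : ℝ := 4 * Real.exp 1 * K / K9 * 2 ^ j with hX
      have hX1 : 1 ≤ X := by
        have h2j : (1 : ℝ) ≤ 2 ^ j := one_le_pow₀ (by norm_num)
        have he : 1 ≤ Real.exp 1 := Real.one_le_exp (by norm_num)
        have h1 : 1 ≤ K / K9 := by rw [le_div_iff₀ hK9]; linarith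
        have h2 : 4 * Real.exp 1 * K / K9 = (4 * Real.exp 1) * (K / K9) := by ring
        have h3 : 1 ≤ 4 * Real.exp 1 * K / K9 := by
          rw [h2]; exact one_le_mul_of_one_le_of_one_le (by linarith) h1
        exact one_le_mul_of_one_le_of_one_le h3 h2j
      have hlogX : 0 ≤ Real.log X := Real.log_nonneg hX1
      have hexp : Real.exp (ε * (1 - κ / 8) * (sσ - lv j)) ≤ X := by
        calc Real.exp (ε * (1 - κ / 8) * (sσ - lv j)) ≤ Real.exp (Real.log X) := by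
              refine Real.exp_le_exp.2 ?_
              calc ε * (1 - κ / 8) * (sσ - lv j) ≤ ε * (1 - κ / 8) * Real.log X := by
                    gcongr; exact hlvX j
                _ ≤ 1 * Real.log X := by gcongr
                _ = Real.log X := one_mul _
          _ = X := Real.exp_log (by linarith)
      calc Real.exp (ε * (1 - κ / 8) * (sσ - lv j)) * (Cq + cS ^ (-(b * ε)))
          ≤ X * (Cq + cS ^ (-(b * ε))) := by gcongr
        _ = K2 * 2 ^ j := by rw [hX, hK2def]; ring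
    · intro ω
      have : D.st 0 ω = stW (driving κ B ω) 0 w0 := rfl
      rw [this, SUPG.sinq_stW]
      unfold sfl
      have h0 : Zfl (driving κ B ω) 0 w0 = w0 := by
        simp [Zfl, gfl_zero hw, driving_zero hB κ ω]
      rw [h0, le_div_iff₀ (norm_pos_iff.2 (by rintro rfl; simp at hw))]
      exact hSw

end Crest.Agent.R162.LB7
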