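import Mathlib
import Crest.Agent.R162.OPDefs
import Crest.Agent.R162.LBDefs
import Crest.Agent.R162.Top

/-!
Row 162 (S0243), node LBSKEL (helper310): frozen statements (Props) of the lower bound on top of
`LBDefs` (helper888), format "fixed univalent `f`, fresh driving path `W`" (779: 14843, FIX 1, 2).

Constants are chosen in this order: `κ, c1` → `p0, K4, cs, q, η` → `CV, cJ, CZ, cmax` → `K3` → `θ`
→ (`cθ, K5`) → `c, c0, δ` → `ε0`.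
-/

set_option autoImplicit false

open MeasureTheory ProbabilityTheory Filter Topology Set Complex
open scoped NNReal ENNReal
open Crest.ProbabilityR.Loewner

namespace Crest.Agent.R162.LBS

open Crest.Agent.R162.FL Crest.Agent.R162.OS Crest.Agent.R162.LB

universe u

/-- univalent functions on the half-plane -/
structure Univ (f : ℂ → ℂ) : Prop where
  diff : DifferentiableOn ℂ f {z : ℂ | 0 < z.im}
  inj : Set.InjOn f {z : ℂ | 0 < z.im}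

/-- exponential on `[0,∞]` -/
noncomputable def expE (x : ℝ≥0∞) : ℝ≥0∞ := if x = ⊤ then ⊤ else ENNReal.ofReal (Real.exp x.toReal)

/-- a continuous driving path started at `0` -/
structure Drive (W : ℝ → ℝ) : Prop where
  cont : ContinuousOn W (Ici 0)
  zero : W 0 = 0

/-- start map of a step -/
structure Start (p : Par) (f : ℂ → ℂ) : Prop where
  univ : Univ f
  v_tendsto : Tendsto (vv p.u0 f) atTop (𝓝 1)
  lam : p.Λ f ≠ ⊤
  J_ne_top : ∀ y, Jv p.u0 p.q f y ≠ ⊤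

/-- all structural hypotheses on the parameters except the smallness of `θ`, `ε` -/
structure Ok (p : Par) : Prop where
  adm : p.Adm
  bdd : Bornology.IsBounded p.B
  κ0 : 0 < p.κ
  κ8 : p.κ < 8
  ε0 : 0 < p.ε
  c10 : 0 < p.c1
  c11 : p.c1 < 1
  q0 : 0 < p.q
  η0 : 0 < p.η
  qη : 4 * p.q + 2 * p.η ≤ 1 / 2
  θ0 : 0 < p.θ
  θ1 : p.θ < 1 / 2
  K3 : 1 ≤ p.K3
  K4 : 1 ≤ p.K4
  cs0 : 0 < p.cs

/-- parameters -/
def mkP (κ c1 q η cs K4 K3 θ ε : ℝ) (B : Set ℂ) (u0 : ℂ → ℝ) : Par :=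
  { κ := κ, ε := ε, c1 := c1, q := q, η := η, θ := θ, K3 := K3, K4 := K4, cs := cs, u0 := u0, B := B }

/-- a statement about one step, for all admissible data with `θ ≤ θ₀`, `ε ≤ ε₀(θ)` -/
def ForSmall (κ c1 q η cs K4 K3 : ℝ) (S : Par → Prop) : Prop :=
  ∃ θ₀ : ℝ, 0 < θ₀ ∧ ∀ θ : ℝ, 0 < θ → θ ≤ θ₀ → ∃ ε₀ : ℝ, 0 < ε₀ ∧ ∀ ε : ℝ, 0 < ε → ε ≤ ε₀ →
    ∀ (B : Set ℂ) (u0 : ℂ → ℝ), Ok (mkP κ c1 q η cs K4 K3 θ ε B u0) →
      S (mkP κ c1 q η cs K4 K3 θ ε B u0)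

/-- a statement about a Brownian set-up with a fixed start map -/
def ForBM (p : Par) (S : (f : ℂ → ℂ) → (Ω : Type u) → [MeasurableSpace Ω] → (P : Measure Ω) →
    (B : ℝ≥0 → Ω → ℝ) → Prop) : Prop :=
  ∀ (Ω : Type u) [MeasurableSpace Ω] (P : Measure Ω) [IsProbabilityMeasure P]
    (F : Filtration ℝ≥0 (inferInstance : MeasurableSpace Ω)) (B : ℝ≥0 → Ω → ℝ)
    (_ : IsBM F B P) (f : ℂ → ℂ) (_ : Start p f), S f Ω P B

/-! ### node outputs for one step -/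

/-- LB1 (791), `CV, cJ` depend only on `q, η` -/
def LB1S (CV cJ : ℝ) (p : Par) : Prop :=
  ∀ f, Start p f → ∀ W, Drive W →
    p.Λ (Par.st f W (p.T f W)) +
        ENNReal.ofReal (cJ * p.varpi f) * Jv p.u0 p.q f (10 * rad W (p.T f W)) ≤
      p.Λ f + ENNReal.ofReal (CV * p.varpi f) *
        (1 + Jv p.u0 p.q (Par.st f W (p.T f W)) (10 * rad W (p.T f W)))


/-- LB2b + LB3b (636, 268): the step ends by `T₁` except with probability `e` -/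
def LBrS (e : ℝ) (p : Par) : Prop :=
  ForBM.{u} p fun f _ _ P B =>
    P {ω | rad (driving p.κ B ω) (p.T f (driving p.κ B ω)) ≠ p.rho1 f} ≤ ENNReal.ofReal e

/-- LB4 (771): consumption of area in case A (the end by `T₂, T₃` is excluded) -/
def LB4S (p0 cθ : ℝ) (p : Par) : Prop :=
  ForBM.{u} p fun f _ _ P B => p.CaseA f →
    ENNReal.ofReal p0 ≤ P {ω |
      rad (driving p.κ B ω) (p.T f (driving p.κ B ω)) = p.rho1 f →
      p.A (Par.st f (driving p.κ B ω) (p.T f (driving p.κ B ω))) + ENNReal.ofReal (cθ * p.varpi f) ≤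
        p.A f}

/-- total content of one step (deterministic; T3 thresholds + LB3c): `≤ K5 ϖ` -/
def LBcS (K5 : ℝ) (p : Par) : Prop :=
  ∀ f, Start p f → ∀ W, Drive W → p.cont f W (Ioc 0 (p.T f W)) ≤ ENNReal.ofReal (K5 * p.varpi f)


/-- LB5 = STEP THEOREM (561) -/
def StepS (c0 c δ : ℝ) (p : Par) : Prop :=
  ForBM.{u} p fun f _ _ P B =>
    ∫⁻ ω, expE (ENNReal.ofReal c0 *
          p.cont f (driving p.κ B ω) (Ioc 0 (p.T f (driving p.κ B ω))) +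
        ENNReal.ofReal c * p.Λ (Par.st f (driving p.κ B ω) (p.T f (driving p.κ B ω))) +
        p.A (Par.st f (driving p.κ B ω) (p.T f (driving p.κ B ω)))) ∂P ≤
      ENNReal.ofReal ((1 - δ) ^ p.varpi f) * expE (ENNReal.ofReal c * p.Λ f + p.A f)

/-! ### quantified outputs -/



/-- physical content of `V` collected at times in `(s, t]` (start map `id`) -/
noncomputable def muI (κ ε c1 : ℝ) (W : ℝ → ℝ) (s t : ℝ) (V : Set ℂ) : ℝ≥0∞ :=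
  ∫⁻ w in V, cz κ ε c1 1 W (Ioc s t) w

/-- `u₀` of a ball -/
noncomputable def uB (w0 : ℂ) (R : ℝ) (z : ℂ) : ℝ := max 1 (Metric.infDist z (Metric.closedBall w0 R))

/-- EXPONENTIAL BOUND (384 proves `StepAll → ExpAll`). -/
def ExpAll (κ c1 : ℝ) : Prop :=
  ∃ q η θ c0 c ε₀ : ℝ, 0 < q ∧ 0 < η ∧ 4 * q + 2 * η ≤ 1 / 2 ∧ 0 < θ ∧ θ < 1 / 2 ∧ 0 < c0 ∧ 0 < c ∧
    0 < ε₀ ∧
    ∀ (w0 : ℂ) (R ε : ℝ), 1 ≤ R → 0 < ε → ε ≤ ε₀ →
    ∀ (Ω : Type u) [MeasurableSpace Ω] (P : Measure Ω) [IsProbabilityMeasure P]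
      (F : Filtration ℝ≥0 (inferInstance : MeasurableSpace Ω)) (B : ℝ≥0 → Ω → ℝ)
      (_ : IsBM F B P) (σ : Ω → ℝ≥0) (_ : IsST F σ) (A : Set Ω) (_ : EvST F σ A) (t : ℝ≥0),
      ∫⁻ ω in A, expE (ENNReal.ofReal c0 *
          muI κ ε c1 (driving κ B ω) (σ ω) t (Metric.closedBall w0 R)) ∂P ≤
        ∫⁻ ω in A, expE (ENNReal.ofReal c * Lam (uB w0 R) q η (ffl (driving κ B ω) (σ ω)) +
          area (uB w0 R) η (θ / 10) (ffl (driving κ B ω) (σ ω))) ∂P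

/-- start weight `G_0(w) = (Im w)^(κ/8-1) (Im w/|w|)^(8/κ-1)` -/
noncomputable def G0 (κ : ℝ) (w : ℂ) : ℝ := w.im ^ (κ / 8 - 1) * (w.im / ‖w‖) ^ (8 / κ - 1)

/-- LB7c (893, 126): tail of the content of a ball of radius `√N`, unit scale normalisation
(`ExpAll → Frost7`, with LB7a, LB7b, U1, U2, OP1). -/
def Frost7 (κ c1 : ℝ) : Prop :=
  ∀ cS : ℝ, 0 < cS → ∃ Cμ C Kt ε₀ : ℝ, 0 < Cμ ∧ 0 < C ∧ 0 < Kt ∧ 0 < ε₀ ∧
    ∀ (N : ℝ) (w0 : ℂ) (ε : ℝ), 1 ≤ N → Kt * Real.sqrt N ≤ w0.im → cS * ‖w0‖ ≤ w0.im →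
      0 < ε → ε ≤ ε₀ →
    ∀ (Ω : Type u) [MeasurableSpace Ω] (P : Measure Ω) [IsProbabilityMeasure P]
      (F : Filtration ℝ≥0 (inferInstance : MeasurableSpace Ω)) (B : ℝ≥0 → Ω → ℝ)
      (_ : IsBM F B P) (t : ℝ≥0),
      ∫⁻ ω in {ω | ENNReal.ofReal (Cμ * N) <
            mu κ ε c1 (driving κ B ω) t (Metric.closedBall w0 (Real.sqrt N))},
          mu κ ε c1 (driving κ B ω) t (Metric.closedBall w0 (Real.sqrt N)) ∂P ≤
        ENNReal.ofReal (C * Real.exp (-2 * N) * N * G0 κ w0)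

/-- the test square of `LB8` -/
def Qsq : Set ℂ := {z : ℂ | 0 ≤ z.re ∧ z.re < 1 ∧ 1 ≤ z.im ∧ z.im < 2}

/-- MASS (499 + 926 + 685): pointwise mean content on the test square up to a fixed time `n`. -/
def MassAll (κ c1 : ℝ) : Prop :=
  ∃ (m0 ε₀ : ℝ) (n : ℕ), 0 < m0 ∧ 0 < ε₀ ∧ 0 < n ∧
    ∀ ε : ℝ, 0 < ε → ε ≤ ε₀ → ∀ z ∈ Qsq,
    ∀ (Ω : Type u) [MeasurableSpace Ω] (P : Measure Ω) [IsProbabilityMeasure P]
      (F : Filtration ℝ≥0 (inferInstance : MeasurableSpace Ω)) (B : ℝ≥0 → Ω → ℝ)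
      (_ : IsBM F B P),
      ENNReal.ofReal m0 ≤ ∫⁻ ω, Ct κ ε c1 (driving κ B ω) n z ∂P

end Crest.Agent.R162.LBS
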