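import Mathlib
import Crest.Agent.R162.LB1
import Crest.Agent.R162.FLC3
import Crest.Agent.R162.LBDefs

-- ▼ part R162/LB1F
section

/-!
# Row 162, node LB1, with the flow map `F = ffl W T`
-/

set_option autoImplicit false

namespace Crest.Agent.R162.LB1

open Complex Set Metric Filter Topology MeasureTheory
open Crest.Agent.R162.KB1 Crest.Agent.R162.FL Crest.Agent.R162.FLC
open scoped ComplexConjugate ENNReal

variable {W : ℝ → ℝ} {T r : ℝ}

theorem differentiableOn_F (hW : ContinuousOn W (Ici 0)) (hT : 0 ≤ T) :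
    DifferentiableOn ℂ (ffl W T) Hs := differentiableOn_ffl hW hT

theorem injOn_F (hW : ContinuousOn W (Ici 0)) (hT : 0 ≤ T) : InjOn (ffl W T) Hs :=
  injOn_ffl hW hT


theorem F1_F (hW : ContinuousOn W (Ici 0)) (hT : 0 ≤ T) (hr : 0 < r) (hTr : T ≤ r ^ 2)
    (hWr : |W T| ≤ r) {y : ℝ} (hy : 10 * r ≤ y) : ‖ffl W T (y * I) - y * I‖ ≤ 3 * r :=
  norm_ffl_I_sub_le hW hT hTr hWr (by linarith) hy

theorem F2_F (hW : ContinuousOn W (Ici 0)) (hT : 0 ≤ T) (hTr : T ≤ r ^ 2) {y : ℝ} (hy : 0 < y) :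
    |Real.log ‖deriv (ffl W T) (y * I)‖| ≤ 2 * r ^ 2 / y ^ 2 := by
  have hz : 0 < ((y : ℂ) * I).im := by simpa using hy
  rw [deriv_ffl hW hT hz, Complex.norm_exp, Real.log_exp]
  exact (Complex.abs_re_le_norm _).trans (norm_integral_I_le hW hT hTr hy)

/-- the step hypotheses for the flow map -/
theorem step_flow (hW : ContinuousOn W (Ici 0)) (hT : 0 ≤ T) (hr : 0 < r) (hTr : T ≤ r ^ 2)
    (hWr : |W T| ≤ r) {u0 : ℂ → ℝ} {f : ℂ → ℂ} {x : ℂ}
    (near : ∀ y, 0 < y → y ≤ 10 * r → ‖f (y * I) - x‖ ≤ u0 x / 32)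
    (v_le : ∀ y, 0 < y → y ≤ 10 * r → vv u0 f y ≤ 1)
    (tip : ∀ y, 0 < y → y ≤ 10 * r →
      ‖f (ffl W T (y * I)) - f ((10 * r : ℝ) * I)‖ ≤ u0 x / 16) :
    Step u0 f (ffl W T) r x where
  r_pos := hr
  F1 := fun _ hy => F1_F hW hT hr hTr hWr hy
  F2 := fun y hy => by
    have hy0 : 0 < y := by linarith
    refine (F2_F hW hT hTr hy0).trans ?_
    gcongr
    norm_num
  near := near
  v_le := v_le
  tip := tip


/-- `ups` only depends on the germ -/
theorem ups_congr {f g : ℂ → ℂ} (h : EqOn f g Hs) {z : ℂ} (hz : 0 < z.im) : ups f z = ups g z := by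
  unfold ups
  rw [(h.eventuallyEq_of_mem (isOpen_Hs.mem_nhds hz)).deriv_eq]

theorem Psi_congr {u0 : ℂ → ℝ} {q η : ℝ} {f g : ℂ → ℂ} (h : EqOn f g Hs) {z : ℂ}
    (hz : 0 < z.im) : Psi u0 q η f z = Psi u0 q η g z := by
  unfold Psi mm
  rw [ups_congr h hz, h hz]


theorem Lam_congr {u0 : ℂ → ℝ} {q η : ℝ} {f g : ℂ → ℂ} (h : EqOn f g Hs) :
    Lam u0 q η f = Lam u0 q η g := by
  unfold Lam
  refine setLIntegral_congr_fun measurableSet_Ioi (fun y hy => ?_)
  have hz : 0 < ((y : ℂ) * I).im := by simpa using hy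
  simp only [Psi_congr h hz]




end Crest.Agent.R162.LB1
end

-- ▼ part R162/LBStepD

/-!
# Row 162, node LB-STEPD (helper791): deterministic facts about the step time `T` of `LBDefs`
-/

set_option autoImplicit false
set_option maxHeartbeats 400000

open Set MeasureTheory Complex Filter Topology
open scoped ENNReal

namespace Crest.Agent.R162.LBStepD

open Crest.Agent.R162.FL Crest.Agent.R162.FLC Crest.Agent.R162.LB

/-! ### the radius of the fresh path -/

section rad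

variable {W : ℝ → ℝ}

theorem image_abs_Icc {t : ℝ} (ht : 0 ≤ t) (W : ℝ → ℝ) :
    (fun s => |W s|) '' Icc 0 t = (fun u => |W (max 0 (t * u))|) '' Icc 0 1 := by
  ext a
  constructor
  · rintro ⟨s, hs, rfl⟩
    rcases eq_or_lt_of_le ht with h | h
    · refine ⟨0, ⟨le_rfl, zero_le_one⟩, ?_⟩
      have : s = 0 := le_antisymm (by rw [h]; exact hs.2) hs.1
      simp [this]
    · refine ⟨s / t, ⟨div_nonneg hs.1 ht, (div_le_one h).2 hs.2⟩, ?_⟩
      have : t * (s / t) = s := by field_simp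
      simp only [this, max_eq_right hs.1]
  · rintro ⟨u, hu, rfl⟩
    refine ⟨t * u, ⟨mul_nonneg ht hu.1, mul_le_of_le_one_right ht hu.2⟩, ?_⟩
    simp only [max_eq_right (mul_nonneg ht hu.1)]

/-- the radius is continuous -/
theorem continuousOn_rad (hW : ContinuousOn W (Ici 0)) : ContinuousOn (rad W) (Ici 0) := by
  have hW' : Continuous fun s : ℝ => W (max 0 s) :=
    hW.comp_continuous (by fun_prop) fun s => mem_Ici.2 (le_max_left _ _)
  have h1 : Continuous fun t : ℝ => sSup ((fun u => |W (max 0 (t * u))|) '' Icc 0 1) := by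
    refine isCompact_Icc.continuous_sSup (f := fun t u => |W (max 0 (t * u))|) ?_
    exact (hW'.comp (by fun_prop : Continuous fun p : ℝ × ℝ => p.1 * p.2)).abs
  have h2 : Continuous fun t : ℝ =>
      max (Real.sqrt t) (sSup ((fun u => |W (max 0 (t * u))|) '' Icc 0 1)) :=
    Real.continuous_sqrt.max h1
  refine h2.continuousOn.congr fun t ht => ?_
  unfold rad
  rw [image_abs_Icc ht]

theorem rad_pos {t : ℝ} (ht : 0 < t) : 0 < rad W t :=
  lt_of_lt_of_le (Real.sqrt_pos.2 ht) (sqrt_le_rad W t)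

theorem continuousAt_rad (hW : ContinuousOn W (Ici 0)) {t : ℝ} (ht : 0 < t) :
    ContinuousAt (rad W) t :=
  (continuousOn_rad hW).continuousAt (Ici_mem_nhds ht)

theorem rad_zero (h0 : W 0 = 0) : rad W 0 = 0 := by
  unfold rad
  simp [h0]

end rad

/-! ### facts at time `T` -/

section atT

variable {p : Par} {f : ℂ → ℂ} {W : ℝ → ℝ}

theorem eventually_lt_T (hT : 0 < p.T f W) :
    ∀ᶠ t in 𝓝[<] (p.T f W), 0 < t ∧ t < p.T f W ∧ ¬ p.Bad f W t := by
  filter_upwards [Ioo_mem_nhdsLT hT] with t ht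
  exact ⟨ht.1, ht.2, not_bad_of_lt p ht.1 ht.2⟩

/-- `ρ_T ≤ ρ₁` -/
theorem rad_T_le (hW : ContinuousOn W (Ici 0)) (hT : 0 < p.T f W) :
    rad W (p.T f W) ≤ p.rho1 f := by
  refine le_of_tendsto ((continuousAt_rad hW hT).tendsto.mono_left nhdsWithin_le_nhds)
    ((eventually_lt_T hT).mono fun t ht => ?_)
  by_contra h
  exact ht.2.2 (Or.inl (not_le.1 h))


/-- the tip condition holds in closed form at every time `t ≤ T`, `t > 0` -/
theorem tip_T (hW : ContinuousOn W (Ici 0)) (hf : ContinuousOn f {z | 0 < z.im})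
    {t0 : ℝ} (ht0 : 0 < t0) (ht0T : t0 ≤ p.T f W) {y : ℝ} (hy : 0 < y)
    (hy' : y ≤ 10 * rad W t0) :
    ‖f (ffl W t0 (y * I)) - f ((10 * rad W t0 : ℝ) * I)‖ ≤ p.u0 (p.x f) / 16 := by
  -- not bad for `t < t0`
  have hev : ∀ᶠ t in 𝓝[<] t0, 0 < t ∧ t < t0 ∧ ¬ p.Bad f W t := by
    filter_upwards [Ioo_mem_nhdsLT ht0] with t ht
    exact ⟨ht.1, ht.2, not_bad_of_lt p ht.1 (lt_of_lt_of_le ht.2 ht0T)⟩
  have hr0 : 0 < rad W t0 := rad_pos ht0
  have hradc : Tendsto (rad W) (𝓝[<] t0) (𝓝 (rad W t0)) :=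
    (continuousAt_rad hW ht0).tendsto.mono_left nhdsWithin_le_nhds
  have hfat : ∀ z : ℂ, 0 < z.im → ContinuousAt f z := fun z hz =>
    hf.continuousAt (isOpen_H.mem_nhds hz)
  -- strict case
  have key : ∀ y : ℝ, 0 < y → y < 10 * rad W t0 →
      ‖f (ffl W t0 (y * I)) - f ((10 * rad W t0 : ℝ) * I)‖ ≤ p.u0 (p.x f) / 16 := by
    intro y hy hy'
    have hz : 0 < ((y : ℂ) * I).im := by simpa using hy
    have hc1 : ContinuousAt (fun t : ℝ => ffl W t (y * I)) t0 := by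
      have h1 : ContinuousAt (fun q : ℝ × ℂ => ffl W q.1 q.2) (t0, (y : ℂ) * I) :=
        (continuousOn_ffl hW).continuousAt
          (prod_mem_nhds (Ici_mem_nhds ht0) (isOpen_H.mem_nhds hz))
      exact h1.comp (f := fun t : ℝ => (t, (y : ℂ) * I))
        (by fun_prop : ContinuousAt (fun t : ℝ => (t, (y : ℂ) * I)) t0)
    have hc2 : ContinuousAt (fun t : ℝ => f (ffl W t (y * I))) t0 :=
      ContinuousAt.comp (f := fun t : ℝ => ffl W t (y * I))
        (hfat _ (ffl_im_pos hW ht0.le hz)) hc1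
    have hc3 : Tendsto (fun t : ℝ => f ((10 * rad W t : ℝ) * I)) (𝓝[<] t0)
        (𝓝 (f ((10 * rad W t0 : ℝ) * I))) := by
      have h2 : ContinuousAt f (((10 * rad W t0 : ℝ) : ℂ) * I) := hfat _ (by simpa using hr0)
      refine h2.tendsto.comp ?_
      have h3 : Tendsto (fun r : ℝ => ((10 * r : ℝ) : ℂ) * I) (𝓝 (rad W t0))
          (𝓝 (((10 * rad W t0 : ℝ) : ℂ) * I)) :=
        (by fun_prop : Continuous fun r : ℝ => ((10 * r : ℝ) : ℂ) * I).tendsto _
      exact h3.comp hradc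
    have hlim : Tendsto (fun t : ℝ => ‖f (ffl W t (y * I)) - f ((10 * rad W t : ℝ) * I)‖) (𝓝[<] t0)
        (𝓝 ‖f (ffl W t0 (y * I)) - f ((10 * rad W t0 : ℝ) * I)‖) :=
      ((hc2.tendsto.mono_left nhdsWithin_le_nhds).sub hc3).norm
    refine le_of_tendsto hlim ?_
    have h4 : ∀ᶠ t in 𝓝[<] t0, y < 10 * rad W t := by
      have h5 : Tendsto (fun t => 10 * rad W t) (𝓝[<] t0) (𝓝 (10 * rad W t0)) :=
        hradc.const_mul 10
      exact h5.eventually_const_lt hy'
    filter_upwards [hev, h4] with t ht h5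
    by_contra h6
    exact ht.2.2 (Or.inr (Or.inl ⟨y, hy, h5.le, not_le.1 h6⟩))
  rcases lt_or_eq_of_le hy' with h | h
  · exact key y hy h
  · -- boundary value `y = 10 ρ`
    have hz : 0 < ((y : ℂ) * I).im := by simpa using hy
    have hc1 : ContinuousAt (fun s : ℝ => f (ffl W t0 (s * I))) y := by
      have h1 : ContinuousAt (ffl W t0) ((y : ℂ) * I) :=
        ((differentiableOn_ffl hW ht0.le).continuousOn).continuousAt (isOpen_H.mem_nhds hz)
      have h2 : ContinuousAt (fun s : ℝ => ffl W t0 (s * I)) y :=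
        ContinuousAt.comp (f := fun s : ℝ => (s : ℂ) * I) h1
          (by fun_prop : ContinuousAt (fun s : ℝ => (s : ℂ) * I) y)
      exact ContinuousAt.comp (f := fun s : ℝ => ffl W t0 (s * I))
        (hfat _ (ffl_im_pos hW ht0.le hz)) h2
    have hlim : Tendsto (fun s : ℝ => ‖f (ffl W t0 (s * I)) - f ((10 * rad W t0 : ℝ) * I)‖)
        (𝓝[<] y) (𝓝 ‖f (ffl W t0 (y * I)) - f ((10 * rad W t0 : ℝ) * I)‖) :=
      ((hc1.tendsto.mono_left nhdsWithin_le_nhds).sub_const _).norm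
    refine le_of_tendsto hlim ?_
    filter_upwards [Ioo_mem_nhdsLT hy] with s hs
    exact key s hs.1 (by rw [← h]; exact hs.2)


end atT

/-! ### bridge to LB1 -/

section lb1

variable {u0 : ℂ → ℝ} {q η : ℝ} {f : ℂ → ℂ}




theorem u0_lip (h : LipschitzWith 1 u0) (a b : ℂ) : |u0 a - u0 b| ≤ ‖a - b‖ := by
  have := h.dist_le_mul a b
  rwa [Real.dist_eq, NNReal.coe_one, one_mul, dist_eq_norm] at this

variable {p : Par} {W : ℝ → ℝ}

/-- the facts about the old geodesic needed at the scales `y ≤ 10 ρ₁` -/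
structure Old (p : Par) (f : ℂ → ℂ) : Prop where
  near : ∀ y, 0 < y → y ≤ 10 * p.rho1 f → ‖f (y * I) - p.x f‖ ≤ p.u0 (p.x f) / 32
  v_le : ∀ y, 0 < y → y ≤ 10 * p.rho1 f → vv p.u0 f y ≤ 1

/-- **potential drop over the step** (`ℝ≥0∞` form) -/
theorem dL_le (hadm : p.Adm) (hq : 0 ≤ p.q) (hη : 0 ≤ p.η) (hqη : 4 * p.q + 2 * p.η ≤ 1 / 2)
    (hf : DifferentiableOn ℂ f KB1.Hs) (hfi : InjOn f KB1.Hs) (hold : Old p f)
    (hW : ContinuousOn W (Ici 0)) (hT : 0 < p.T f W) :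
    p.Λ (Par.st f W (p.T f W)) +
        ENNReal.ofReal (1 / 2 * p.varpi f) * Jv p.u0 p.q f (10 * rad W (p.T f W)) ≤
      p.Λ f + ENNReal.ofReal (2 * p.varpi f) *
          Jv p.u0 p.q (Par.st f W (p.T f W)) (10 * rad W (p.T f W)) +
        ENNReal.ofReal (5 * p.varpi f) := by
  have hr : 0 < rad W (p.T f W) := rad_pos hT
  have hle : rad W (p.T f W) ≤ p.rho1 f := rad_T_le hW hT
  exact LB1.lb1 hadm.one_le (u0_lip hadm.lip) hq hη hqη hf hfi (LB1.differentiableOn_F hW hT.le)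
    (LB1.injOn_F hW hT.le)
    (LB1.step_flow hW hT.le hr (le_rad_sq hT.le) (abs_le_rad hW hT.le le_rfl)
      (fun y hy hy' => hold.near y hy (by linarith))
      (fun y hy hy' => hold.v_le y hy (by linarith))
      (fun y hy hy' => tip_T hW hf.continuousOn hT le_rfl hy hy'))


end lb1

end Crest.Agent.R162.LBStepD
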