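import Mathlib
import Crest.Agent.R162.LB5
import Crest.Agent.R162.LBStepIn2
import Crest.Agent.R162.LB2c
import Crest.Agent.R162.LBSkel2
import Crest.Agent.R162.LBStepIn
import Crest.Agent.R162.LBStep1
import Crest.Agent.R162.LB0D
import Crest.Agent.R162.LB2h
import Crest.Agent.R162.LBStepD

-- ▼ part R162/LB5b
section

/-!
Row 162, node LB5 (helper301): deterministic-parameter version of the step (fixed univalent `f`,
fresh Brownian path): `w = ϖ(f)` is a number. Hypotheses only almost surely, no measurability of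
`cont`, `dL`, `dA` needed, `Z` only a.e.-measurable.
-/

set_option autoImplicit false

open MeasureTheory ProbabilityTheory Set
open scoped NNReal ENNReal

namespace Crest.Agent.R162.LBI

/-- **Node LB5, fixed `f`.**  Case A is the first, case B the second alternative of `hAB`. -/
theorem step_det {Ω : Type*} {m : MeasurableSpace Ω} {P : Measure Ω}
    [IsProbabilityMeasure P] {p CV CZ cJ K3 cth K5 c c0 δ cmax : ℝ}
    (hgood : Good p CV CZ cJ K3 cth K5 c c0 δ) (hcmax : 2 * c ≤ cmax)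
    (hp : 0 < p) (hp1 : p ≤ 1) (hCZ : 0 ≤ CZ) (hcJ : 0 < cJ) (hK3 : 0 ≤ K3) (hcth : 0 < cth)
    {w : ℝ} (hw0 : 0 < w) (hw1 : w ≤ 1) {cont Z dA dL : Ω → ℝ} (hZm : AEMeasurable Z P)
    (hcont : ∀ᵐ ω ∂P, cont ω ≤ K5 * w)
    (hdL : ∀ᵐ ω ∂P, dL ω ≤ w * (CV + Z ω)) (hdA0 : ∀ᵐ ω ∂P, dA ω ≤ 0)
    (hZ : ∀ c', 0 < c' → c' ≤ cmax →
      ∫⁻ ω, ENNReal.ofReal (Real.exp (c' * Z ω)) ∂P ≤ ENNReal.ofReal (1 + CZ * c'))
    (hAB : (∃ E : Set Ω, MeasurableSet E ∧ ENNReal.ofReal (p / 2) ≤ P E ∧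
        ∀ᵐ ω ∂P, ω ∈ E → dA ω ≤ -(cth * w)) ∨
      (∃ E : Set Ω, MeasurableSet E ∧ ENNReal.ofReal (7 / 8) ≤ P E ∧
        ∀ᵐ ω ∂P, ω ∈ E → dL ω ≤ w * (CV + Z ω - cJ * K3))) :
    ∫⁻ ω, ENNReal.ofReal (Real.exp (c0 * cont ω + c * dL ω + dA ω)) ∂P ≤
      ENNReal.ofReal ((1 - δ) ^ w) := by
  have hc := hgood.hc
  have hc0 := hgood.hc0
  have hC : 0 ≤ 1 + CZ * (2 * c) := by positivity
  have ha : 0 < 1 - δ := by linarith [hgood.hδ1]
  set Z' : Ω → ℝ := hZm.mk Z with hZ'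
  have hZ'm : Measurable Z' := hZm.measurable_mk
  have hZZ : ∀ᵐ ω ∂P, Z ω = Z' ω := hZm.ae_eq_mk
  have hZ2 : ∫⁻ ω in univ, ENNReal.ofReal (Real.exp ((2 * c) * Z' ω)) ∂P ≤
      ENNReal.ofReal (1 + CZ * (2 * c)) * P univ := by
    rw [measure_univ, mul_one, Measure.restrict_univ]
    refine le_trans (le_of_eq ?_) (hZ (2 * c) (by linarith) hcmax)
    refine lintegral_congr_ae ?_
    filter_upwards [hZZ] with ω hω
    rw [hω]
  -- the common end of both cases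
  have hend : ∀ (E : Set Ω) (s l : ℝ), MeasurableSet E → 0 ≤ s → s ≤ 1 → 0 ≤ l →
      ENNReal.ofReal s ≤ P E →
      Real.exp (c0 * K5 + c * CV) * (Real.sqrt (1 + CZ * (2 * c)) *
        Real.sqrt (1 - s * (1 - Real.exp (-(2 * l))))) ≤ 1 - δ →
      (∀ᵐ ω ∂P, c0 * cont ω + c * dL ω + dA ω ≤
        w * (c0 * K5 + c * CV + (c * Z' ω + E.indicator (fun _ => -l) ω))) →
      ∫⁻ ω, ENNReal.ofReal (Real.exp (c0 * cont ω + c * dL ω + dA ω)) ∂P ≤
        ENNReal.ofReal ((1 - δ) ^ w) := by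
    intro E s l hE hs0 hs1 hl hsE hnum hpt
    set U : Ω → ℝ := E.indicator (fun _ => -l) with hU
    have hUm : Measurable U := measurable_const.indicator hE
    have hU0 : ∀ ω, U ω ≤ 0 := by
      intro ω
      by_cases h : ω ∈ E
      · simp only [hU, indicator_of_mem h]; linarith
      · simp only [hU, indicator_of_notMem h]; exact le_rfl
    have hUE : ∀ ω ∈ E, U ω ≤ -l := by
      intro ω h
      simp only [hU, indicator_of_mem h]; exact le_rfl
    have h1 := csbound (P := P) MeasurableSet.univ hE (s := s) (l := l) (c := c) (CZ := CZ)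
      hs0 hs1 hl (by rw [measure_univ, mul_one, univ_inter]; exact hsE) hZ'm hUm hU0 hUE hZ2 hC
    rw [measure_univ, mul_one, Measure.restrict_univ] at h1
    set Y : Ω → ℝ := fun ω => c0 * K5 + c * CV + (c * Z' ω + U ω) with hY
    have hYm : Measurable Y := measurable_const.add ((hZ'm.const_mul c).add hUm)
    have h2 : ∫⁻ ω, ENNReal.ofReal (Real.exp (Y ω)) ∂P ≤ ENNReal.ofReal (1 - δ) := by
      calc ∫⁻ ω, ENNReal.ofReal (Real.exp (Y ω)) ∂P
          = ENNReal.ofReal (Real.exp (c0 * K5 + c * CV)) *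
            ∫⁻ ω, ENNReal.ofReal (Real.exp (c * Z' ω + U ω)) ∂P := by
            rw [← lintegral_const_mul' _ _ ENNReal.ofReal_ne_top]
            refine lintegral_congr fun ω => ?_
            rw [← ENNReal.ofReal_mul (Real.exp_pos _).le, ← Real.exp_add]
        _ ≤ ENNReal.ofReal (Real.exp (c0 * K5 + c * CV)) *
            ENNReal.ofReal (Real.sqrt (1 + CZ * (2 * c)) *
              Real.sqrt (1 - s * (1 - Real.exp (-(2 * l))))) := by
            gcongr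
        _ ≤ ENNReal.ofReal (1 - δ) := by
            rw [← ENNReal.ofReal_mul (Real.exp_pos _).le]
            exact ENNReal.ofReal_le_ofReal hnum
    have h3 := jensen_rpow (G := ⊥) (P := P) bot_le ha hYm
      (measurable_const (a := w) : Measurable[⊥] fun _ : Ω => w) (fun _ => hw0) (fun _ => hw1)
      (by
        intro A hA
        rcases MeasurableSpace.measurableSet_bot_iff.1 hA with h | h
        · rw [h]; simp
        · rw [h, Measure.restrict_univ, measure_univ, mul_one]; exact h2)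
      (A := univ) MeasurableSet.univ
    rw [Measure.restrict_univ, lintegral_const, measure_univ, mul_one] at h3
    refine le_trans (lintegral_mono_ae ?_) h3
    filter_upwards [hpt] with ω hω
    exact ENNReal.ofReal_le_ofReal (Real.exp_le_exp.2 hω)
  rcases hAB with ⟨E, hE, hPE, hdAE⟩ | ⟨E, hE, hPE, hdLE⟩
  · refine hend E (p / 2) cth hE (by linarith) (by linarith) hcth.le hPE hgood.A ?_
    filter_upwards [hcont, hdL, hdA0, hdAE, hZZ] with ω h1 h2 h3 h4 h5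
    have h1' : c0 * cont ω ≤ c0 * (K5 * w) := mul_le_mul_of_nonneg_left h1 hc0.le
    have h2' : c * dL ω ≤ c * (w * (CV + Z' ω)) := by
      rw [← h5]; exact mul_le_mul_of_nonneg_left h2 hc.le
    have h3' : dA ω ≤ w * E.indicator (fun _ => -cth) ω := by
      by_cases h : ω ∈ E
      · rw [indicator_of_mem h]; linarith [h4 h]
      · rw [indicator_of_notMem h]; linarith
    calc c0 * cont ω + c * dL ω + dA ω
        ≤ c0 * (K5 * w) + c * (w * (CV + Z' ω)) + w * E.indicator (fun _ => -cth) ω := by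
          linarith
      _ = _ := by ring
  · refine hend E (7 / 8) (c * cJ * K3) hE (by norm_num) (by norm_num) (by positivity) hPE
      hgood.B ?_
    filter_upwards [hcont, hdL, hdA0, hdLE, hZZ] with ω h1 h2 h3 h4 h5
    have h1' : c0 * cont ω ≤ c0 * (K5 * w) := mul_le_mul_of_nonneg_left h1 hc0.le
    have h2' : c * dL ω ≤ w * (c * CV + c * Z' ω + E.indicator (fun _ => -(c * cJ * K3)) ω) := by
      by_cases h : ω ∈ E
      · rw [indicator_of_mem h]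
        have := mul_le_mul_of_nonneg_left (h4 h) hc.le
        rw [h5] at this
        calc _ ≤ _ := this
          _ = _ := by ring
      · rw [indicator_of_notMem h]
        have := mul_le_mul_of_nonneg_left h2 hc.le
        rw [h5] at this
        calc _ ≤ _ := this
          _ = _ := by ring
    calc c0 * cont ω + c * dL ω + dA ω
        ≤ c0 * (K5 * w) + w * (c * CV + c * Z' ω + E.indicator (fun _ => -(c * cJ * K3)) ω) := by
          linarith
      _ = _ := by ring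

end Crest.Agent.R162.LBI
end

-- ▼ part R162/LBStep
section

/-!
Row 162, node STEP (helper561): the STEP THEOREM `StepIn2 → StepAll`.
-/

set_option autoImplicit false

open MeasureTheory ProbabilityTheory Filter Topology Set Complex
open scoped NNReal ENNReal
open Crest.ProbabilityR.Loewner

namespace Crest.Agent.R162.LBStep

open Crest.Agent.R162.FL Crest.Agent.R162.OS Crest.Agent.R162.LB Crest.Agent.R162.LBS
open Crest.Agent.R162.LBI

universe u

/-- a measurable majorant of a `[0,∞]`-valued function with exponential (outer) tails -/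
theorem exists_majorant {Ω : Type*} [MeasurableSpace Ω] (P : Measure Ω) [IsProbabilityMeasure P]
    (Z : Ω → ℝ≥0∞) {a D : ℝ} (ha : 0 < a) (hD : 0 ≤ D)
    (htail : ∀ n : ℕ, P {ω | ENNReal.ofReal n < Z ω} ≤ ENNReal.ofReal (D * Real.exp (-(a * n)))) :
    ∃ Zb : Ω → ℝ, Measurable Zb ∧ (∀ᵐ ω ∂P, Z ω ≤ ENNReal.ofReal (Zb ω)) ∧ (∀ ω, 0 ≤ Zb ω) ∧
      ∀ c : ℝ, 0 ≤ c → c ≤ a / 2 → ∫⁻ ω, ENNReal.ofReal (Real.exp (c * Zb ω)) ∂P ≤
        ENNReal.ofReal (1 + Real.exp (a / 2) * D / (1 - Real.exp (-(a / 2))) * c) := by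
  classical
  set M : ℕ → Set Ω := fun n => ⋂ m ∈ Finset.range (n + 1),
    toMeasurable P {ω | ENNReal.ofReal m < Z ω} with hM
  have hMm : ∀ n, MeasurableSet (M n) := fun n =>
    Finset.measurableSet_biInter _ fun m _ => measurableSet_toMeasurable _ _
  have hMsub : ∀ n : ℕ, {ω | ENNReal.ofReal (n : ℝ) < Z ω} ⊆ M n := by
    intro n ω hω
    simp only [hM, mem_iInter, Finset.mem_range]
    intro m hm
    apply subset_toMeasurable
    have h1 : ENNReal.ofReal (m : ℝ) ≤ ENNReal.ofReal (n : ℝ) := by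
      apply ENNReal.ofReal_le_ofReal
      exact_mod_cast Nat.lt_succ_iff.1 hm
    exact lt_of_le_of_lt h1 hω
  have hMP : ∀ n, P (M n) ≤ ENNReal.ofReal (D * Real.exp (-(a * n))) := by
    intro n
    refine le_trans (measure_mono ?_) ((measure_toMeasurable _).trans_le (htail n))
    intro ω hω
    simp only [hM, mem_iInter, Finset.mem_range] at hω
    exact hω n (Nat.lt_succ_self n)
  have hMant : ∀ m n, m ≤ n → M n ⊆ M m := by
    intro m n hmn ω hω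
    simp only [hM, mem_iInter, Finset.mem_range] at hω ⊢
    intro k hk
    exact hω k (by omega)
  set T : Ω → ℝ≥0∞ := fun ω => ∑' n : ℕ, (M n).indicator (fun _ => (1 : ℝ≥0∞)) ω with hT
  have hTm : Measurable T :=
    Measurable.tsum fun n => measurable_const.indicator (hMm n)
  -- `T ω > n → ω ∈ M n`
  have hTn : ∀ (n : ℕ) (ω : Ω), (n : ℝ≥0∞) < T ω → ω ∈ M n := by
    intro n ω h
    by_contra hn
    have hz : ∀ k, k ∉ Finset.range n → (M k).indicator (fun _ => (1 : ℝ≥0∞)) ω = 0 := by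
      intro k hk
      rw [Finset.mem_range, not_lt] at hk
      exact indicator_of_notMem (fun h' => hn (hMant n k hk h')) _
    have hle : T ω ≤ n := by
      simp only [hT]
      rw [tsum_eq_sum hz]
      calc ∑ k ∈ Finset.range n, (M k).indicator (fun _ => (1 : ℝ≥0∞)) ω
          ≤ ∑ k ∈ Finset.range n, (1 : ℝ≥0∞) :=
            Finset.sum_le_sum fun k _ => indicator_le_self' (fun _ _ => zero_le_one) _
        _ = n := by simp
    exact absurd h (not_lt.2 hle)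
  have hZT : ∀ ω, Z ω ≤ T ω := by
    intro ω
    by_contra hcon
    rw [not_le] at hcon
    -- T ω < Z ω, T ω finite
    have hfin : T ω ≠ ⊤ := ne_top_of_lt hcon
    set N := ⌊(T ω).toReal⌋₊ with hN
    have h1 : ∀ k ≤ N, ω ∈ M k := by
      intro k hk
      apply hMsub
      show ENNReal.ofReal (k : ℝ) < Z ω
      refine lt_of_le_of_lt ?_ hcon
      rw [← ENNReal.ofReal_toReal hfin]
      apply ENNReal.ofReal_le_ofReal
      calc (k : ℝ) ≤ N := by exact_mod_cast hk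
        _ ≤ _ := Nat.floor_le ENNReal.toReal_nonneg
    have h2 : ((N + 1 : ℕ) : ℝ≥0∞) ≤ T ω := by
      simp only [hT]
      calc ((N + 1 : ℕ) : ℝ≥0∞) = ∑ k ∈ Finset.range (N + 1), (1 : ℝ≥0∞) := by simp
        _ = ∑ k ∈ Finset.range (N + 1), (M k).indicator (fun _ => (1 : ℝ≥0∞)) ω := by
            refine Finset.sum_congr rfl fun k hk => ?_
            rw [indicator_of_mem (h1 k (Nat.lt_succ_iff.1 (Finset.mem_range.1 hk)))]
        _ ≤ _ := ENNReal.sum_le_tsum _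
    have h3 : ((N + 1 : ℕ) : ℝ) ≤ (T ω).toReal := by
      have := ENNReal.toReal_mono hfin h2
      rwa [ENNReal.toReal_natCast] at this
    have h4 := Nat.lt_floor_add_one (T ω).toReal
    rw [← hN] at h4
    push_cast at h3
    linarith
  have hTtop : ∀ᵐ ω ∂P, T ω ≠ ⊤ := by
    rw [ae_iff]
    simp only [not_not]
    have hle : ∀ n : ℕ, P {ω | T ω = ⊤} ≤ ENNReal.ofReal (D * Real.exp (-(a * n))) := by
      intro n
      refine le_trans (measure_mono ?_) (hMP n)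
      intro ω hω
      apply hTn
      rw [mem_ofPred_eq] at hω
      rw [hω]
      exact ENNReal.natCast_lt_top n
    have hlim : Tendsto (fun n : ℕ => ENNReal.ofReal (D * Real.exp (-(a * n)))) atTop (𝓝 0) := by
      rw [← ENNReal.ofReal_zero]
      apply ENNReal.tendsto_ofReal
      have h1 : Tendsto (fun n : ℕ => a * (n : ℝ)) atTop atTop :=
        tendsto_natCast_atTop_atTop.const_mul_atTop ha
      have h2 := (Real.tendsto_exp_neg_atTop_nhds_zero.comp h1).const_mul D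
      simpa using h2
    exact le_antisymm (ge_of_tendsto' hlim hle) bot_le
  refine ⟨fun ω => (T ω).toReal, hTm.ennreal_toReal, ?_, fun ω => ENNReal.toReal_nonneg, ?_⟩
  · filter_upwards [hTtop] with ω h
    rw [ENNReal.ofReal_toReal h]
    exact hZT ω
  · intro c hc hca
    refine LB2c.exp_moment_tail P (fun ω => (T ω).toReal) ha hD (fun n => ?_) hc hca
    refine le_trans (measure_mono ?_) (hMP n)
    intro ω hω
    rw [mem_ofPred_eq] at hω
    apply hTn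
    by_contra hcon
    rw [not_lt] at hcon
    have := ENNReal.toReal_mono (by simp) hcon
    simp only [ENNReal.toReal_natCast] at this
    linarith

theorem varpi_pos {p : Par} (hA : p.Adm) (f : ℂ → ℂ) : 0 < p.varpi f := by
  unfold Par.varpi
  have := hA.one_le (p.x f)
  positivity

theorem varpi_le_one {p : Par} (hA : p.Adm) (hη : 0 ≤ p.η) (f : ℂ → ℂ) : p.varpi f ≤ 1 := by
  unfold Par.varpi
  exact Real.rpow_le_one_of_one_le_of_nonpos (hA.one_le _) (by linarith)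

theorem driving_drive {Ω : Type*} {m : MeasurableSpace Ω} {P : Measure Ω}
    {F : Filtration ℝ≥0 m} {B : ℝ≥0 → Ω → ℝ} (hB : IsBM F B P) (κ : ℝ) (ω : Ω) :
    Drive (driving κ B ω) := by
  constructor
  · have h := hB.cont ω
    have : Continuous (driving κ B ω) := by
      unfold driving
      exact continuous_const.mul (h.comp continuous_real_toNNReal)
    exact this.continuousOn
  · unfold driving
    simp [hB.zero ω]

/-- complement of the measurable hull of a set of small outer measure -/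
theorem hull_compl {Ω : Type*} [MeasurableSpace Ω] {P : Measure Ω} [IsProbabilityMeasure P]
    {S : Set Ω} {e : ℝ} (he : P S ≤ ENNReal.ofReal e) (he0 : 0 ≤ e) :
    MeasurableSet (toMeasurable P S)ᶜ ∧ ENNReal.ofReal (1 - e) ≤ P (toMeasurable P S)ᶜ ∧
      ∀ ω ∈ (toMeasurable P S)ᶜ, ω ∉ S := by
  have hm := measurableSet_toMeasurable P S
  refine ⟨hm.compl, ?_, fun ω hω h => hω (subset_toMeasurable P S h)⟩
  rw [prob_compl_eq_one_sub hm, measure_toMeasurable, ENNReal.ofReal_sub _ he0, ENNReal.ofReal_one]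
  exact tsub_le_tsub_left he 1

theorem lin_toReal {A B : ℝ≥0∞} {r : ℝ} (hr : 0 ≤ r) (h : A + ENNReal.ofReal r ≤ B)
    (hB : B ≠ ⊤) : A.toReal + r ≤ B.toReal := by
  have hA : A ≠ ⊤ := ne_top_of_le_ne_top hB (le_self_add.trans h)
  have := ENNReal.toReal_mono hB h
  rwa [ENNReal.toReal_add hA ENNReal.ofReal_ne_top, ENNReal.toReal_ofReal hr] at this

/-- the step inequality for one admissible parameter set -/
theorem step_one {p : Par} (hOk : Ok p) {p0 CV cJ D a cθ K5 e c c0 δ : ℝ}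
    (hp0 : 0 < p0) (hp1 : p0 ≤ 1) (hCV : 0 ≤ CV) (hcJ : 0 < cJ) (hD : 0 ≤ D) (ha : 0 < a)
    (hcθ : 0 < cθ) (hK5 : 0 ≤ K5) (he : 0 < e) (he8 : e ≤ 1 / 8) (hep : e ≤ p0 / 2)
    (hgood : Good p0 CV (Real.exp (a / 2) * D / (1 - Real.exp (-(a / 2))) * CV) cJ p.K3 cθ K5 c c0 δ)
    (hcmax : 2 * c * (CV + 1) ≤ a / 2)
    (h1 : LB1S CV cJ p) (hZ : ZtS.{u} D a p) (hr : LBrS.{u} e p) (h4 : LB4M.{u} p0 cθ p)
    (hc : LBcS K5 p) (hA : AmonoS p) (hJ : JBS p) : StepS.{u} c0 c δ p := by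
  classical
  intro Ω _ P _ F B hB f hf
  set W : Ω → ℝ → ℝ := fun ω => driving p.κ B ω with hWdef
  set T : Ω → ℝ := fun ω => p.T f (W ω) with hTdef
  have hdrive : ∀ ω, Drive (W ω) := fun ω => driving_drive hB p.κ ω
  have hw0 := varpi_pos hOk.adm f
  have hw1 := varpi_le_one hOk.adm hOk.η0.le f
  set w : ℝ := p.varpi f with hwdef
  -- trivial case
  have hpow : 0 < (1 - δ) ^ w := Real.rpow_pos_of_pos (by linarith [hgood.hδ1]) _
  by_cases hAf : p.A f = ⊤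
  · have : ENNReal.ofReal ((1 - δ) ^ w) * expE (ENNReal.ofReal c * p.Λ f + p.A f) = ⊤ := by
      rw [hAf, add_top]
      unfold expE
      rw [if_pos rfl, ENNReal.mul_top]
      exact (ENNReal.ofReal_pos.2 hpow).ne'
    rw [this]
    exact le_top
  have hΛf : p.Λ f ≠ ⊤ := hf.lam
  obtain ⟨Zb, hZbm, hZb, hZb0, hZbexp⟩ := exists_majorant P
    (fun ω => Jv p.u0 p.q (Par.st f (W ω) (T ω)) (10 * rad (W ω) (T ω))) ha hD
    (hZ Ω P F B hB f hf)
  set ΛT : Ω → ℝ≥0∞ := fun ω => p.Λ (Par.st f (W ω) (T ω)) with hΛT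
  set AT : Ω → ℝ≥0∞ := fun ω => p.A (Par.st f (W ω) (T ω)) with hAT
  set CT : Ω → ℝ≥0∞ := fun ω => p.cont f (W ω) (Ioc 0 (T ω)) with hCT
  set dL : Ω → ℝ := fun ω => (ΛT ω).toReal - (p.Λ f).toReal with hdL
  set dA : Ω → ℝ := fun ω => (AT ω).toReal - (p.A f).toReal with hdA
  have hATfin : ∀ ω, AT ω ≠ ⊤ := fun ω => ne_top_of_le_ne_top hAf (hA f hf (W ω) (hdrive ω))
  have hCTle : ∀ ω, CT ω ≤ ENNReal.ofReal (K5 * w) := fun ω => hc f hf (W ω) (hdrive ω)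
  have hCTfin : ∀ ω, CT ω ≠ ⊤ := fun ω => ne_top_of_le_ne_top ENNReal.ofReal_ne_top (hCTle ω)
  -- LB1 in real form
  have hL : ∀ᵐ ω ∂P, ΛT ω ≠ ⊤ ∧ ∀ r : ℝ, 0 ≤ r → ENNReal.ofReal r ≤
      Jv p.u0 p.q f (10 * rad (W ω) (T ω)) → dL ω ≤ w * (CV + CV * Zb ω - cJ * r) := by
    filter_upwards [hZb] with ω hω
    have hb := h1 f hf (W ω) (hdrive ω)
    have hR : p.Λ f + ENNReal.ofReal (CV * w) *
        (1 + Jv p.u0 p.q (Par.st f (W ω) (T ω)) (10 * rad (W ω) (T ω))) ≤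
        p.Λ f + ENNReal.ofReal (w * (CV + CV * Zb ω)) := by
      gcongr
      calc ENNReal.ofReal (CV * w) *
            (1 + Jv p.u0 p.q (Par.st f (W ω) (T ω)) (10 * rad (W ω) (T ω)))
          ≤ ENNReal.ofReal (CV * w) * (1 + ENNReal.ofReal (Zb ω)) := by gcongr
        _ = ENNReal.ofReal (CV * w) * ENNReal.ofReal (1 + Zb ω) := by
            rw [ENNReal.ofReal_add zero_le_one (hZb0 ω), ENNReal.ofReal_one]
        _ = ENNReal.ofReal (w * (CV + CV * Zb ω)) := by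
            rw [← ENNReal.ofReal_mul (by positivity)]
            congr 1; ring
    have hfin : p.Λ f + ENNReal.ofReal (w * (CV + CV * Zb ω)) ≠ ⊤ :=
      ENNReal.add_ne_top.2 ⟨hΛf, ENNReal.ofReal_ne_top⟩
    have hΛTfin : ΛT ω ≠ ⊤ := ne_top_of_le_ne_top hfin ((le_self_add.trans hb).trans hR)
    refine ⟨hΛTfin, fun r hr0 hrJ => ?_⟩
    have h2 : ΛT ω + ENNReal.ofReal (cJ * w * r) ≤
        p.Λ f + ENNReal.ofReal (w * (CV + CV * Zb ω)) := by
      refine le_trans ?_ (hb.trans hR)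
      gcongr
      rw [ENNReal.ofReal_mul (by positivity : 0 ≤ cJ * w)]
      gcongr
    have h3 := lin_toReal (by positivity : 0 ≤ cJ * w * r) h2 hfin
    have hZ0 := hZb0 ω
    rw [ENNReal.toReal_add hΛf ENNReal.ofReal_ne_top,
      ENNReal.toReal_ofReal (by positivity)] at h3
    simp only [hdL]
    nlinarith [h3]
  -- the exceptional set
  obtain ⟨hE1, hE2, hE3⟩ := hull_compl (hr Ω P F B hB f hf) he.le
  set G : Set Ω := (toMeasurable P {ω | rad (driving p.κ B ω) (p.T f (driving p.κ B ω)) ≠ p.rho1 f})ᶜ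
    with hG
  have hGrad : ∀ ω ∈ G, rad (W ω) (T ω) = p.rho1 f := by
    intro ω hω
    have := hE3 ω hω
    simpa using this
  have hden : 0 < 1 - Real.exp (-(a / 2)) := by
    have : Real.exp (-(a / 2)) < 1 := by rw [Real.exp_lt_one_iff]; linarith
    linarith
  have hstep := step_det (P := P) (p := p0) (CV := CV)
    (CZ := Real.exp (a / 2) * D / (1 - Real.exp (-(a / 2))) * CV) (cJ := cJ) (K3 := p.K3)
    (cth := cθ) (K5 := K5) (c := c) (c0 := c0) (δ := δ) (cmax := 2 * c) hgood le_rfl hp0 hp1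
    (by positivity) hcJ (by linarith [hOk.K3]) hcθ hw0 hw1
    (cont := fun ω => (CT ω).toReal) (Z := fun ω => CV * Zb ω) (dA := dA) (dL := dL)
    (hZbm.const_mul CV).aemeasurable
    (Eventually.of_forall fun ω => by
      have := ENNReal.toReal_mono ENNReal.ofReal_ne_top (hCTle ω)
      rwa [ENNReal.toReal_ofReal (by positivity)] at this)
    (by
      filter_upwards [hL] with ω hω
      have := hω.2 0 le_rfl (by simp)
      linarith)
    (Eventually.of_forall fun ω => by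
      have := ENNReal.toReal_mono hAf (hA f hf (W ω) (hdrive ω))
      simp only [hdA]
      linarith)
    (by
      intro c' hc' hc'2
      have h5 := hZbexp (c' * CV) (by positivity) (by
        have : c' * CV ≤ 2 * c * (CV + 1) := by nlinarith
        linarith)
      refine le_trans (le_of_eq ?_) (h5.trans (le_of_eq ?_))
      · refine lintegral_congr fun ω => ?_
        congr 2; ring
      · congr 1; ring)
    (by
      by_cases hca : p.CaseA f
      · left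
        obtain ⟨A, hAm, hAp, hAc⟩ := h4 Ω P F B hB f hf hca
        refine ⟨A ∩ G, hAm.inter hE1, ?_, ?_⟩
        · have h6 : P A ≤ P (A ∩ G) + P Gᶜ := by
            calc P A ≤ P ((A ∩ G) ∪ Gᶜ) := measure_mono fun ω hω => by
                  by_cases h : ω ∈ G
                  · exact Or.inl ⟨hω, h⟩
                  · exact Or.inr h
              _ ≤ _ := measure_union_le _ _
          have h7 : P Gᶜ ≤ ENNReal.ofReal (p0 / 2) := by
            rw [hG, compl_compl, measure_toMeasurable]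
            exact (hr Ω P F B hB f hf).trans (ENNReal.ofReal_le_ofReal hep)
          have h8 : ENNReal.ofReal p0 = ENNReal.ofReal (p0 / 2) + ENNReal.ofReal (p0 / 2) := by
            rw [← ENNReal.ofReal_add (by positivity) (by positivity)]; congr 1; ring
          have h9 : ENNReal.ofReal (p0 / 2) + ENNReal.ofReal (p0 / 2) ≤
              P (A ∩ G) + ENNReal.ofReal (p0 / 2) := by
            rw [← h8]
            exact hAp.trans (h6.trans (by gcongr))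
          exact (ENNReal.add_le_add_iff_right ENNReal.ofReal_ne_top).1 h9
        · refine Eventually.of_forall fun ω hω => ?_
          have h10 := hAc ω hω.1 (hGrad ω hω.2)
          have h11 := lin_toReal (by positivity : 0 ≤ cθ * w) h10 hAf
          simp only [hdA, hAT]
          linarith
      · right
        refine ⟨G, hE1, le_trans (ENNReal.ofReal_le_ofReal (by linarith)) hE2, ?_⟩
        filter_upwards [hL] with ω hω hωG
        refine hω.2 p.K3 (by linarith [hOk.K3]) ?_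
        rw [hGrad ω hωG]
        exact hJ f hf hca)
  -- conclusion
  set K : ℝ := c * (p.Λ f).toReal + (p.A f).toReal with hK
  have hexpE : expE (ENNReal.ofReal c * p.Λ f + p.A f) = ENNReal.ofReal (Real.exp K) := by
    have hne : ENNReal.ofReal c * p.Λ f + p.A f ≠ ⊤ :=
      ENNReal.add_ne_top.2 ⟨ENNReal.mul_ne_top ENNReal.ofReal_ne_top hΛf, hAf⟩
    unfold expE
    rw [if_neg hne, ENNReal.toReal_add (ENNReal.mul_ne_top ENNReal.ofReal_ne_top hΛf) hAf,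
      ENNReal.toReal_mul, ENNReal.toReal_ofReal hgood.hc.le]
  rw [hexpE]
  calc ∫⁻ ω, expE (ENNReal.ofReal c0 * CT ω + ENNReal.ofReal c * ΛT ω + AT ω) ∂P
      = ∫⁻ ω, ENNReal.ofReal (Real.exp (c0 * (CT ω).toReal + c * dL ω + dA ω)) *
          ENNReal.ofReal (Real.exp K) ∂P := by
        refine lintegral_congr_ae ?_
        filter_upwards [hL] with ω hω
        have hne : ENNReal.ofReal c0 * CT ω + ENNReal.ofReal c * ΛT ω + AT ω ≠ ⊤ := by
          refine ENNReal.add_ne_top.2 ⟨ENNReal.add_ne_top.2 ⟨?_, ?_⟩, hATfin ω⟩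
          · exact ENNReal.mul_ne_top ENNReal.ofReal_ne_top (hCTfin ω)
          · exact ENNReal.mul_ne_top ENNReal.ofReal_ne_top hω.1
        unfold expE
        rw [if_neg hne, ← ENNReal.ofReal_mul (Real.exp_pos _).le, ← Real.exp_add,
          ENNReal.toReal_add (ENNReal.add_ne_top.2
            ⟨ENNReal.mul_ne_top ENNReal.ofReal_ne_top (hCTfin ω),
              ENNReal.mul_ne_top ENNReal.ofReal_ne_top hω.1⟩) (hATfin ω),
          ENNReal.toReal_add (ENNReal.mul_ne_top ENNReal.ofReal_ne_top (hCTfin ω))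
            (ENNReal.mul_ne_top ENNReal.ofReal_ne_top hω.1),
          ENNReal.toReal_mul, ENNReal.toReal_mul, ENNReal.toReal_ofReal hgood.hc0.le,
          ENNReal.toReal_ofReal hgood.hc.le]
        congr 2
        simp only [hdL, hdA, hK]
        ring
    _ = (∫⁻ ω, ENNReal.ofReal (Real.exp (c0 * (CT ω).toReal + c * dL ω + dA ω)) ∂P) *
          ENNReal.ofReal (Real.exp K) := lintegral_mul_const' _ _ ENNReal.ofReal_ne_top
    _ ≤ _ := by gcongr


end Crest.Agent.R162.LBStep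
end

-- ▼ part R162/LBStep2
section

/-!
Row 162, node STEP (helper561): `StepAll0` (without `LBsS`).
-/

set_option autoImplicit false

open MeasureTheory ProbabilityTheory Filter Topology Set Complex
open scoped NNReal ENNReal
open Crest.ProbabilityR.Loewner

namespace Crest.Agent.R162.LBStep

open Crest.Agent.R162.FL Crest.Agent.R162.OS Crest.Agent.R162.LB Crest.Agent.R162.LBS
open Crest.Agent.R162.LBI

universe u

/-- the inputs of the step theorem with their quantifiers, without `LBsS` -/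
def StepIn3 (κ c1 : ℝ) : Prop :=
  ∃ p0 K4 cs q η : ℝ, 0 < p0 ∧ p0 ≤ 1 ∧ 1 ≤ K4 ∧ 0 < cs ∧ 0 < q ∧ 0 < η ∧ 4 * q + 2 * η ≤ 1 / 2 ∧
    ∃ CV cJ D a : ℝ, 0 ≤ CV ∧ 0 < cJ ∧ 0 ≤ D ∧ 0 < a ∧ ∀ K3 : ℝ, 1 ≤ K3 →
      ForSmall κ c1 q η cs K4 K3 (LB1S CV cJ) ∧
      ForSmall κ c1 q η cs K4 K3 (ZtS.{u} D a) ∧
      (∀ e : ℝ, 0 < e → ForSmall κ c1 q η cs K4 K3 (LBrS.{u} e)) ∧
      (∃ θ₀ > 0, ∀ θ, 0 < θ → θ ≤ θ₀ → ∃ cθ > 0, ∃ ε₀ > 0, ∀ ε, 0 < ε → ε ≤ ε₀ → ∀ B u0,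
        Ok (mkP κ c1 q η cs K4 K3 θ ε B u0) → LB4M.{u} p0 cθ (mkP κ c1 q η cs K4 K3 θ ε B u0)) ∧
      (∃ θ₀ > 0, ∀ θ, 0 < θ → θ ≤ θ₀ → ∃ K5 ≥ 0, ∃ ε₀ > 0, ∀ ε, 0 < ε → ε ≤ ε₀ → ∀ B u0,
        Ok (mkP κ c1 q η cs K4 K3 θ ε B u0) → LBcS K5 (mkP κ c1 q η cs K4 K3 θ ε B u0)) ∧
      ForSmall κ c1 q η cs K4 K3 AmonoS ∧
      ForSmall κ c1 q η cs K4 K3 JBS

/-- **STEP THEOREM**: all constants. -/
theorem stepAll0_of {κ c1 : ℝ} (h : StepIn3.{u} κ c1) : StepAll0.{u} κ c1 := by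
  obtain ⟨p0, K4, cs, q, η, hp0, hp1, hK4, hcs, hq, hη, hqη, CV, cJ, D, a, hCV, hcJ, hD, ha, h⟩ := h
  have hden : 0 < 1 - Real.exp (-(a / 2)) := by
    have : Real.exp (-(a / 2)) < 1 := by rw [Real.exp_lt_one_iff]; linarith
    linarith
  set CZ : ℝ := Real.exp (a / 2) * D / (1 - Real.exp (-(a / 2))) * CV with hCZ
  have hCZ0 : 0 ≤ CZ := by positivity
  obtain ⟨K30, hK30, hcon⟩ := consts hp0 hp1 hCV hCZ0 hcJ
    (by positivity : 0 < a / (2 * (CV + 1)))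
  set K3 : ℝ := max K30 1 with hK3
  obtain ⟨⟨θ1, hθ1, g1⟩, ⟨θ2, hθ2, g2⟩, g3, ⟨θ4, hθ4, g4⟩, ⟨θ5, hθ5, g5⟩,
    ⟨θ7, hθ7, g7⟩, ⟨θ8, hθ8, g8⟩⟩ := h K3 (le_max_right _ _)
  set e : ℝ := min (1 / 8) (p0 / 2) with hedef
  have he : 0 < e := lt_min (by norm_num) (by linarith)
  obtain ⟨θ3, hθ3, g3⟩ := g3 e he
  set θ : ℝ := min (1 / 4) (min θ1 (min θ2 (min θ3 (min θ4 (min θ5 (min θ7 θ8))))))
    with hθdef
  have hθ : 0 < θ := by
    simp only [hθdef, lt_min_iff]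
    exact ⟨by norm_num, hθ1, hθ2, hθ3, hθ4, hθ5, hθ7, hθ8⟩
  have hall : θ ≤ 1 / 4 ∧ θ ≤ θ1 ∧ θ ≤ θ2 ∧ θ ≤ θ3 ∧ θ ≤ θ4 ∧ θ ≤ θ5 ∧ θ ≤ θ7 ∧ θ ≤ θ8 := by
    have : θ ≤ min (1 / 4) (min θ1 (min θ2 (min θ3 (min θ4 (min θ5 (min θ7 θ8)))))) :=
      le_rfl
    simpa only [le_min_iff] using this
  obtain ⟨l0, l1, l2, l3, l4, l5, l7, l8⟩ := hall
  obtain ⟨ε1, hε1, g1⟩ := g1 θ hθ l1
  obtain ⟨ε2, hε2, g2⟩ := g2 θ hθ l2
  obtain ⟨ε3, hε3, g3⟩ := g3 θ hθ l3
  obtain ⟨cθ, hcθ, ε4, hε4, g4⟩ := g4 θ hθ l4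
  obtain ⟨K5, hK5, ε5, hε5, g5⟩ := g5 θ hθ l5
  obtain ⟨ε7, hε7, g7⟩ := g7 θ hθ l7
  obtain ⟨ε8, hε8, g8⟩ := g8 θ hθ l8
  obtain ⟨c, c0, δ, hcmax, hgood⟩ := hcon K3 (le_max_left _ _) cθ hcθ K5 hK5
  set ε₀ : ℝ := min ε1 (min ε2 (min ε3 (min ε4 (min ε5 (min ε7 ε8))))) with hε₀
  have hε₀pos : 0 < ε₀ := by
    simp only [hε₀, lt_min_iff]
    exact ⟨hε1, hε2, hε3, hε4, hε5, hε7, hε8⟩
  have heall : ε₀ ≤ ε1 ∧ ε₀ ≤ ε2 ∧ ε₀ ≤ ε3 ∧ ε₀ ≤ ε4 ∧ ε₀ ≤ ε5 ∧ ε₀ ≤ ε7 ∧ ε₀ ≤ ε8 := by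
    have : ε₀ ≤ min ε1 (min ε2 (min ε3 (min ε4 (min ε5 (min ε7 ε8))))) := le_rfl
    simpa only [le_min_iff] using this
  obtain ⟨e1, e2, e3, e4, e5, e7, e8⟩ := heall
  refine ⟨q, η, θ, K3, K4, cs, c0, c, δ, ε₀, hq, hη, hqη, hθ, by linarith, le_max_right _ _, hK4,
    hcs, hgood.hc0, hgood.hc, hgood.hδ0, hgood.hδ1, hε₀pos, ?_⟩
  intro B u0 ε hε hεle hOk
  have hcm : 2 * c * (CV + 1) ≤ a / 2 := by
    rw [le_div_iff₀ (by positivity)] at hcmax
    linarith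
  exact step_one hOk hp0 hp1 hCV hcJ hD ha hcθ hK5 he (min_le_left _ _) (min_le_right _ _)
    hgood hcm (g1 ε hε (hεle.trans e1) B u0 hOk) (g2 ε hε (hεle.trans e2) B u0 hOk)
    (g3 ε hε (hεle.trans e3) B u0 hOk) (g4 ε hε (hεle.trans e4) B u0 hOk)
    (g5 ε hε (hεle.trans e5) B u0 hOk) (g7 ε hε (hεle.trans e7) B u0 hOk)
    (g8 ε hε (hεle.trans e8) B u0 hOk)


end Crest.Agent.R162.LBStep
end

-- ▼ part R162/LBBook
section

/-!
Row 162, node STEP (helper261, with helper561): probability bookkeeping of one step: from the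
window estimates (`E2`, `E3`, `EZ`) to `T > 0` a.s., finiteness and exponential moment of the new
potential, and smallness of the event "`T₂` or `T₃` before `T₁`".
-/

set_option autoImplicit false

open MeasureTheory ProbabilityTheory Set Filter Topology Complex
open scoped NNReal ENNReal

namespace Crest.Agent.R162.LBBook

open Crest.Agent.R162.LB Crest.Agent.R162.LBStep

/-- the pathwise facts about the step time `T` used by the bookkeeping -/
structure PathFacts (p : LB.Par) (f : ℂ → ℂ) (W : ℝ → ℝ) : Prop where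
  pos : 0 < p.T f W → 0 < rad W (p.T f W)
  le : 0 < p.T f W → rad W (p.T f W) ≤ p.rho1 f
  nb2 : 0 < p.T f W → ¬ p.Bad2 f W (p.T f W)
  low : 0 < p.T f W → rad W (p.T f W) < p.rho1 f → ∀ k : ℤ, (2 : ℝ) ^ k ≤ rad W (p.T f W) →
    rad W (p.T f W) < (2 : ℝ) ^ (k + 1) → E2 p f W k ∨ E3 p f W k ∨ E3 p f W (k - 1)
  zero : p.T f W = 0 → ∀ K : ℤ, ∃ k ≤ K, E2 p f W k ∨ E3 p f W k
  bad : ∀ s, 0 < s → rad W s ≤ p.rho1 f → (p.Bad2 f W s ∨ ∃ k, p.Bad3 f W s k) →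
    ∃ k : ℤ, (2 : ℝ) ^ k ≤ p.rho1 f ∧ (E2 p f W k ∨ E3 p f W k)

/-- the new potential at the end of the step -/
noncomputable def Zt (p : LB.Par) (f : ℂ → ℂ) (W : ℝ → ℝ) : ℝ≥0∞ :=
  Jv p.u0 p.q (LB.Par.st f W (p.T f W)) (10 * rad W (p.T f W))

/-- the estimates in the windows -/
structure Windows {Ω : Type*} [MeasurableSpace Ω] (P : Measure Ω) (p : LB.Par) (f : ℂ → ℂ)
    (W : Ω → ℝ → ℝ) (C2 C3 C a s : ℝ) : Prop where
  rho : 0 < p.rho1 f
  cs : 0 < p.cs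
  hC2 : 0 ≤ C2
  hC3 : 0 ≤ C3
  hC : 0 ≤ C
  ha : 0 < a
  hs : 0 ≤ s
  v_pos : ∀ k : ℤ, (2 : ℝ) ^ k ≤ p.rho1 f → 0 < vv p.u0 f ((2 : ℝ) ^ k)
  v_le : ∀ k : ℤ, (2 : ℝ) ^ k ≤ p.rho1 f → vv p.u0 f ((2 : ℝ) ^ k) ≤ 1
  h2 : ∀ k : ℤ, (2 : ℝ) ^ k ≤ p.rho1 f →
    P {ω | E2 p f (W ω) k} ≤ ENNReal.ofReal (C2 * vv p.u0 f (2 ^ k) ^ p.cs)
  h3 : ∀ k : ℤ, (2 : ℝ) ^ k ≤ p.rho1 f →
    P {ω | E3 p f (W ω) k} ≤ ENNReal.ofReal (C3 * vv p.u0 f (2 ^ k) ^ (p.cs / 2))
  hz : ∀ (k : ℤ) (n : ℕ), (2 : ℝ) ^ k ≤ p.rho1 f →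
    P {ω | EZ p f (W ω) k n} ≤ ENNReal.ofReal (C * Real.exp (-(a * n)))
  hsum : ∑' k : ℤ, (if (2 : ℝ) ^ k ≤ p.rho1 f then
    ENNReal.ofReal (vv p.u0 f ((2 : ℝ) ^ k) ^ (p.cs / 4)) else 0) ≤ ENNReal.ofReal s
  path : ∀ ω, PathFacts p f (W ω)

variable {Ω : Type*} [MeasurableSpace Ω] {P : Measure Ω} {p : LB.Par} {f : ℂ → ℂ}
  {W : Ω → ℝ → ℝ} {C2 C3 C a s : ℝ}

/-- `P(E2 ∪ E3) ≤ (C2 + C3) v^{c*/2}` -/
theorem Windows.h23 (h : Windows P p f W C2 C3 C a s) {k : ℤ} (hk : (2 : ℝ) ^ k ≤ p.rho1 f) :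
    P {ω | E2 p f (W ω) k ∨ E3 p f (W ω) k} ≤
      ENNReal.ofReal ((C2 + C3) * vv p.u0 f (2 ^ k) ^ (p.cs / 2)) := by
  have hv := h.v_pos k hk
  have hv1 := h.v_le k hk
  have hcs := h.cs
  have h1 : vv p.u0 f (2 ^ k) ^ p.cs ≤ vv p.u0 f (2 ^ k) ^ (p.cs / 2) :=
    Real.rpow_le_rpow_of_exponent_ge hv hv1 (by linarith)
  have hsub : {ω | E2 p f (W ω) k ∨ E3 p f (W ω) k} ⊆
      {ω | E2 p f (W ω) k} ∪ {ω | E3 p f (W ω) k} := fun ω hω => hω
  calc P {ω | E2 p f (W ω) k ∨ E3 p f (W ω) k}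
      ≤ P {ω | E2 p f (W ω) k} + P {ω | E3 p f (W ω) k} :=
        (measure_mono hsub).trans (measure_union_le _ _)
    _ ≤ ENNReal.ofReal (C2 * vv p.u0 f (2 ^ k) ^ (p.cs / 2)) +
        ENNReal.ofReal (C3 * vv p.u0 f (2 ^ k) ^ (p.cs / 2)) := by
        refine add_le_add ((h.h2 k hk).trans (ENNReal.ofReal_le_ofReal ?_)) (h.h3 k hk)
        exact mul_le_mul_of_nonneg_left h1 h.hC2
    _ = _ := by
        have e1 := h.hC2
        have e2 := h.hC3
        rw [← ENNReal.ofReal_add (by positivity) (by positivity)]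
        congr 1
        ring

/-- the sum over the windows -/
theorem Windows.sum23 (h : Windows P p f W C2 C3 C a s) :
    ∑' k : ℤ, P {ω | (2 : ℝ) ^ k ≤ p.rho1 f ∧ (E2 p f (W ω) k ∨ E3 p f (W ω) k)} ≤
      ENNReal.ofReal ((C2 + C3) * s) := by
  have e1 := h.hC2
  have e2 := h.hC3
  have hcs := h.cs
  calc ∑' k : ℤ, P {ω | (2 : ℝ) ^ k ≤ p.rho1 f ∧ (E2 p f (W ω) k ∨ E3 p f (W ω) k)}
      ≤ ∑' k : ℤ, ENNReal.ofReal (C2 + C3) * (if (2 : ℝ) ^ k ≤ p.rho1 f then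
          ENNReal.ofReal (vv p.u0 f ((2 : ℝ) ^ k) ^ (p.cs / 4)) else 0) := by
        refine ENNReal.tsum_le_tsum fun k => ?_
        by_cases hk : (2 : ℝ) ^ k ≤ p.rho1 f
        · rw [if_pos hk, ← ENNReal.ofReal_mul (by positivity)]
          refine (measure_mono fun ω hω => hω.2).trans ((h.h23 hk).trans ?_)
          refine ENNReal.ofReal_le_ofReal ?_
          have := Real.rpow_le_rpow_of_exponent_ge (h.v_pos k hk) (h.v_le k hk)
            (show p.cs / 4 ≤ p.cs / 2 by linarith)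
          exact mul_le_mul_of_nonneg_left this (by positivity)
        · rw [if_neg hk, mul_zero]
          have : {ω | (2 : ℝ) ^ k ≤ p.rho1 f ∧ (E2 p f (W ω) k ∨ E3 p f (W ω) k)} = ∅ := by
            ext ω; simp [hk]
          rw [this, measure_empty]
    _ = ENNReal.ofReal (C2 + C3) * ∑' k : ℤ, (if (2 : ℝ) ^ k ≤ p.rho1 f then
          ENNReal.ofReal (vv p.u0 f ((2 : ℝ) ^ k) ^ (p.cs / 4)) else 0) := ENNReal.tsum_mul_left
    _ ≤ ENNReal.ofReal (C2 + C3) * ENNReal.ofReal s := by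
        gcongr
        exact h.hsum
    _ = _ := by rw [← ENNReal.ofReal_mul (by positivity)]


/-- **(O1)** `T > 0` almost surely. -/
theorem Windows.T_pos (h : Windows P p f W C2 C3 C a s) : ∀ᵐ ω ∂P, 0 < p.T f (W ω) := by
  have hfin : ∑' k : ℤ, P {ω | (2 : ℝ) ^ k ≤ p.rho1 f ∧ (E2 p f (W ω) k ∨ E3 p f (W ω) k)} ≠ ⊤ :=
    ne_top_of_le_ne_top ENNReal.ofReal_ne_top h.sum23
  have hae := ae_finite_setOfPred_mem hfin
  filter_upwards [hae] with ω hω
  by_contra hT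
  have hT0 : p.T f (W ω) = 0 := le_antisymm (not_lt.1 hT) (T_nonneg p f (W ω))
  have hz := (h.path ω).zero hT0
  -- a level below rho1
  obtain ⟨K0, hK0⟩ : ∃ K0 : ℤ, (2 : ℝ) ^ K0 ≤ p.rho1 f := by
    obtain ⟨n, hn, -⟩ := exists_mem_Ico_zpow h.rho (by norm_num : (1 : ℝ) < 2)
    exact ⟨n, hn⟩
  obtain ⟨L, hL⟩ := hω.bddBelow
  obtain ⟨k, hk, hE⟩ := hz (min K0 (L - 1))
  have hk1 : (2 : ℝ) ^ k ≤ p.rho1 f :=
    (zpow_le_zpow_right₀ (by norm_num) (hk.trans (min_le_left _ _))).trans hK0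
  have hmem : k ∈ {i : ℤ | ω ∈ {ω | (2 : ℝ) ^ i ≤ p.rho1 f ∧
      (E2 p f (W ω) i ∨ E3 p f (W ω) i)}} := ⟨hk1, hE⟩
  have h1 := hL hmem
  have h2 := hk.trans (min_le_right _ _)
  omega

/-- the event "`T` in window `k`" -/
def Sk (p : LB.Par) (f : ℂ → ℂ) (W : Ω → ℝ → ℝ) (k : ℤ) : Set Ω :=
  {ω | 0 < p.T f (W ω) ∧ (2 : ℝ) ^ k ≤ rad (W ω) (p.T f (W ω)) ∧
    rad (W ω) (p.T f (W ω)) < (2 : ℝ) ^ (k + 1)}

theorem Windows.Sk_cov (h : Windows P p f W C2 C3 C a s) : ∀ᵐ ω ∂P, ω ∈ ⋃ k, Sk p f W k := by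
  filter_upwards [h.T_pos] with ω hω
  obtain ⟨n, hn, hn'⟩ := exists_mem_Ico_zpow ((h.path ω).pos hω) (by norm_num : (1 : ℝ) < 2)
  exact mem_iUnion.2 ⟨n, hω, hn, hn'⟩

theorem Windows.Sk_empty (h : Windows P p f W C2 C3 C a s) {k : ℤ} (hk : p.rho1 f < (2 : ℝ) ^ k) :
    Sk p f W k = ∅ := by
  ext ω
  simp only [mem_empty_iff_false, iff_false]
  rintro ⟨h1, h2, -⟩
  have := (h.path ω).le h1
  linarith

theorem Windows.Sk_tail (h : Windows P p f W C2 C3 C a s) (k : ℤ) (n : ℕ) :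
    P ({ω | ENNReal.ofReal n < Zt p f (W ω)} ∩ Sk p f W k) ≤
      ENNReal.ofReal (C * Real.exp (-(a * n))) := by
  by_cases hk : (2 : ℝ) ^ k ≤ p.rho1 f
  · refine (measure_mono ?_).trans (h.hz k n hk)
    rintro ω ⟨h1, h2, h3, h4⟩
    exact ⟨p.T f (W ω), h2, h3, h4, (h.path ω).nb2 h2, h1⟩
  · rw [h.Sk_empty (not_le.1 hk), inter_empty, measure_empty]
    exact zero_le


/-- the probability bound for "`T` in window `k`" -/
noncomputable def pr (p : LB.Par) (f : ℂ → ℂ) (A : ℝ) (k : ℤ) : ℝ≥0∞ :=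
  if (2 : ℝ) ^ k ≤ p.rho1 f then
    (if p.rho1 f < (2 : ℝ) ^ (k + 1) then 1
      else ENNReal.ofReal (A * vv p.u0 f (2 ^ k) ^ (p.cs / 2)) +
        ENNReal.ofReal (A * vv p.u0 f (2 ^ (k - 1)) ^ (p.cs / 2)))
  else 0

theorem Windows.Sk_le [IsProbabilityMeasure P] (h : Windows P p f W C2 C3 C a s) (k : ℤ) :
    P (Sk p f W k) ≤ pr p f (C2 + C3) k := by
  have e1 := h.hC2
  have e2 := h.hC3
  unfold pr
  by_cases hk : (2 : ℝ) ^ k ≤ p.rho1 f
  · rw [if_pos hk]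
    by_cases hk1 : p.rho1 f < (2 : ℝ) ^ (k + 1)
    · rw [if_pos hk1]
      exact prob_le_one
    · rw [if_neg hk1]
      have hk' : (2 : ℝ) ^ (k - 1) ≤ p.rho1 f :=
        (zpow_le_zpow_right₀ (by norm_num) (by omega)).trans hk
      have hsub : Sk p f W k ⊆ {ω | E2 p f (W ω) k ∨ E3 p f (W ω) k} ∪
          {ω | E3 p f (W ω) (k - 1)} := by
        rintro ω ⟨h1, h2, h3⟩
        rcases (h.path ω).low h1 (h3.trans_le (not_lt.1 hk1)) k h2 h3 with h4 | h4 | h4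
        · exact Or.inl (Or.inl h4)
        · exact Or.inl (Or.inr h4)
        · exact Or.inr h4
      refine (measure_mono hsub).trans ((measure_union_le _ _).trans
        (add_le_add (h.h23 hk) ((h.h3 (k - 1) hk').trans (ENNReal.ofReal_le_ofReal ?_))))
      have hv := (h.v_pos (k - 1) hk').le
      have h0 : 0 ≤ vv p.u0 f (2 ^ (k - 1)) ^ (p.cs / 2) := Real.rpow_nonneg hv _
      nlinarith
  · rw [if_neg hk, h.Sk_empty (not_le.1 hk), measure_empty]

theorem Windows.pr_sum (h : Windows P p f W C2 C3 C a s) :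
    ∑' k : ℤ, (pr p f (C2 + C3) k) ^ (1 / 2 : ℝ) ≤
      ENNReal.ofReal (1 + 2 * Real.sqrt (C2 + C3) * s) := by
  have e1 := h.hC2
  have e2 := h.hC3
  have e3 := h.hs
  have hcs := h.cs
  set A : ℝ := C2 + C3 with hA
  have hA0 : 0 ≤ A := by positivity
  set g : ℤ → ℝ≥0∞ := fun k => if (2 : ℝ) ^ k ≤ p.rho1 f then
    ENNReal.ofReal (vv p.u0 f ((2 : ℝ) ^ k) ^ (p.cs / 4)) else 0 with hg
  obtain ⟨n, hn, hn'⟩ := exists_mem_Ico_zpow h.rho (by norm_num : (1 : ℝ) < 2)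
  have hrt : ∀ k : ℤ, (2 : ℝ) ^ k ≤ p.rho1 f →
      (ENNReal.ofReal (A * vv p.u0 f (2 ^ k) ^ (p.cs / 2))) ^ (1 / 2 : ℝ) =
        ENNReal.ofReal (Real.sqrt A) * g k := by
    intro k hk
    have hv := h.v_pos k hk
    simp only [hg]
    rw [if_pos hk, ← ENNReal.ofReal_mul (Real.sqrt_nonneg _),
      ENNReal.ofReal_rpow_of_nonneg (by positivity) (by norm_num),
      Real.mul_rpow (by positivity) (by positivity), ← Real.sqrt_eq_rpow,
      ← Real.rpow_mul hv.le]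
    congr 3
    ring
  have hle : ∀ k : ℤ, (pr p f A k) ^ (1 / 2 : ℝ) ≤ (if k = n then 1 else 0) +
      (ENNReal.ofReal (Real.sqrt A) * g k + ENNReal.ofReal (Real.sqrt A) * g (k - 1)) := by
    intro k
    unfold pr
    by_cases hk : (2 : ℝ) ^ k ≤ p.rho1 f
    · rw [if_pos hk]
      by_cases hk1 : p.rho1 f < (2 : ℝ) ^ (k + 1)
      · rw [if_pos hk1]
        have hkn : k = n := by
          have h1 : k < n + 1 := (zpow_lt_zpow_iff_right₀ (by norm_num : (1 : ℝ) < 2)).1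
            (hk.trans_lt hn')
          have h2 : n < k + 1 := (zpow_lt_zpow_iff_right₀ (by norm_num : (1 : ℝ) < 2)).1
            (hn.trans_lt hk1)
          omega
        rw [if_pos hkn, ENNReal.one_rpow]
        exact le_self_add
      · rw [if_neg hk1]
        refine le_trans ?_ le_add_self
        have hk' : (2 : ℝ) ^ (k - 1) ≤ p.rho1 f :=
          (zpow_le_zpow_right₀ (by norm_num) (by omega)).trans hk
        refine (ENNReal.rpow_add_le_add_rpow _ _ (by norm_num) (by norm_num)).trans ?_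
        rw [hrt k hk, hrt (k - 1) hk']
    · rw [if_neg hk, ENNReal.zero_rpow_of_pos (by norm_num)]
      exact zero_le
  have hshift : ∑' k : ℤ, g (k - 1) = ∑' k : ℤ, g k := (Equiv.subRight (1 : ℤ)).tsum_eq g
  calc ∑' k, (pr p f A k) ^ (1 / 2 : ℝ)
      ≤ ∑' k : ℤ, ((if k = n then 1 else 0) +
        (ENNReal.ofReal (Real.sqrt A) * g k + ENNReal.ofReal (Real.sqrt A) * g (k - 1))) :=
        ENNReal.tsum_le_tsum hle
    _ = 1 + (ENNReal.ofReal (Real.sqrt A) * ∑' k : ℤ, g k +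
          ENNReal.ofReal (Real.sqrt A) * ∑' k : ℤ, g k) := by
        rw [ENNReal.tsum_add, ENNReal.tsum_add, ENNReal.tsum_mul_left, ENNReal.tsum_mul_left,
          hshift, tsum_ite_eq]
    _ ≤ 1 + (ENNReal.ofReal (Real.sqrt A) * ENNReal.ofReal s +
          ENNReal.ofReal (Real.sqrt A) * ENNReal.ofReal s) := by
        have := h.hsum
        gcongr
    _ = _ := by
        rw [← ENNReal.ofReal_mul (Real.sqrt_nonneg _), ← ENNReal.ofReal_one,
          ← ENNReal.ofReal_add (by positivity) (by positivity),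
          ← ENNReal.ofReal_add zero_le_one (by positivity)]
        congr 1
        ring

/-- **(O3)** exponential tail of the new potential. -/
theorem Windows.tail [IsProbabilityMeasure P] (h : Windows P p f W C2 C3 C a s) (n : ℕ) :
    P {ω | ENNReal.ofReal n < Zt p f (W ω)} ≤
      ENNReal.ofReal (Real.sqrt C * (1 + 2 * Real.sqrt (C2 + C3) * s) *
        Real.exp (-(a / 2 * n))) := by
  have e0 := h.hC
  have e1 := h.hC2
  have e2 := h.hC3
  have e3 := h.hs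
  have hnull : P (⋃ j, Sk p f W j)ᶜ = 0 := ae_iff.1 h.Sk_cov
  have hsub : {ω | ENNReal.ofReal n < Zt p f (W ω)} ⊆
      (⋃ j, ({ω | ENNReal.ofReal n < Zt p f (W ω)} ∩ Sk p f W j)) ∪ (⋃ j, Sk p f W j)ᶜ := by
    intro ω hω
    by_cases h : ω ∈ ⋃ j, Sk p f W j
    · left
      rw [← inter_iUnion]
      exact ⟨hω, h⟩
    · right
      exact h
  calc P {ω | ENNReal.ofReal n < Zt p f (W ω)}
      ≤ P (⋃ j, ({ω | ENNReal.ofReal n < Zt p f (W ω)} ∩ Sk p f W j)) +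
          P (⋃ j, Sk p f W j)ᶜ := (measure_mono hsub).trans (measure_union_le _ _)
    _ = P (⋃ j, ({ω | ENNReal.ofReal n < Zt p f (W ω)} ∩ Sk p f W j)) := by rw [hnull, add_zero]
    _ ≤ ∑' j, P ({ω | ENNReal.ofReal n < Zt p f (W ω)} ∩ Sk p f W j) := measure_iUnion_le _
    _ ≤ ∑' j, (ENNReal.ofReal (C * Real.exp (-(a * n)))) ^ (1 / 2 : ℝ)
          * (pr p f (C2 + C3) j) ^ (1 / 2 : ℝ) :=
        ENNReal.tsum_le_tsum (fun j => LB2c.min_le_sqrt (h.Sk_tail j n)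
          ((measure_mono inter_subset_right).trans (h.Sk_le j)))
    _ = (ENNReal.ofReal (C * Real.exp (-(a * n)))) ^ (1 / 2 : ℝ)
          * ∑' j, (pr p f (C2 + C3) j) ^ (1 / 2 : ℝ) := ENNReal.tsum_mul_left
    _ ≤ (ENNReal.ofReal (C * Real.exp (-(a * n)))) ^ (1 / 2 : ℝ) *
          ENNReal.ofReal (1 + 2 * Real.sqrt (C2 + C3) * s) := by
        gcongr
        exact h.pr_sum
    _ = _ := by
        rw [ENNReal.ofReal_rpow_of_nonneg (by positivity) (by norm_num),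
          ← ENNReal.ofReal_mul (by positivity), Real.mul_rpow h.hC (Real.exp_pos _).le,
          ← Real.sqrt_eq_rpow, ← Real.exp_mul]
        congr 1
        have : -(a * n) * (1 / 2 : ℝ) = -(a / 2 * n) := by ring
        rw [this]
        ring

/-- **(LBrS)** the step ends with `ρ_T = ρ₁` except with small probability. -/
theorem Windows.rad_ne_le (h : Windows P p f W C2 C3 C a s) :
    P {ω | rad (W ω) (p.T f (W ω)) ≠ p.rho1 f} ≤ ENNReal.ofReal ((C2 + C3) * s) := by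
  have hT : P {ω | ¬ 0 < p.T f (W ω)} = 0 := ae_iff.1 h.T_pos
  have hsub : {ω | rad (W ω) (p.T f (W ω)) ≠ p.rho1 f} ⊆
      {ω | ¬ 0 < p.T f (W ω)} ∪
        ⋃ k : ℤ, {ω | (2 : ℝ) ^ k ≤ p.rho1 f ∧ (E2 p f (W ω) k ∨ E3 p f (W ω) k)} := by
    intro ω hω
    by_cases h0 : 0 < p.T f (W ω)
    · right
      have hlt : rad (W ω) (p.T f (W ω)) < p.rho1 f := lt_of_le_of_ne ((h.path ω).le h0) hω
      obtain ⟨k, hk, hk'⟩ := exists_mem_Ico_zpow ((h.path ω).pos h0) (by norm_num : (1 : ℝ) < 2)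
      have hkr : (2 : ℝ) ^ k ≤ p.rho1 f := hk.trans hlt.le
      have hkr' : (2 : ℝ) ^ (k - 1) ≤ p.rho1 f :=
        (zpow_le_zpow_right₀ (by norm_num) (by omega)).trans hkr
      rcases (h.path ω).low h0 hlt k hk hk' with h4 | h4 | h4
      · exact mem_iUnion.2 ⟨k, hkr, Or.inl h4⟩
      · exact mem_iUnion.2 ⟨k, hkr, Or.inr h4⟩
      · exact mem_iUnion.2 ⟨k - 1, hkr', Or.inr h4⟩
    · left
      exact h0
  calc P {ω | rad (W ω) (p.T f (W ω)) ≠ p.rho1 f}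
      ≤ P {ω | ¬ 0 < p.T f (W ω)} +
        P (⋃ k : ℤ, {ω | (2 : ℝ) ^ k ≤ p.rho1 f ∧ (E2 p f (W ω) k ∨ E3 p f (W ω) k)}) :=
        (measure_mono hsub).trans (measure_union_le _ _)
    _ = P (⋃ k : ℤ, {ω | (2 : ℝ) ^ k ≤ p.rho1 f ∧ (E2 p f (W ω) k ∨ E3 p f (W ω) k)}) := by
        rw [hT, zero_add]
    _ ≤ _ := (measure_iUnion_le _).trans h.sum23

end Crest.Agent.R162.LBBook
end

-- ▼ part R162/LBBook2
section

/-!
Row 162, node STEP, part (B) (helper261): from `In2`, `In3`, `InZ` to `ZtS` and `LBrS` with all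
quantifiers.
-/

set_option autoImplicit false

open MeasureTheory ProbabilityTheory Set Filter Topology Complex
open scoped NNReal ENNReal
open Crest.ProbabilityR.Loewner

namespace Crest.Agent.R162.LBBook

open Crest.Agent.R162.LB Crest.Agent.R162.LBStep Crest.Agent.R162.LBS Crest.Agent.R162.OS

universe u

/-- the pathwise input -/
def PathIn : Prop :=
  ∀ (p : LB.Par) (f : ℂ → ℂ), State p f → 0 < p.rho1 f → ∀ W : ℝ → ℝ, ContinuousOn W (Ici 0) →
    W 0 = 0 → PathFacts p f W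

theorem state_of_start {p : LB.Par} {f : ℂ → ℂ} (h : Start p f) : State p f :=
  ⟨h.univ.diff, h.univ.inj, h.v_tendsto, h.lam, h.J_ne_top⟩

theorem driving_zero' {Ω : Type*} [MeasurableSpace Ω] {P : Measure Ω}
    {F : Filtration ℝ≥0 (inferInstance : MeasurableSpace Ω)} {B : ℝ≥0 → Ω → ℝ}
    (hB : IsBM F B P) (κ : ℝ) (ω : Ω) : driving κ B ω 0 = 0 := by
  unfold driving
  rw [Real.toNNReal_zero, hB.zero, mul_zero]

/-- choice of `θ` making the dyadic sum small -/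
theorem exists_theta_sum {cs K3 K4 s : ℝ} (hcs : 0 < cs) (hK3 : 1 ≤ K3) (hK4 : 1 ≤ K4)
    (hs : 0 < s) : ∃ θ0 : ℝ, 0 < θ0 ∧ ∀ θ : ℝ, 0 < θ → θ ≤ θ0 →
      102 * K4 ^ 2 * θ ≤ 1 ∧
      20 * (102 * K4 ^ 2 * θ) ^ (cs / 8) * (K3 + Real.log (10 * K4)) ≤ s := by
  have hlog : 0 ≤ Real.log (10 * K4) := Real.log_nonneg (by linarith)
  set L : ℝ := K3 + Real.log (10 * K4) with hL
  have hL0 : 0 < L := by positivity
  have hK : 0 < 102 * K4 ^ 2 := by positivity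
  set V0 : ℝ := (s / (20 * L)) ^ (8 / cs) with hV0
  have hV0p : 0 < V0 := Real.rpow_pos_of_pos (by positivity) _
  refine ⟨min 1 V0 / (102 * K4 ^ 2), by positivity, fun θ hθ hle => ?_⟩
  have h1 : 102 * K4 ^ 2 * θ ≤ min 1 V0 := by
    rw [le_div_iff₀ hK] at hle
    linarith
  have h0 : 0 ≤ 102 * K4 ^ 2 * θ := by positivity
  refine ⟨h1.trans (min_le_left _ _), ?_⟩
  have h2 : (102 * K4 ^ 2 * θ) ^ (cs / 8) ≤ V0 ^ (cs / 8) :=
    Real.rpow_le_rpow h0 (h1.trans (min_le_right _ _)) (by positivity)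
  have h3 : V0 ^ (cs / 8) = s / (20 * L) := by
    rw [hV0, ← Real.rpow_mul (by positivity)]
    have : 8 / cs * (cs / 8) = 1 := by field_simp
    rw [this, Real.rpow_one]
  rw [h3] at h2
  calc 20 * (102 * K4 ^ 2 * θ) ^ (cs / 8) * L ≤ 20 * (s / (20 * L)) * L := by gcongr
    _ = s := by field_simp

/-- **the windows, with quantifiers.** -/
theorem windows {κ c1 cs q η K4 K3 C2 C3 C a s : ℝ} (hpath : PathIn)
    (hcs : 0 < cs) (hq : 0 < q) (hq8 : q ≤ 1 / 8) (hqcs : 8 * q ≤ cs)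
    (hK4 : 1 ≤ K4) (hK3 : 1 ≤ K3) (hC2 : 0 ≤ C2) (hC3 : 0 ≤ C3) (hC : 0 ≤ C) (ha : 0 < a)
    (hs : 0 < s)
    (h2 : ∃ θ0 : ℝ, 0 < θ0 ∧ ∀ p : LB.Par, p.κ = κ → p.cs = cs → p.q = q → p.η = η → p.K3 = K3 →
      p.K4 = K4 → 0 < p.θ → p.θ ≤ θ0 → p.Adm → ∀ f, State p f →
      ∀ (Ω : Type u) [MeasurableSpace Ω] (P : Measure Ω) [IsProbabilityMeasure P]
      (F : Filtration ℝ≥0 (inferInstance : MeasurableSpace Ω)) (B : ℝ≥0 → Ω → ℝ)
      (_ : IsBM F B P) (k : ℤ), (2 : ℝ) ^ k ≤ p.rho1 f →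
      P {ω | E2 p f (driving κ B ω) k} ≤ ENNReal.ofReal (C2 * vv p.u0 f (2 ^ k) ^ cs))
    (h3 : ∃ θ0 : ℝ, 0 < θ0 ∧ ∀ θ : ℝ, 0 < θ → θ ≤ θ0 → ∃ ε0 : ℝ, 0 < ε0 ∧
      ∀ p : LB.Par, p.κ = κ → p.c1 = c1 → p.cs = cs → p.q = q → p.η = η → p.K3 = K3 →
      p.K4 = K4 → p.θ = θ → 0 < p.ε → p.ε ≤ ε0 → p.Adm → ∀ f, State p f →
      ∀ (Ω : Type u) [MeasurableSpace Ω] (P : Measure Ω) [IsProbabilityMeasure P]
      (F : Filtration ℝ≥0 (inferInstance : MeasurableSpace Ω)) (B : ℝ≥0 → Ω → ℝ)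
      (_ : IsBM F B P) (k : ℤ), (2 : ℝ) ^ k ≤ p.rho1 f →
      P {ω | E3 p f (driving κ B ω) k} ≤ ENNReal.ofReal (C3 * vv p.u0 f (2 ^ k) ^ (cs / 2)))
    (hz : ∃ θ0 : ℝ, 0 < θ0 ∧ ∀ p : LB.Par, p.κ = κ → p.cs = cs → p.q = q → p.η = η → p.K3 = K3 →
      p.K4 = K4 → 0 < p.θ → p.θ ≤ θ0 → p.Adm → ∀ f, State p f →
      ∀ (Ω : Type u) [MeasurableSpace Ω] (P : Measure Ω) [IsProbabilityMeasure P]
      (F : Filtration ℝ≥0 (inferInstance : MeasurableSpace Ω)) (B : ℝ≥0 → Ω → ℝ)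
      (_ : IsBM F B P) (k : ℤ) (n : ℕ), (2 : ℝ) ^ k ≤ p.rho1 f →
      P {ω | EZ p f (driving κ B ω) k n} ≤ ENNReal.ofReal (C * Real.exp (-(a * n)))) :
    ForSmall κ c1 q η cs K4 K3 (fun p => ForBM.{u} p fun f _ _ P B =>
      Windows P p f (fun ω => driving p.κ B ω) C2 C3 C a s) := by
  obtain ⟨t2, ht2, h2⟩ := h2
  obtain ⟨t3, ht3, h3⟩ := h3
  obtain ⟨tz, htz, hz⟩ := hz
  obtain ⟨tg, htg, hg⟩ := LB0.exists_theta hq (by linarith : q < 1) (by linarith : 0 < K3) hK4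
  obtain ⟨ts, hts, hsm⟩ := exists_theta_sum (cs := cs) hcs hK3 hK4 hs
  refine ⟨min (min t2 t3) (min (min tz tg) (min ts (1 / 2))), by positivity, fun θ hθ hle => ?_⟩
  have l2 : θ ≤ t2 := hle.trans ((min_le_left _ _).trans (min_le_left _ _))
  have l3 : θ ≤ t3 := hle.trans ((min_le_left _ _).trans (min_le_right _ _))
  have lz : θ ≤ tz := hle.trans ((min_le_right _ _).trans ((min_le_left _ _).trans
    (min_le_left _ _)))
  have lg : θ ≤ tg := hle.trans ((min_le_right _ _).trans ((min_le_left _ _).trans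
    (min_le_right _ _)))
  have ls : θ ≤ ts := hle.trans ((min_le_right _ _).trans ((min_le_right _ _).trans
    (min_le_left _ _)))
  have lh : θ ≤ 1 / 2 := hle.trans ((min_le_right _ _).trans ((min_le_right _ _).trans
    (min_le_right _ _)))
  obtain ⟨ε0, hε0, h3⟩ := h3 θ hθ l3
  refine ⟨ε0, hε0, fun ε hε hεle Bs u0 ok => ?_⟩
  intro Ω _ P _ F B hB f hst
  set p : LB.Par := mkP κ c1 q η cs K4 K3 θ ε Bs u0 with hp
  have hS : State p f := state_of_start hst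
  have hsmall : LB0.Small p :=
    { q_pos := hq
      q_lt := by show q < 1; linarith
      η_nonneg := ok.η0.le
      θ_pos := hθ
      K3_pos := by show 0 < K3; linarith
      K4_ge := hK4
      sm1 := (hg θ hθ lg).1
      sm2 := (hg θ hθ lg).2 }
  have hG : LB0.Geo p f := LB2h.geo_state ok.adm hsmall hS lh
  have hrho := hG.rho_pos
  obtain ⟨hV1, hVs⟩ := hsm θ hθ ls
  have hlip : ∀ w w' : ℂ, |u0 w - u0 w'| ≤ ‖w - w'‖ := fun w w' =>
    LB0.u0_sub_le ok.adm.lip w w'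
  have hone : ∀ w : ℂ, 1 ≤ u0 w := ok.adm.one_le
  refine
    { rho := hrho
      cs := hcs
      hC2 := hC2
      hC3 := hC3
      hC := hC
      ha := ha
      hs := hs.le
      v_pos := fun k _ => LB0.vv_pos hS.diff hS.inj ok.adm.one_le (by positivity)
      v_le := fun k hk => hG.vv_le_one _ (by positivity) (by linarith)
      h2 := fun k hk => h2 p rfl rfl rfl rfl rfl rfl hθ l2 ok.adm f hS Ω P F B hB k hk
      h3 := fun k hk => h3 p rfl rfl rfl rfl rfl rfl rfl rfl hε hεle ok.adm f hS Ω P F B hB k hk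
      hz := fun k n hk => hz p rfl rfl rfl rfl rfl rfl hθ lz ok.adm f hS Ω P F B hB k n hk
      hsum := ?_
      path := fun ω => hpath p f hS hrho _ (LB2h.cont_driving hB p.κ ω) (driving_zero' hB p.κ ω) }
  -- the dyadic sum
  have hq1 : q ≤ 1 := by linarith
  have hqa : q ≤ cs / 4 := by linarith
  have hVle : ∀ y, 0 < y → y ≤ p.rho1 f → LB1.vv u0 f y ≤ 102 * K4 ^ 2 * θ := fun y hy hy' =>
    hG.vv_le y hy (by linarith)
  have hd := dyad hS.diff hS.inj (u0 := u0) hone hlip (q := q) (a := cs / 4) (r := p.rho1 f)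
    (V := 102 * K4 ^ 2 * θ) hq.le hq1 hqa hV1 hVle
  have hV0 : 0 < 102 * K4 ^ 2 * θ := by positivity
  have hJ : LB1.Jv u0 q f (2 * p.rho1 f) ≤ ENNReal.ofReal (K3 + Real.log (10 * K4)) := by
    have h1 : LB1.Jv u0 q f (2 * p.rho1 f) ≤ LB1.Jv u0 q f (10 * p.rho1 f) :=
      lintegral_mono_set (Ioc_subset_Ioc_right (by linarith))
    exact h1.trans hG.Jv_le
  calc ∑' k : ℤ, (if (2 : ℝ) ^ k ≤ p.rho1 f then
        ENNReal.ofReal (vv p.u0 f ((2 : ℝ) ^ k) ^ (p.cs / 4)) else 0)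
      ≤ ENNReal.ofReal (20 * (102 * K4 ^ 2 * θ) ^ (cs / 4 - q)) * LB1.Jv u0 q f (2 * p.rho1 f) := hd
    _ ≤ ENNReal.ofReal (20 * (102 * K4 ^ 2 * θ) ^ (cs / 8)) *
          ENNReal.ofReal (K3 + Real.log (10 * K4)) := by
        refine mul_le_mul' (ENNReal.ofReal_le_ofReal ?_) hJ
        have : (102 * K4 ^ 2 * θ) ^ (cs / 4 - q) ≤ (102 * K4 ^ 2 * θ) ^ (cs / 8) :=
          Real.rpow_le_rpow_of_exponent_ge hV0 hV1 (by linarith)
        linarith
    _ ≤ ENNReal.ofReal s := by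
        rw [← ENNReal.ofReal_mul (by positivity)]
        exact ENNReal.ofReal_le_ofReal hVs

/-- **(B)**: `ZtS` and `LBrS` with all quantifiers. -/
theorem book {κ c1 : ℝ} (hpath : PathIn) (h2 : In2.{u} κ) (h3 : In3.{u} κ c1) (hz : InZ.{u} κ) :
    ∃ cs0 : ℝ, 0 < cs0 ∧ ∀ cs q : ℝ, 0 < cs → cs ≤ cs0 → 0 < q → q ≤ 1 / 8 → 8 * q ≤ cs →
      ∃ D a : ℝ, 0 ≤ D ∧ 0 < a ∧ ∀ η K4 K3 : ℝ, 0 < η → η ≤ 1 / 8 → 1 ≤ K4 → 1 ≤ K3 →
        ForSmall κ c1 q η cs K4 K3 (ZtS.{u} D a) ∧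
        ∀ e : ℝ, 0 < e → ForSmall κ c1 q η cs K4 K3 (LBrS.{u} e) := by
  obtain ⟨cs2, C2, hcs2, hC2, h2⟩ := h2
  obtain ⟨cs3, C3, hcs3, hC3, h3⟩ := h3
  refine ⟨min cs2 cs3, lt_min hcs2 hcs3, fun cs q hcs hcsle hq hq8 hqcs => ?_⟩
  obtain ⟨a, C, ha, hC, hz⟩ := hz q hq hq8
  refine ⟨Real.sqrt C * (1 + 2 * Real.sqrt (C2 + C3) * 1), a / 2, by positivity, by positivity,
    fun η K4 K3 hη hη8 hK4 hK3 => ?_⟩
  have key : ∀ s : ℝ, 0 < s → ForSmall κ c1 q η cs K4 K3 (fun p => ForBM.{u} p fun f _ _ P B =>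
      Windows P p f (fun ω => driving p.κ B ω) C2 C3 C a s) := fun s hs =>
    windows hpath hcs hq hq8 hqcs hK4 hK3 hC2 hC3 hC ha hs
      (h2 cs q η K3 K4 hcs (hcsle.trans (min_le_left _ _)) hq hq8 hη hη8 (by linarith) hK4)
      (h3 cs q η K3 K4 hcs (hcsle.trans (min_le_right _ _)) hq hq8 hη hη8 (by linarith) hK4)
      (hz cs η K3 K4 hcs hη hη8 (by linarith) hK4)
  constructor
  · obtain ⟨θ0, hθ0, h⟩ := key 1 one_pos
    refine ⟨θ0, hθ0, fun θ hθ hle => ?_⟩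
    obtain ⟨ε0, hε0, h⟩ := h θ hθ hle
    refine ⟨ε0, hε0, fun ε hε hεle Bs u0 ok => ?_⟩
    intro Ω _ P _ F B hB f hst n
    exact (h ε hε hεle Bs u0 ok Ω P F B hB f hst).tail n
  · intro e he
    obtain ⟨θ0, hθ0, h⟩ := key (e / (C2 + C3 + 1)) (by positivity)
    refine ⟨θ0, hθ0, fun θ hθ hle => ?_⟩
    obtain ⟨ε0, hε0, h⟩ := h θ hθ hle
    refine ⟨ε0, hε0, fun ε hε hεle Bs u0 ok => ?_⟩
    intro Ω _ P _ F B hB f hst
    refine ((h ε hε hεle Bs u0 ok Ω P F B hB f hst).rad_ne_le).trans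
      (ENNReal.ofReal_le_ofReal ?_)
    rw [← mul_div_assoc, div_le_iff₀ (by positivity)]
    nlinarith

end Crest.Agent.R162.LBBook
end

-- ▼ part R162/LBBookP

/-!
Row 162, node STEP, part (B), pathwise facts (helper261): `PathIn`.
-/

set_option autoImplicit false

open MeasureTheory Set Filter Topology Complex
open scoped NNReal ENNReal

namespace Crest.Agent.R162.LBBook

open Crest.Agent.R162.LB Crest.Agent.R162.LBStep

variable {p : LB.Par} {f : ℂ → ℂ} {W : ℝ → ℝ}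

theorem win_empty (hW : ContinuousOn W (Ici 0)) {t : ℝ} {j : ℤ} (h : rad W t < (2 : ℝ) ^ j) :
    LB.win W t j = ∅ := by
  ext s
  simp only [LB.win, mem_setOf_eq, mem_empty_iff_false, iff_false]
  rintro ⟨h1, h2, h3, -⟩
  have := rad_mono hW h1.le h2
  linarith

theorem content_empty (κ ε c1 : ℝ) (f : ℂ → ℂ) (W : ℝ → ℝ) (B : Set ℂ) :
    content κ ε c1 f W ∅ B = 0 := by
  unfold content cz
  simp

theorem bad3_le (hW : ContinuousOn W (Ici 0)) {t : ℝ} {j : ℤ} (h : p.Bad3 f W t j) :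
    (2 : ℝ) ^ j ≤ rad W t := by
  by_contra hlt
  have h1 : p.nearC f W (LB.win W t j) = 0 := by
    unfold LB.Par.nearC
    rw [win_empty hW (not_le.1 hlt)]
    exact content_empty _ _ _ _ _ _
  unfold LB.Par.Bad3 at h
  rw [h1] at h
  exact absurd h not_lt_zero

theorem win_eq (hW : ContinuousOn W (Ici 0)) {t t' : ℝ} {j : ℤ} (ht' : 0 ≤ t') (htt : t' ≤ t)
    (h : (2 : ℝ) ^ (j + 1) ≤ rad W t') : LB.win W t j = LB.win W t' j := by
  ext s
  simp only [LB.win, mem_setOf_eq]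
  constructor
  · rintro ⟨h1, h2, h3, h4⟩
    refine ⟨h1, ?_, h3, h4⟩
    by_contra hlt
    have := rad_mono hW ht' (not_le.1 hlt).le
    linarith
  · rintro ⟨h1, h2, h3, h4⟩
    exact ⟨h1, h2.trans htt, h3, h4⟩

theorem e2_of {t : ℝ} (ht : 0 < t) (hb : p.Bad2 f W t) :
    ∃ k : ℤ, (2 : ℝ) ^ k ≤ rad W t ∧ E2 p f W k := by
  obtain ⟨k, hk, hk'⟩ := exists_mem_Ico_zpow (LBStepD.rad_pos (W := W) ht)
    (by norm_num : (1 : ℝ) < 2)
  exact ⟨k, hk, t, ht, hk, hk', hb⟩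

theorem nb2_T (hW : ContinuousOn W (Ici 0)) (hf : DifferentiableOn ℂ f KB1.Hs)
    (hT : 0 < p.T f W) : ¬ p.Bad2 f W (p.T f W) := by
  rintro ⟨y, hy, hy', hlt⟩
  have := LBStepD.tip_T hW hf.continuousOn hT le_rfl hy hy'
  linarith

theorem low_T (hW : ContinuousOn W (Ici 0)) (hf : DifferentiableOn ℂ f KB1.Hs)
    (hT : 0 < p.T f W) (hlt : rad W (p.T f W) < p.rho1 f) {k : ℤ}
    (hk : (2 : ℝ) ^ k ≤ rad W (p.T f W)) (hk' : rad W (p.T f W) < (2 : ℝ) ^ (k + 1)) :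
    E2 p f W k ∨ E3 p f W k ∨ E3 p f W (k - 1) := by
  set T := p.T f W with hTdef
  have h1 : ∀ᶠ t in 𝓝 T, rad W t < p.rho1 f :=
    (LBStepD.continuousAt_rad hW hT).tendsto.eventually_lt_const hlt
  have h2 : ∀ᶠ t in 𝓝 T, rad W t < (2 : ℝ) ^ (k + 1) :=
    (LBStepD.continuousAt_rad hW hT).tendsto.eventually_lt_const hk'
  obtain ⟨δ, hδ, hδ'⟩ := Metric.eventually_nhds_iff.1 (h1.and h2)
  have hnear : ∀ t, T ≤ t → t < T + δ → rad W t < p.rho1 f ∧ rad W t < (2 : ℝ) ^ (k + 1) := by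
    intro t ht1 ht2
    apply hδ'
    rw [Real.dist_eq, abs_of_nonneg (by linarith)]
    linarith
  by_cases hA : ∃ t, T < t ∧ t < T + δ ∧ p.Bad2 f W t
  · obtain ⟨t, ht1, ht2, ht3⟩ := hA
    left
    exact ⟨t, hT.trans ht1, hk.trans (rad_mono hW hT.le ht1.le), (hnear t ht1.le ht2).2, ht3⟩
  · right
    push Not at hA
    have hnb : ∀ s, 0 < s → s < T + δ → ¬ p.Bad2 f W s := by
      intro s hs hs'
      rcases lt_trichotomy s T with h | h | h
      · exact fun hb => not_bad_of_lt p hs h (Or.inr (Or.inl hb))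
      · rw [h]
        exact nb2_T hW hf hT
      · exact hA s h hs'
    have hne : {t | 0 < t ∧ p.Bad f W t}.Nonempty := by
      by_contra hne
      rw [not_nonempty_iff_eq_empty] at hne
      have : p.T f W = 0 := by unfold LB.Par.T; rw [hne, Real.sInf_empty]
      rw [← hTdef] at this
      rw [this] at hT
      exact lt_irrefl _ hT
    obtain ⟨t, ht, htlt⟩ := exists_lt_of_csInf_lt hne
      (lt_add_of_pos_right T hδ : sInf {t | 0 < t ∧ p.Bad f W t} < T + δ)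
    have hTt : T ≤ t := csInf_le (T_bdd p f W) ht
    rcases ht.2 with h5 | h5 | ⟨j, h5⟩
    · exact absurd h5 (not_lt.2 (hnear t hTt htlt).1.le)
    · exact absurd h5 (hnb t ht.1 htlt)
    · have hE : E3 p f W j := ⟨t, ht.1, fun s hs hst => hnb s hs (hst.trans htlt), h5⟩
      have hj1 : j < k + 1 := (zpow_lt_zpow_iff_right₀ (by norm_num : (1 : ℝ) < 2)).1
        ((bad3_le hW h5).trans_lt (hnear t hTt htlt).2)
      have hj2 : k - 1 ≤ j := by
        by_contra hcon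
        rw [not_le] at hcon
        have hlt2 : (2 : ℝ) ^ (j + 1) < rad W T :=
          lt_of_lt_of_le (zpow_lt_zpow_right₀ (by norm_num) (by omega)) hk
        have h6 : ∀ᶠ s in 𝓝[<] T, (2 : ℝ) ^ (j + 1) < rad W s :=
          ((LBStepD.continuousAt_rad hW hT).tendsto.mono_left
            nhdsWithin_le_nhds).eventually_const_lt hlt2
        obtain ⟨s, hs1, hs2⟩ := (h6.and (Ioo_mem_nhdsLT hT)).exists
        have h7 : LB.win W t j = LB.win W s j := win_eq hW hs2.1.le (hs2.2.le.trans hTt) hs1.le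
        have h8 : p.Bad3 f W s j := by
          unfold LB.Par.Bad3 at h5 ⊢
          rw [← h7]
          exact h5
        exact not_bad_of_lt p hs2.1 hs2.2 (Or.inr (Or.inr ⟨j, h8⟩))
      have hj : j = k ∨ j = k - 1 := by omega
      rcases hj with h | h
      · left; rw [← h]; exact hE
      · right; rw [← h]; exact hE

theorem zero_T (hW : ContinuousOn W (Ici 0)) (h0 : W 0 = 0) (hρ : 0 < p.rho1 f)
    (hT : p.T f W = 0) (K : ℤ) : ∃ k ≤ K, E2 p f W k ∨ E3 p f W k := by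
  have hm : 0 < min (p.rho1 f) ((2 : ℝ) ^ K) := lt_min hρ (by positivity)
  have hc : ContinuousWithinAt (rad W) (Ici 0) 0 := LBStepD.continuousOn_rad hW 0 (by simp)
  have h1 : ∀ᶠ t in 𝓝[Ici 0] (0 : ℝ), rad W t < min (p.rho1 f) ((2 : ℝ) ^ K) := by
    have := hc.tendsto
    rw [LBStepD.rad_zero h0] at this
    exact this.eventually_lt_const hm
  obtain ⟨δ, hδ, hδ'⟩ := Metric.mem_nhdsWithin_iff.1 h1
  have hnear : ∀ t, 0 < t → t < δ → rad W t < min (p.rho1 f) ((2 : ℝ) ^ K) := by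
    intro t ht1 ht2
    refine hδ' ⟨?_, ht1.le⟩
    rw [Metric.mem_ball, Real.dist_eq, sub_zero, abs_of_pos ht1]
    exact ht2
  by_cases hA : ∃ t, 0 < t ∧ t < δ ∧ p.Bad2 f W t
  · obtain ⟨t, ht1, ht2, ht3⟩ := hA
    obtain ⟨k, hk, hE⟩ := e2_of ht1 ht3
    refine ⟨k, ?_, Or.inl hE⟩
    have h3 := (hnear t ht1 ht2).trans_le (min_le_right _ _)
    exact ((zpow_lt_zpow_iff_right₀ (by norm_num : (1 : ℝ) < 2)).1 (hk.trans_lt h3)).le
  · push Not at hA
    have hne : {t | 0 < t ∧ p.Bad f W t}.Nonempty := by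
      refine ⟨(p.rho1 f + 1) ^ 2, by positivity, Or.inl ?_⟩
      unfold LB.Par.Bad1
      have h3 := sqrt_le_rad W ((p.rho1 f + 1) ^ 2)
      rw [Real.sqrt_sq (by positivity)] at h3
      linarith
    have hT' : sInf {t | 0 < t ∧ p.Bad f W t} < δ := by
      have : sInf {t | 0 < t ∧ p.Bad f W t} = 0 := hT
      rw [this]
      exact hδ
    obtain ⟨t, ht, htlt⟩ := exists_lt_of_csInf_lt hne hT'
    rcases ht.2 with h5 | h5 | ⟨j, h5⟩
    · exact absurd h5 (not_lt.2 ((hnear t ht.1 htlt).le.trans (min_le_left _ _)))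
    · exact absurd h5 (hA t ht.1 htlt)
    · refine ⟨j, ?_, Or.inr ⟨t, ht.1, fun s hs hst => hA s hs (hst.trans htlt), h5⟩⟩
      have h3 := (hnear t ht.1 htlt).trans_le (min_le_right _ _)
      exact ((zpow_lt_zpow_iff_right₀ (by norm_num : (1 : ℝ) < 2)).1
        ((bad3_le hW h5).trans_lt h3)).le

theorem bad_T (hW : ContinuousOn W (Ici 0)) {s : ℝ} (hs : 0 < s) (hr : rad W s ≤ p.rho1 f)
    (hb : p.Bad2 f W s ∨ ∃ k, p.Bad3 f W s k) :
    ∃ k : ℤ, (2 : ℝ) ^ k ≤ p.rho1 f ∧ (E2 p f W k ∨ E3 p f W k) := by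
  by_cases hA : ∃ t, 0 < t ∧ t ≤ s ∧ p.Bad2 f W t
  · obtain ⟨t, ht1, ht2, ht3⟩ := hA
    obtain ⟨k, hk, hE⟩ := e2_of ht1 ht3
    exact ⟨k, (hk.trans (rad_mono hW ht1.le ht2)).trans hr, Or.inl hE⟩
  · push Not at hA
    rcases hb with hb | ⟨j, hb⟩
    · exact absurd hb (hA s hs le_rfl)
    · exact ⟨j, (bad3_le hW hb).trans hr, Or.inr ⟨s, hs, fun t ht hts => hA t ht hts.le, hb⟩⟩

/-- the pathwise input of the bookkeeping -/
theorem pathFacts (hf : DifferentiableOn ℂ f KB1.Hs) (hρ : 0 < p.rho1 f)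
    (hW : ContinuousOn W (Ici 0)) (h0 : W 0 = 0) : PathFacts p f W where
  pos hT := LBStepD.rad_pos hT
  le hT := LBStepD.rad_T_le hW hT
  nb2 hT := nb2_T hW hf hT
  low hT hlt _ hk hk' := low_T hW hf hT hlt hk hk'
  zero hT K := zero_T hW h0 hρ hT K
  bad _ hs hr hb := bad_T hW hs hr hb

theorem pathIn : PathIn := fun _ _ hS hρ _ hW h0 => pathFacts hS.diff hρ hW h0

end Crest.Agent.R162.LBBook
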