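import Mathlib
import Crest.Agent.R162.OS

set_option autoImplicit false

/-!
Row 162, node OS, part 2 (helper365): hitting times of closed sets by continuous adapted
processes (raw filtration), maximal inequality.
-/

open MeasureTheory ProbabilityTheory Filter Topology
open scoped NNReal ENNReal

namespace Crest.Agent.R162.OS

variable {Ω : Type*} {m : MeasurableSpace Ω} {F : Filtration ℝ≥0 m} {P : Measure Ω}
variable {E : Type*} [PseudoMetricSpace E]

section hit

variable {X : ℝ≥0 → Ω → E} {K : Set E} {σ : Ω → ℝ≥0} {T : ℝ≥0} {ω : Ω}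

lemma hit_set_closed (hK : IsClosed K) (hc : Continuous fun t => X t ω) :
    IsClosed ({t | σ ω ≤ t ∧ X t ω ∈ K} ∪ {max T (σ ω)}) := by
  refine IsClosed.union ?_ isClosed_singleton
  exact (isClosed_le continuous_const continuous_id).inter (hK.preimage hc)

lemma hit_mem (hK : IsClosed K) (hc : Continuous fun t => X t ω) :
    (σ ω ≤ hit X K σ T ω ∧ X (hit X K σ T ω) ω ∈ K) ∨ hit X K σ T ω = max T (σ ω) := by
  have h := (hit_set_closed (σ := σ) (T := T) hK hc).csInf_mem
    ⟨max T (σ ω), Or.inr rfl⟩ (OrderBot.bddBelow _)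
  exact h

omit [PseudoMetricSpace E] in
lemma hit_le_max : hit X K σ T ω ≤ max T (σ ω) :=
  csInf_le (OrderBot.bddBelow _) (Or.inr rfl)

omit [PseudoMetricSpace E] in
lemma le_hit : σ ω ≤ hit X K σ T ω := by
  refine le_csInf ⟨max T (σ ω), Or.inr rfl⟩ ?_
  rintro t (ht | ht)
  · exact ht.1
  · rw [Set.mem_singleton_iff.1 ht]
    exact le_max_right _ _

omit [PseudoMetricSpace E] in
lemma hit_le_of_mem {t : ℝ≥0} (h1 : σ ω ≤ t) (h2 : X t ω ∈ K) : hit X K σ T ω ≤ t :=
  csInf_le (OrderBot.bddBelow _) (Or.inl ⟨h1, h2⟩)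

omit [PseudoMetricSpace E] in
lemma notMem_of_lt_hit {t : ℝ≥0} (h1 : σ ω ≤ t) (h2 : t < hit X K σ T ω) : X t ω ∉ K := fun h =>
  absurd (hit_le_of_mem h1 h) (not_le.2 h2)




end hit

/-- for a continuous `F t`-measurable family on `[0,t]` the event that a closed set is met is
measurable -/
lemma measurableSet_exists_mem {Y : ℝ≥0 → Ω → E} {K : Set E} (hK : IsClosed K) (t : ℝ≥0)
    {m' : MeasurableSpace Ω} (hY : ∀ q, q ≤ t → StronglyMeasurable[m'] (Y q))
    (hc : ∀ ω, Continuous fun q => Y q ω) :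
    MeasurableSet[m'] {ω | ∃ q, q ≤ t ∧ Y q ω ∈ K} := by
  rcases K.eq_empty_or_nonempty with hKe | hKn
  · subst hKe
    simp
  let u : ℕ → Set.Iic t := TopologicalSpace.denseSeq (Set.Iic t)
  have hu : DenseRange u := TopologicalSpace.denseRange_denseSeq _
  have e : {ω | ∃ q, q ≤ t ∧ Y q ω ∈ K} =
      ⋂ n : ℕ, ⋃ k : ℕ, {ω | Metric.infDist (Y (u k) ω) K < 1 / ((n : ℝ) + 1)} := by
    ext ω
    simp only [Set.mem_ofPred_eq, Set.mem_iInter, Set.mem_iUnion]
    have hcd : Continuous fun q : ℝ≥0 => Metric.infDist (Y q ω) K :=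
      (Metric.continuous_infDist_pt K).comp (hc ω)
    constructor
    · rintro ⟨q, hq, hqK⟩ n
      have h0 : Metric.infDist (Y q ω) K = 0 := (hK.mem_iff_infDist_zero hKn).1 hqK
      have hopen : IsOpen {x : Set.Iic t | Metric.infDist (Y (x : ℝ≥0) ω) K < 1 / ((n : ℝ) + 1)} :=
        isOpen_lt (hcd.comp continuous_subtype_val) continuous_const
      obtain ⟨k, hk⟩ := hu.exists_mem_open hopen ⟨⟨q, hq⟩, by
        simp only [Set.mem_ofPred_eq, h0]
        positivity⟩
      exact ⟨k, hk⟩
    · intro h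
      obtain ⟨q, hq, hmin⟩ := (isCompact_Icc (a := (0 : ℝ≥0)) (b := t)).exists_isMinOn
        ⟨0, by simp⟩ hcd.continuousOn
      refine ⟨q, hq.2, (hK.mem_iff_infDist_zero hKn).2 ?_⟩
      refine le_antisymm ?_ Metric.infDist_nonneg
      refine le_of_forall_pos_lt_add fun ε hε => ?_
      obtain ⟨n, hn⟩ := exists_nat_one_div_lt hε
      obtain ⟨k, hk⟩ := h n
      have h1 : Metric.infDist (Y q ω) K ≤ Metric.infDist (Y (u k) ω) K :=
        hmin (a := (u k : ℝ≥0)) ⟨zero_le, (u k).2⟩
      linarith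
  rw [e]
  refine MeasurableSet.iInter fun n => MeasurableSet.iUnion fun k => ?_
  have h1 : StronglyMeasurable[m'] (fun ω => Metric.infDist (Y (u k) ω) K) :=
    (Metric.continuous_infDist_pt K).comp_stronglyMeasurable (hY _ (u k).2)
  exact h1.measurable measurableSet_Iio

/-- **hitting times** of closed sets by continuous adapted processes, started at a stopping time
and capped, are stopping times of the raw filtration. -/
theorem hit_isST {X : ℝ≥0 → Ω → E} (hX : StronglyAdapted F X)
    (hc : ∀ ω, Continuous fun t => X t ω) {K : Set E} (hK : IsClosed K)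
    {σ : Ω → ℝ≥0} (hσ : IsST F σ) (T : ℝ≥0) : IsST F (hit X K σ T) := by
  intro t
  have hY : ∀ q, q ≤ t → StronglyMeasurable[F t] (fun ω => X (max (min (σ ω) t) q) ω) := by
    intro q hq
    refine stronglyMeasurable_at hX hc
      (IsST.max (IsST.min hσ (IsST.const (F := F) t)) (IsST.const (F := F) q)) (T := t) ?_
    intro ω
    exact max_le (min_le_right _ _) hq
  have hm := measurableSet_exists_mem (m' := F t) hK t hY (by
    intro ω
    exact (hc ω).comp (continuous_const.max continuous_id))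
  have e : {ω | hit X K σ T ω ≤ t} = {ω | max T (σ ω) ≤ t} ∪
      ({ω | σ ω ≤ t} ∩ {ω | ∃ q, q ≤ t ∧ X (max (min (σ ω) t) q) ω ∈ K}) := by
    ext ω
    simp only [Set.mem_union, Set.mem_inter_iff, Set.mem_ofPred_eq]
    constructor
    · intro h
      rcases hit_mem (σ := σ) (T := T) hK (hc ω) with h1 | h1
      · right
        have h2 : σ ω ≤ t := h1.1.trans h
        refine ⟨h2, hit X K σ T ω, h, ?_⟩
        rw [min_eq_left h2, max_eq_right h1.1]
        exact h1.2
      · left
        rw [← h1]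
        exact h
    · rintro (h | ⟨h1, q, hq, h2⟩)
      · exact hit_le_max.trans h
      · rw [min_eq_left h1] at h2
        exact (hit_le_of_mem (le_max_left _ _) h2).trans (max_le h1 hq)
  rw [e]
  refine MeasurableSet.union ?_ ((hσ t).inter hm)
  exact IsST.max (IsST.const (F := F) T) hσ t



end Crest.Agent.R162.OS
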