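import Mathlib
import Crest.Agent.R162.OPTr
import Crest.Agent.R162.FLD
import Crest.Agent.R162.OS
import Crest.Agent.R162.OS2

-- ▼ part R162/LBC0
section

/-!
Row 162, node LB-CONTENT, file 0 (helper499): path facts of the state process of one point
(continuity, `Y = Im w e^{-2a}`, bounds for `L`), joint measurability of the state in `(ω, t)`.
-/

set_option autoImplicit false

open MeasureTheory ProbabilityTheory Set
open scoped NNReal ENNReal Topology

namespace Crest.Agent.R162.LBC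

open FL OP OS OPTr Crest.ProbabilityR.Loewner

section path

variable {W : ℝ → ℝ} {t : ℝ} {w : ℂ}

lemma stW_fst (s : ℝ) : (stW W s w).1 = (Zfl W s w).re := rfl
lemma stW_Y (s : ℝ) : (stW W s w).2.1 = (Zfl W s w).im := rfl
lemma stW_L (s : ℝ) : (stW W s w).2.2.1 = Real.log (ups W s w) := rfl
lemma stW_a (s : ℝ) : (stW W s w).2.2.2 = ath W s w := rfl

lemma Y_pos (h : Alive W w t) : 0 < (stW W t w).2.1 := by
  rw [stW_Y]; exact FL.Zfl_im_pos h

/-- equality with the truncated state on the whole past -/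
lemma stD_eqOn (hW : Continuous W) (h : Alive W w t) {s : ℝ} (hs : s ∈ Icc 0 t) :
    stD (gfl W t w).im W s w = stW W s w :=
  stD_eq hW (gfl_im_pos h) (h.mono hs.1 hs.2) (im_anti h hs.1 hs.2)

lemma xy_comp_cont {δ : ℝ} (hW : Continuous W) (hδ : 0 < δ) {f : ℝ × ℝ → ℝ} (hf : Continuous f) :
    ContinuousOn (fun s => f (xy δ W w s)) (Ici 0) :=
  hf.comp_continuousOn (xy_contOn hW hδ)

lemma integral_contOn {g : ℝ → ℝ} (hg : ContinuousOn g (Ici 0)) (T : ℝ) (hT : 0 ≤ T) :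
    ContinuousOn (fun u => ∫ s in (0:ℝ)..u, g s) (Icc 0 T) := by
  have hi : IntegrableOn g (uIcc 0 T) := by
    rw [uIcc_of_le hT]
    exact (hg.mono Icc_subset_Ici_self).integrableOn_Icc
  have := intervalIntegral.continuousOn_primitive_interval hi
  rwa [uIcc_of_le hT] at this

lemma stD_contOn {δ : ℝ} (hW : Continuous W) (hδ : 0 < δ) (T : ℝ) (hT : 0 ≤ T) :
    ContinuousOn (fun s => stD δ W s w) (Icc 0 T) := by
  have h1 : ContinuousOn (xy δ W w) (Icc 0 T) := (xy_contOn (z := w) hW hδ).mono Icc_subset_Ici_self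
  have h2 := integral_contOn (xy_comp_cont (w := w) hW hδ (cL_cont hδ)) T hT
  have h3 := integral_contOn (xy_comp_cont (w := w) hW hδ (ca_cont hδ)) T hT
  unfold stD
  exact (continuous_fst.comp_continuousOn h1).prodMk
    ((continuous_snd.comp_continuousOn h1).prodMk ((continuousOn_const.add h2).prodMk h3))

/-- continuity of the state on the life interval -/
theorem stW_contOn (hW : Continuous W) (h : Alive W w t) :
    ContinuousOn (fun s => stW W s w) (Icc 0 t) :=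
  (stD_contOn hW (gfl_im_pos h) t h.1).congr fun _ hs => (stD_eqOn hW h hs).symm

/-- `Y_t = Im w e^{-2 a_t}` -/
theorem Y_eq (hW : Continuous W) (h : Alive W w t) :
    (stW W t w).2.1 = w.im * Real.exp (-2 * (stW W t w).2.2.2) := by
  have h1 := log_im_eq h hW
  have hw : 0 < w.im := h.im_pos
  have h2 : ∫ s in (0:ℝ)..t, -(2 / ‖Zfl W s w‖ ^ 2) = -2 * ath W t w := by
    unfold ath
    rw [← intervalIntegral.integral_const_mul]
    congr 1
    funext s
    ring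
  rw [h2] at h1
  rw [stW_Y, stW_a, Zfl_im, ← Real.exp_log (gfl_im_pos h), h1, Real.exp_add, Real.exp_log hw]

lemma L_eq (hW : Continuous W) (h : Alive W w t) :
    (stW W t w).2.2.1 = Real.log w.im
      + ∫ s in (0:ℝ)..t, cL (gfl W t w).im (xy (gfl W t w).im W w s) := by
  rw [← stD_eqOn hW h ⟨h.1, le_rfl⟩]; rfl

lemma a_eq (hW : Continuous W) (h : Alive W w t) :
    (stW W t w).2.2.2 = ∫ s in (0:ℝ)..t, ca (gfl W t w).im (xy (gfl W t w).im W w s) := by
  rw [← stD_eqOn hW h ⟨h.1, le_rfl⟩]; rfl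

lemma cL_nonpos (δ : ℝ) (p : ℝ × ℝ) : cL δ p ≤ 0 := by
  unfold cL
  have : 0 ≤ 4 * (max p.2 δ) ^ 2 / (p.1 ^ 2 + (max p.2 δ) ^ 2) ^ 2 := by positivity
  linarith


lemma neg_four_ca_le_cL {δ : ℝ} (hδ : 0 < δ) (p : ℝ × ℝ) : -4 * ca δ p ≤ cL δ p := by
  unfold cL ca
  have hm : 0 < max p.2 δ := lt_max_of_lt_right hδ
  set m := max p.2 δ
  have h1 : 0 < p.1 ^ 2 + m ^ 2 := by positivity
  have h2 : 4 * m ^ 2 / (p.1 ^ 2 + m ^ 2) ^ 2 ≤ 4 * (1 / (p.1 ^ 2 + m ^ 2)) := by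
    rw [div_le_iff₀ (by positivity)]
    have : 4 * (1 / (p.1 ^ 2 + m ^ 2)) * (p.1 ^ 2 + m ^ 2) ^ 2 = 4 * (p.1 ^ 2 + m ^ 2) := by
      field_simp
    rw [this]
    nlinarith [sq_nonneg p.1]
  linarith

theorem L_le (hW : Continuous W) (h : Alive W w t) : (stW W t w).2.2.1 ≤ Real.log w.im := by
  rw [L_eq hW h]
  have : 0 ≤ ∫ s in (0:ℝ)..t, -cL (gfl W t w).im (xy (gfl W t w).im W w s) :=
    intervalIntegral.integral_nonneg h.1 fun s _ => neg_nonneg.2 (cL_nonpos _ _)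
  rw [intervalIntegral.integral_neg] at this
  linarith

theorem le_L (hW : Continuous W) (h : Alive W w t) :
    Real.log w.im - 4 * (stW W t w).2.2.2 ≤ (stW W t w).2.2.1 := by
  have hδ := gfl_im_pos h
  rw [L_eq hW h, a_eq hW h, sub_eq_add_neg, ← neg_mul, ← intervalIntegral.integral_const_mul]
  gcongr
  refine intervalIntegral.integral_mono_on h.1 ?_ ?_ fun s _ => neg_four_ca_le_cL hδ _
  · refine ContinuousOn.intervalIntegrable_of_Icc h.1 ?_
    exact continuousOn_const.mul ((xy_comp_cont hW hδ (ca_cont hδ)).mono Icc_subset_Ici_self)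
  · refine ContinuousOn.intervalIntegrable_of_Icc h.1 ?_
    exact (xy_comp_cont hW hδ (cL_cont hδ)).mono Icc_subset_Ici_self

theorem a_nonneg (h : Alive W w t) : 0 ≤ (stW W t w).2.2.2 := by
  rw [stW_a]
  unfold ath
  exact intervalIntegral.integral_nonneg h.1 fun s _ => by positivity


theorem Y_le (_hW : Continuous W) (h : Alive W w t) : (stW W t w).2.1 ≤ w.im := by
  rw [stW_Y, Zfl_im]; exact im_anti' h


end path

section meas

variable {Ω : Type*} {m : MeasurableSpace Ω} {W : Ω → ℝ → ℝ} {w : ℂ}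

/-- joint measurability of the driving path -/
lemma meas_drive (hc : ∀ ω, Continuous (W ω)) (hm : ∀ s, Measurable fun ω => W ω s) :
    Measurable (fun p : Ω × ℝ => W p.1 p.2) := by
  have := measurable_uncurry_of_continuous_of_measurable (u := fun (s : ℝ) (ω : Ω) => W ω s)
    (fun ω => hc ω) hm
  exact this.comp (measurable_snd.prodMk measurable_fst)

/-- joint measurability of the flow of one point -/
lemma meas_gfl (hc : ∀ ω, Continuous (W ω)) (hm : ∀ s, Measurable fun ω => W ω s) (w : ℂ) :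
    Measurable (fun p : Ω × ℝ => gfl (W p.1) p.2 w) := by
  refine FLD.measurable_of_cover (ι := ℕ) (fun n => {p : Ω × ℝ | p.2 ≤ n})
    (fun n p => (Iic (n:ℝ)).indicator (fun s => gfl (W p.1) s w) p.2)
    (fun n => measurableSet_le measurable_snd measurable_const) (fun p => ?_) (fun n => ?_)
    (fun n p hp => ?_)
  · obtain ⟨n, hn⟩ := exists_nat_ge p.2
    exact ⟨n, hn⟩
  · have h := FLD.measurable_gfl_joint (W := W) (T := (n:ℝ)) (fun ω => (hc ω).continuousOn)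
      (fun s _ => hm s)
    exact h.comp ((measurable_fst.prodMk measurable_const).prodMk measurable_snd)
  · exact (indicator_of_mem (s := Iic (n:ℝ)) (f := fun s => gfl (W p.1) s w) hp).symm

lemma meas_Zfl (hc : ∀ ω, Continuous (W ω)) (hm : ∀ s, Measurable fun ω => W ω s) (w : ℂ) :
    Measurable (fun p : Ω × ℝ => Zfl (W p.1) p.2 w) :=
  (meas_gfl hc hm w).sub (Complex.measurable_ofReal.comp (meas_drive hc hm))

/-- joint measurability of a primitive in time -/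
lemma meas_prim {φ : Ω × ℝ → ℝ} (hφ : Measurable φ) :
    Measurable (fun p : Ω × ℝ => ∫ s in (0:ℝ)..p.2, φ (p.1, s)) := by
  have h1 : Measurable (fun x : (Ω × ℝ) × ℝ => (Ioc 0 x.1.2).indicator
      (fun s => φ (x.1.1, s)) x.2) := by
    have : (fun x : (Ω × ℝ) × ℝ => (Ioc 0 x.1.2).indicator (fun s => φ (x.1.1, s)) x.2)
        = {x : (Ω × ℝ) × ℝ | 0 < x.2 ∧ x.2 ≤ x.1.2}.indicator (fun x => φ (x.1.1, x.2)) := by
      funext x
      simp only [indicator, mem_Ioc, mem_ofPred_eq]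
    rw [this]
    refine Measurable.indicator ?_ ?_
    · exact hφ.comp ((measurable_fst.comp measurable_fst).prodMk measurable_snd)
    · exact (measurableSet_lt measurable_const measurable_snd).inter
        (measurableSet_le measurable_snd (measurable_snd.comp measurable_fst))
  have h2 : Measurable (fun x : (Ω × ℝ) × ℝ => (Ioc x.1.2 0).indicator
      (fun s => φ (x.1.1, s)) x.2) := by
    have : (fun x : (Ω × ℝ) × ℝ => (Ioc x.1.2 0).indicator (fun s => φ (x.1.1, s)) x.2)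
        = {x : (Ω × ℝ) × ℝ | x.1.2 < x.2 ∧ x.2 ≤ 0}.indicator (fun x => φ (x.1.1, x.2)) := by
      funext x
      simp only [indicator, mem_Ioc, mem_ofPred_eq]
    rw [this]
    refine Measurable.indicator ?_ ?_
    · exact hφ.comp ((measurable_fst.comp measurable_fst).prodMk measurable_snd)
    · exact (measurableSet_lt (measurable_snd.comp measurable_fst) measurable_snd).inter
        (measurableSet_le measurable_snd measurable_const)
  have e1 := (h1.stronglyMeasurable.integral_prod_right' (ν := volume)).measurable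
  have e2 := (h2.stronglyMeasurable.integral_prod_right' (ν := volume)).measurable
  convert e1.sub e2 using 1
  funext p
  simp only [Pi.sub_apply, intervalIntegral]
  rw [integral_indicator measurableSet_Ioc, integral_indicator measurableSet_Ioc]

/-- joint measurability of the state of one point -/
theorem meas_stW (hc : ∀ ω, Continuous (W ω)) (hm : ∀ s, Measurable fun ω => W ω s) (w : ℂ) :
    Measurable (fun p : Ω × ℝ => stW (W p.1) p.2 w) := by
  have hZ := meas_Zfl hc hm w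
  have hg := meas_gfl hc hm w
  have h1 : Measurable (fun p : Ω × ℝ => ups (W p.1) p.2 w) := by
    unfold ups
    refine (Complex.measurable_im.comp hg).mul (Real.measurable_exp.comp ?_)
    refine meas_prim (φ := fun p : Ω × ℝ => 2 * (((Zfl (W p.1) p.2 w) ^ 2)⁻¹).re) ?_
    exact (Complex.measurable_re.comp (hZ.pow_const 2).inv).const_mul 2
  have h2 : Measurable (fun p : Ω × ℝ => ath (W p.1) p.2 w) := by
    unfold ath
    refine meas_prim (φ := fun p : Ω × ℝ => 1 / ‖Zfl (W p.1) p.2 w‖ ^ 2) ?_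
    exact measurable_const.div (hZ.norm.pow_const 2)
  unfold stW
  exact (Complex.measurable_re.comp hZ).prodMk ((Complex.measurable_im.comp hZ).prodMk
    ((Real.measurable_log.comp h1).prodMk h2))

theorem meas_alive (hc : ∀ ω, Continuous (W ω)) (hm : ∀ s, Measurable fun ω => W ω s) (w : ℂ) :
    MeasurableSet {p : Ω × ℝ | Alive (W p.1) w p.2} := by
  have : {p : Ω × ℝ | Alive (W p.1) w p.2}
      = ⋃ n : ℕ, {p : Ω × ℝ | p.2 ≤ n ∧ Alive (W p.1) w p.2} := by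
    ext p
    simp only [mem_ofPred_eq, mem_iUnion]
    constructor
    · intro h
      obtain ⟨n, hn⟩ := exists_nat_ge p.2
      exact ⟨n, hn, h⟩
    · rintro ⟨n, _, h⟩
      exact h
  rw [this]
  refine MeasurableSet.iUnion fun n => ?_
  have h := FLD.measurableSet_alive_joint (W := W) (T := (n:ℝ)) (fun ω => (hc ω).continuousOn)
      (fun s _ => hm s)
  have h2 : Measurable (fun p : Ω × ℝ => (((p.1, w), p.2) : (Ω × ℂ) × ℝ)) :=
    (measurable_fst.prodMk measurable_const).prodMk measurable_snd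
  exact h2 h

end meas

end Crest.Agent.R162.LBC
end

-- ▼ part R162/LBC1

/-!
Row 162, node LB-CONTENT, file 1 (helper499): localisation of the master Dynkin formula `OPM`.
`super_int`: if `F ≥ 0` is `C³` on `{Y > 0}` with `gen κ F ≤ -H`, `H ≥ 0`, then
`E[∫_σ^τ H(st_s) 1{alive} ds ; A] ≤ E[F(st_σ) ; A, alive at σ]`.
-/

set_option autoImplicit false
set_option linter.unusedSectionVars false

open MeasureTheory ProbabilityTheory Set Filter
open scoped NNReal ENNReal Topology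

namespace Crest.Agent.R162.LBC

open FL OP OS OPTr Crest.ProbabilityR.Loewner

/-- open boxes in the state space -/
def bo (r : ℝ) : Set (ℝ × ℝ × ℝ × ℝ) :=
  Ioo (-r) r ×ˢ (Ioo (1 / r) r ×ˢ (Ioo (-r) r ×ˢ Ioo (-r) r))

/-- closed boxes in the state space -/
def bc (r : ℝ) : Set (ℝ × ℝ × ℝ × ℝ) :=
  Icc (-r) r ×ˢ (Icc (1 / r) r ×ˢ (Icc (-r) r ×ˢ Icc (-r) r))

lemma isOpen_bo (r : ℝ) : IsOpen (bo r) :=
  isOpen_Ioo.prod (isOpen_Ioo.prod (isOpen_Ioo.prod isOpen_Ioo))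

lemma isCompact_bc (r : ℝ) : IsCompact (bc r) :=
  isCompact_Icc.prod (isCompact_Icc.prod (isCompact_Icc.prod isCompact_Icc))

lemma bo_subset_bc (r : ℝ) : bo r ⊆ bc r :=
  prod_mono Ioo_subset_Icc_self (prod_mono Ioo_subset_Icc_self
    (prod_mono Ioo_subset_Icc_self Ioo_subset_Icc_self))

lemma closure_bo_subset (r : ℝ) : closure (bo r) ⊆ bc r :=
  closure_minimal (bo_subset_bc r) (isCompact_bc r).isClosed

lemma bc_pos {r : ℝ} (_hr : 0 < r) {q : ℝ × ℝ × ℝ × ℝ} (hq : q ∈ bc r) : 1 / r ≤ q.2.1 :=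
  hq.2.1.1

lemma bc_pos' {r : ℝ} (hr : 0 < r) {q : ℝ × ℝ × ℝ × ℝ} (hq : q ∈ bc r) : 0 < q.2.1 :=
  lt_of_lt_of_le (by positivity) (bc_pos hr hq)

lemma mem_bo_of {M c r : ℝ} {q : ℝ × ℝ × ℝ × ℝ} (hc : 0 < c) (h1 : |q.1| ≤ M) (h2 : c ≤ q.2.1)
    (h2' : |q.2.1| ≤ M) (h3 : |q.2.2.1| ≤ M) (h4 : |q.2.2.2| ≤ M) (hM : M < r)
    (hr : 1 / c < r) : q ∈ bo r := by
  have hr0 : 0 < r := lt_trans (by positivity) hr
  have h5 : 1 / r < q.2.1 := by
    refine lt_of_lt_of_le ?_ h2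
    rw [div_lt_iff₀ hr0]
    rw [div_lt_iff₀ hc] at hr
    linarith
  have e1 := abs_le.1 h1
  have e2 := abs_le.1 h2'
  have e3 := abs_le.1 h3
  have e4 := abs_le.1 h4
  exact ⟨⟨by linarith, by linarith⟩, ⟨h5, by linarith⟩, ⟨by linarith, by linarith⟩,
    ⟨by linarith, by linarith⟩⟩

section det

variable {W : ℝ → ℝ} {w : ℂ} {O : Set (ℝ × ℝ × ℝ × ℝ)} {δ : ℝ}

lemma alive_of_Y_pos {t : ℝ} (h : 0 < (stW W t w).2.1) : Alive W w t := by
  by_contra hna
  have : gfl W t w = 0 := FLD.gfl_of_not_alive hna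
  rw [stW_Y, Zfl_im, this] at h
  simp at h

/-- first exit time, deterministic form -/
noncomputable def ext (W : ℝ → ℝ) (w : ℂ) (O : Set (ℝ × ℝ × ℝ × ℝ)) (σ T : ℝ≥0) : ℝ≥0 :=
  sInf ({t : ℝ≥0 | σ ≤ t ∧ stW W t w ∈ Oᶜ} ∪ {max T σ})

lemma le_ext {σ T : ℝ≥0} : σ ≤ ext W w O σ T := by
  refine le_csInf ⟨max T σ, Or.inr rfl⟩ ?_
  rintro t (ht | ht)
  · exact ht.1
  · rw [ht]; exact le_max_right _ _


lemma mem_of_lt_ext {σ T t : ℝ≥0} (h1 : σ ≤ t) (h2 : t < ext W w O σ T) : stW W t w ∈ O := by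
  by_contra hc
  exact absurd (csInf_le (OrderBot.bddBelow _) (Or.inl ⟨h1, hc⟩) : ext W w O σ T ≤ t)
    (not_le.2 h2)

/-- alive up to and including the exit time -/
lemma alive_ext (hW : Continuous W) (hw : 0 < w.im) (hδ : 0 < δ) (hO : ∀ q ∈ O, δ ≤ q.2.1)
    {σ T : ℝ≥0} (hσ : stW W σ w ∈ O) : Alive W w (ext W w O σ T) := by
  have hσa : Alive W w σ := alive_of_Y_pos (lt_of_lt_of_le hδ (hO _ hσ))
  refine alive_of_apriori hW.continuousOn hw NNReal.zero_le_coe hδ fun s hs hst ha => ?_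
  rcases le_or_gt s σ with h | h
  · have h1 := im_anti hσa hs h
    have h2 := hO _ hσ
    rw [stW_Y, Zfl_im] at h2
    linarith
  · have h1 : stW W ((⟨s, hs⟩ : ℝ≥0) : ℝ) w ∈ O :=
      mem_of_lt_ext (σ := σ) (T := T) (by exact_mod_cast h.le) (by exact_mod_cast hst)
    have h2 := hO _ h1
    rw [stW_Y, Zfl_im] at h2
    exact h2

lemma mem_closure_ext (hW : Continuous W) (hw : 0 < w.im) (hδ : 0 < δ) (hO : ∀ q ∈ O, δ ≤ q.2.1)
    {σ T : ℝ≥0} (hσ : stW W σ w ∈ O) : stW W (ext W w O σ T) w ∈ closure O := by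
  rcases (le_ext (W := W) (w := w) (O := O) (σ := σ) (T := T)).eq_or_lt with h | h
  · rw [← h]; exact subset_closure hσ
  have ha := alive_ext hW hw hδ hO (T := T) hσ
  set e := ext W w O σ T with he
  have hc := stW_contOn hW ha
  have hlt : (σ : ℝ) < (e : ℝ) := by exact_mod_cast h
  have hcw : ContinuousWithinAt (fun s => stW W s w) (Ico (σ : ℝ) e) e :=
    (hc e ⟨e.2, le_rfl⟩).mono (fun x hx => ⟨σ.2.trans hx.1, hx.2.le⟩)
  have hne : (𝓝[Ico (σ : ℝ) e] (e : ℝ)).NeBot := by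
    refine mem_closure_iff_nhdsWithin_neBot.1 ?_
    rw [closure_Ico hlt.ne]; exact ⟨hlt.le, le_rfl⟩
  refine mem_closure_of_tendsto hcw (eventually_of_mem self_mem_nhdsWithin fun s hs => ?_)
  have hs0 : 0 ≤ s := σ.2.trans hs.1
  exact mem_of_lt_ext (W := W) (w := w) (O := O) (σ := σ) (T := T) (t := ⟨s, hs0⟩)
    (by exact_mod_cast hs.1) (by exact_mod_cast hs.2)

/-- all times up to the exit: alive and in the closure -/
lemma upto_ext (hW : Continuous W) (hw : 0 < w.im) (hδ : 0 < δ) (hO : ∀ q ∈ O, δ ≤ q.2.1)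
    {σ T t : ℝ≥0} (hσ : stW W σ w ∈ O) (h1 : σ ≤ t) (h2 : t ≤ ext W w O σ T) :
    Alive W w t ∧ stW W t w ∈ closure O := by
  have ha := alive_ext hW hw hδ hO (T := T) hσ
  refine ⟨ha.mono t.2 (by exact_mod_cast h2), ?_⟩
  rcases h2.eq_or_lt with h | h
  · rw [h]; exact mem_closure_ext hW hw hδ hO hσ
  · exact subset_closure (mem_of_lt_ext h1 h)

/-- if the path stays in `O` on `[σ,u]` then the exit time is at least `u` -/
lemma le_ext_of {σ T : ℝ≥0} {u : ℝ} (hT : u ≤ max (T : ℝ) σ)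
    (h : ∀ s ∈ Icc (σ : ℝ) u, stW W s w ∈ O) : u ≤ (ext W w O σ T : ℝ) := by
  rcases lt_or_ge u 0 with hu | hu
  · exact hu.le.trans NNReal.zero_le_coe
  lift u to ℝ≥0 using hu
  norm_cast
  refine le_csInf ⟨max T σ, Or.inr rfl⟩ ?_
  rintro t (ht | ht)
  · by_contra hc
    push Not at hc
    exact ht.2 (h t ⟨by exact_mod_cast ht.1, by exact_mod_cast hc.le⟩)
  · rw [ht]; exact_mod_cast hT

/-- the path on a life interval is contained in all large boxes -/
lemma exists_box (hW : Continuous W) {u : ℝ} (ha : Alive W w u) :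
    ∃ r₀ : ℝ, ∀ r, r₀ ≤ r → ∀ s ∈ Icc 0 u, stW W s w ∈ bo r := by
  have hc := stW_contOn hW ha
  have hK : IsCompact ((fun s => stW W s w) '' Icc 0 u) := isCompact_Icc.image_of_continuousOn hc
  obtain ⟨M, hM⟩ := hK.isBounded.exists_norm_le
  have hpos := gfl_im_pos ha
  set c := (gfl W u w).im with hcdef
  refine ⟨max M (1 / c) + 1, fun r hr s hs => ?_⟩
  have h1 := hM _ ⟨s, hs, rfl⟩
  have hle : c ≤ (stW W s w).2.1 := by
    rw [stW_Y, Zfl_im]; exact im_anti ha hs.1 hs.2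
  have n1 : |(stW W s w).1| ≤ M := (norm_fst_le _).trans h1
  have n2 : ‖(stW W s w).2‖ ≤ M := (norm_snd_le _).trans h1
  have n3 : |(stW W s w).2.1| ≤ M := (norm_fst_le _).trans n2
  have n4 : ‖(stW W s w).2.2‖ ≤ M := (norm_snd_le _).trans n2
  have n5 : |(stW W s w).2.2.1| ≤ M := (norm_fst_le _).trans n4
  have n6 : |(stW W s w).2.2.2| ≤ M := (norm_snd_le _).trans n4
  exact mem_bo_of hpos n1 hle n3 n5 n6 (by linarith [le_max_left M (1 / c)])
    (by linarith [le_max_right M (1 / c)])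

end det

section prob

universe u

variable {Ω : Type u} {m : MeasurableSpace Ω} {P : Measure Ω} [IsProbabilityMeasure P]
  {Fl : Filtration ℝ≥0 m} {B : ℝ≥0 → Ω → ℝ} {κ : ℝ} {w : ℂ}

/-- the two measurability facts on exit times used below (proved in `OPExit`). -/
structure Exit (Fl : Filtration ℝ≥0 m) (κ : ℝ) (B : ℝ≥0 → Ω → ℝ) (w : ℂ) : Prop where
  st : ∀ O : Set (ℝ × ℝ × ℝ × ℝ), IsOpen O → ∀ δ : ℝ, 0 < δ → (∀ q ∈ O, δ ≤ q.2.1) →
    ∀ σ : Ω → ℝ≥0, IsST Fl σ → ∀ T : ℝ≥0, IsST Fl (hit (stP κ B w) Oᶜ σ T)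
  ev : ∀ O : Set (ℝ × ℝ × ℝ × ℝ), IsOpen O → ∀ δ : ℝ, 0 < δ → (∀ q ∈ O, δ ≤ q.2.1) →
    ∀ σ : Ω → ℝ≥0, IsST Fl σ → EvST Fl σ {ω | stP κ B w (σ ω) ω ∈ O}

lemma hit_eq (O : Set (ℝ × ℝ × ℝ × ℝ)) (σ : Ω → ℝ≥0) (T : ℝ≥0) (ω : Ω) :
    hit (stP κ B w) Oᶜ σ T ω = ext (driving κ B ω) w O (σ ω) T := rfl

lemma cont_driving (hB : IsBM Fl B P) (κ : ℝ) (ω : Ω) : Continuous (driving κ B ω) := by
  unfold driving
  exact continuous_const.mul ((hB.cont ω).comp continuous_real_toNNReal)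

lemma meas_driving (hB : IsBM Fl B P) (κ : ℝ) (s : ℝ) : Measurable fun ω => driving κ B ω s := by
  unfold driving
  exact ((hB.adapted _).mono (Fl.le _) le_rfl).const_mul _

/-- the rate integrand -/
noncomputable def hr (H : ℝ × ℝ × ℝ × ℝ → ℝ) (κ : ℝ) (B : ℝ≥0 → Ω → ℝ) (w : ℂ)
    (ω : Ω) (s : ℝ) : ℝ≥0∞ :=
  {s | Alive (driving κ B ω) w s}.indicator
    (fun s => ENNReal.ofReal (H (stW (driving κ B ω) s w))) s

lemma meas_hr (hB : IsBM Fl B P) {H : ℝ × ℝ × ℝ × ℝ → ℝ} (hH : Measurable H) :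
    Measurable (fun p : Ω × ℝ => hr H κ B w p.1 p.2) := by
  have h1 := meas_stW (cont_driving hB κ) (meas_driving hB κ) w
  have h2 := meas_alive (cont_driving hB κ) (meas_driving hB κ) w
  have : (fun p : Ω × ℝ => hr H κ B w p.1 p.2) = {p : Ω × ℝ | Alive (driving κ B p.1) w p.2}.indicator
      (fun p => ENNReal.ofReal (H (stW (driving κ B p.1) p.2 w))) := by
    funext p
    simp only [hr, indicator, mem_ofPred_eq]
  rw [this]
  exact (ENNReal.measurable_ofReal.comp (hH.comp h1)).indicator h2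

lemma meas_st_at (hB : IsBM Fl B P) {σ : Ω → ℝ≥0} (hσ : Measurable σ) :
    Measurable (fun ω => stP κ B w (σ ω) ω) := by
  have h1 := meas_stW (cont_driving hB κ) (meas_driving hB κ) w
  exact h1.comp (measurable_id.prodMk (measurable_coe_nnreal_real.comp hσ))

/-- measurable extension by zero of a function continuous on `{Y > 0}` -/
noncomputable def e0 (g : ℝ × ℝ × ℝ × ℝ → ℝ) : ℝ × ℝ × ℝ × ℝ → ℝ :=
  {q | 0 < q.2.1}.indicator g

lemma isOpen_Dp : IsOpen {q : ℝ × ℝ × ℝ × ℝ | 0 < q.2.1} :=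
  isOpen_lt continuous_const (continuous_fst.comp continuous_snd)

lemma meas_e0 {g : ℝ × ℝ × ℝ × ℝ → ℝ} (hg : ContinuousOn g {q | 0 < q.2.1}) :
    Measurable (e0 g) := by
  classical
  have := ContinuousOn.measurable_piecewise (f := g) (g := (0 : ℝ × ℝ × ℝ × ℝ → ℝ))
    (s := {q : ℝ × ℝ × ℝ × ℝ | 0 < q.2.1}) hg continuousOn_const isOpen_Dp.measurableSet
  rwa [piecewise_eq_indicator] at this

lemma e0_of_pos {g : ℝ × ℝ × ℝ × ℝ → ℝ} {q : ℝ × ℝ × ℝ × ℝ} (hq : 0 < q.2.1) : e0 g q = g q :=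
  indicator_of_mem (s := {q : ℝ × ℝ × ℝ × ℝ | 0 < q.2.1}) hq g

/-- **one localised step**: Dynkin on a box. -/
theorem box_step (hM : OPM.{u}) (hB : IsBM Fl B P) (hκ : 0 < κ) (hw : 0 < w.im)
    (hE : Exit Fl κ B w) {F : ℝ × ℝ × ℝ × ℝ → ℝ} (hF : ContDiffOn ℝ 3 F {q | 0 < q.2.1})
    (hgc : ContinuousOn (gen κ F) {q | 0 < q.2.1})
    {O : Set (ℝ × ℝ × ℝ × ℝ)} (hO : IsOpen O) {r : ℝ} (hr : 0 < r) (hOr : O ⊆ bo r)
    {σ τ : Ω → ℝ≥0} (hσ : IsST Fl σ)
    (hτ : IsST Fl τ) {T : ℝ≥0} (hτT : ∀ ω, τ ω ≤ T) {A : Set Ω} (hA : EvST Fl σ A)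
    (hστ : ∀ ω ∈ A, σ ω ≤ τ ω) (hAO : ∀ ω ∈ A, stP κ B w (σ ω) ω ∈ O) :
    let τ' : Ω → ℝ≥0 := fun ω => min (hit (stP κ B w) Oᶜ σ T ω) (τ ω)
    (∀ ω ∈ A, σ ω ≤ τ' ω ∧ ∀ t : ℝ≥0, σ ω ≤ t → t ≤ τ' ω →
        AliveP κ B w t ω ∧ stP κ B w t ω ∈ closure O) ∧
    IntegrableOn (fun ω => F (stP κ B w (σ ω) ω)) A P ∧
    IntegrableOn (fun ω => F (stP κ B w (τ' ω) ω)) A P ∧
    IntegrableOn (fun ω => ∫ s in (σ ω : ℝ)..(τ' ω : ℝ),
      gen κ F (stW (driving κ B ω) s w)) A P ∧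
    ∫ ω in A, F (stP κ B w (τ' ω) ω) ∂P = ∫ ω in A, F (stP κ B w (σ ω) ω) ∂P
      + ∫ ω in A, (∫ s in (σ ω : ℝ)..(τ' ω : ℝ), gen κ F (stW (driving κ B ω) s w)) ∂P := by
  intro τ'
  have hδ : 0 < 1 / r := by positivity
  have hOδ : ∀ q ∈ O, 1 / r ≤ q.2.1 := fun q hq => (hOr hq).2.1.1.le
  have hτ'st : IsST Fl τ' := (hE.st O hO _ hδ hOδ σ hσ T).min hτ
  have hclO : closure O ⊆ bc r := (closure_mono hOr).trans (closure_bo_subset r)
  have hAm : MeasurableSet A := hA.measurableSet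
  have hW := fun ω => cont_driving hB κ ω
  have key : ∀ ω ∈ A, σ ω ≤ τ' ω ∧ ∀ t : ℝ≥0, σ ω ≤ t → t ≤ τ' ω →
      AliveP κ B w t ω ∧ stP κ B w t ω ∈ closure O := by
    intro ω hω
    refine ⟨le_min ?_ (hστ ω hω), fun t h1 h2 => ?_⟩
    · rw [hit_eq]; exact le_ext
    · exact upto_ext (hW ω) hw hδ hOδ (hAO ω hω) h1 (h2.trans (min_le_left _ _))
  -- bounds on the compact set
  have hbd : ∀ g : ℝ × ℝ × ℝ × ℝ → ℝ, ContinuousOn g {q | 0 < q.2.1} →
      ∃ C : ℝ, 0 ≤ C ∧ ∀ q ∈ bc r, |g q| ≤ C := by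
    intro g hg
    obtain ⟨C, hC⟩ := (isCompact_bc r).exists_bound_of_continuousOn
      (hg.mono fun q hq => bc_pos' hr hq)
    exact ⟨max C 0, le_max_right _ _, fun q hq => (hC q hq).trans (le_max_left _ _)⟩
  obtain ⟨CF, hCF0, hCF⟩ := hbd F hF.continuousOn
  obtain ⟨Cg, hCg0, hCg⟩ := hbd (gen κ F) hgc
  have hYpos : ∀ ω ∈ A, ∀ t : ℝ≥0, σ ω ≤ t → t ≤ τ' ω → 0 < (stP κ B w t ω).2.1 :=
    fun ω hω t h1 h2 => bc_pos' hr (hclO ((key ω hω).2 t h1 h2).2)
  have int1 : ∀ ρ : Ω → ℝ≥0, Measurable ρ → (∀ ω ∈ A, σ ω ≤ ρ ω ∧ ρ ω ≤ τ' ω) →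
      IntegrableOn (fun ω => F (stP κ B w (ρ ω) ω)) A P := by
    intro ρ hρ hρ'
    have hm : Measurable (fun ω => e0 F (stP κ B w (ρ ω) ω)) :=
      (meas_e0 hF.continuousOn).comp (meas_st_at hB hρ)
    have heq : ∀ ω ∈ A, e0 F (stP κ B w (ρ ω) ω) = F (stP κ B w (ρ ω) ω) := fun ω hω =>
      e0_of_pos (hYpos ω hω _ (hρ' ω hω).1 (hρ' ω hω).2)
    refine IntegrableOn.congr_fun (f := fun ω => e0 F (stP κ B w (ρ ω) ω)) ?_ heq hAm
    refine Measure.integrableOn_of_bounded (M := CF) (measure_ne_top _ _)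
      hm.aestronglyMeasurable ?_
    filter_upwards [ae_restrict_mem hAm] with ω hω
    rw [heq ω hω, Real.norm_eq_abs]
    exact hCF _ (hclO ((key ω hω).2 _ (hρ' ω hω).1 (hρ' ω hω).2).2)
  have i1 := int1 σ hσ.measurable fun ω hω => ⟨le_rfl, (key ω hω).1⟩
  have i2 := int1 τ' hτ'st.measurable fun ω hω => ⟨(key ω hω).1, le_rfl⟩
  have i3 : IntegrableOn (fun ω => ∫ s in (σ ω : ℝ)..(τ' ω : ℝ),
      gen κ F (stW (driving κ B ω) s w)) A P := by
    have hm1 : Measurable (fun p : Ω × ℝ => (Ioc (σ p.1 : ℝ) (τ' p.1)).indicator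
        (fun s => e0 (gen κ F) (stW (driving κ B p.1) s w)) p.2) := by
      have : (fun p : Ω × ℝ => (Ioc (σ p.1 : ℝ) (τ' p.1)).indicator
          (fun s => e0 (gen κ F) (stW (driving κ B p.1) s w)) p.2)
          = {p : Ω × ℝ | (σ p.1 : ℝ) < p.2 ∧ p.2 ≤ τ' p.1}.indicator
            (fun p => e0 (gen κ F) (stW (driving κ B p.1) p.2 w)) := by
        funext p; simp only [indicator, mem_Ioc, mem_ofPred_eq]
      rw [this]
      refine ((meas_e0 hgc).comp (meas_stW (cont_driving hB κ) (meas_driving hB κ) w)).indicator ?_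
      exact (measurableSet_lt (measurable_coe_nnreal_real.comp (hσ.measurable.comp measurable_fst))
        measurable_snd).inter (measurableSet_le measurable_snd
          (measurable_coe_nnreal_real.comp (hτ'st.measurable.comp measurable_fst)))
    have hm2 := (hm1.stronglyMeasurable.integral_prod_right' (ν := volume)).measurable
    have heq : ∀ ω ∈ A, (∫ s, (Ioc (σ ω : ℝ) (τ' ω)).indicator
        (fun s => e0 (gen κ F) (stW (driving κ B ω) s w)) s)
        = ∫ s in (σ ω : ℝ)..(τ' ω : ℝ), gen κ F (stW (driving κ B ω) s w) := by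
      intro ω hω
      rw [integral_indicator measurableSet_Ioc,
        intervalIntegral.integral_of_le (by exact_mod_cast (key ω hω).1)]
      refine setIntegral_congr_fun measurableSet_Ioc fun s hs => ?_
      have hs0 : 0 ≤ s := (σ ω).2.trans hs.1.le
      have := hYpos ω hω ⟨s, hs0⟩ (by exact_mod_cast hs.1.le) (by exact_mod_cast hs.2)
      exact e0_of_pos this
    refine IntegrableOn.congr_fun (f := fun ω => ∫ s, (Ioc (σ ω : ℝ) (τ' ω)).indicator
        (fun s => e0 (gen κ F) (stW (driving κ B ω) s w)) s) ?_ heq hAm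
    refine Measure.integrableOn_of_bounded (M := Cg * T) (measure_ne_top _ _)
      hm2.aestronglyMeasurable ?_
    filter_upwards [ae_restrict_mem hAm] with ω hω
    rw [heq ω hω]
    have hle : (σ ω : ℝ) ≤ τ' ω := by exact_mod_cast (key ω hω).1
    have h1 := intervalIntegral.norm_integral_le_of_norm_le_const (a := (σ ω : ℝ))
      (b := (τ' ω : ℝ)) (f := fun s => gen κ F (stW (driving κ B ω) s w)) (C := Cg) (by
        intro s hs
        rw [uIoc_of_le hle] at hs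
        have hs0 : 0 ≤ s := (σ ω).2.trans hs.1.le
        exact hCg _ (hclO ((key ω hω).2 ⟨s, hs0⟩ (by exact_mod_cast hs.1.le)
          (by exact_mod_cast hs.2)).2))
    refine h1.trans (mul_le_mul_of_nonneg_left ?_ hCg0)
    have h2 : (τ' ω : ℝ) ≤ T := by exact_mod_cast (min_le_right _ _).trans (hτT ω)
    rw [abs_of_nonneg (by linarith)]
    have := (σ ω).2
    have h3 : (0:ℝ) ≤ σ ω := NNReal.zero_le_coe
    linarith
  refine ⟨key, i1, i2, i3, ?_⟩
  exact hM hB hκ hw isOpen_Dp (fun q hq => hq) hF (isCompact_bc r)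
    (fun q hq => bc_pos' hr hq) hσ hτ'st (T := T) (fun ω => (min_le_right _ _).trans (hτT ω)) hA
    (fun ω hω => (key ω hω).1) (fun ω hω t h1 h2 =>
      ⟨((key ω hω).2 t h1 h2).1, hclO ((key ω hω).2 t h1 h2).2⟩)

end prob

end Crest.Agent.R162.LBC
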