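import Crest.Agent.R162.OPDefs
import Crest.Agent.R162.GEN

/-!
Row 162: bridge between the jets of `R162.GEN` (coordinates `th, a, x`) and the generator
`OP.gen` of the state `(X, Y, L, a)`, `L = log Ups = c₀ - th`.
-/

set_option autoImplicit false

namespace Crest.Agent.R162.OPGen

open Real Crest.Agent.R162.GEN

/-- The function of the state `(X, Y, L, a)` attached to `V (th, a, x)`, `th = c₀ - L`,
clock `a - a₀`. -/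
noncomputable def pq (V : ℝ → ℝ → ℝ → ℝ) (c₀ a₀ : ℝ) (q : ℝ × ℝ × ℝ × ℝ) : ℝ :=
  V (c₀ - q.2.2.1) (q.2.2.2 - a₀) (xc q.1 q.2.1)


lemma cp_neg_eq {q : ℝ × ℝ × ℝ × ℝ} (hq : 0 < q.2.1) (p : ℝ) :
    cp (-p) (xc q.1 q.2.1) = OP.sinq q ^ p := cp_neg_xc hq p

lemma Gq_eq {κ : ℝ} (hκ : κ ≠ 0) {q : ℝ × ℝ × ℝ × ℝ} (hq : 0 < q.2.1) :
    OP.Gq κ q = pq (VG κ) 0 0 q := by
  unfold OP.Gq pq VG
  rw [cp_neg_eq hq]
  congr 2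
  unfold bb
  field_simp
  ring

variable {V Vt Va Vx Vxx : ℝ → ℝ → ℝ → ℝ}

theorem contDiffOn_pq (J : Jet V Vt Va Vx Vxx) (c₀ a₀ : ℝ) :
    ContDiffOn ℝ (⊤ : ℕ∞) (pq V c₀ a₀) {q | 0 < q.2.1} := by
  have h : ContDiff ℝ (⊤ : ℕ∞)
      (fun p : ℝ × ℝ × ℝ × ℝ => ((p.1, p.2.1, c₀ - p.2.2.1, p.2.2.2 - a₀) : ℝ × ℝ × ℝ × ℝ)) := by
    fun_prop
  exact J.contDiffOn_pb.comp h.contDiffOn (fun p hp => hp)

theorem contDiffOn_pq3 (J : Jet V Vt Va Vx Vxx) (c₀ a₀ : ℝ) :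
    ContDiffOn ℝ 3 (pq V c₀ a₀) {q | 0 < q.2.1} :=
  (contDiffOn_pq J c₀ a₀).of_le (WithTop.coe_le_coe.2 le_top)

theorem gen_pq (J : Jet V Vt Va Vx Vxx) (κ c₀ a₀ : ℝ) {q : ℝ × ℝ × ℝ × ℝ} (hq : 0 < q.2.1) :
    OP.gen κ (pq V c₀ a₀) q
      = 1 / (q.1 ^ 2 + q.2.1 ^ 2) * LVal κ (Real.tanh (xc q.1 q.2.1))
          (Vx (c₀ - q.2.2.1) (q.2.2.2 - a₀) (xc q.1 q.2.1))
          (Vxx (c₀ - q.2.2.1) (q.2.2.2 - a₀) (xc q.1 q.2.1))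
          (Vt (c₀ - q.2.2.1) (q.2.2.2 - a₀) (xc q.1 q.2.1))
          (Va (c₀ - q.2.2.1) (q.2.2.2 - a₀) (xc q.1 q.2.1)) := by
  obtain ⟨X, Y, L, a⟩ := q
  replace hq : 0 < Y := hq
  have P := J.pull
  have h1 : deriv (fun x => pq V c₀ a₀ (x, Y, L, a)) = fun s =>
      Vx (c₀ - L) (a - a₀) (xc s Y) * (-(1 / √(s ^ 2 + Y ^ 2))) := by
    funext s; exact (P.hX s Y (c₀ - L) (a - a₀) hq).deriv
  have h2 : deriv (fun y => pq V c₀ a₀ (X, y, L, a)) Y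
      = Vx (c₀ - L) (a - a₀) (xc X Y) * (X / (Y * √(X ^ 2 + Y ^ 2))) :=
    (P.hY X Y (c₀ - L) (a - a₀) hq).deriv
  have h3 : deriv (fun l => pq V c₀ a₀ (X, Y, l, a)) L = -Vt (c₀ - L) (a - a₀) (xc X Y) := by
    have e : HasDerivAt (fun l : ℝ => c₀ - l) (-1) L := by
      simpa using (hasDerivAt_id L).const_sub c₀
    have := (J.ht (c₀ - L) (a - a₀) (xc X Y)).comp L e
    rw [show (fun l => pq V c₀ a₀ (X, Y, l, a)) = (fun s => V s (a - a₀) (xc X Y)) ∘ (fun l => c₀ - l)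
      from rfl, this.deriv]
    ring
  have h4 : deriv (fun s => pq V c₀ a₀ (X, Y, L, s)) a = Va (c₀ - L) (a - a₀) (xc X Y) := by
    have e : HasDerivAt (fun s : ℝ => s - a₀) 1 a := by
      simpa using (hasDerivAt_id a).sub_const a₀
    have := (J.ha (c₀ - L) (a - a₀) (xc X Y)).comp a e
    rw [show (fun s => pq V c₀ a₀ (X, Y, L, s)) = (fun s => V (c₀ - L) s (xc X Y)) ∘ (fun s => s - a₀)
      from rfl, this.deriv]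
    ring
  have h5 := gen_pull κ (X := X) hq (Vx (c₀ - L) (a - a₀) (xc X Y))
    (Vxx (c₀ - L) (a - a₀) (xc X Y)) (Vt (c₀ - L) (a - a₀) (xc X Y)) (Va (c₀ - L) (a - a₀) (xc X Y))
  rw [← h5]
  simp only [OP.gen]
  rw [h1, (P.hXX X Y (c₀ - L) (a - a₀) hq).deriv, h2, h3, h4]
  unfold genVal
  ring

theorem gen_pq_nonpos (J : Jet V Vt Va Vx Vxx) (κ c₀ a₀ : ℝ) {q : ℝ × ℝ × ℝ × ℝ} (hq : 0 < q.2.1)
    (h : LVal κ (Real.tanh (xc q.1 q.2.1))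
          (Vx (c₀ - q.2.2.1) (q.2.2.2 - a₀) (xc q.1 q.2.1))
          (Vxx (c₀ - q.2.2.1) (q.2.2.2 - a₀) (xc q.1 q.2.1))
          (Vt (c₀ - q.2.2.1) (q.2.2.2 - a₀) (xc q.1 q.2.1))
          (Va (c₀ - q.2.2.1) (q.2.2.2 - a₀) (xc q.1 q.2.1)) ≤ 0) :
    OP.gen κ (pq V c₀ a₀) q ≤ 0 := by
  rw [gen_pq J κ c₀ a₀ hq]
  have := R_pos (X := q.1) hq
  exact mul_nonpos_of_nonneg_of_nonpos (by positivity) h


/-! ### U1 and Green. -/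



theorem gen_G {κ : ℝ} (hκ : 0 < κ) {c₀ a₀ : ℝ} {q : ℝ × ℝ × ℝ × ℝ} (hq : 0 < q.2.1) :
    OP.gen κ (pq (VG κ) c₀ a₀) q = 0 := by
  have h := (jet_VG κ).gen_pb κ (X := q.1) hq (c₀ - q.2.2.1) (q.2.2.2 - a₀)
  rw [gen_VG hκ hq] at h
  rw [gen_pq (jet_VG κ) κ c₀ a₀ hq]
  exact h.symm

end Crest.Agent.R162.OPGen
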