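import Mathlib
import Crest.Agent.R162.LBC1
import Crest.Agent.R162.OPGen
import Crest.Agent.R162.GexGen
import Crest.Agent.R162.LBDefs

-- ▼ part R162/LBC2
section

/-!
Row 162, node LB-CONTENT, file 2 (helper499): `super_int` and `exact_int` (localised Dynkin
formula with the limit over boxes already taken).
-/

set_option autoImplicit false
set_option linter.unusedSectionVars false

open MeasureTheory ProbabilityTheory Set Filter
open scoped NNReal ENNReal Topology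

namespace Crest.Agent.R162.LBC

open FL OP OS OPTr Crest.ProbabilityR.Loewner

universe u

variable {Ω : Type u} {m : MeasurableSpace Ω} {P : Measure Ω} [IsProbabilityMeasure P]
  {Fl : Filtration ℝ≥0 m} {B : ℝ≥0 → Ω → ℝ} {κ : ℝ} {w : ℂ}

/-- the integral of the rate over a random interval, restricted to an event, as an integral over
the product space -/
lemma lint_prod (hB : IsBM Fl B P) {H : ℝ × ℝ × ℝ × ℝ → ℝ} (hH : Measurable H)
    {σ τ : Ω → ℝ≥0} (hσ : Measurable σ) (hτ : Measurable τ) {A : Set Ω} (hA : MeasurableSet A) :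
    Measurable ({p : Ω × ℝ | p.1 ∈ A ∧ (σ p.1 : ℝ) < p.2 ∧ p.2 ≤ τ p.1}.indicator
      (fun p : Ω × ℝ => hr H κ B w p.1 p.2)) ∧
    ∫⁻ ω in A, (∫⁻ s in Ioc (σ ω : ℝ) (τ ω), hr H κ B w ω s) ∂P
      = ∫⁻ p, {p : Ω × ℝ | p.1 ∈ A ∧ (σ p.1 : ℝ) < p.2 ∧ p.2 ≤ τ p.1}.indicator
        (fun p : Ω × ℝ => hr H κ B w p.1 p.2) p ∂(P.prod volume) := by
  have hS : MeasurableSet {p : Ω × ℝ | p.1 ∈ A ∧ (σ p.1 : ℝ) < p.2 ∧ p.2 ≤ τ p.1} := by
    refine (measurable_fst hA).inter ?_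
    exact (measurableSet_lt (measurable_coe_nnreal_real.comp (hσ.comp measurable_fst))
        measurable_snd).inter (measurableSet_le measurable_snd
          (measurable_coe_nnreal_real.comp (hτ.comp measurable_fst)))
  have hm := (meas_hr (κ := κ) (w := w) hB hH).indicator hS
  refine ⟨hm, ?_⟩
  rw [lintegral_prod _ hm.aemeasurable, ← lintegral_indicator hA]
  refine lintegral_congr fun ω => ?_
  by_cases hω : ω ∈ A
  · rw [indicator_of_mem hω, ← lintegral_indicator measurableSet_Ioc]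
    refine lintegral_congr fun s => ?_
    simp only [indicator, mem_Ioc, mem_ofPred_eq, hω, true_and]
  · rw [indicator_of_notMem hω]
    symm
    refine (lintegral_congr fun s => ?_).trans lintegral_zero
    exact indicator_of_notMem (fun h => hω h.1) _

/-- on a box, the supermartingale inequality with the integral of the rate. -/
theorem box_super (hM : OPM.{u}) (hB : IsBM Fl B P) (hκ : 0 < κ) (hw : 0 < w.im)
    (hE : Exit Fl κ B w) {F : ℝ × ℝ × ℝ × ℝ → ℝ} (hF : ContDiffOn ℝ 3 F {q | 0 < q.2.1})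
    (hF0 : ∀ q : ℝ × ℝ × ℝ × ℝ, 0 < q.2.1 → 0 ≤ F q)
    (hgc : ContinuousOn (gen κ F) {q | 0 < q.2.1}) {H : ℝ × ℝ × ℝ × ℝ → ℝ}
    (hH0 : ∀ q : ℝ × ℝ × ℝ × ℝ, 0 < q.2.1 → 0 ≤ H q)
    (hgen : ∀ q : ℝ × ℝ × ℝ × ℝ, 0 < q.2.1 → gen κ F q ≤ - H q)
    {O : Set (ℝ × ℝ × ℝ × ℝ)} (hO : IsOpen O) {r : ℝ} (hr' : 0 < r) (hOr : O ⊆ bo r)
    {σ τ : Ω → ℝ≥0} (hσ : IsST Fl σ)
    (hτ : IsST Fl τ) {T : ℝ≥0} (hτT : ∀ ω, τ ω ≤ T) {A : Set Ω} (hA : EvST Fl σ A)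
    (hστ : ∀ ω ∈ A, σ ω ≤ τ ω) (hAO : ∀ ω ∈ A, stP κ B w (σ ω) ω ∈ O) :
    ∫⁻ ω in A, (∫⁻ s in Ioc (σ ω : ℝ) (min (hit (stP κ B w) Oᶜ σ T ω) (τ ω) : ℝ≥0),
        hr H κ B w ω s) ∂P
      + ∫⁻ ω in A, ENNReal.ofReal
          (F (stP κ B w (min (hit (stP κ B w) Oᶜ σ T ω) (τ ω)) ω)) ∂P
      ≤ ∫⁻ ω in A, ENNReal.ofReal (F (stP κ B w (σ ω) ω)) ∂P := by
  obtain ⟨key, i1, i2, i3, heq⟩ := box_step hM hB hκ hw hE hF hgc hO hr' hOr hσ hτ hτT hA hστ hAO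
  set τ' : Ω → ℝ≥0 := fun ω => min (hit (stP κ B w) Oᶜ σ T ω) (τ ω) with hτ'
  have hAm : MeasurableSet A := hA.measurableSet
  have hclO : closure O ⊆ bc r := (closure_mono hOr).trans (closure_bo_subset r)
  have hpos : ∀ ω ∈ A, ∀ s : ℝ, (σ ω : ℝ) ≤ s → s ≤ τ' ω →
      Alive (driving κ B ω) w s ∧ 0 < (stW (driving κ B ω) s w).2.1 := by
    intro ω hω s h1 h2
    have hs0 : 0 ≤ s := (σ ω).2.trans h1
    have := (key ω hω).2 ⟨s, hs0⟩ (by exact_mod_cast h1) (by exact_mod_cast h2)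
    exact ⟨this.1, bc_pos' hr' (hclO this.2)⟩
  -- pointwise comparison of the inner integral
  have h1 : ∀ ω ∈ A, (∫⁻ s in Ioc (σ ω : ℝ) (τ' ω), hr H κ B w ω s)
      ≤ ENNReal.ofReal (-(∫ s in (σ ω : ℝ)..(τ' ω : ℝ), gen κ F (stW (driving κ B ω) s w))) := by
    intro ω hω
    have hle : (σ ω : ℝ) ≤ τ' ω := by exact_mod_cast (key ω hω).1
    have ha : Alive (driving κ B ω) w (τ' ω) := (hpos ω hω _ hle le_rfl).1
    have hc : ContinuousOn (fun s => -gen κ F (stW (driving κ B ω) s w))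
        (Icc (σ ω : ℝ) (τ' ω)) := by
      refine (hgc.comp ((stW_contOn (cont_driving hB κ ω) ha).mono ?_) ?_).neg
      · exact Icc_subset_Icc NNReal.zero_le_coe le_rfl
      · intro s hs
        exact (hpos ω hω s hs.1 hs.2).2
    have hi : IntegrableOn (fun s => -gen κ F (stW (driving κ B ω) s w))
        (Ioc (σ ω : ℝ) (τ' ω)) := hc.integrableOn_Icc.mono_set Ioc_subset_Icc_self
    have hnn : ∀ s ∈ Ioc (σ ω : ℝ) (τ' ω), H (stW (driving κ B ω) s w)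
        ≤ -gen κ F (stW (driving κ B ω) s w) ∧ 0 ≤ -gen κ F (stW (driving κ B ω) s w) := by
      intro s hs
      have hp := (hpos ω hω s hs.1.le hs.2).2
      have a1 := hgen _ hp
      have a2 := hH0 _ hp
      constructor <;> linarith
    rw [← intervalIntegral.integral_neg, intervalIntegral.integral_of_le hle,
      ofReal_integral_eq_lintegral_ofReal hi ?_]
    · refine setLIntegral_mono' measurableSet_Ioc fun s hs => ?_
      unfold hr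
      rw [indicator_of_mem (by exact (hpos ω hω s hs.1.le hs.2).1)]
      exact ENNReal.ofReal_le_ofReal (hnn s hs).1
    · filter_upwards [ae_restrict_mem measurableSet_Ioc] with s hs
      exact (hnn s hs).2
  have hJ0 : ∀ ω ∈ A, 0 ≤ -(∫ s in (σ ω : ℝ)..(τ' ω : ℝ), gen κ F (stW (driving κ B ω) s w)) := by
    intro ω hω
    have hle : (σ ω : ℝ) ≤ τ' ω := by exact_mod_cast (key ω hω).1
    rw [← intervalIntegral.integral_neg]
    refine intervalIntegral.integral_nonneg hle fun s hs => ?_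
    have hp := (hpos ω hω s hs.1 hs.2).2
    have a1 := hgen _ hp
    have a2 := hH0 _ hp
    linarith
  have h2 : ∫⁻ ω in A, (∫⁻ s in Ioc (σ ω : ℝ) (τ' ω), hr H κ B w ω s) ∂P
      ≤ ∫⁻ ω in A, ENNReal.ofReal (-(∫ s in (σ ω : ℝ)..(τ' ω : ℝ),
        gen κ F (stW (driving κ B ω) s w))) ∂P := setLIntegral_mono' hAm h1
  have e1 : ∫⁻ ω in A, ENNReal.ofReal (-(∫ s in (σ ω : ℝ)..(τ' ω : ℝ),
        gen κ F (stW (driving κ B ω) s w))) ∂P
      = ENNReal.ofReal (∫ ω in A, -(∫ s in (σ ω : ℝ)..(τ' ω : ℝ),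
        gen κ F (stW (driving κ B ω) s w)) ∂P) := by
    refine (ofReal_integral_eq_lintegral_ofReal (f := fun ω => -(∫ s in (σ ω : ℝ)..(τ' ω : ℝ),
        gen κ F (stW (driving κ B ω) s w))) i3.neg ?_).symm
    filter_upwards [ae_restrict_mem hAm] with ω hω
    exact hJ0 ω hω
  have e2 : ∫⁻ ω in A, ENNReal.ofReal (F (stP κ B w (τ' ω) ω)) ∂P
      = ENNReal.ofReal (∫ ω in A, F (stP κ B w (τ' ω) ω) ∂P) := by
    rw [ofReal_integral_eq_lintegral_ofReal i2]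
    filter_upwards [ae_restrict_mem hAm] with ω hω
    refine hF0 _ ?_
    exact (hpos ω hω _ (by exact_mod_cast (key ω hω).1) le_rfl).2
  have e3 : ∫⁻ ω in A, ENNReal.ofReal (F (stP κ B w (σ ω) ω)) ∂P
      = ENNReal.ofReal (∫ ω in A, F (stP κ B w (σ ω) ω) ∂P) := by
    rw [ofReal_integral_eq_lintegral_ofReal i1]
    filter_upwards [ae_restrict_mem hAm] with ω hω
    refine hF0 _ ?_
    exact (hpos ω hω _ le_rfl (by exact_mod_cast (key ω hω).1)).2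
  refine (add_le_add_left h2 _).trans ?_
  rw [e1, e2, e3, ← ENNReal.ofReal_add]
  · refine ENNReal.ofReal_le_ofReal ?_
    rw [integral_neg]
    change ∫ ω in A, F (stP κ B w (τ' ω) ω) ∂P = _ at heq
    rw [heq]
    linarith
  · exact setIntegral_nonneg hAm hJ0
  · refine setIntegral_nonneg hAm fun ω hω => hF0 _ ?_
    exact (hpos ω hω _ (by exact_mod_cast (key ω hω).1) le_rfl).2

/-- **localised supermartingale inequality with the integral of the rate.** -/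
theorem super_int (hM : OPM.{u}) (hB : IsBM Fl B P) (hκ : 0 < κ) (hw : 0 < w.im)
    (hE : Exit Fl κ B w) {F : ℝ × ℝ × ℝ × ℝ → ℝ} (hF : ContDiffOn ℝ 3 F {q | 0 < q.2.1})
    (hF0 : ∀ q : ℝ × ℝ × ℝ × ℝ, 0 < q.2.1 → 0 ≤ F q)
    (hgc : ContinuousOn (gen κ F) {q | 0 < q.2.1}) {H : ℝ × ℝ × ℝ × ℝ → ℝ}
    (hHm : Measurable H) (hH0 : ∀ q : ℝ × ℝ × ℝ × ℝ, 0 < q.2.1 → 0 ≤ H q)
    (hgen : ∀ q : ℝ × ℝ × ℝ × ℝ, 0 < q.2.1 → gen κ F q ≤ - H q)
    {σ τ : Ω → ℝ≥0} (hσ : IsST Fl σ)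
    (hτ : IsST Fl τ) {T : ℝ≥0} (hτT : ∀ ω, τ ω ≤ T) {A : Set Ω} (hA : EvST Fl σ A)
    (hστ : ∀ ω ∈ A, σ ω ≤ τ ω) :
    ∫⁻ ω in A, (∫⁻ s in Ioc (σ ω : ℝ) (τ ω), hr H κ B w ω s) ∂P
      ≤ ∫⁻ ω in A ∩ {ω | AliveP κ B w (σ ω) ω}, ENNReal.ofReal (F (stP κ B w (σ ω) ω)) ∂P := by
  classical
  set R : ℕ → ℝ := fun n => (n : ℝ) + 1 with hR
  have hR0 : ∀ n, 0 < R n := fun n => by rw [hR]; positivity
  set O : ℕ → Set (ℝ × ℝ × ℝ × ℝ) := fun n => bo (R n) with hO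
  set An : ℕ → Set Ω := fun n => A ∩ {ω | stP κ B w (σ ω) ω ∈ O n} with hAn
  set τn : ℕ → Ω → ℝ≥0 := fun n ω => min (hit (stP κ B w) (O n)ᶜ σ T ω) (τ ω) with hτn
  have hOδ : ∀ n, ∀ q ∈ O n, 1 / R n ≤ q.2.1 := fun n q hq => hq.2.1.1.le
  have hAnE : ∀ n, EvST Fl σ (An n) := fun n =>
    hA.inter (hE.ev (O n) (isOpen_bo _) _ (by have := hR0 n; positivity) (hOδ n) σ hσ)
  have hτnst : ∀ n, IsST Fl (τn n) := fun n =>
    (hE.st (O n) (isOpen_bo _) _ (by have := hR0 n; positivity) (hOδ n) σ hσ T).min hτ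
  have step : ∀ n, ∫⁻ ω in An n, (∫⁻ s in Ioc (σ ω : ℝ) (τn n ω), hr H κ B w ω s) ∂P
      ≤ ∫⁻ ω in A ∩ {ω | AliveP κ B w (σ ω) ω}, ENNReal.ofReal (F (stP κ B w (σ ω) ω)) ∂P := by
    intro n
    have h := box_super hM hB hκ hw hE hF hF0 hgc hH0 hgen (isOpen_bo (R n)) (hR0 n)
      subset_rfl hσ hτ hτT (hAnE n) (fun ω hω => hστ ω hω.1) (fun ω hω => hω.2)
    refine (le_self_add.trans h).trans (lintegral_mono_set ?_)
    intro ω hω
    refine ⟨hω.1, alive_of_Y_pos (W := driving κ B ω) ?_⟩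
    exact lt_of_lt_of_le (by have := hR0 n; positivity) (hOδ n _ hω.2)
  -- pass to the limit
  obtain ⟨_, e0'⟩ := lint_prod (κ := κ) (w := w) hB hHm hσ.measurable hτ.measurable
    hA.measurableSet
  have en := fun n => lint_prod (κ := κ) (w := w) hB hHm hσ.measurable (hτnst n).measurable
    (hAnE n).measurableSet
  rw [e0']
  set G : Ω × ℝ → ℝ≥0∞ := {p : Ω × ℝ | p.1 ∈ A ∧ (σ p.1 : ℝ) < p.2 ∧ p.2 ≤ τ p.1}.indicator
        (fun p : Ω × ℝ => hr H κ B w p.1 p.2) with hG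
  set Gn : ℕ → Ω × ℝ → ℝ≥0∞ := fun n =>
    {p : Ω × ℝ | p.1 ∈ An n ∧ (σ p.1 : ℝ) < p.2 ∧ p.2 ≤ τn n p.1}.indicator
        (fun p : Ω × ℝ => hr H κ B w p.1 p.2) with hGn
  have hlim : ∀ p, G p ≤ liminf (fun n => Gn n p) atTop := by
    rintro ⟨ω, s⟩
    by_cases hp : (ω, s) ∈ {p : Ω × ℝ | p.1 ∈ A ∧ (σ p.1 : ℝ) < p.2 ∧ p.2 ≤ τ p.1}
    swap
    · rw [hG, indicator_of_notMem hp]; exact bot_le
    by_cases ha : Alive (driving κ B ω) w s
    swap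
    · have : G (ω, s) = 0 := by
        rw [hG, indicator_of_mem hp]
        exact indicator_of_notMem (s := {s | Alive (driving κ B ω) w s}) ha _
      rw [this]; exact bot_le
    obtain ⟨hωA, hs1, hs2⟩ := hp
    simp only at hωA hs1 hs2
    obtain ⟨r₀, hr₀⟩ := exists_box (cont_driving hB κ ω) ha
    refine le_liminf_of_le (by isBoundedDefault) ?_
    filter_upwards [eventually_ge_atTop (⌈r₀⌉₊)] with n hn
    have hrn : r₀ ≤ R n := by
      have : (r₀ : ℝ) ≤ n := (Nat.le_ceil r₀).trans (by exact_mod_cast hn)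
      rw [hR]; linarith
    have hb := hr₀ (R n) hrn
    have hσ0 : (0:ℝ) ≤ σ ω := NNReal.zero_le_coe
    have m1 : ω ∈ An n := ⟨hωA, hb _ ⟨hσ0, hs1.le⟩⟩
    have m2 : s ≤ (τn n ω : ℝ) := by
      rw [hτn]
      have hx : s ≤ (ext (driving κ B ω) w (O n) (σ ω) T : ℝ) := by
        refine le_ext_of ?_ fun u hu => hb u ⟨hσ0.trans hu.1, hu.2⟩
        have : (τ ω : ℝ) ≤ T := by exact_mod_cast hτT ω
        exact (hs2.trans this).trans (le_max_left _ _)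
      have : ((min (hit (stP κ B w) (O n)ᶜ σ T ω) (τ ω) : ℝ≥0) : ℝ)
          = min (ext (driving κ B ω) w (O n) (σ ω) T : ℝ) (τ ω) := by
        rw [hit_eq]; exact NNReal.coe_min _ _
      rw [this]
      exact le_min hx hs2
    have g1 : G (ω, s) = hr H κ B w ω s := indicator_of_mem
      (s := {p : Ω × ℝ | p.1 ∈ A ∧ (σ p.1 : ℝ) < p.2 ∧ p.2 ≤ τ p.1}) ⟨hωA, hs1, hs2⟩ _
    have g2 : Gn n (ω, s) = hr H κ B w ω s := indicator_of_mem
      (s := {p : Ω × ℝ | p.1 ∈ An n ∧ (σ p.1 : ℝ) < p.2 ∧ p.2 ≤ τn n p.1}) ⟨m1, hs1, m2⟩ _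
    rw [g1, g2]
  calc ∫⁻ p, G p ∂(P.prod volume) ≤ ∫⁻ p, liminf (fun n => Gn n p) atTop ∂(P.prod volume) :=
        lintegral_mono hlim
    _ ≤ liminf (fun n => ∫⁻ p, Gn n p ∂(P.prod volume)) atTop :=
        lintegral_liminf_le fun n => (en n).1
    _ ≤ _ := by
        refine liminf_le_of_frequently_le' (Eventually.frequently (Eventually.of_forall fun n => ?_))
        rw [← (en n).2]
        exact step n

end Crest.Agent.R162.LBC
end

-- ▼ part R162/LBC3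
section

/-!
Row 162, node LB-CONTENT, file 3 (helper499): generator computations for the content functions
`G g(L)`, `G (g(L) S^{-q} + M g₂(L))`, `G e^{-pa} (κ/2 + S^{-p})`.
-/

set_option autoImplicit false
set_option linter.unusedSectionVars false

open Set

namespace Crest.Agent.R162.LBC

open Crest.Agent.R162.GEN Crest.Agent.R162.OPGen

/-- `exp((κ b/8) th) g(-th) exp(-lam a) (cosh x)^r` -/
noncomputable def V3 (κ r lam : ℝ) (g : ℝ → ℝ) : ℝ → ℝ → ℝ → ℝ := fun th a x =>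
  (Real.exp (κ * bb κ / 8 * th) * g (-th)) * Real.exp (-lam * a) * cp r x

lemma hasDerivAt_phi {κ : ℝ} {g g' : ℝ → ℝ} (hg : ∀ s, HasDerivAt g (g' s) s) (s : ℝ) :
    HasDerivAt (fun th => Real.exp (κ * bb κ / 8 * th) * g (-th))
      (Real.exp (κ * bb κ / 8 * s) * (κ * bb κ / 8 * g (-s) - g' (-s))) s := by
  have h1 := hasDerivAt_expc (κ * bb κ / 8) s
  have h2 : HasDerivAt (fun th : ℝ => g (-th)) (g' (-s) * -1) s :=
    (hg (-s)).comp s (hasDerivAt_neg s)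
  exact (h1.mul h2).congr_deriv (by ring)

lemma contDiff_phi {κ : ℝ} {g : ℝ → ℝ} (cg : ContDiff ℝ (⊤ : ℕ∞) g) :
    ContDiff ℝ (⊤ : ℕ∞) (fun th => Real.exp (κ * bb κ / 8 * th) * g (-th)) :=
  (contDiff_expc _).mul (cg.comp contDiff_neg)

/-- the first `x` derivative of `V3` etc. -/
noncomputable def V3t (κ r lam : ℝ) (g g' : ℝ → ℝ) : ℝ → ℝ → ℝ → ℝ := fun th a x =>
  (Real.exp (κ * bb κ / 8 * th) * (κ * bb κ / 8 * g (-th) - g' (-th))) * Real.exp (-lam * a)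
    * cp r x
/-- see `V3t` -/
noncomputable def V3a (κ r lam : ℝ) (g : ℝ → ℝ) : ℝ → ℝ → ℝ → ℝ := fun th a x =>
  (Real.exp (κ * bb κ / 8 * th) * g (-th)) * (-lam * Real.exp (-lam * a)) * cp r x
/-- see `V3t` -/
noncomputable def V3x (κ r lam : ℝ) (g : ℝ → ℝ) : ℝ → ℝ → ℝ → ℝ := fun th a x =>
  (Real.exp (κ * bb κ / 8 * th) * g (-th)) * Real.exp (-lam * a) * (r * Real.tanh x * cp r x)
/-- see `V3t` -/
noncomputable def V3xx (κ r lam : ℝ) (g : ℝ → ℝ) : ℝ → ℝ → ℝ → ℝ := fun th a x =>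
  (Real.exp (κ * bb κ / 8 * th) * g (-th)) * Real.exp (-lam * a)
    * (r * cp r x * ((r - 1) * Real.tanh x ^ 2 + 1))

theorem jet_V3 (κ r lam : ℝ) {g g' : ℝ → ℝ} (hg : ∀ s, HasDerivAt g (g' s) s)
    (cg : ContDiff ℝ (⊤ : ℕ∞) g) :
    Jet (V3 κ r lam g) (V3t κ r lam g g') (V3a κ r lam g) (V3x κ r lam g) (V3xx κ r lam g) :=
  Jet.prod (hasDerivAt_phi hg) (hasDerivAt_expc (-lam)) (hasDerivAt_cp r) (hasDerivAt_cp' r)
    (contDiff_phi cg) (contDiff_expc _) (contDiff_cp r)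

/-- `E3 = exp(-(κ b/8) L) exp(-lam a) (cosh x)^r` -/
noncomputable def E3 (κ r lam : ℝ) (q : ℝ × ℝ × ℝ × ℝ) : ℝ :=
  Real.exp (κ * bb κ / 8 * (0 - q.2.2.1)) * Real.exp (-lam * (q.2.2.2 - 0)) * cp r (xc q.1 q.2.1)


lemma pq_V3 (κ r lam : ℝ) (g : ℝ → ℝ) (q : ℝ × ℝ × ℝ × ℝ) :
    pq (V3 κ r lam g) 0 0 q = g q.2.2.1 * E3 κ r lam q := by
  unfold pq V3 E3
  rw [show -(0 - q.2.2.1) = q.2.2.1 by ring]
  ring

/-- the bracket -/
noncomputable def brk (κ r lam u : ℝ) : ℝ :=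
  r * (κ / 2) * (u + (bb κ + r) * (1 - u)) + κ * bb κ / 2 * u - lam

theorem LVal_V3 {κ : ℝ} (hκ : 0 < κ) (r lam : ℝ) (g g' : ℝ → ℝ) (th a x : ℝ) :
    LVal κ (Real.tanh x) (V3x κ r lam g th a x) (V3xx κ r lam g th a x) (V3t κ r lam g g' th a x)
      (V3a κ r lam g th a x)
      = Real.exp (κ * bb κ / 8 * th) * Real.exp (-lam * a) * cp r x *
        (g (-th) * brk κ r lam (1 - Real.tanh x ^ 2) - 4 * (1 - Real.tanh x ^ 2) * g' (-th)) := by
  have h := LVal_cp hκ (Real.exp (κ * bb κ / 8 * th) * g (-th) * Real.exp (-lam * a))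
    ((Real.exp (κ * bb κ / 8 * th) * (κ * bb κ / 8 * g (-th) - g' (-th))) * Real.exp (-lam * a))
    ((Real.exp (κ * bb κ / 8 * th) * g (-th)) * (-lam * Real.exp (-lam * a)))
    r (Real.tanh x) (cp r x)
  unfold V3x V3xx V3t V3a
  rw [h]
  unfold Ar brk
  ring

/-- **generator of `V3`** -/
theorem gen_V3 {κ : ℝ} (hκ : 0 < κ) (r lam : ℝ) {g g' : ℝ → ℝ} (hg : ∀ s, HasDerivAt g (g' s) s)
    (cg : ContDiff ℝ (⊤ : ℕ∞) g) {q : ℝ × ℝ × ℝ × ℝ} (hq : 0 < q.2.1) :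
    OP.gen κ (pq (V3 κ r lam g) 0 0) q
      = 1 / (q.1 ^ 2 + q.2.1 ^ 2) * (E3 κ r lam q *
        (g q.2.2.1 * brk κ r lam (OP.sinq q ^ 2) - 4 * OP.sinq q ^ 2 * g' q.2.2.1)) := by
  rw [gen_pq (jet_V3 κ r lam hg cg) κ 0 0 hq, LVal_V3 hκ]
  have h1 : 1 - Real.tanh (xc q.1 q.2.1) ^ 2 = OP.sinq q ^ 2 := by
    rw [← cp_neg_two, cp_neg_eq hq 2, Real.rpow_two]
  rw [h1]
  unfold E3
  rw [show -(0 - q.2.2.1) = q.2.2.1 by ring]

/-- generator of a sum -/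
theorem gen_add {κ : ℝ} {V Vt Va Vx Vxx U Ut Ua Ux Uxx : ℝ → ℝ → ℝ → ℝ}
    (J : Jet V Vt Va Vx Vxx) (K : Jet U Ut Ua Ux Uxx) {q : ℝ × ℝ × ℝ × ℝ} (hq : 0 < q.2.1) :
    OP.gen κ (pq (fun th a x => V th a x + U th a x) 0 0) q
      = OP.gen κ (pq V 0 0) q + OP.gen κ (pq U 0 0) q := by
  rw [gen_pq (J.add K) κ 0 0 hq, gen_pq J κ 0 0 hq, gen_pq K κ 0 0 hq, LVal_add]
  ring

lemma brk_b {κ u : ℝ} : brk κ (-bb κ) 0 u = 0 := by
  unfold brk; ring

lemma brk_q {κ q u : ℝ} (lam : ℝ) :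
    brk κ (q - bb κ) lam u = κ / 2 * q * (u - (bb κ - q) * (1 - u)) - lam := by
  unfold brk; ring

lemma sinq_pos' {q : ℝ × ℝ × ℝ × ℝ} (hq : 0 < q.2.1) : 0 < OP.sinq q := GEX.sinq_pos hq
lemma sinq_le_one' {q : ℝ × ℝ × ℝ × ℝ} (hq : 0 < q.2.1) : OP.sinq q ≤ 1 := GEX.sinq_le_one hq

lemma E3_eq {κ : ℝ} (hκ : κ ≠ 0) (β lam : ℝ) {q : ℝ × ℝ × ℝ × ℝ} (hq : 0 < q.2.1) :
    E3 κ (β - bb κ) lam q
      = OP.Gq κ q * OP.sinq q ^ (-β) * Real.exp (-lam * q.2.2.2) := by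
  have hS := sinq_pos' hq
  unfold E3 OP.Gq
  have h1 : cp (β - bb κ) (xc q.1 q.2.1) = OP.sinq q ^ (8 / κ - 1) * OP.sinq q ^ (-β) := by
    rw [← Real.rpow_add hS, show β - bb κ = -(bb κ - β) by ring, cp_neg_eq hq]
    congr 1
  have h2 : κ * bb κ / 8 * (0 - q.2.2.1) = (κ / 8 - 1) * q.2.2.1 := by
    unfold bb; field_simp; ring
  rw [h1, h2, sub_zero]
  ring

lemma E3_eq' {κ : ℝ} (hκ : κ ≠ 0) {q : ℝ × ℝ × ℝ × ℝ} (hq : 0 < q.2.1) :
    E3 κ (-bb κ) 0 q = OP.Gq κ q := by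
  have := E3_eq hκ 0 0 hq
  simpa using this

/-! ### continuity of the generator of `V3` -/

lemma continuousOn_sinq : ContinuousOn OP.sinq {q : ℝ × ℝ × ℝ × ℝ | 0 < q.2.1} := by
  intro q hq
  refine ContinuousAt.continuousWithinAt ?_
  have hq' : (0:ℝ) < q.2.1 := hq
  unfold OP.sinq
  refine ContinuousAt.div (by fun_prop) (by fun_prop) ?_
  have : 0 < Real.sqrt (q.1 ^ 2 + q.2.1 ^ 2) := by positivity
  exact this.ne'

lemma continuousOn_E3 (κ r lam : ℝ) : ContinuousOn (E3 κ r lam) {q | 0 < q.2.1} := by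
  have h1 : ContinuousOn (fun q : ℝ × ℝ × ℝ × ℝ => cp r (xc q.1 q.2.1)) {q | 0 < q.2.1} := by
    refine (contDiff_cp r).continuous.comp_continuousOn ?_
    exact contDiffOn_xc.continuousOn.comp (f := fun q : ℝ × ℝ × ℝ × ℝ => (q.1, q.2.1))
      (by fun_prop) (fun q hq => hq)
  unfold E3
  exact ContinuousOn.mul (by fun_prop) h1

theorem continuousOn_gen_V3 {κ : ℝ} (hκ : 0 < κ) (r lam : ℝ) {g g' : ℝ → ℝ}
    (hg : ∀ s, HasDerivAt g (g' s) s) (cg : ContDiff ℝ (⊤ : ℕ∞) g) (cg' : Continuous g') :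
    ContinuousOn (OP.gen κ (pq (V3 κ r lam g) 0 0)) {q | 0 < q.2.1} := by
  have h0 : ContinuousOn (fun q : ℝ × ℝ × ℝ × ℝ => 1 / (q.1 ^ 2 + q.2.1 ^ 2) * (E3 κ r lam q *
        (g q.2.2.1 * brk κ r lam (OP.sinq q ^ 2) - 4 * OP.sinq q ^ 2 * g' q.2.2.1)))
        {q | 0 < q.2.1} := by
    refine ContinuousOn.mul ?_ ((continuousOn_E3 κ r lam).mul ?_)
    · refine ContinuousOn.div (by fun_prop) (by fun_prop) fun q hq => ?_
      have : (0:ℝ) < q.2.1 := hq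
      positivity
    · have hc : Continuous g := cg.continuous
      have hS := continuousOn_sinq
      refine ContinuousOn.sub (ContinuousOn.mul (by fun_prop) ?_)
        (ContinuousOn.mul (continuousOn_const.mul (hS.pow 2)) (by fun_prop))
      unfold brk
      fun_prop
  exact h0.congr fun q hq => gen_V3 hκ r lam hg cg hq

end Crest.Agent.R162.LBC
end

-- ▼ part R162/LBC4

/-!
Row 162, node LB-CONTENT, file 4 (helper499): the explicit supersolutions and the upper bounds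
* `content_le` : `E[C_τ - C_σ ; A] ≤ 7 E[G_σ ; A, alive]` (on `LBDefs`),
* `small_S`    : the part of the content with `S < c₁` is `O(c₁^{2+q})`.
-/

set_option autoImplicit false
set_option linter.unusedSectionVars false

open MeasureTheory ProbabilityTheory Set Filter
open scoped NNReal ENNReal Topology

namespace Crest.Agent.R162.LBC

open Crest.Agent.R162.GEN Crest.Agent.R162.OPGen
open FL OP OS Crest.ProbabilityR.Loewner

/-! ### the logistic function -/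

/-- `e^L/(e^L + ε)` -/
noncomputable def R0 (ε L : ℝ) : ℝ := Real.exp L / (Real.exp L + ε)
/-- derivative of `R0` -/
noncomputable def R1 (ε L : ℝ) : ℝ := ε * Real.exp L / (Real.exp L + ε) ^ 2
/-- second derivative of `R0` -/
noncomputable def R2 (ε L : ℝ) : ℝ := ε * Real.exp L * (ε - Real.exp L) / (Real.exp L + ε) ^ 3

section logistic

variable {ε : ℝ} (hε : 0 < ε)

include hε

lemma R0_nonneg (L : ℝ) : 0 ≤ R0 ε L := by unfold R0; positivity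
lemma R0_le_one (L : ℝ) : R0 ε L ≤ 1 := by
  unfold R0; rw [div_le_one (by positivity)]; linarith
lemma R1_nonneg (L : ℝ) : 0 ≤ R1 ε L := by unfold R1; positivity
lemma abs_R2_le (L : ℝ) : |R2 ε L| ≤ R1 ε L := by
  unfold R2 R1
  have he := Real.exp_pos L
  set e := Real.exp L
  rw [abs_div, abs_mul, abs_of_pos (by positivity : 0 < ε * e),
    abs_of_pos (by positivity : 0 < (e + ε) ^ 3), div_le_div_iff₀ (by positivity) (by positivity)]
  have h1 : |ε - e| ≤ e + ε := by rw [abs_le]; constructor <;> linarith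
  calc ε * e * |ε - e| * (e + ε) ^ 2 ≤ ε * e * (e + ε) * (e + ε) ^ 2 := by gcongr
    _ = ε * e * (e + ε) ^ 3 := by ring

lemma hasDerivAt_R0 (L : ℝ) : HasDerivAt (R0 ε) (R1 ε L) L := by
  have h1 := Real.hasDerivAt_exp L
  have hne : Real.exp L + ε ≠ 0 := by positivity
  have := h1.div (h1.add_const ε) hne
  refine this.congr_deriv ?_
  unfold R1
  congr 1
  ring

lemma hasDerivAt_R1 (L : ℝ) : HasDerivAt (R1 ε) (R2 ε L) L := by
  have h1 := Real.hasDerivAt_exp L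
  have hne : Real.exp L + ε ≠ 0 := by positivity
  have h2 : HasDerivAt (fun x => (Real.exp x + ε) ^ 2) (2 * (Real.exp L + ε) * Real.exp L) L := by
    have := (h1.add_const ε).fun_pow 2
    simpa using this
  have := (h1.const_mul ε).div h2 (pow_ne_zero 2 hne)
  refine this.congr_deriv ?_
  unfold R2
  field_simp
  ring

lemma contDiff_R0 : ContDiff ℝ (⊤ : ℕ∞) (R0 ε) := by
  unfold R0
  exact Real.contDiff_exp.div (Real.contDiff_exp.add contDiff_const) fun x => by positivity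

lemma contDiff_R1 : ContDiff ℝ (⊤ : ℕ∞) (R1 ε) := by
  unfold R1
  exact (contDiff_const.mul Real.contDiff_exp).div
    ((Real.contDiff_exp.add contDiff_const).pow 2) fun x => by positivity

lemma continuous_R2 : Continuous (R2 ε) := by
  unfold R2
  refine Continuous.div (by fun_prop) (by fun_prop) fun x => by positivity

/-- on the window the derivative is at least `2/9` -/
lemma R1_ge {L : ℝ} (h1 : 1 ≤ Real.exp L / ε) (h2 : Real.exp L / ε ≤ 2) : 2 / 9 ≤ R1 ε L := by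
  unfold R1
  have he := Real.exp_pos L
  rw [le_div_iff₀ hε] at h1
  rw [div_le_iff₀ hε] at h2
  set e := Real.exp L
  rw [div_le_div_iff₀ (by norm_num) (by positivity)]
  nlinarith [mul_nonneg (sub_nonneg.2 h1) (sub_nonneg.2 h2), mul_pos hε hε, mul_pos hε he]


end logistic

/-! ### the state form of the content rate -/

/-- the content rate of `LBDefs` (`lam = 1`) as a function of the state -/
noncomputable def Hc (κ ε c1 : ℝ) (q : ℝ × ℝ × ℝ × ℝ) : ℝ :=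
  LB.chi (Real.exp q.2.2.1 / ε) * Gq κ q * (if c1 ≤ sinq q then 1 else 0) *
    (4 * sinq q ^ 2 / (q.1 ^ 2 + q.2.1 ^ 2))

lemma ups_pos'' {W : ℝ → ℝ} {s : ℝ} {w : ℂ} (h : Alive W w s) : 0 < ups W s w :=
  mul_pos (gfl_im_pos h) (Real.exp_pos _)

lemma sfl_eq' {W : ℝ → ℝ} {s : ℝ} {w : ℂ} : sfl W s w = sinq (stW W s w) := by
  unfold sfl sinq stW
  rw [Complex.norm_eq_sqrt_sq_add_sq]

lemma norm_sq_eq' {W : ℝ → ℝ} {s : ℝ} {w : ℂ} :
    ‖Zfl W s w‖ ^ 2 = (stW W s w).1 ^ 2 + (stW W s w).2.1 ^ 2 := by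
  rw [stW_fst, stW_Y, ← Complex.normSq_eq_norm_sq, Complex.normSq_apply]; ring

lemma gr_eq {κ : ℝ} {W : ℝ → ℝ} {s : ℝ} {w : ℂ} (h : Alive W w s) :
    gr κ W s w = Gq κ (stW W s w) := by
  unfold gr Gq
  rw [sfl_eq', stW_L]
  congr 1
  rw [Real.rpow_def_of_pos (ups_pos'' h)]
  ring_nf

lemma cd_eq {κ ε c1 : ℝ} {W : ℝ → ℝ} {s : ℝ} {w : ℂ} (h : Alive W w s) :
    LB.cd κ ε c1 1 W s w = Hc κ ε c1 (stW W s w) := by
  have h1 := gr_eq (κ := κ) h
  unfold gr at h1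
  unfold LB.cd Hc
  rw [one_mul, ← h1, ← sfl_eq', ← norm_sq_eq', stW_L, Real.exp_log (ups_pos'' h)]
  ring

lemma Gq_pos (κ : ℝ) {q : ℝ × ℝ × ℝ × ℝ} (hq : 0 < q.2.1) : 0 < Gq κ q := by
  unfold Gq
  have := sinq_pos' hq
  positivity

lemma Hc_nonneg {κ ε c1 : ℝ} {q : ℝ × ℝ × ℝ × ℝ} (hq : 0 < q.2.1) : 0 ≤ Hc κ ε c1 q := by
  unfold Hc
  have h1 := LB.chi_nonneg (Real.exp q.2.2.1 / ε)
  have h2 := Gq_pos κ hq
  have h3 : (0:ℝ) ≤ if c1 ≤ sinq q then (1:ℝ) else 0 := by split_ifs <;> norm_num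
  have h4 := sinq_pos' hq
  have h5 : (0:ℝ) ≤ 4 * sinq q ^ 2 / (q.1 ^ 2 + q.2.1 ^ 2) := by positivity
  positivity

lemma measurable_sinq : Measurable sinq := by
  unfold sinq; fun_prop

lemma measurable_Gq (κ : ℝ) : Measurable (Gq κ) := by
  unfold Gq
  exact (by fun_prop : Measurable fun q : ℝ × ℝ × ℝ × ℝ => Real.exp ((κ / 8 - 1) * q.2.2.1)).mul
    (measurable_sinq.pow_const _)

lemma measurable_Hc (κ ε c1 : ℝ) : Measurable (Hc κ ε c1) := by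
  unfold Hc
  refine Measurable.mul (Measurable.mul (Measurable.mul ?_ (measurable_Gq κ)) ?_) ?_
  · exact LB.measurable_chi.comp (by fun_prop)
  · exact Measurable.ite (measurableSet_le measurable_const measurable_sinq) measurable_const
      measurable_const
  · exact ((measurable_sinq.pow_const 2).const_mul 4).div (by fun_prop)

section prob

universe u

variable {Ω : Type u} {m : MeasurableSpace Ω} {P : Measure Ω} [IsProbabilityMeasure P]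
  {Fl : Filtration ℝ≥0 m} {B : ℝ≥0 → Ω → ℝ} {κ : ℝ} {w : ℂ}

lemma hr_Hc (ε c1 : ℝ) (ω : Ω) (s : ℝ) :
    hr (Hc κ ε c1) κ B w ω s = ENNReal.ofReal (LB.cd κ ε c1 1 (driving κ B ω) s w) := by
  unfold hr
  by_cases h : Alive (driving κ B ω) w s
  · rw [indicator_of_mem (s := {s | Alive (driving κ B ω) w s}) h, cd_eq h]
  · rw [indicator_of_notMem (s := {s | Alive (driving κ B ω) w s}) h, LB.cd_of_dead h,
      ENNReal.ofReal_zero]

/-- the upper function `7 G R0(L)` -/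
noncomputable def Fu (κ ε : ℝ) : ℝ × ℝ × ℝ × ℝ → ℝ :=
  pq (V3 κ (-bb κ) 0 (fun L => 7 * R0 ε L)) 0 0

lemma Fu_eq {ε : ℝ} (hκ : κ ≠ 0) {q : ℝ × ℝ × ℝ × ℝ} (hq : 0 < q.2.1) :
    Fu κ ε q = 7 * R0 ε q.2.2.1 * Gq κ q := by
  unfold Fu
  rw [pq_V3, E3_eq' hκ hq]

lemma log_two_ge : 9 / 14 ≤ Real.log 2 := by
  have := Real.log_two_gt_d9
  linarith

lemma gen_Fu_le {ε c1 : ℝ} (hκ : 0 < κ) (hε : 0 < ε) {q : ℝ × ℝ × ℝ × ℝ} (hq : 0 < q.2.1) :
    gen κ (Fu κ ε) q ≤ - Hc κ ε c1 q := by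
  have hg : ∀ s, HasDerivAt (fun L => 7 * R0 ε L) (7 * R1 ε s) s := fun s =>
    (hasDerivAt_R0 hε s).const_mul 7
  have h := gen_V3 hκ (-bb κ) 0 hg (contDiff_const.mul (contDiff_R0 hε)) hq
  unfold Fu
  rw [h, E3_eq' hκ.ne' hq, brk_b, mul_zero, zero_sub]
  have hG := Gq_pos κ hq
  have hS := sinq_pos' hq
  have hR := R1_nonneg hε q.2.2.1
  have hD : 0 < q.1 ^ 2 + q.2.1 ^ 2 := by positivity
  have key : LB.chi (Real.exp q.2.2.1 / ε) * (if c1 ≤ sinq q then (1:ℝ) else 0)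
      ≤ 7 * R1 ε q.2.2.1 := by
    have h1 : (if c1 ≤ sinq q then (1:ℝ) else 0) ≤ 1 := by split_ifs <;> norm_num
    have h1' : (0:ℝ) ≤ (if c1 ≤ sinq q then (1:ℝ) else 0) := by split_ifs <;> norm_num
    have h2 := LB.chi_nonneg (Real.exp q.2.2.1 / ε)
    by_cases hv : Real.exp q.2.2.1 / ε ∈ Icc (1:ℝ) 2
    · have h3 := R1_ge hε hv.1 hv.2
      rw [LB.chi_of_mem hv] at h2 ⊢
      have h4 : (Real.log 2)⁻¹ ≤ 14 / 9 := by
        rw [inv_le_comm₀ LB.log_two_pos' (by norm_num)]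
        have := log_two_ge
        norm_num; linarith
      nlinarith
    · rw [LB.chi_of_not_mem hv, zero_mul]; positivity
  unfold Hc
  have : LB.chi (Real.exp q.2.2.1 / ε) * Gq κ q * (if c1 ≤ sinq q then (1:ℝ) else 0) *
      (4 * sinq q ^ 2 / (q.1 ^ 2 + q.2.1 ^ 2))
      = (LB.chi (Real.exp q.2.2.1 / ε) * (if c1 ≤ sinq q then (1:ℝ) else 0)) *
        (Gq κ q * (4 * sinq q ^ 2 / (q.1 ^ 2 + q.2.1 ^ 2))) := by ring
  rw [this]
  have e2 : 1 / (q.1 ^ 2 + q.2.1 ^ 2) * (Gq κ q * -(4 * sinq q ^ 2 * (7 * R1 ε q.2.2.1)))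
      = -((7 * R1 ε q.2.2.1) * (Gq κ q * (4 * sinq q ^ 2 / (q.1 ^ 2 + q.2.1 ^ 2)))) := by
    field_simp
  rw [e2, neg_le_neg_iff]
  exact mul_le_mul_of_nonneg_right key (by positivity)

/-- **upper bound for the content** -/
theorem content_le (hM : OPM.{u}) (hB : IsBM Fl B P) (hκ : 0 < κ) (hw : 0 < w.im)
    (hE : Exit Fl κ B w) {ε : ℝ} (hε : 0 < ε) (c1 : ℝ)
    {σ τ : Ω → ℝ≥0} (hσ : IsST Fl σ)
    (hτ : IsST Fl τ) {T : ℝ≥0} (hτT : ∀ ω, τ ω ≤ T) {A : Set Ω} (hA : EvST Fl σ A)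
    (hστ : ∀ ω ∈ A, σ ω ≤ τ ω) :
    ∫⁻ ω in A, LB.cz κ ε c1 1 (driving κ B ω) (Ioc (σ ω : ℝ) (τ ω)) w ∂P
      ≤ ENNReal.ofReal 7 * ∫⁻ ω in A ∩ {ω | AliveP κ B w (σ ω) ω},
        ENNReal.ofReal (gr κ (driving κ B ω) (σ ω) w) ∂P := by
  have hg : ∀ s, HasDerivAt (fun L => 7 * R0 ε L) (7 * R1 ε s) s := fun s =>
    (hasDerivAt_R0 hε s).const_mul 7
  have h := super_int hM hB hκ hw hE (F := Fu κ ε)
    (contDiffOn_pq3 (jet_V3 κ _ 0 hg (contDiff_const.mul (contDiff_R0 hε))) 0 0)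
    (fun q hq => by
      rw [Fu_eq hκ.ne' hq]
      have := Gq_pos κ hq
      have := R0_nonneg hε q.2.2.1
      positivity)
    (continuousOn_gen_V3 hκ _ 0 hg (contDiff_const.mul (contDiff_R0 hε))
      (continuous_const.mul (contDiff_R1 hε).continuous))
    (measurable_Hc κ ε c1) (fun q hq => Hc_nonneg hq) (fun q hq => gen_Fu_le hκ hε hq)
    hσ hτ hτT hA hστ
  have e1 : ∫⁻ ω in A, LB.cz κ ε c1 1 (driving κ B ω) (Ioc (σ ω : ℝ) (τ ω)) w ∂P
      = ∫⁻ ω in A, (∫⁻ s in Ioc (σ ω : ℝ) (τ ω), hr (Hc κ ε c1) κ B w ω s) ∂P := by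
    refine lintegral_congr fun ω => ?_
    unfold LB.cz
    refine lintegral_congr fun s => ?_
    rw [hr_Hc]
  rw [e1]
  refine h.trans ?_
  have hmA : MeasurableSet (A ∩ {ω | AliveP κ B w (σ ω) ω}) := by
    refine hA.measurableSet.inter ?_
    have h2 := meas_alive (cont_driving hB κ) (meas_driving hB κ) w
    exact (measurable_id.prodMk (measurable_coe_nnreal_real.comp hσ.measurable)) h2
  rw [← lintegral_const_mul' _ _ ENNReal.ofReal_ne_top]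
  refine setLIntegral_mono' hmA fun ω hω => ?_
  have ha : Alive (driving κ B ω) w (σ ω) := hω.2
  rw [← ENNReal.ofReal_mul (by norm_num), gr_eq ha]
  refine ENNReal.ofReal_le_ofReal ?_
  have hY := Y_pos ha
  change Fu κ ε (stW (driving κ B ω) (σ ω) w) ≤ _
  rw [Fu_eq hκ.ne' hY]
  have h1 := R0_le_one hε (stW (driving κ B ω) (σ ω) w).2.2.1
  have h2 := Gq_pos κ hY
  nlinarith

end prob

end Crest.Agent.R162.LBC
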