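import Mathlib
import Crest.Agent.R162.LBMeas

/-!
Row 162 (S0243), node LB-MEAS (helper412), part 2: measurability of the state functionals of
`LBDefs` along a measurable family `F` of univalent maps and a measurable family `W` of paths.
-/

set_option autoImplicit false

open Set MeasureTheory Filter Topology Complex
open scoped NNReal ENNReal

namespace Crest.Agent.R162.LBM

open Crest.Agent.R162.FL Crest.Agent.R162.FLC Crest.Agent.R162.FLD

section general

variable {α β : Type*} [MeasurableSpace α] [MeasurableSpace β] {W : α → ℝ → ℝ}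
  {F G : α → ℂ → ℂ}

/-- general joint measurability of functions of `(z, F a z, (F a)' z)` -/
theorem MFam.jmeas (hF : MFam F) {E : Type*} [MeasurableSpace E] [Zero E] {Φ : ℂ × ℂ × ℂ → E}
    (hΦ : Measurable Φ) :
    Measurable (fun x : α × ℂ =>
      {z : ℂ | 0 < z.im}.indicator (fun z => Φ (z, F x.1 z, deriv (F x.1) z)) x.2) := by
  have h1 := hΦ.comp (measurable_snd.prodMk (hF.meas.prodMk hF.deriv_meas))
  have h2 := h1.indicator (measurable_snd measurableSet_H)
  convert h2 using 1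
  funext x
  by_cases hx : x.2 ∈ {z : ℂ | 0 < z.im}
  · rw [indicator_of_mem hx, indicator_of_mem (show x ∈ Prod.snd ⁻¹' {z : ℂ | 0 < z.im} from hx)]
    simp only [Function.comp]
    rw [indicator_of_mem hx, indicator_of_mem hx]
  · rw [indicator_of_notMem hx,
      indicator_of_notMem (show x ∉ Prod.snd ⁻¹' {z : ℂ | 0 < z.im} from hx)]

/-- the same along the imaginary axis -/
theorem MFam.jmeas_I (hF : MFam F) {E : Type*} [MeasurableSpace E] [Zero E] {Φ : ℂ × ℂ × ℂ → E}
    (hΦ : Measurable Φ) :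
    Measurable (fun x : α × ℝ => (Ioi (0:ℝ)).indicator
      (fun y => Φ (y * I, F x.1 (y * I), deriv (F x.1) (y * I))) x.2) := by
  have h1 := (hF.jmeas hΦ).comp (f := fun x : α × ℝ => (x.1, (x.2 : ℂ) * I))
    (measurable_fst.prodMk ((Complex.measurable_ofReal.comp measurable_snd).mul_const I))
  convert h1 using 1
  funext x
  by_cases hx : 0 < x.2
  · rw [indicator_of_mem (show x.2 ∈ Ioi (0:ℝ) from hx)]
    simp only [Function.comp]
    rw [indicator_of_mem (show (x.2 : ℂ) * I ∈ {z : ℂ | 0 < z.im} by simpa using hx)]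
  · rw [indicator_of_notMem (show x.2 ∉ Ioi (0:ℝ) from hx)]
    simp only [Function.comp]
    rw [indicator_of_notMem (show (x.2 : ℂ) * I ∉ {z : ℂ | 0 < z.im} by simpa using hx)]


theorem measurable_lintegral_Ioi {g : α → ℝ → ℝ≥0∞}
    (hg : Measurable (fun x : α × ℝ => (Ioi (0:ℝ)).indicator (g x.1) x.2)) :
    Measurable (fun a : α => ∫⁻ s in Ioi (0:ℝ), g a s) := by
  have h2 := hg.lintegral_prod_right' (ν := volume)
  convert h2 using 1
  funext a
  rw [← lintegral_indicator measurableSet_Ioi]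


end general

/-! ### the state functionals -/

section state

variable {α : Type*} [MeasurableSpace α] {F : α → ℂ → ℂ} {u0 : ℂ → ℝ} {q η : ℝ}

lemma im_mul_I' (y : ℝ) : ((y : ℂ) * I).im = y := by simp

theorem MFam.ups (hF : MFam F) :
    Measurable (fun x : α × ℂ => {z : ℂ | 0 < z.im}.indicator (KB1.ups (F x.1)) x.2) :=
  hF.jmeas (Φ := fun p : ℂ × ℂ × ℂ => p.1.im * ‖p.2.2‖) (by fun_prop)

theorem MFam.vv (hF : MFam F) (hu : Continuous u0) :
    Measurable (fun x : α × ℝ => (Ioi (0:ℝ)).indicator (LB.vv u0 (F x.1)) x.2) := by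
  have hum := hu.measurable
  exact hF.jmeas_I (Φ := fun p : ℂ × ℂ × ℂ => p.1.im * ‖p.2.2‖ / u0 p.2.1) (by fun_prop)

theorem MFam.Psi (hF : MFam F) (hu : Continuous u0) :
    Measurable (fun x : α × ℂ => {z : ℂ | 0 < z.im}.indicator (LB.Psi u0 q η (F x.1)) x.2) := by
  have hum := hu.measurable
  exact hF.jmeas (Φ := fun p : ℂ × ℂ × ℂ => (p.1.im * ‖p.2.2‖) ^ q *
    (max (p.1.im * ‖p.2.2‖) (u0 p.2.1)) ^ (-q - η)) (by fun_prop)

/-- measurability of the potential -/
theorem MFam.Lam (hF : MFam F) (hu : Continuous u0) : Measurable (fun a => LB.Lam u0 q η (F a)) := by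
  have hum := hu.measurable
  refine measurable_lintegral_Ioi (g := fun a y => ENNReal.ofReal (LB.Psi u0 q η (F a) (y * I) / y))
    ?_
  have h := hF.jmeas_I (Φ := fun p : ℂ × ℂ × ℂ => ENNReal.ofReal ((p.1.im * ‖p.2.2‖) ^ q *
    (max (p.1.im * ‖p.2.2‖) (u0 p.2.1)) ^ (-q - η) / p.1.im)) (by fun_prop)
  simpa only [LB.Psi, LB.mm, KB1.ups, im_mul_I'] using h


/-- the area functional in the `z`-coordinate -/
theorem area_eq {f : ℂ → ℂ} (hf : DifferentiableOn ℂ f {z : ℂ | 0 < z.im})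
    (hi : InjOn f {z : ℂ | 0 < z.im}) (hu : Continuous u0) (θ1 : ℝ) :
    LB.area u0 η θ1 f = ∫⁻ z in {z : ℂ | 0 < z.im ∧ θ1 * u0 (f z) ≤ KB1.ups f z},
      ENNReal.ofReal (‖deriv f z‖ ^ 2) * ENNReal.ofReal (u0 (f z) ^ (-2 - η)) := by
  have hS : MeasurableSet {z : ℂ | 0 < z.im ∧ θ1 * u0 (f z) ≤ KB1.ups f z} := by
    have hM : MFam (fun _ : Unit => f) := MFam.const hf
    have hum := hu.measurable
    have h1 := (hM.jmeas (Φ := fun p : ℂ × ℂ × ℂ => (p.1.im * ‖p.2.2‖ - θ1 * u0 p.2.1))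
      (by fun_prop)).comp (measurable_prodMk_left (x := ()))
    have h2 : MeasurableSet ({z : ℂ | 0 < z.im} ∩ {z | 0 ≤ ((fun x : Unit × ℂ =>
      {z : ℂ | 0 < z.im}.indicator (fun z => (fun p : ℂ × ℂ × ℂ => (p.1.im * ‖p.2.2‖ -
        θ1 * u0 p.2.1)) (z, f z, deriv f z)) x.2) ∘ Prod.mk ()) z}) :=
      measurableSet_H.inter (measurableSet_le measurable_const h1)
    convert h2 using 1
    ext z
    simp only [mem_ofPred_eq, mem_inter_iff, Function.comp]
    constructor
    · rintro ⟨h3, h4⟩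
      refine ⟨h3, ?_⟩
      rw [indicator_of_mem (show z ∈ {z : ℂ | 0 < z.im} from h3)]
      unfold KB1.ups at h4
      linarith
    · rintro ⟨h3, h4⟩
      refine ⟨h3, ?_⟩
      rw [indicator_of_mem (show z ∈ {z : ℂ | 0 < z.im} from h3)] at h4
      unfold KB1.ups
      linarith
  have hsub : {z : ℂ | 0 < z.im ∧ θ1 * u0 (f z) ≤ KB1.ups f z} ⊆ {z : ℂ | 0 < z.im} :=
    fun z hz => hz.1
  have himg : LB.areaSet u0 θ1 f = f '' {z : ℂ | 0 < z.im ∧ θ1 * u0 (f z) ≤ KB1.ups f z} := by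
    ext w
    simp only [LB.areaSet, mem_ofPred_eq, mem_image]
    constructor
    · rintro ⟨z, h1, h2, h3⟩
      exact ⟨z, ⟨h1, by rw [h2]; exact h3⟩, h2⟩
    · rintro ⟨z, ⟨h1, h3⟩, h2⟩
      exact ⟨z, h1, h2, by rw [← h2]; exact h3⟩
  rw [LB.area, himg, lintegral_image_eq_lintegral_abs_det_fderiv_mul volume hS
    (f' := fun z => (ContinuousLinearMap.toSpanSingleton ℂ (deriv f z)).restrictScalars ℝ)
    (fun z hz => ?_) (hi.mono hsub)]
  · refine lintegral_congr fun z => ?_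
    congr 2
    simp [ContinuousLinearMap.det, LinearMap.det_restrictScalars, Algebra.norm_complex_eq,
      Complex.normSq_eq_norm_sq]
  · have h1 : HasDerivAt f (deriv f z) z :=
      ((hf z (hsub hz)).differentiableAt (isOpen_H.mem_nhds (hsub hz))).hasDerivAt
    exact (h1.hasFDerivAt.restrictScalars ℝ).hasFDerivWithinAt

/-- measurability of the area functional -/
theorem MFam.area (hF : MFam F) (hi : ∀ a, InjOn (F a) {z : ℂ | 0 < z.im}) (hu : Continuous u0)
    (θ1 : ℝ) : Measurable (fun a => LB.area u0 η θ1 (F a)) := by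
  have hum := hu.measurable
  have h1 := hF.jmeas (Φ := fun p : ℂ × ℂ × ℂ => if θ1 * u0 p.2.1 ≤ p.1.im * ‖p.2.2‖ then
    ENNReal.ofReal (‖p.2.2‖ ^ 2) * ENNReal.ofReal (u0 p.2.1 ^ (-2 - η)) else 0)
    (Measurable.ite (measurableSet_le (by fun_prop) (by fun_prop)) (by fun_prop)
      measurable_const)
  have h2 := h1.lintegral_prod_right' (ν := volume)
  convert h2 using 1
  funext a
  rw [area_eq (hF.diff a) (hi a) hu θ1]
  have hS : MeasurableSet {z : ℂ | 0 < z.im ∧ θ1 * u0 (F a z) ≤ KB1.ups (F a) z} := by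
    have h3 := (hF.jmeas (Φ := fun p : ℂ × ℂ × ℂ => (p.1.im * ‖p.2.2‖ - θ1 * u0 p.2.1))
      (by fun_prop)).comp (measurable_prodMk_left (x := a))
    have h4 := measurableSet_H.inter (measurableSet_le (measurable_const (a := (0:ℝ))) h3)
    convert h4 using 1
    ext z
    simp only [mem_ofPred_eq, mem_inter_iff, Function.comp]
    constructor
    · rintro ⟨h3, h4⟩
      refine ⟨h3, ?_⟩
      rw [indicator_of_mem (show z ∈ {z : ℂ | 0 < z.im} from h3)]
      unfold KB1.ups at h4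
      linarith
    · rintro ⟨h3, h4⟩
      refine ⟨h3, ?_⟩
      rw [indicator_of_mem (show z ∈ {z : ℂ | 0 < z.im} from h3)] at h4
      unfold KB1.ups
      linarith
  rw [← lintegral_indicator hS]
  congr 1
  funext z
  by_cases hz : z ∈ {z : ℂ | 0 < z.im}
  · rw [indicator_of_mem hz]
    by_cases h5 : θ1 * u0 (F a z) ≤ KB1.ups (F a) z
    · rw [indicator_of_mem (show z ∈ {z : ℂ | 0 < z.im ∧ θ1 * u0 (F a z) ≤ KB1.ups (F a) z} from
        ⟨hz, h5⟩)]
      rw [if_pos (show θ1 * u0 (F a z) ≤ z.im * ‖deriv (F a) z‖ from h5)]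
    · rw [indicator_of_notMem (show z ∉ {z : ℂ | 0 < z.im ∧ θ1 * u0 (F a z) ≤ KB1.ups (F a) z} from
        fun h => h5 h.2)]
      rw [if_neg (show ¬ θ1 * u0 (F a z) ≤ z.im * ‖deriv (F a) z‖ from h5)]
  · rw [indicator_of_notMem hz, indicator_of_notMem (show z ∉ {z : ℂ | 0 < z.im ∧
      θ1 * u0 (F a z) ≤ KB1.ups (F a) z} from fun h => hz h.1)]

end state

end Crest.Agent.R162.LBM
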