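import Mathlib
import Crest.Agent.R162.FLD
import Crest.Agent.R162.OPTr
import Crest.Agent.R162.OS
import Crest.Agent.R162.OS2
import Crest.Agent.R162.SM

/-!
Row 162, node OPM part 2 (helper9): the truncated state process is continuous and adapted and
solves the state equation; hitting times of the true state.
-/

set_option autoImplicit false

open MeasureTheory ProbabilityTheory Set
open scoped NNReal ENNReal Topology
open Crest.ProbabilityR.Loewner

namespace Crest.Agent.R162.OPTr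

open FL

section meas

attribute [local instance] FLD.instMSC
local instance instBSC' : BorelSpace C(unitInterval, ℝ) := ⟨rfl⟩

variable {Ω : Type*} {m' : MeasurableSpace Ω} {W : Ω → ℝ → ℝ} {δ : ℝ} {z : ℂ}

lemma hfl_lip {U V : ℝ → ℝ} (hU : Continuous U) (hV : Continuous V) (hδ : 0 < δ) {t ε : ℝ}
    (ht : 0 ≤ t) (hUV : ∀ s ∈ Icc 0 t, |U s - V s| ≤ ε) :
    ‖hfl δ U z t - hfl δ V z t‖ ≤ ε * Real.exp (2 / δ ^ 2 * t) := by
  have := gronwall_trunc (U := U) (V := V) hδ (c := 1) (by simp) (η := 0) (ε := ε)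
    (g := hfl δ U z) (h := hfl δ V z) (T := t) (by simpa using hfl_deriv hU hδ t)
    (by simpa using hfl_deriv hV hδ t) hUV (by simp [hfl_zero]) t ⟨ht, le_rfl⟩
  simpa using this

theorem measurable_hfl (hWc : ∀ ω, Continuous (W ω)) {t : ℝ} (ht : 0 ≤ t)
    (hWm : ∀ s ∈ Icc 0 t, Measurable (fun ω => W ω s)) (hδ : 0 < δ) :
    Measurable (fun ω => hfl δ (W ω) z t) := by
  rcases ht.eq_or_lt with h0 | htp
  · subst h0
    simp only [hfl_zero]
    exact measurable_const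
  have hΦ : Continuous (fun p : C(unitInterval, ℝ) => hfl δ (FLD.ofI t p) z t) := by
    refine (LipschitzWith.of_dist_le_mul (K := Real.toNNReal (Real.exp (2 / δ ^ 2 * t)))
      fun p q => ?_).continuous
    rw [dist_eq_norm, Real.coe_toNNReal _ (Real.exp_pos _).le, mul_comm]
    exact hfl_lip (FLD.continuous_ofI t p) (FLD.continuous_ofI t q) hδ ht
      (fun s _ => FLD.abs_ofI_sub_le t p q s)
  have h1 := hΦ.measurable.comp (FLD.measurable_toI ht (fun ω => (hWc ω).continuousOn) hWm)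
  convert h1 using 1
  funext ω
  have h2 := hfl_lip (z := z) (hWc ω) (FLD.continuous_ofI t (FLD.toI t ht (W ω)
    (hWc ω).continuousOn)) hδ ht (ε := 0) (fun s hs => by
      rw [← FLD.ofI_toI htp (W ω) (hWc ω).continuousOn s hs]; simp)
  simpa [sub_eq_zero] using h2

lemma measurable_xy (hWc : ∀ ω, Continuous (W ω)) {t : ℝ} (ht : 0 ≤ t)
    (hWm : ∀ s ∈ Icc 0 t, Measurable (fun ω => W ω s)) (hδ : 0 < δ) :
    Measurable (fun ω => xy δ (W ω) z t) := by
  unfold xy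
  have h := measurable_hfl (z := z) hWc ht hWm hδ
  exact ((Complex.measurable_re.comp h).sub (hWm t ⟨ht, le_rfl⟩)).prodMk
    (Complex.measurable_im.comp h)

lemma measurable_int_xy (hWc : ∀ ω, Continuous (W ω)) {t : ℝ} (ht : 0 ≤ t)
    (hWm : ∀ s ∈ Icc 0 t, Measurable (fun ω => W ω s)) (hδ : 0 < δ) {c : ℝ × ℝ → ℝ}
    (hc : Continuous c) :
    Measurable (fun ω => ∫ s in (0:ℝ)..t, c (xy δ (W ω) z s)) := by
  have h1 : ∀ ω, ∫ s in (0:ℝ)..t, c (xy δ (W ω) z s)
      = ∫ s, c (xy δ (W ω) z (FLD.clampT t s)) ∂(volume.restrict (Ioc 0 t)) := by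
    intro ω
    rw [intervalIntegral.integral_of_le ht]
    refine setIntegral_congr_fun measurableSet_Ioc fun s hs => ?_
    rw [FLD.clampT_of_mem (Ioc_subset_Icc_self hs)]
  simp_rw [h1]
  have h2 : Measurable (Function.uncurry fun (s : ℝ) (ω : Ω) =>
      c (xy δ (W ω) z (FLD.clampT t s))) := by
    refine measurable_uncurry_of_continuous_of_measurable (fun ω => ?_) (fun s => ?_)
    · refine hc.comp ?_
      exact (xy_contOn (hWc ω) hδ).comp_continuous (FLD.continuous_clampT t)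
        (fun s => (FLD.clampT_mem ht s).1)
    · have hs := FLD.clampT_mem ht s
      exact hc.measurable.comp (measurable_xy hWc hs.1
        (fun r hr => hWm r ⟨hr.1, hr.2.trans hs.2⟩) hδ)
  have h3 : Measurable (fun p : Ω × ℝ => c (xy δ (W p.1) z (FLD.clampT t p.2))) :=
    h2.comp measurable_swap
  exact (h3.stronglyMeasurable.integral_prod_right').measurable

lemma measurable_stD (hWc : ∀ ω, Continuous (W ω)) {t : ℝ} (ht : 0 ≤ t)
    (hWm : ∀ s ∈ Icc 0 t, Measurable (fun ω => W ω s)) (hδ : 0 < δ) :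
    Measurable (fun ω => stD δ (W ω) t z) := by
  unfold stD
  have h := measurable_xy (z := z) hWc ht hWm hδ
  exact h.fst.prodMk (h.snd.prodMk ((measurable_const.add
    (measurable_int_xy hWc ht hWm hδ (cL_cont hδ))).prodMk
    (measurable_int_xy hWc ht hWm hδ (ca_cont hδ))))

end meas

/-! ### deterministic facts about the truncated state -/

section det

variable {W : ℝ → ℝ} {δ : ℝ} {z : ℂ}


lemma hfl_im_anti (hW : Continuous W) (hδ : 0 < δ) {s t : ℝ} (hs : 0 ≤ s) (hst : s ≤ t) :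
    (hfl δ W z t).im ≤ (hfl δ W z s).im := by
  have hanti : AntitoneOn (fun r => (hfl δ W z r).im) (Icc 0 t) := by
    have hd : ∀ r ∈ Icc 0 t, HasDerivWithinAt (fun r => (hfl δ W z r).im)
        (vf W δ r (hfl δ W z r)).im (Icc 0 t) r := fun r hr =>
      hasDerivWithinAt_im (hfl_deriv hW hδ t r hr)
    refine antitoneOn_of_deriv_nonpos (convex_Icc 0 t) (fun r hr => (hd r hr).continuousWithinAt)
      ?_ ?_
    · intro r hr
      rw [interior_Icc] at hr
      exact ((hd r (Ioo_subset_Icc_self hr)).hasDerivAt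
        (Icc_mem_nhds hr.1 hr.2)).differentiableAt.differentiableWithinAt
    · intro r hr
      rw [interior_Icc] at hr
      rw [((hd r (Ioo_subset_Icc_self hr)).hasDerivAt (Icc_mem_nhds hr.1 hr.2)).deriv]
      have : 0 < (tr δ (hfl δ W z r)).im := by
        simp only [tr]; exact lt_max_of_lt_right hδ
      exact im_two_div_nonpos this _
  exact hanti ⟨hs, hst⟩ ⟨hs.trans hst, le_rfl⟩ hst

/-- membership of the true / truncated state in a set above `δ` is the same thing -/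
lemma stW_mem_iff (hW : Continuous W) (hδ : 0 < δ) {t : ℝ} (ht : 0 ≤ t)
    {C : Set (ℝ × ℝ × ℝ × ℝ)} (hC : ∀ q ∈ C, δ ≤ q.2.1) :
    OP.stW W t z ∈ C ↔ stD δ W t z ∈ C := by
  constructor
  · intro h
    have h1 : δ ≤ (Zfl W t z).im := hC _ h
    have ha : Alive W z t := by
      by_contra hna
      have : gfl W t z = 0 := FLD.gfl_of_not_alive hna
      rw [Zfl_im, this] at h1
      simp at h1; linarith
    rw [Zfl_im] at h1
    rwa [stD_eq hW hδ ha h1]
  · intro h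
    have h1 : δ ≤ (hfl δ W z t).im := hC _ h
    obtain ⟨ha, hl⟩ := alive_of_hfl (z := z) hW hδ ht
      (fun s hs => h1.trans (hfl_im_anti hW hδ hs.1 hs.2))
    rwa [← stD_eq hW hδ ha hl]

lemma alive_of_Y_pos {t : ℝ} (h : 0 < (OP.stW W t z).2.1) : Alive W z t := by
  by_contra hna
  have h1 : (OP.stW W t z).2.1 = (gfl W t z).im := Zfl_im W t z
  rw [h1, FLD.gfl_of_not_alive hna] at h
  simp at h

lemma stD_contOn (hW : Continuous W) (hδ : 0 < δ) :
    ContinuousOn (fun t => stD δ W t z) (Ici 0) := by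
  have hxy := xy_contOn (z := z) hW hδ
  have hint : ∀ {c : ℝ × ℝ → ℝ}, Continuous c →
      ContinuousOn (fun t : ℝ => ∫ s in (0:ℝ)..t, c (xy δ W z s)) (Ici 0) := by
    intro c hc
    have h1 : Continuous fun s : ℝ => c (xy δ W z (max s 0)) :=
      hc.comp (hxy.comp_continuous (by fun_prop) (fun s => mem_Ici.2 (le_max_right s 0)))
    have h2 : Continuous fun t : ℝ => ∫ s in (0:ℝ)..t, c (xy δ W z (max s 0)) :=
      intervalIntegral.continuous_primitive (fun a b => h1.intervalIntegrable a b) 0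
    refine h2.continuousOn.congr fun t ht => ?_
    refine intervalIntegral.integral_congr fun s hs => ?_
    rw [uIcc_of_le ht] at hs
    simp only [max_eq_left hs.1]
  unfold stD
  exact (continuous_fst.comp_continuousOn hxy).prodMk
    ((continuous_snd.comp_continuousOn hxy).prodMk
      ((continuousOn_const.add (hint (cL_cont hδ))).prodMk (hint (ca_cont hδ))))

lemma contOn_stW {t : ℝ} (ha : Alive W z t) (hW : Continuous W) :
    ContinuousOn (fun s => OP.stW W s z) (Icc 0 t) := by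
  have hpos := gfl_im_pos ha
  have h1 : ContinuousOn (fun s => stD (gfl W t z).im W s z) (Icc 0 t) :=
    (stD_contOn hW hpos).mono Icc_subset_Ici_self
  refine h1.congr fun s hs => ?_
  exact (stD_eq hW hpos (ha.mono hs.1 hs.2) (im_anti ha hs.1 hs.2)).symm

end det

/-! ### the processes -/

section proc

open OS OP

variable {Ω : Type*} {m : MeasurableSpace Ω} {P : Measure Ω} {Fl : Filtration ℝ≥0 m}
  {B : ℝ≥0 → Ω → ℝ} {κ δ : ℝ} {w : ℂ}

lemma driving_cont (hB : IsBM Fl B P) (κ : ℝ) (ω : Ω) : Continuous (driving κ B ω) := by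
  unfold driving
  exact continuous_const.mul ((hB.cont ω).comp continuous_real_toNNReal)

lemma driving_meas (hB : IsBM Fl B P) (κ : ℝ) (t : ℝ≥0) {s : ℝ} (hs : s ∈ Icc (0:ℝ) t) :
    Measurable[Fl t] (fun ω => driving κ B ω s) := by
  unfold driving
  have h1 : s.toNNReal ≤ t := Real.toNNReal_le_iff_le_coe.2 hs.2
  exact ((hB.adapted s.toNNReal).mono (Fl.mono h1) le_rfl).const_mul _

/-- the truncated state process -/
noncomputable def stDP (δ κ : ℝ) (B : ℝ≥0 → Ω → ℝ) (w : ℂ) (t : ℝ≥0) (ω : Ω) :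
    ℝ × ℝ × ℝ × ℝ := stD δ (driving κ B ω) (t : ℝ) w

lemma stDP_cont (hB : IsBM Fl B P) (hδ : 0 < δ) (ω : Ω) :
    Continuous fun t => stDP δ κ B w t ω := by
  unfold stDP
  exact (stD_contOn (driving_cont hB κ ω) hδ).comp_continuous NNReal.continuous_coe
    (fun t => t.2)

lemma stDP_meas (hB : IsBM Fl B P) (hδ : 0 < δ) (t : ℝ≥0) :
    Measurable[Fl t] (stDP δ κ B w t) := by
  unfold stDP
  exact measurable_stD (m' := Fl t) (driving_cont hB κ) t.2
    (fun s hs => driving_meas hB κ t hs) hδ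

lemma stDP_sadapted (hB : IsBM Fl B P) (hδ : 0 < δ) :
    StronglyAdapted Fl (stDP δ κ B w) :=
  fun t => (stDP_meas hB hδ t).stronglyMeasurable

lemma stP_mem_iff (hB : IsBM Fl B P) (hδ : 0 < δ)
    {C : Set (ℝ × ℝ × ℝ × ℝ)} (hC : ∀ q ∈ C, δ ≤ q.2.1) (t : ℝ≥0) (ω : Ω) :
    stP κ B w t ω ∈ C ↔ stDP δ κ B w t ω ∈ C :=
  stW_mem_iff (driving_cont hB κ ω) hδ t.2 hC

theorem aliveP_of_mem {t : ℝ≥0} {ω : Ω} (h : 0 < (stP κ B w t ω).2.1) : AliveP κ B w t ω :=
  alive_of_Y_pos h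

lemma hit_open_eq (hB : IsBM Fl B P) (hδ : 0 < δ)
    {O : Set (ℝ × ℝ × ℝ × ℝ)} (hOδ : ∀ q ∈ O, δ ≤ q.2.1) (σ : Ω → ℝ≥0) (T : ℝ≥0) :
    hit (stP κ B w) Oᶜ σ T = hit (stDP δ κ B w) Oᶜ σ T := by
  funext ω
  unfold hit
  congr 2
  ext t
  simp only [mem_ofPred_eq, mem_compl_iff, stP_mem_iff hB hδ hOδ t ω]

theorem hit_open_isST (hB : IsBM Fl B P) (hδ : 0 < δ)
    {O : Set (ℝ × ℝ × ℝ × ℝ)} (hO : IsOpen O) (hOδ : ∀ q ∈ O, δ ≤ q.2.1)
    {σ : Ω → ℝ≥0} (hσ : IsST Fl σ) (T : ℝ≥0) : IsST Fl (hit (stP κ B w) Oᶜ σ T) := by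
  rw [hit_open_eq hB hδ hOδ]
  exact hit_isST (stDP_sadapted hB hδ) (stDP_cont hB hδ) hO.isClosed_compl hσ T

theorem hit_open_spec (hB : IsBM Fl B P) (hδ : 0 < δ)
    {O : Set (ℝ × ℝ × ℝ × ℝ)} (hO : IsOpen O) (hOδ : ∀ q ∈ O, δ ≤ q.2.1)
    (σ : Ω → ℝ≥0) (T : ℝ≥0) {ω : Ω} (hin : stP κ B w (σ ω) ω ∈ O) :
    (∀ t, σ ω ≤ t → t ≤ hit (stP κ B w) Oᶜ σ T ω →
        AliveP κ B w t ω ∧ stP κ B w t ω ∈ closure O) ∧
      (∀ t, σ ω ≤ t → t < hit (stP κ B w) Oᶜ σ T ω → stP κ B w t ω ∈ O) ∧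
      (hit (stP κ B w) Oᶜ σ T ω = max T (σ ω) ∨
        stP κ B w (hit (stP κ B w) Oᶜ σ T ω) ω ∉ O) := by
  have hclδ : ∀ q ∈ closure O, δ ≤ q.2.1 := by
    have h1 : closure O ⊆ {q : ℝ × ℝ × ℝ × ℝ | δ ≤ q.2.1} :=
      closure_minimal (fun q hq => hOδ q hq)
        (isClosed_le continuous_const (continuous_fst.comp continuous_snd))
    exact fun q hq => h1 hq
  have hlt : ∀ t, σ ω ≤ t → t < hit (stP κ B w) Oᶜ σ T ω → stP κ B w t ω ∈ O := by
    intro t h1 h2
    by_contra h3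
    exact notMem_of_lt_hit h1 h2 h3
  have hcl : stP κ B w (hit (stP κ B w) Oᶜ σ T ω) ω ∈ closure O := by
    rcases (le_hit (X := stP κ B w) (K := Oᶜ) (σ := σ) (T := T) (ω := ω)).eq_or_lt with h | h
    · rw [← h]; exact subset_closure hin
    · rw [stP_mem_iff hB hδ hclδ]
      set τ := hit (stP κ B w) Oᶜ σ T ω with hτ
      have h1 : Filter.Tendsto (fun t => stDP δ κ B w t ω) (𝓝[<] τ) (𝓝 (stDP δ κ B w τ ω)) :=
        (stDP_cont hB hδ ω).continuousAt.tendsto.mono_left nhdsWithin_le_nhds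
      have hne : (𝓝[<] τ).NeBot := nhdsLT_neBot_of_exists_lt ⟨_, h⟩
      refine mem_closure_of_tendsto h1 ?_
      have h2 : Ioo (σ ω) τ ∈ 𝓝[<] τ := Ioo_mem_nhdsLT h
      filter_upwards [h2] with t ht
      exact (stP_mem_iff hB hδ hOδ t ω).1 (hlt t ht.1.le ht.2)
  refine ⟨fun t h1 h2 => ?_, hlt, ?_⟩
  · have h3 : stP κ B w t ω ∈ closure O := by
      rcases h2.eq_or_lt with h | h
      · rw [h]; exact hcl
      · exact subset_closure (hlt t h1 h)
    exact ⟨aliveP_of_mem (lt_of_lt_of_le hδ (hclδ _ h3)), h3⟩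
  · rw [hit_open_eq hB hδ hOδ]
    rcases hit_mem (X := stDP δ κ B w) (σ := σ) (T := T) (ω := ω) hO.isClosed_compl
      (stDP_cont hB hδ ω) with h | h
    · right
      intro h4
      exact h.2 ((stP_mem_iff hB hδ hOδ _ ω).1 h4)
    · left; exact h





theorem evST_alive_mem (hB : IsBM Fl B P) {S : Set (ℝ × ℝ × ℝ × ℝ)}
    (hS : MeasurableSet S) {σ : Ω → ℝ≥0} (hσ : IsST Fl σ) :
    EvST Fl σ {ω | AliveP κ B w (σ ω) ω ∧ stP κ B w (σ ω) ω ∈ S} := by
  have hpos : ∀ n : ℕ, (0:ℝ) < 1 / ((n:ℝ) + 1) := fun n => by positivity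
  have e : {ω | AliveP κ B w (σ ω) ω ∧ stP κ B w (σ ω) ω ∈ S} = ⋃ n : ℕ,
      {ω | stDP (1 / ((n:ℝ) + 1)) κ B w (σ ω) ω ∈ S ∩ {q | 1 / ((n:ℝ) + 1) ≤ q.2.1}} := by
    ext ω
    simp only [mem_iUnion]
    constructor
    · rintro ⟨h1, h2⟩
      have hY : 0 < (stP κ B w (σ ω) ω).2.1 := by
        have := Zfl_im_pos h1
        exact this
      obtain ⟨n, hn⟩ := exists_nat_one_div_lt hY
      exact ⟨n, (stP_mem_iff hB (hpos n) (C := S ∩ {q | 1 / ((n:ℝ) + 1) ≤ q.2.1})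
        (fun q hq => hq.2) _ ω).1 ⟨h2, hn.le⟩⟩
    · rintro ⟨n, hn⟩
      have h2 := (stP_mem_iff hB (hpos n) (C := S ∩ {q | 1 / ((n:ℝ) + 1) ≤ q.2.1})
        (fun q hq => hq.2) _ ω).2 hn
      exact ⟨aliveP_of_mem (lt_of_lt_of_le (hpos n) h2.2), h2.1⟩
  rw [e]
  refine EvST.iUnion fun n => ?_
  refine EvST.preimage (stDP_sadapted hB (hpos n)) (stDP_cont hB (hpos n)) hσ ?_
  exact hS.inter (measurableSet_le measurable_const (by fun_prop))

end proc

end Crest.Agent.R162.OPTr
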