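import Mathlib
import Crest.Agent.R162.OPTr
import Crest.Agent.R162.OPTr2
import Crest.Agent.R162.SM
import Crest.Agent.R162.OSDefs

-- ▼ part R162/OPCf
section

/-!
Row 162, node OPM (helper443 for helper9): the truncated drift `cf δ` is bounded and Lipschitz.
-/

set_option autoImplicit false

open Set
open scoped NNReal ENNReal Topology

namespace Crest.Agent.R162.OPTr

variable {δ : ℝ}

/-- the complex number `2 / (X + i max(Y, δ))` -/
noncomputable def zt (δ : ℝ) (q : ℝ × ℝ × ℝ × ℝ) : ℂ := 2 / (⟨q.1, mh δ q⟩ : ℂ)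

lemma mh_pos (hδ : 0 < δ) (q : ℝ × ℝ × ℝ × ℝ) : 0 < mh δ q := lt_max_of_lt_right hδ

lemma zt_re (q : ℝ × ℝ × ℝ × ℝ) : (zt δ q).re = 2 * q.1 / (q.1 ^ 2 + mh δ q ^ 2) := by
  have h : ∀ x y : ℝ, (2 / (⟨x, y⟩ : ℂ)).re = 2 * x / (x ^ 2 + y ^ 2) := by
    intro x y
    rw [Complex.div_re]
    simp only [Complex.re_ofNat, Complex.im_ofNat, Complex.normSq_mk, zero_mul, zero_div, add_zero]
    ring_nf
  exact h _ _

lemma zt_im (q : ℝ × ℝ × ℝ × ℝ) : (zt δ q).im = -(2 * mh δ q / (q.1 ^ 2 + mh δ q ^ 2)) := by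
  have h : ∀ x y : ℝ, (2 / (⟨x, y⟩ : ℂ)).im = -(2 * y / (x ^ 2 + y ^ 2)) := by
    intro x y
    rw [Complex.div_im]
    simp only [Complex.re_ofNat, Complex.im_ofNat, Complex.normSq_mk, zero_mul, zero_div, zero_sub]
    ring_nf
  exact h _ _

lemma cf_eq (hδ : 0 < δ) (q : ℝ × ℝ × ℝ × ℝ) :
    cf δ q = ((zt δ q).re, (zt δ q).im, -(zt δ q).im ^ 2,
      ((zt δ q).re ^ 2 + (zt δ q).im ^ 2) / 4) := by
  have hm := mh_pos hδ q
  have hD : 0 < q.1 ^ 2 + mh δ q ^ 2 := by positivity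
  rw [zt_re, zt_im]
  unfold cf
  refine Prod.ext rfl (Prod.ext rfl (Prod.ext ?_ ?_))
  · show -(4 * mh δ q ^ 2 / (q.1 ^ 2 + mh δ q ^ 2) ^ 2) = _
    show _ = -(-(2 * mh δ q / (q.1 ^ 2 + mh δ q ^ 2))) ^ 2
    field_simp
    ring
  · show 1 / (q.1 ^ 2 + mh δ q ^ 2) = _
    show _ = ((2 * q.1 / (q.1 ^ 2 + mh δ q ^ 2)) ^ 2
      + (-(2 * mh δ q / (q.1 ^ 2 + mh δ q ^ 2))) ^ 2) / 4
    field_simp
    ring

lemma le_norm_den (hδ : 0 < δ) (q : ℝ × ℝ × ℝ × ℝ) : δ ≤ ‖(⟨q.1, mh δ q⟩ : ℂ)‖ := by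
  have h1 : mh δ q ≤ ‖(⟨q.1, mh δ q⟩ : ℂ)‖ := by
    have := Complex.abs_im_le_norm (⟨q.1, mh δ q⟩ : ℂ)
    exact (le_abs_self _).trans this
  exact (le_max_right _ _).trans h1

lemma zt_norm (hδ : 0 < δ) (q : ℝ × ℝ × ℝ × ℝ) : ‖zt δ q‖ ≤ 2 / δ := by
  unfold zt
  rw [norm_div]
  have h2 : ‖(2:ℂ)‖ = 2 := by norm_num
  rw [h2]
  exact div_le_div_of_nonneg_left (by norm_num) hδ (le_norm_den hδ q)

lemma zt_lip (hδ : 0 < δ) (q q' : ℝ × ℝ × ℝ × ℝ) :
    ‖zt δ q - zt δ q'‖ ≤ 4 / δ ^ 2 * ‖q - q'‖ := by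
  unfold zt
  refine (FL.lip_inv hδ (le_norm_den hδ q) (le_norm_den hδ q')).trans ?_
  have h1 : ‖(⟨q.1, mh δ q⟩ : ℂ) - (⟨q'.1, mh δ q'⟩ : ℂ)‖ ≤ |q.1 - q'.1| + |mh δ q - mh δ q'| := by
    have := Complex.norm_le_abs_re_add_abs_im ((⟨q.1, mh δ q⟩ : ℂ) - (⟨q'.1, mh δ q'⟩ : ℂ))
    simpa using this
  have h2 : |q.1 - q'.1| ≤ ‖q - q'‖ := by
    have := norm_fst_le (q - q')
    simpa [Real.norm_eq_abs] using this
  have h3 : |mh δ q - mh δ q'| ≤ ‖q - q'‖ := by
    have h4 : |mh δ q - mh δ q'| ≤ |q.2.1 - q'.2.1| := abs_max_sub_max_le_abs _ _ _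
    refine h4.trans ?_
    have h5 := norm_snd_le (q - q')
    have h6 := norm_fst_le (q - q').2
    have h7 : |q.2.1 - q'.2.1| = ‖(q - q').2.1‖ := by simp [Real.norm_eq_abs]
    rw [h7]
    exact h6.trans h5
  have h4 : (0:ℝ) < 2 / δ ^ 2 := by positivity
  calc 2 / δ ^ 2 * ‖(⟨q.1, mh δ q⟩ : ℂ) - (⟨q'.1, mh δ q'⟩ : ℂ)‖
      ≤ 2 / δ ^ 2 * (‖q - q'‖ + ‖q - q'‖) :=
        mul_le_mul_of_nonneg_left (h1.trans (add_le_add h2 h3)) h4.le
    _ = 4 / δ ^ 2 * ‖q - q'‖ := by ring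

/-- the truncated drift field is bounded and Lipschitz -/
theorem cf_lip (hδ : 0 < δ) : ∃ K : ℝ, 0 ≤ K ∧
    (∀ z z', ‖OPTr.cf δ z - OPTr.cf δ z'‖ ≤ K * ‖z - z'‖) ∧ ∀ z, ‖OPTr.cf δ z‖ ≤ K := by
  set R : ℝ := 2 / δ with hR
  set L : ℝ := 4 / δ ^ 2 with hL
  have hR0 : 0 < R := by positivity
  have hL0 : 0 < L := by positivity
  have hRL : 0 < R * L := by positivity
  refine ⟨L + 2 * (R * L) + R + R ^ 2, by positivity, fun z z' => ?_, fun z => ?_⟩
  · rw [cf_eq hδ, cf_eq hδ]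
    set a := zt δ z with ha
    set b := zt δ z' with hb
    set d := ‖z - z'‖ with hd
    have hd0 : 0 ≤ d := norm_nonneg _
    have hab : ‖a - b‖ ≤ L * d := zt_lip hδ z z'
    have hre : |a.re - b.re| ≤ L * d := by
      have := Complex.abs_re_le_norm (a - b); rw [Complex.sub_re] at this; exact this.trans hab
    have him : |a.im - b.im| ≤ L * d := by
      have := Complex.abs_im_le_norm (a - b); rw [Complex.sub_im] at this; exact this.trans hab
    have hra : |a.re| ≤ R := (Complex.abs_re_le_norm a).trans (zt_norm hδ z)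
    have hrb : |b.re| ≤ R := (Complex.abs_re_le_norm b).trans (zt_norm hδ z')
    have hia : |a.im| ≤ R := (Complex.abs_im_le_norm a).trans (zt_norm hδ z)
    have hib : |b.im| ≤ R := (Complex.abs_im_le_norm b).trans (zt_norm hδ z')
    have hLd : 0 ≤ L * d := by positivity
    have key : ∀ x y : ℝ, |x| ≤ R → |y| ≤ R → |x - y| ≤ L * d →
        |x ^ 2 - y ^ 2| ≤ 2 * (R * L) * d := by
      intro x y hx hy hxy
      have h1 : x ^ 2 - y ^ 2 = (x + y) * (x - y) := by ring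
      rw [h1, abs_mul]
      have h2 : |x + y| ≤ 2 * R := (abs_add_le x y).trans (by linarith)
      calc |x + y| * |x - y| ≤ (2 * R) * (L * d) :=
            mul_le_mul h2 hxy (abs_nonneg _) (by positivity)
        _ = 2 * (R * L) * d := by ring
    have k1 := key _ _ hia hib him
    have k2 := key _ _ hra hrb hre
    have hRLd : 0 ≤ R * L * d := by positivity
    have hRd : 0 ≤ R * d := by positivity
    have hR2d : 0 ≤ R ^ 2 * d := by positivity
    simp only [Prod.mk_sub_mk]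
    refine norm_prod_le_iff.2 ⟨?_, norm_prod_le_iff.2 ⟨?_, norm_prod_le_iff.2 ⟨?_, ?_⟩⟩⟩
    · show ‖a.re - b.re‖ ≤ _
      rw [Real.norm_eq_abs]; nlinarith
    · show ‖a.im - b.im‖ ≤ _
      rw [Real.norm_eq_abs]; nlinarith
    · show ‖-a.im ^ 2 - -b.im ^ 2‖ ≤ _
      rw [Real.norm_eq_abs, show -a.im ^ 2 - -b.im ^ 2 = -(a.im ^ 2 - b.im ^ 2) by ring, abs_neg]
      nlinarith
    · show ‖(a.re ^ 2 + a.im ^ 2) / 4 - (b.re ^ 2 + b.im ^ 2) / 4‖ ≤ _
      rw [Real.norm_eq_abs, show (a.re ^ 2 + a.im ^ 2) / 4 - (b.re ^ 2 + b.im ^ 2) / 4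
        = ((a.re ^ 2 - b.re ^ 2) + (a.im ^ 2 - b.im ^ 2)) / 4 by ring, abs_div]
      have h4 : |(4:ℝ)| = 4 := by norm_num
      rw [h4]
      have h5 := abs_add_le (a.re ^ 2 - b.re ^ 2) (a.im ^ 2 - b.im ^ 2)
      rw [div_le_iff₀ (by norm_num)]
      nlinarith
  · rw [cf_eq hδ]
    set a := zt δ z with ha
    have hra : |a.re| ≤ R := (Complex.abs_re_le_norm a).trans (zt_norm hδ z)
    have hia : |a.im| ≤ R := (Complex.abs_im_le_norm a).trans (zt_norm hδ z)
    have h1 : a.re ^ 2 ≤ R ^ 2 := sq_le_sq' (by linarith [(abs_le.1 hra).1]) (abs_le.1 hra).2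
    have h2 : a.im ^ 2 ≤ R ^ 2 := sq_le_sq' (by linarith [(abs_le.1 hia).1]) (abs_le.1 hia).2
    have hR2 : 0 < R ^ 2 := by positivity
    refine norm_prod_le_iff.2 ⟨?_, norm_prod_le_iff.2 ⟨?_, norm_prod_le_iff.2 ⟨?_, ?_⟩⟩⟩
    · show ‖a.re‖ ≤ _
      rw [Real.norm_eq_abs]; nlinarith
    · show ‖a.im‖ ≤ _
      rw [Real.norm_eq_abs]; nlinarith
    · show ‖-a.im ^ 2‖ ≤ _
      rw [Real.norm_eq_abs, abs_neg, abs_of_nonneg (sq_nonneg _)]
      nlinarith
    · show ‖(a.re ^ 2 + a.im ^ 2) / 4‖ ≤ _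
      rw [Real.norm_eq_abs, abs_of_nonneg (by positivity)]
      nlinarith

end Crest.Agent.R162.OPTr
end

-- ▼ part R162/OPState
section

/-!
Row 162, node OPM (helper365 for helper9): the truncated state process solves the state equation.
-/

set_option autoImplicit false

open MeasureTheory ProbabilityTheory Set
open scoped NNReal ENNReal Topology
open Crest.ProbabilityR.Loewner

namespace Crest.Agent.R162.OPTr

open FL

section det

variable {W : ℝ → ℝ} {δ : ℝ} {z : ℂ}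

lemma two_div_re (ζ : ℂ) : (2 / ζ).re = 2 * ζ.re / (ζ.re ^ 2 + ζ.im ^ 2) := by
  rw [Complex.div_re, Complex.normSq_apply]
  simp
  ring

lemma two_div_im (ζ : ℂ) : (2 / ζ).im = -(2 * ζ.im / (ζ.re ^ 2 + ζ.im ^ 2)) := by
  rw [Complex.div_im, Complex.normSq_apply]
  simp
  ring

/-- the state plus the driving function in the first coordinate -/
noncomputable def stG (δ : ℝ) (W : ℝ → ℝ) (t : ℝ) (z : ℂ) : ℝ × ℝ × ℝ × ℝ :=
  ((hfl δ W z t).re, (hfl δ W z t).im, Real.log z.im + ∫ s in (0:ℝ)..t, cL δ (xy δ W z s),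
    ∫ s in (0:ℝ)..t, ca δ (xy δ W z s))

lemma stG_eq (t : ℝ) : stG δ W t z = stD δ W t z + ((W t, 0, 0, 0) : ℝ × ℝ × ℝ × ℝ) := by
  unfold stG stD xy
  simp

lemma cf_continuous (hδ : 0 < δ) : Continuous (cf δ) := by
  unfold cf mh
  have h : ∀ q : ℝ × ℝ × ℝ × ℝ, q.1 ^ 2 + (max q.2.1 δ) ^ 2 ≠ 0 := by
    intro q
    have : 0 < max q.2.1 δ := lt_max_of_lt_right hδ
    positivity
  have hd : Continuous fun q : ℝ × ℝ × ℝ × ℝ => q.1 ^ 2 + (max q.2.1 δ) ^ 2 := by fun_prop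
  refine Continuous.prodMk ?_ (Continuous.prodMk ?_ (Continuous.prodMk ?_ ?_))
  · exact Continuous.div (by fun_prop) hd h
  · exact (Continuous.div (by fun_prop) hd h).neg
  · exact (Continuous.div (by fun_prop) (hd.pow 2) (fun q => pow_ne_zero 2 (h q))).neg
  · exact Continuous.div (by fun_prop) hd h

lemma stG_deriv (hW : Continuous W) (hδ : 0 < δ) {r : ℝ} (hr : 0 < r) :
    HasDerivAt (fun t => stG δ W t z) (cf δ (stD δ W r z)) r := by
  have h1 : HasDerivAt (hfl δ W z) (vf W δ r (hfl δ W z r)) r :=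
    (hfl_deriv (z := z) hW hδ (r + 1) r ⟨hr.le, by linarith⟩).hasDerivAt
      (Icc_mem_nhds hr (by linarith))
  have hre : HasDerivAt (fun t => (hfl δ W z t).re) (vf W δ r (hfl δ W z r)).re r :=
    Complex.reCLM.hasFDerivAt.comp_hasDerivAt r h1
  have him : HasDerivAt (fun t => (hfl δ W z t).im) (vf W δ r (hfl δ W z r)).im r :=
    Complex.imCLM.hasFDerivAt.comp_hasDerivAt r h1
  have hxy := xy_contOn (z := z) hW hδ
  have hint : ∀ {c : ℝ × ℝ → ℝ}, Continuous c →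
      HasDerivAt (fun t : ℝ => ∫ s in (0:ℝ)..t, c (xy δ W z s)) (c (xy δ W z r)) r := by
    intro c hc
    have hcc : ContinuousOn (fun s => c (xy δ W z s)) (Ici 0) := hc.comp_continuousOn hxy
    refine intervalIntegral.integral_hasDerivAt_right ?_ ?_ ?_
    · exact ContinuousOn.intervalIntegrable_of_Icc hr.le (hcc.mono Icc_subset_Ici_self)
    · exact ContinuousOn.stronglyMeasurableAtFilter isOpen_Ioi
        (hcc.mono Ioi_subset_Ici_self) r hr
    · exact hcc.continuousAt (Ici_mem_nhds hr)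
  have h2 := hre.prodMk (him.prodMk (((hint (cL_cont hδ)).const_add (Real.log z.im)).prodMk
    (hint (ca_cont hδ))))
  have e : cf δ (stD δ W r z) = ((vf W δ r (hfl δ W z r)).re, (vf W δ r (hfl δ W z r)).im,
      cL δ (xy δ W z r), ca δ (xy δ W z r)) := by
    unfold vf
    rw [two_div_re, two_div_im]
    simp only [Complex.sub_re, Complex.sub_im, tr_re, tr_im, Complex.ofReal_re,
      Complex.ofReal_im, sub_zero, cf, mh, stD, xy, cL, ca]
  rw [e]
  exact h2

lemma stD_increment (hW : Continuous W) (hδ : 0 < δ) {s t : ℝ} (hs : 0 ≤ s) (hst : s ≤ t) :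
    stD δ W t z = stD δ W s z + (W t - W s) • ((-1, 0, 0, 0) : ℝ × ℝ × ℝ × ℝ)
      + ∫ r in s..t, cf δ (stD δ W r z) := by
  have hsub : Icc s t ⊆ Ici 0 := fun x hx => hs.trans hx.1
  have hc : ContinuousOn (fun t => stD δ W t z) (Icc s t) := (stD_contOn hW hδ).mono hsub
  have hcG : ContinuousOn (fun t => stG δ W t z) (Icc s t) := by
    have : (fun t => stG δ W t z) =
        fun t => stD δ W t z + ((W t, 0, 0, 0) : ℝ × ℝ × ℝ × ℝ) := by
      funext t
      exact stG_eq t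
    rw [this]
    exact hc.add (hW.prodMk continuous_const).continuousOn
  have h := intervalIntegral.integral_eq_sub_of_hasDerivAt_of_le hst hcG
    (fun x hx => stG_deriv hW hδ (lt_of_le_of_lt hs hx.1))
    (ContinuousOn.intervalIntegrable_of_Icc hst ((cf_continuous hδ).comp_continuousOn hc))
  rw [h, stG_eq, stG_eq]
  ext <;> simp <;> ring

end det

section proc

open OS OP

variable {Ω : Type*} {m : MeasurableSpace Ω} {P : Measure Ω} {Fl : Filtration ℝ≥0 m}
  {B : ℝ≥0 → Ω → ℝ} {κ δ : ℝ} {w : ℂ}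

/-- the truncated state process solves the state equation with noise direction `(-√κ, 0, 0, 0)`
and drift `cf δ`. -/
theorem stDP_isState (hB : IsBM Fl B P) (hδ : 0 < δ) :
    SM.IsState Fl B ((-Real.sqrt κ, 0, 0, 0) : ℝ × ℝ × ℝ × ℝ) (cf δ) (stDP δ κ B w) where
  adapted := stDP_meas hB hδ
  cont := stDP_cont hB hδ
  eqn := by
    intro ω s t hst
    have h := stD_increment (z := w) (driving_cont hB κ ω) hδ (s := (s : ℝ)) (t := (t : ℝ)) s.2
      (NNReal.coe_le_coe.2 hst)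
    unfold stDP
    rw [h]
    have h1 : ∫ r in (s:ℝ)..t, cf δ (stD δ (driving κ B ω) r w) =
        ∫ r in (s:ℝ)..t, cf δ (stD δ (driving κ B ω) ((r.toNNReal : ℝ≥0) : ℝ) w) := by
      refine intervalIntegral.integral_congr fun r hr => ?_
      rw [uIcc_of_le (NNReal.coe_le_coe.2 hst)] at hr
      simp only [Real.coe_toNNReal r (s.2.trans hr.1)]
    rw [h1]
    congr 2
    unfold driving
    simp only [Real.toNNReal_coe, Prod.smul_mk, smul_eq_mul, mul_zero, Prod.mk.injEq, and_true]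
    ring

end proc

end Crest.Agent.R162.OPTr
end

-- ▼ part R162/SM2
section

/-!
Row 162, node SM, part 2: existence and uniqueness of the cut-off state process, shift of the
Brownian motion, construction of test data from smooth functions.
-/

set_option autoImplicit false

namespace Crest.Agent.R162.SM

open MeasureTheory ProbabilityTheory Filter Set
open scoped NNReal ENNReal Topology

variable {Ω : Type*} {mΩ : MeasurableSpace Ω} {P : Measure Ω}

/-! ### bridge and shift -/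

lemma BMF.of_isBM {F : Filtration ℝ≥0 mΩ} {B : ℝ≥0 → Ω → ℝ} (h : OS.IsBM F B P) :
    BMF F B P where
  adapted := h.adapted
  cont := h.cont
  law s t hst := by
    have := h.law s (t - s)
    rwa [add_tsub_cancel_of_le hst] at this
  indep s t hst := by
    refine indep_of_indep_of_le_left (h.indep s) ?_
    have e : (fun ω => B t ω - B s ω) =
        (fun x : ℝ≥0 → ℝ => x (t - s)) ∘ (fun ω (u : ℝ≥0) => B (s + u) ω - B s ω) := by
      funext ω
      simp [add_tsub_cancel_of_le hst]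
    rw [e, ← MeasurableSpace.comap_comp]
    exact MeasurableSpace.comap_mono (measurable_pi_apply _).comap_le

/-- the shifted filtration -/
def shiftF (F : Filtration ℝ≥0 mΩ) (s : ℝ≥0) : Filtration ℝ≥0 mΩ where
  seq u := F (s + u)
  mono' _ _ h := F.mono (add_le_add le_rfl h)
  le' _ := F.le _

lemma BMF.shift {F : Filtration ℝ≥0 mΩ} {B : ℝ≥0 → Ω → ℝ} (h : BMF F B P) (s : ℝ≥0) :
    BMF (shiftF F s) (fun u ω => B (s + u) ω - B s ω) P where
  adapted u := (h.adapted (s + u)).sub ((h.adapted s).mono (F.mono le_self_add) le_rfl)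
  cont ω := ((h.cont ω).comp (continuous_const.add continuous_id)).sub continuous_const
  law r t hrt := by
    have := h.law (s + r) (s + t) (add_le_add le_rfl hrt)
    have e : (fun ω => B (s + t) ω - B s ω - (B (s + r) ω - B s ω)) =
        fun ω => B (s + t) ω - B (s + r) ω := by funext ω; ring
    rw [e, this]
    congr 1
    exact add_tsub_add_eq_tsub_left s t r
  indep r t hrt := by
    have := h.indep (s + r) (s + t) (add_le_add le_rfl hrt)
    have e : (fun ω => B (s + t) ω - B s ω - (B (s + r) ω - B s ω)) =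
        fun ω => B (s + t) ω - B (s + r) ω := by funext ω; ring
    rw [e]
    exact this

/-! ### measurability of vector valued path integrals -/

section

variable {G : Type*} [NormedAddCommGroup G] [NormedSpace ℝ G] [CompleteSpace G]
  [MeasurableSpace G] [BorelSpace G] [SecondCountableTopology G]


/-! ### Picard iteration -/






end

/-! ### test data from smooth functions -/

section Smooth

variable {G : Type*} [NormedAddCommGroup G] [NormedSpace ℝ G]

lemma lip_of_compact {E : Type*} [NormedAddCommGroup E] [NormedSpace ℝ E] {g : G → E}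
    (hg : ContDiff ℝ 1 g) (hc : HasCompactSupport g) :
    ∃ K, 0 ≤ K ∧ (∀ z, ‖g z‖ ≤ K) ∧ (∀ z z', ‖g z - g z'‖ ≤ K * ‖z - z'‖) ∧
      ∀ z, ‖fderiv ℝ g z‖ ≤ K := by
  obtain ⟨K1, h1⟩ := hg.continuous.bounded_above_of_compact_support hc
  obtain ⟨K2, h2⟩ := (hg.continuous_fderiv one_ne_zero).bounded_above_of_compact_support
    (hc.fderiv (𝕜 := ℝ))
  have hK1 : 0 ≤ K1 := (norm_nonneg _).trans (h1 0)
  have hK2 : 0 ≤ K2 := (norm_nonneg _).trans (h2 0)
  refine ⟨max K1 K2, le_max_of_le_left hK1, fun z => (h1 z).trans (le_max_left _ _),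
    fun z z' => ?_, fun z => (h2 z).trans (le_max_right _ _)⟩
  have := convex_univ.norm_image_sub_le_of_norm_fderiv_le (𝕜 := ℝ) (f := g) (C := K2)
    (fun x _ => (hg.differentiable one_ne_zero).differentiableAt)
    (fun x _ => h2 x) (mem_univ z') (mem_univ z)
  exact this.trans (mul_le_mul_of_nonneg_right (le_max_right _ _) (norm_nonneg _))

/-- **Test data from a `C^3` compactly supported function** and a bounded Lipschitz drift. -/
theorem exists_test {f : G → ℝ} (hf : ContDiff ℝ 3 f) (hfc : HasCompactSupport f) (e : G)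
    {a : G → G} {Ka : ℝ} (hal : ∀ z z', ‖a z - a z'‖ ≤ Ka * ‖z - z'‖) (hab : ∀ z, ‖a z‖ ≤ Ka) :
    ∃ C, Test e a C f (fderiv ℝ f) (fun z => fderiv ℝ (fderiv ℝ f) z e e) := by
  have hKa : 0 ≤ Ka := (norm_nonneg _).trans (hab 0)
  have hD2 : ContDiff ℝ 2 (fderiv ℝ f) := hf.fderiv_right (m := 2) (by norm_num)
  have hDc : HasCompactSupport (fderiv ℝ f) := hfc.fderiv (𝕜 := ℝ)
  have hDD : ContDiff ℝ 1 (fderiv ℝ (fderiv ℝ f)) := hD2.fderiv_right (m := 1) (by norm_num)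
  have hDDc : HasCompactSupport (fderiv ℝ (fderiv ℝ f)) := hDc.fderiv (𝕜 := ℝ)
  obtain ⟨K0, hK0, b0, l0, -⟩ := lip_of_compact (hf.of_le (by norm_num)) hfc
  obtain ⟨K1, hK1, b1, l1, -⟩ := lip_of_compact (hD2.of_le (by norm_num)) hDc
  obtain ⟨K2, hK2, b2, l2, -⟩ := lip_of_compact hDD hDDc
  set H : G → ℝ := fun z => fderiv ℝ (fderiv ℝ f) z e e with hH
  have hHb : ∀ z, |H z| ≤ K2 * ‖e‖ * ‖e‖ := by
    intro z
    rw [← Real.norm_eq_abs]
    refine ((fderiv ℝ (fderiv ℝ f) z e).le_opNorm e).trans ?_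
    refine mul_le_mul_of_nonneg_right ?_ (norm_nonneg _)
    exact ((fderiv ℝ (fderiv ℝ f) z).le_opNorm e).trans
      (mul_le_mul_of_nonneg_right (b2 z) (norm_nonneg _))
  have hHl : ∀ z z', |H z - H z'| ≤ K2 * ‖e‖ * ‖e‖ * ‖z - z'‖ := by
    intro z z'
    have e1 : H z - H z' = (fderiv ℝ (fderiv ℝ f) z - fderiv ℝ (fderiv ℝ f) z') e e := by
      simp [hH]
    rw [e1, ← Real.norm_eq_abs]
    refine ((((fderiv ℝ (fderiv ℝ f) z - fderiv ℝ (fderiv ℝ f) z') e)).le_opNorm e).trans ?_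
    have h2 : ‖(fderiv ℝ (fderiv ℝ f) z - fderiv ℝ (fderiv ℝ f) z') e‖ ≤ K2 * ‖z - z'‖ * ‖e‖ :=
      ((fderiv ℝ (fderiv ℝ f) z - fderiv ℝ (fderiv ℝ f) z').le_opNorm e).trans
        (mul_le_mul_of_nonneg_right (l2 z z') (norm_nonneg _))
    calc _ ≤ K2 * ‖z - z'‖ * ‖e‖ * ‖e‖ := mul_le_mul_of_nonneg_right h2 (norm_nonneg _)
      _ = _ := by ring
  have hfd : ∀ x, HasFDerivAt f (fderiv ℝ f x) x := fun x =>
    ((hf.differentiable (by norm_num)) x).hasFDerivAt
  have hDd : ∀ x, HasFDerivAt (fderiv ℝ f) (fderiv ℝ (fderiv ℝ f) x) x := fun x =>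
    ((hD2.differentiable (by norm_num)) x).hasFDerivAt
  set L : ℝ := K2 * ‖e‖ * ‖e‖ * ‖e‖ with hL
  have hL0 : 0 ≤ L := by positivity
  -- Taylor order 3 in direction e
  have T3 : ∀ z (h : ℝ), |f (z + h • e) - f z - h * fderiv ℝ f z e - h ^ 2 / 2 * H z|
      ≤ L * |h| ^ 3 := by
    intro z h
    have hline : ∀ t : ℝ, HasDerivAt (fun t : ℝ => z + t • e) e t := by
      intro t
      simpa using ((hasDerivAt_id t).smul_const e).const_add z
    have hd1 : ∀ t : ℝ, HasDerivAt (fun t : ℝ => fderiv ℝ f (z + t • e) e) (H (z + t • e)) t := by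
      intro t
      have h1 := (hDd (z + t • e)).comp_hasDerivAt t (hline t)
      have h2 := h1.clm_apply (hasDerivAt_const t e)
      simpa [hH] using h2
    have hd0 : ∀ t : ℝ, HasDerivAt (fun t : ℝ => f (z + t • e)) (fderiv ℝ f (z + t • e) e) t :=
      fun t => (hfd (z + t • e)).comp_hasDerivAt t (hline t)
    set R : ℝ := |h| with hR
    have hR0 : 0 ≤ R := abs_nonneg h
    have hsub : ∀ x ∈ Icc (-R) R, |x| ≤ R := fun x hx => abs_le.2 hx
    have h0m : (0 : ℝ) ∈ Icc (-R) R := ⟨by linarith, hR0⟩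
    have hhm : h ∈ Icc (-R) R := abs_le.1 le_rfl
    -- second order
    have s1 : ∀ x ∈ Icc (-R) R,
        |fderiv ℝ f (z + x • e) e - fderiv ℝ f z e - x * H z| ≤ L * R * R := by
      intro x hx
      have hder : ∀ t ∈ Icc (-R) R, HasDerivWithinAt
          (fun t : ℝ => fderiv ℝ f (z + t • e) e - fderiv ℝ f z e - t * H z)
          (H (z + t • e) - H z) (Icc (-R) R) t := by
        intro t _
        have h3 : HasDerivAt (fun t : ℝ => fderiv ℝ f (z + t • e) e - fderiv ℝ f z e - t * H z)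
            (H (z + t • e) - 1 * H z) t :=
          ((hd1 t).sub_const (fderiv ℝ f z e)).sub ((hasDerivAt_id t).mul_const (H z))
        rw [one_mul] at h3
        exact h3.hasDerivWithinAt
      have hbd : ∀ t ∈ Icc (-R) R, ‖H (z + t • e) - H z‖ ≤ L * R := by
        intro t ht
        rw [Real.norm_eq_abs]
        refine (hHl _ _).trans ?_
        rw [add_sub_cancel_left, norm_smul, Real.norm_eq_abs]
        have := hsub t ht
        calc K2 * ‖e‖ * ‖e‖ * (|t| * ‖e‖) = L * |t| := by rw [hL]; ring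
          _ ≤ L * R := mul_le_mul_of_nonneg_left this hL0
      have := (convex_Icc (-R) R).norm_image_sub_le_of_norm_hasDerivWithin_le hder hbd h0m hx
      simp only [zero_smul, add_zero, zero_mul, sub_self, sub_zero] at this
      rw [Real.norm_eq_abs, Real.norm_eq_abs] at this
      exact this.trans (mul_le_mul_of_nonneg_left (hsub x hx) (by positivity))
    have hder : ∀ t ∈ Icc (-R) R, HasDerivWithinAt
        (fun t : ℝ => f (z + t • e) - f z - t * fderiv ℝ f z e - t ^ 2 / 2 * H z)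
        (fderiv ℝ f (z + t • e) e - fderiv ℝ f z e - t * H z) (Icc (-R) R) t := by
      intro t _
      have h3 : HasDerivAt
          (fun t : ℝ => f (z + t • e) - f z - t * fderiv ℝ f z e - t ^ 2 / 2 * H z)
          (fderiv ℝ f (z + t • e) e - 1 * fderiv ℝ f z e - (((2 : ℕ) : ℝ) * t ^ (2 - 1)) / 2 * H z)
          t :=
        (((hd0 t).sub_const (f z)).sub
          ((hasDerivAt_id t).mul_const (fderiv ℝ f z e))).sub
          (((hasDerivAt_pow 2 t).div_const 2).mul_const (H z))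
      have h4 : fderiv ℝ f (z + t • e) e - 1 * fderiv ℝ f z e
          - (((2 : ℕ) : ℝ) * t ^ (2 - 1)) / 2 * H z
          = fderiv ℝ f (z + t • e) e - fderiv ℝ f z e - t * H z := by
        norm_num
      rw [h4] at h3
      exact h3.hasDerivWithinAt
    have := (convex_Icc (-R) R).norm_image_sub_le_of_norm_hasDerivWithin_le hder
      (fun t ht => by rw [Real.norm_eq_abs]; exact s1 t ht) h0m hhm
    simp only [zero_smul, add_zero, zero_mul, sub_self, sub_zero, ne_eq, OfNat.ofNat_ne_zero,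
      not_false_eq_true, zero_pow, zero_div] at this
    rw [Real.norm_eq_abs, Real.norm_eq_abs] at this
    calc _ ≤ L * R * R * |h| := this
      _ = L * |h| ^ 3 := by rw [hR]; ring
  -- Taylor order 2
  have T2 : ∀ z w, |f (z + w) - f z - fderiv ℝ f z w| ≤ K1 * ‖w‖ ^ 2 := by
    intro z w
    have hz : z ∈ Metric.closedBall z ‖w‖ := Metric.mem_closedBall_self (norm_nonneg _)
    have hw : z + w ∈ Metric.closedBall z ‖w‖ := by simp
    have := (convex_closedBall z ‖w‖).norm_image_sub_le_of_norm_hasFDerivWithin_le'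
      (f := f) (f' := fderiv ℝ f) (φ := fderiv ℝ f z) (C := K1 * ‖w‖)
      (fun x _ => (hfd x).hasFDerivWithinAt)
      (fun x hx => (l1 x z).trans (mul_le_mul_of_nonneg_left
        (by rwa [mem_closedBall_iff_norm] at hx) hK1)) hz hw
    rw [add_sub_cancel_left, Real.norm_eq_abs] at this
    calc _ ≤ K1 * ‖w‖ * ‖w‖ := this
      _ = _ := by ring
  set M : ℝ := K0 + K1 + K2 * ‖e‖ * ‖e‖ + L + Ka + ‖e‖ with hM
  have he := norm_nonneg e
  have hKe : 0 ≤ K2 * ‖e‖ * ‖e‖ := by positivity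
  have mle : ∀ {x y : ℝ}, x ≤ M → 0 ≤ y → x * y ≤ M * y := fun h1 h2 =>
    mul_le_mul_of_nonneg_right h1 h2
  refine ⟨M, ?_, ?_, ?_, ?_, ?_, ?_, ?_, ?_, ?_, ?_, ?_⟩
  · positivity
  · exact fun z h => (T3 z h).trans (mle (by rw [hM]; linarith) (by positivity))
  · exact fun z w => (T2 z w).trans (mle (by rw [hM]; linarith) (by positivity))
  · exact fun z z' => (l1 z z').trans (mle (by rw [hM]; linarith) (by positivity))
  · exact fun z => (b1 z).trans (by rw [hM]; linarith)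
  · exact fun z z' => (hHl z z').trans (mle (by rw [hM]; linarith) (by positivity))
  · exact fun z => (hHb z).trans (by rw [hM]; linarith)
  · intro z
    have := b0 z
    rw [Real.norm_eq_abs] at this
    exact this.trans (by rw [hM]; linarith)
  · exact fun z z' => (hal z z').trans (mle (by rw [hM]; linarith) (by positivity))
  · exact fun z => (hab z).trans (by rw [hM]; linarith)
  · rw [hM]; linarith

end Smooth

end Crest.Agent.R162.SM
end

-- ▼ part R162/OPM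

/-!
Row 162, node OPM (helper9): the master one-point theorem (Dynkin formula between stopping
times for the state process of one point).
-/

set_option autoImplicit false

open MeasureTheory ProbabilityTheory Set
open scoped NNReal ENNReal Topology Manifold
open Crest.ProbabilityR.Loewner

namespace Crest.Agent.R162.OPM

open FL OS OP OPTr

local notation "E4" => (ℝ × ℝ × ℝ × ℝ)

/-- noise direction -/
noncomputable def ev (κ : ℝ) : E4 := (-Real.sqrt κ, 0, 0, 0)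

/-- the generator only depends on the germ of the function -/
lemma gen_congr {κ : ℝ} {f g : E4 → ℝ} {q : E4} (h : f =ᶠ[𝓝 q] g) : gen κ f q = gen κ g q := by
  have h1 : (fun x => f (x, q.2)) =ᶠ[𝓝 q.1] (fun x => g (x, q.2)) := by
    have hc : ContinuousAt (fun x : ℝ => ((x, q.2) : E4)) q.1 := by fun_prop
    exact hc.eventually h
  have h2 : (fun y => f (q.1, y, q.2.2)) =ᶠ[𝓝 q.2.1] (fun y => g (q.1, y, q.2.2)) := by
    have hc : ContinuousAt (fun y : ℝ => ((q.1, y, q.2.2) : E4)) q.2.1 := by fun_prop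
    exact hc.eventually h
  have h3 : (fun l => f (q.1, q.2.1, l, q.2.2.2)) =ᶠ[𝓝 q.2.2.1]
      (fun l => g (q.1, q.2.1, l, q.2.2.2)) := by
    have hc : ContinuousAt (fun l : ℝ => ((q.1, q.2.1, l, q.2.2.2) : E4)) q.2.2.1 := by fun_prop
    exact hc.eventually h
  have h4 : (fun a => f (q.1, q.2.1, q.2.2.1, a)) =ᶠ[𝓝 q.2.2.2]
      (fun a => g (q.1, q.2.1, q.2.2.1, a)) := by
    have hc : ContinuousAt (fun a : ℝ => ((q.1, q.2.1, q.2.2.1, a) : E4)) q.2.2.2 := by fun_prop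
    exact hc.eventually h
  unfold gen
  rw [h1.deriv_eq, h1.deriv.deriv_eq, h2.deriv_eq, h3.deriv_eq, h4.deriv_eq]

/-- the abstract generator equals the coordinate generator above `δ` -/
lemma gen_match {κ δ : ℝ} (hκ : 0 ≤ κ) {f : E4 → ℝ} (hf : ContDiff ℝ 3 f) {q : E4}
    (hq : δ ≤ q.2.1) :
    SM.gen (cf δ) (fderiv ℝ f) (fun z => fderiv ℝ (fderiv ℝ f) z (ev κ) (ev κ)) q
      = gen κ f q := by
  have hd : ∀ z, DifferentiableAt ℝ f z := fun z => (hf.differentiable (by norm_num)) z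
  have hd2 : ∀ z, DifferentiableAt ℝ (fderiv ℝ f) z := fun z =>
    ((hf.fderiv_right (m := 2) (by norm_num)).differentiable (by norm_num)) z
  have e1 : ∀ x : ℝ, deriv (fun x => f (x, q.2)) x = fderiv ℝ f (x, q.2) (1, 0) := by
    intro x
    have h1 : HasDerivAt (fun x : ℝ => ((x, q.2) : E4)) (1, 0) x :=
      (hasDerivAt_id x).prodMk (hasDerivAt_const x q.2)
    exact ((hd (x, q.2)).hasFDerivAt.comp_hasDerivAt x h1).deriv
  have e2 : deriv (fun y => f (q.1, y, q.2.2)) q.2.1 = fderiv ℝ f q (0, 1, 0) := by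
    have h1 : HasDerivAt (fun y : ℝ => ((q.1, y, q.2.2) : E4)) (0, 1, 0) q.2.1 :=
      (hasDerivAt_const _ q.1).prodMk ((hasDerivAt_id q.2.1).prodMk (hasDerivAt_const _ q.2.2))
    exact ((hd q).hasFDerivAt.comp_hasDerivAt q.2.1 h1).deriv
  have e3 : deriv (fun l => f (q.1, q.2.1, l, q.2.2.2)) q.2.2.1 = fderiv ℝ f q (0, 0, 1, 0) := by
    have h1 : HasDerivAt (fun l : ℝ => ((q.1, q.2.1, l, q.2.2.2) : E4)) (0, 0, 1, 0) q.2.2.1 :=
      (hasDerivAt_const _ q.1).prodMk ((hasDerivAt_const _ q.2.1).prodMk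
        ((hasDerivAt_id q.2.2.1).prodMk (hasDerivAt_const _ q.2.2.2)))
    exact ((hd q).hasFDerivAt.comp_hasDerivAt q.2.2.1 h1).deriv
  have e4 : deriv (fun a => f (q.1, q.2.1, q.2.2.1, a)) q.2.2.2 = fderiv ℝ f q (0, 0, 0, 1) := by
    have h1 : HasDerivAt (fun a : ℝ => ((q.1, q.2.1, q.2.2.1, a) : E4)) (0, 0, 0, 1) q.2.2.2 :=
      (hasDerivAt_const _ q.1).prodMk ((hasDerivAt_const _ q.2.1).prodMk
        ((hasDerivAt_const _ q.2.2.1).prodMk (hasDerivAt_id q.2.2.2)))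
    exact ((hd q).hasFDerivAt.comp_hasDerivAt q.2.2.2 h1).deriv
  have e5 : deriv (deriv fun x => f (x, q.2)) q.1 = fderiv ℝ (fderiv ℝ f) q (1, 0) (1, 0) := by
    have h0 : (deriv fun x => f (x, q.2)) = fun x => fderiv ℝ f (x, q.2) (1, 0) := funext e1
    rw [h0]
    have h1 : HasDerivAt (fun x : ℝ => ((x, q.2) : E4)) (1, 0) q.1 :=
      (hasDerivAt_id q.1).prodMk (hasDerivAt_const q.1 q.2)
    have h2 := (hd2 (q.1, q.2)).hasFDerivAt.comp_hasDerivAt q.1 h1
    have h3 := h2.clm_apply (hasDerivAt_const q.1 ((1, 0) : E4))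
    simpa using h3.deriv
  have hm : mh δ q = q.2.1 := max_eq_left hq
  have hcf : cf δ q = (2 * q.1 / (q.1 ^ 2 + q.2.1 ^ 2)) • ((1, 0) : E4)
      + (-(2 * q.2.1 / (q.1 ^ 2 + q.2.1 ^ 2))) • ((0, 1, 0) : E4)
      + (-(4 * q.2.1 ^ 2 / (q.1 ^ 2 + q.2.1 ^ 2) ^ 2)) • ((0, 0, 1, 0) : E4)
      + (1 / (q.1 ^ 2 + q.2.1 ^ 2)) • ((0, 0, 0, 1) : E4) := by
    unfold cf
    rw [hm]
    ext <;> simp
  have hev : ev κ = (-Real.sqrt κ) • ((1, 0) : E4) := by
    unfold ev
    ext <;> simp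
  unfold SM.gen gen
  rw [e1 q.1, e2, e3, e4, e5, hcf, hev]
  simp only [map_add, map_smul, smul_eq_mul, smul_apply]
  have hs : Real.sqrt κ * Real.sqrt κ = κ := Real.mul_self_sqrt hκ
  have : -Real.sqrt κ * (-Real.sqrt κ * (fderiv ℝ (fderiv ℝ f) q (1, 0) (1, 0)))
      = κ * (fderiv ℝ (fderiv ℝ f) q (1, 0) (1, 0)) := by
    linear_combination (fderiv ℝ (fderiv ℝ f) q (1, 0) (1, 0)) * hs
  rw [this]
  ring

section core

variable {Ω : Type*} {m : MeasurableSpace Ω} {P : Measure Ω} {Fl : Filtration ℝ≥0 m}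
  {B : ℝ≥0 → Ω → ℝ}

/-- assembly of the master theorem from the abstract Dynkin martingale and optional stopping -/
theorem opm_core [IsProbabilityMeasure P] (hB : IsBM Fl B P) (hBM : SM.BMF Fl B P) {κ δ C : ℝ}
    (hκ : 0 ≤ κ) (hδ : 0 < δ) {w : ℂ}
    (hst : SM.IsState Fl B (ev κ) (cf δ) (stDP δ κ B w)) {f' : E4 → ℝ} (hf' : ContDiff ℝ 3 f')
    (htest : SM.Test (ev κ) (cf δ) C f' (fderiv ℝ f')
      (fun z => fderiv ℝ (fderiv ℝ f') z (ev κ) (ev κ)))
    {f : E4 → ℝ} {K : Set E4} (hKδ : ∀ q ∈ K, δ ≤ q.2.1) (hff : ∀ q ∈ K, f' =ᶠ[𝓝 q] f)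
    {σ τ : Ω → ℝ≥0} (hσ : IsST Fl σ) (hτ : IsST Fl τ) {T : ℝ≥0} (hT : ∀ ω, τ ω ≤ T)
    {A : Set Ω} (hA : EvST Fl σ A) (hle : ∀ ω ∈ A, σ ω ≤ τ ω)
    (hin : ∀ ω ∈ A, ∀ t : ℝ≥0, σ ω ≤ t → t ≤ τ ω → AliveP κ B w t ω ∧ stP κ B w t ω ∈ K) :
    ∫ ω in A, f (stP κ B w (τ ω) ω) ∂P = ∫ ω in A, f (stP κ B w (σ ω) ω) ∂P
      + ∫ ω in A, (∫ s in (σ ω : ℝ)..(τ ω : ℝ), gen κ f (stW (driving κ B ω) s w)) ∂P := by
  have hAm : MeasurableSet A := hA.measurableSet
  set D' : E4 → E4 →L[ℝ] ℝ := fderiv ℝ f' with hD'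
  set H' : E4 → ℝ := fun z => fderiv ℝ (fderiv ℝ f') z (ev κ) (ev κ) with hH'
  set Z : ℝ≥0 → Ω → E4 := stDP δ κ B w with hZ
  set M : ℝ≥0 → Ω → ℝ := SM.mart (cf δ) f' D' H' Z with hM
  have hZc : ∀ ω, Continuous fun t => Z t ω := fun ω => stDP_cont hB hδ ω
  have hmart : Martingale M Fl P := htest.martingale hBM hst
  have hMc : ∀ ω, Continuous fun t => M t ω := fun ω => htest.mart_cont hZc ω
  -- the stopping times
  set σ' : Ω → ℝ≥0 := fun ω => min (σ ω) T with hσ'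
  set τ' : Ω → ℝ≥0 := fun ω => max (σ' ω) (τ ω) with hτ'
  have hσ's : IsST Fl σ' := hσ.min (IsST.const T)
  have hτ's : IsST Fl τ' := hσ's.max hτ
  have hle' : ∀ ω, σ' ω ≤ τ' ω := fun ω => le_max_left _ _
  have hT' : ∀ ω, τ' ω ≤ T := fun ω => max_le (min_le_right _ _) (hT ω)
  have hσA : ∀ ω ∈ A, σ' ω = σ ω := fun ω hω => min_eq_left ((hle ω hω).trans (hT ω))
  have hτA : ∀ ω ∈ A, τ' ω = τ ω := fun ω hω => by
    rw [hτ']
    simp only
    rw [hσA ω hω]
    exact max_eq_right (hle ω hω)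
  have hA' : EvST Fl σ' A := by
    intro t
    by_cases h : t < T
    · have e : A ∩ {ω | σ' ω ≤ t} = A ∩ {ω | σ ω ≤ t} := by
        ext ω
        simp only [mem_inter_iff, mem_ofPred_eq, hσ', min_le_iff, not_le.2 h, or_false]
      rw [e]; exact hA t
    · have e : A ∩ {ω | σ' ω ≤ t} = A ∩ {ω | σ ω ≤ t} := by
        ext ω
        simp only [mem_inter_iff, mem_ofPred_eq]
        constructor
        · rintro ⟨h1, _⟩
          exact ⟨h1, ((hle ω h1).trans (hT ω)).trans (not_lt.1 h)⟩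
        · rintro ⟨h1, h2⟩
          exact ⟨h1, (min_le_left _ _).trans h2⟩
      rw [e]; exact hA t
  -- optional stopping
  have hstop : ∫ ω in A, M (τ' ω) ω ∂P = ∫ ω in A, M (σ' ω) ω ∂P := by
    have hb : ∀ᵐ ω ∂P, ∀ t, t ≤ T + 1 → |M t ω| ≤ C + (C + C ^ 2) * (T + 1) := by
      refine Filter.Eventually.of_forall fun ω t ht => ?_
      refine (htest.mart_bdd t ω).trans ?_
      have hC := htest.C_nonneg
      have : (t : ℝ) ≤ T + 1 := by exact_mod_cast ht
      gcongr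
    have hb' : ∀ᵐ ω ∂P, ∀ t, t ≤ T + 1 → |(-M) t ω| ≤ C + (C + C ^ 2) * (T + 1) := by
      filter_upwards [hb] with ω hω t ht
      simpa using hω t ht
    have h1 := super_stop_dom hmart.supermartingale (integrable_const _)
      (Filter.Eventually.of_forall hMc) hb hσ's hτ's hle' hT' hA'
    have h2 := super_stop_dom hmart.neg.supermartingale (integrable_const _)
      (Filter.Eventually.of_forall fun ω => (hMc ω).neg) hb' hσ's hτ's hle' hT' hA'
    simp only [Pi.neg_apply, integral_neg, neg_le_neg_iff] at h2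
    exact le_antisymm h1 h2
  -- decomposition
  have hfc : Continuous f' := hf'.continuous
  set N : ℝ≥0 → Ω → ℝ := fun t ω => f' (Z t ω) with hN
  have hNad : StronglyAdapted Fl N := fun t =>
    hfc.comp_stronglyMeasurable (stDP_meas hB hδ t).stronglyMeasurable
  have hNc : ∀ ω, Continuous fun t => N t ω := fun ω => hfc.comp (hZc ω)
  have hMad : StronglyAdapted Fl M := hmart.1
  have hbN : ∀ t ω, |N t ω| ≤ C := fun t ω => htest.f_bdd _
  have hNi : ∀ {ρ : Ω → ℝ≥0}, IsST Fl ρ → (∀ ω, ρ ω ≤ T) →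
      Integrable (fun ω => N (ρ ω) ω) P := by
    intro ρ hρ hρT
    refine Integrable.of_bound
      ((stronglyMeasurable_at hNad hNc hρ hρT).mono (Fl.le T)).aestronglyMeasurable C ?_
    exact Filter.Eventually.of_forall fun ω => by simpa using hbN _ ω
  have hMi : ∀ {ρ : Ω → ℝ≥0}, IsST Fl ρ → (∀ ω, ρ ω ≤ T) →
      Integrable (fun ω => M (ρ ω) ω) P := by
    intro ρ hρ hρT
    refine Integrable.of_bound
      ((stronglyMeasurable_at hMad hMc hρ hρT).mono (Fl.le T)).aestronglyMeasurable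
      (C + (C + C ^ 2) * T) ?_
    refine Filter.Eventually.of_forall fun ω => ?_
    rw [Real.norm_eq_abs]
    refine (htest.mart_bdd _ ω).trans ?_
    have hC := htest.C_nonneg
    have : (ρ ω : ℝ) ≤ T := by exact_mod_cast hρT ω
    gcongr
  have hσ'T : ∀ ω, σ' ω ≤ T := fun ω => (hle' ω).trans (hT' ω)
  have key : ∫ ω in A, N (τ' ω) ω ∂P = ∫ ω in A, N (σ' ω) ω ∂P
      + ∫ ω in A, ((N (τ' ω) ω - M (τ' ω) ω) - (N (σ' ω) ω - M (σ' ω) ω)) ∂P := by
    have hd1 : Integrable (fun ω => N (τ' ω) ω - M (τ' ω) ω) P := (hNi hτ's hT').sub (hMi hτ's hT')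
    have hd2 : Integrable (fun ω => N (σ' ω) ω - M (σ' ω) ω) P :=
      (hNi hσ's hσ'T).sub (hMi hσ's hσ'T)
    rw [integral_sub hd1.integrableOn hd2.integrableOn,
      integral_sub (hNi hτ's hT').integrableOn (hMi hτ's hT').integrableOn,
      integral_sub (hNi hσ's hσ'T).integrableOn (hMi hσ's hσ'T).integrableOn, hstop]
    ring
  have hZeq : ∀ ω ∈ A, ∀ t : ℝ≥0, σ ω ≤ t → t ≤ τ ω → Z t ω = stP κ B w t ω := by
    intro ω hω t h1 h2
    obtain ⟨ha, hk⟩ := hin ω hω t h1 h2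
    refine stD_eq (driving_cont hB κ ω) hδ ha ?_
    have := hKδ _ hk
    simpa [stP, stW, Zfl_im] using this
  have e1 : ∫ ω in A, N (τ' ω) ω ∂P = ∫ ω in A, f (stP κ B w (τ ω) ω) ∂P := by
    refine setIntegral_congr_fun hAm fun ω hω => ?_
    simp only [hN]
    rw [hτA ω hω, hZeq ω hω _ (hle ω hω) le_rfl]
    exact (hff _ (hin ω hω _ (hle ω hω) le_rfl).2).self_of_nhds
  have e2 : ∫ ω in A, N (σ' ω) ω ∂P = ∫ ω in A, f (stP κ B w (σ ω) ω) ∂P := by
    refine setIntegral_congr_fun hAm fun ω hω => ?_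
    simp only [hN]
    rw [hσA ω hω, hZeq ω hω _ le_rfl (hle ω hω)]
    exact (hff _ (hin ω hω _ le_rfl (hle ω hω)).2).self_of_nhds
  have e3 : ∫ ω in A, ((N (τ' ω) ω - M (τ' ω) ω) - (N (σ' ω) ω - M (σ' ω) ω)) ∂P
      = ∫ ω in A, (∫ s in (σ ω : ℝ)..(τ ω : ℝ), gen κ f (stW (driving κ B ω) s w)) ∂P := by
    refine setIntegral_congr_fun hAm fun ω hω => ?_
    show (N (τ' ω) ω - M (τ' ω) ω) - (N (σ' ω) ω - M (σ' ω) ω) = _
    rw [hτA ω hω, hσA ω hω]
    have hgc : Continuous fun r : ℝ => SM.gen (cf δ) D' H' (Z r.toNNReal ω) :=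
      htest.gen_cont.comp ((hZc ω).comp continuous_real_toNNReal)
    have h1 : ∀ t, N t ω - M t ω = ∫ r in (0:ℝ)..t, SM.gen (cf δ) D' H' (Z r.toNNReal ω) := by
      intro t
      simp only [hN, hM, SM.mart]
      ring
    rw [h1, h1, intervalIntegral.integral_interval_sub_left (hgc.intervalIntegrable _ _)
      (hgc.intervalIntegrable _ _)]
    refine intervalIntegral.integral_congr fun s hs => ?_
    have hst' : (σ ω : ℝ) ≤ τ ω := by exact_mod_cast hle ω hω
    rw [uIcc_of_le hst'] at hs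
    have hs0 : 0 ≤ s := (NNReal.coe_nonneg _).trans hs.1
    have hc : ((s.toNNReal : ℝ≥0) : ℝ) = s := Real.coe_toNNReal _ hs0
    have h2 : σ ω ≤ s.toNNReal := by rw [← NNReal.coe_le_coe, hc]; exact hs.1
    have h3 : s.toNNReal ≤ τ ω := by rw [← NNReal.coe_le_coe, hc]; exact hs.2
    have h4 := hZeq ω hω _ h2 h3
    have h5 : stP κ B w s.toNNReal ω = stW (driving κ B ω) s w := by
      unfold stP; rw [hc]
    have hk := (hin ω hω _ h2 h3).2
    show SM.gen (cf δ) D' H' (Z s.toNNReal ω) = gen κ f (stW (driving κ B ω) s w)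
    rw [h4]
    rw [h5] at hk ⊢
    rw [hD', hH', gen_match hκ hf' (hKδ _ hk), gen_congr (hff _ hk)]
  rw [← e1, ← e2, ← e3, key]

end core

/-- cut-off of a `C^3` function near a compact set -/
theorem exists_cutoff {G : Type*} [NormedAddCommGroup G] [NormedSpace ℝ G] [FiniteDimensional ℝ G]
    {f : G → ℝ} {D K : Set G} (hD : IsOpen D) (hf : ContDiffOn ℝ 3 f D) (hK : IsCompact K)
    (hKD : K ⊆ D) :
    ∃ f' : G → ℝ, ContDiff ℝ 3 f' ∧ HasCompactSupport f' ∧ ∀ q ∈ K, f' =ᶠ[𝓝 q] f := by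
  obtain ⟨L, hLc, hKL, hLD⟩ := exists_compact_between hK hD hKD
  obtain ⟨χ, h1, h0, -⟩ := exists_contMDiffMap_one_nhds_of_subset_interior (n := (3 : ℕ∞))
    𝓘(ℝ, G) hK.isClosed hKL
  have hχ : ContDiff ℝ 3 (fun x => χ x) := by
    have := χ.contMDiff.contDiff
    exact_mod_cast this
  refine ⟨fun x => χ x * f x, ?_, ?_, ?_⟩
  · rw [← contDiffOn_univ]
    have hU : (univ : Set G) = D ∪ Lᶜ := by
      ext x
      simp only [mem_univ, mem_union, mem_compl_iff, true_iff]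
      by_cases h : x ∈ L
      · exact Or.inl (hLD h)
      · exact Or.inr h
    rw [hU]
    refine ContDiffOn.union_of_isOpen (hχ.contDiffOn.mul hf) ?_ hD hLc.isClosed.isOpen_compl
    refine (contDiffOn_const (c := (0:ℝ))).congr fun x hx => ?_
    rw [h0 x hx, zero_mul]
  · refine HasCompactSupport.of_support_subset_isCompact hLc fun x hx => ?_
    by_contra hxL
    exact hx (by simp [h0 x hxL])
  · intro q hq
    have h2 : ∀ᶠ x in 𝓝 q, χ x = 1 := (h1.filter_mono (nhds_le_nhdsSet hq))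
    filter_upwards [h2] with x hx
    rw [hx, one_mul]

/-- **the master one-point theorem** -/
theorem opm.{u} : OPM.{u} := by
  intro Ω m P _ Fl B hB κ hκ w hw D hD hDY f hf K hK hKD σ τ hσ hτ T hT A hA hle hin
  rcases K.eq_empty_or_nonempty with h0 | hne
  · have hAe : A = ∅ := by
      by_contra hcon
      obtain ⟨ω, hω⟩ := nonempty_iff_ne_empty.2 hcon
      have := (hin ω hω (σ ω) le_rfl (hle ω hω)).2
      rw [h0] at this
      exact this
    subst hAe
    simp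
  obtain ⟨q0, hq0, hmin⟩ := hK.exists_isMinOn hne
    (f := fun q : E4 => q.2.1) (by fun_prop)
  have hδ : 0 < q0.2.1 := hDY _ (hKD hq0)
  have hKδ : ∀ q ∈ K, q0.2.1 ≤ q.2.1 := fun q hq => hmin hq
  obtain ⟨f', hf', hfc, hff⟩ := exists_cutoff hD hf hK hKD
  obtain ⟨Ka, -, hlip, hbd⟩ := cf_lip hδ
  obtain ⟨C, hC⟩ := SM.exists_test hf' hfc (ev κ) hlip hbd
  exact opm_core hB (SM.BMF.of_isBM hB) hκ.le hδ (stDP_isState hB hδ) hf' hC hKδ hff hσ hτ hT hA hle hin

end Crest.Agent.R162.OPM
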