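import Mathlib
import Crest.Agent.R162.RadCore
import Crest.Agent.R162.U1P
import Crest.Agent.R162.OPGen

/-!
Row 162, node RAD part 2 + U2P (helper953): radial data of a one-point process, inequality for jets,
Green's function weight, node U2.
-/

set_option autoImplicit false

open MeasureTheory ProbabilityTheory Filter Set
open scoped NNReal ENNReal Topology

namespace Crest.Agent.R162.Rad

open OS OP GEN OPGen

universe u

variable {Ω : Type u} {m : MeasurableSpace Ω} {P : Measure Ω} {F : Filtration ℝ≥0 m} {κ s₀ : ℝ}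

lemma sinq_pos {p : St} (hp : 0 < p.2.1) : 0 < sinq p := by
  unfold sinq
  have : 0 < p.1 ^ 2 + p.2.1 ^ 2 := by positivity
  positivity

lemma sinq_le {p : St} (hp : 0 < p.2.1) : sinq p ≤ 1 := by
  unfold sinq
  have : 0 < p.1 ^ 2 + p.2.1 ^ 2 := by positivity
  rw [div_le_one (by positivity)]
  refine Real.le_sqrt_of_sq_le ?_
  nlinarith [sq_nonneg p.1]

namespace OneP

variable {gen' : (St → ℝ) → St → ℝ} (D : OneP F P gen' s₀)

/-- the state at `τ_s` -/
noncomputable def stl (s : ℝ) (ω : Ω) : St := D.st (D.tau s ω) ω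

/-- `sin Θ` at `τ_s` -/
noncomputable def Sl (s : ℝ) (ω : Ω) : ℝ := sinq (D.stl s ω)

lemma stl_pos {s : ℝ} {ω : Ω} (h : ω ∈ D.alive s) : 0 < (D.stl s ω).2.1 :=
  D.y_pos ω _ (D.tau_mem h).1

/-- radial data in the sense of `U1P`. -/
noncomputable def radial : U1P.Radial (Ω := Ω) s₀ where
  F := D.Past
  alive := D.alive
  S := D.Sl
  anti _ _ _ hst := D.alive_anti hst
  step _ _ _ hst _ hA _ := Past.step D hst hA
  meas _ _ _ hA _ := Past.measurableSet D hA
  S_pos _ _ _ hω := sinq_pos (D.stl_pos hω)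
  S_le _ _ _ hω := sinq_le (D.stl_pos hω)

lemma measurable_stl (s : ℝ) : Measurable ((D.alive s).indicator (D.stl s)) := by
  classical
  -- extend tau by a constant outside alive: use the capped times and a limit
  have h : ∀ n, Measurable ((D.cut s n (D.alive s)).indicator (D.stl s)) := by
    intro n
    have h1 := D.measurable_at (D.ctau_ST s n) (D.cut_meas (n := n) (D.alive_past s))
      (fun ω _ => (D.e_KK n ω _ (D.ctau_le s n ω)).1)
    have h2 : (D.cut s n (D.alive s)).indicator (D.stl s) =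
        (D.cut s n (D.alive s)).indicator fun ω => D.st (D.ctau s n ω) ω := by
      ext1 ω
      by_cases hω : ω ∈ D.cut s n (D.alive s)
      · simp only [indicator_of_mem hω]
        have h3 : D.tau s ω < D.e n ω := hω.2
        simp only [stl, ctau, hω.1, if_true, min_eq_left h3.le]
      · simp only [indicator_of_notMem hω]
    rw [h2]; exact h1
  refine measurable_of_tendsto_metrizable h ?_
  rw [tendsto_pi_nhds]
  intro ω
  by_cases hω : ω ∈ D.alive s
  · obtain ⟨n, hn⟩ := D.e_exh ω _ (D.tau_mem hω).1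
    refine tendsto_const_nhds.congr' ?_
    filter_upwards [eventually_ge_atTop n] with k hk
    rw [indicator_of_mem hω, indicator_of_mem]
    exact ⟨hω, hn.trans_le (D.e_mono ω hk)⟩
  · refine tendsto_const_nhds.congr' (Eventually.of_forall fun k => ?_)
    show (D.alive s).indicator (D.stl s) ω = (D.cut s k (D.alive s)).indicator (D.stl s) ω
    rw [indicator_of_notMem hω, indicator_of_notMem]
    exact fun h => hω h.1

/-- at levels below the start: alive is everything, `τ = 0`. -/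
lemma alive_low {s : ℝ} (hs : s ≤ s₀) : D.alive s = univ := by
  ext ω
  simp only [mem_univ, iff_true]
  exact ⟨0, (D.e_KK 0 ω 0 zero_le).1, by rw [D.L_zero]; linarith⟩

lemma tau_low {s : ℝ} (hs : s ≤ s₀) (ω : Ω) : D.tau s ω = 0 :=
  le_antisymm (D.tau_le (D.e_KK 0 ω 0 zero_le).1 (by rw [D.L_zero]; linarith)) zero_le

end OneP

section gen

variable (D : OneP F P (OP.gen κ) s₀)

/-- **RAD for jets**: `V(th, a, x)` with `th` = radial time since `τ_s`. -/
theorem radV [IsFiniteMeasure P] {V Vt Va Vx Vxx : ℝ → ℝ → ℝ → ℝ} (J : Jet V Vt Va Vx Vxx)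
    {c : ℝ} (hc : 0 ≤ c) (hpos : ∀ th a x, 0 ≤ th → th ≤ c → 0 ≤ V th a x)
    (hL : ∀ th a x, 0 ≤ th → th ≤ c → LVal κ (Real.tanh x) (Vx th a x) (Vxx th a x) (Vt th a x)
      (Va th a x) ≤ 0)
    {s : ℝ} (hs : s₀ ≤ s) {A : Set Ω} (hA : D.Past s A) :
    ∫⁻ ω in A ∩ D.alive (s + c), ENNReal.ofReal (V c (D.stl (s + c) ω).2.2.2
        (xc (D.stl (s + c) ω).1 (D.stl (s + c) ω).2.1)) ∂P ≤
      ∫⁻ ω in A, ENNReal.ofReal (V 0 (D.stl s ω).2.2.2
        (xc (D.stl s ω).1 (D.stl s ω).2.1)) ∂P := by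
  have h := D.core hs hc (Φ := pq V (-s) 0) (contDiffOn_pq3 J (-s) 0)
    (fun p _ h1 h2 => hpos _ _ _ (by linarith) (by linarith))
    (fun p hp h1 h2 => gen_pq_nonpos J κ (-s) 0 hp (hL _ _ _ (by linarith) (by linarith))) hA
  have hmA : MeasurableSet A := OneP.Past.measurableSet D hA
  have e1 : ∫⁻ ω in A ∩ D.alive (s + c), ENNReal.ofReal (V c (D.stl (s + c) ω).2.2.2
        (xc (D.stl (s + c) ω).1 (D.stl (s + c) ω).2.1)) ∂P =
      ∫⁻ ω in A ∩ D.alive (s + c), ENNReal.ofReal (pq V (-s) 0 (D.st (D.tau (s + c) ω) ω)) ∂P := by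
    refine setLIntegral_congr_fun (hmA.inter (D.measurableSet_alive _)) ?_
    rintro ω ⟨_, hω⟩
    have h3 := D.L_tau (by linarith) hω
    simp only [pq, OneP.stl, sub_zero, h3]
    congr 2
    ring
  have e2 : ∫⁻ ω in A, ENNReal.ofReal (V 0 (D.stl s ω).2.2.2
        (xc (D.stl s ω).1 (D.stl s ω).2.1)) ∂P =
      ∫⁻ ω in A, ENNReal.ofReal (pq V (-s) 0 (D.st (D.tau s ω) ω)) ∂P := by
    refine setLIntegral_congr_fun hmA ?_
    intro ω hω
    have h3 := D.L_tau hs (hA.1 hω)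
    simp only [pq, OneP.stl, sub_zero, h3]
    congr 2
    ring
  rw [e1, e2]
  exact h

/-- R-form of `U1P` from a jet: `u(S) ≤ V c`, `V 0 ≤ v(S)`, `S = 1/cosh x = cp (-1) x`. -/
theorem radR [IsFiniteMeasure P] {V Vt Va Vx Vxx : ℝ → ℝ → ℝ → ℝ} (J : Jet V Vt Va Vx Vxx)
    {c : ℝ} (hc : 0 ≤ c) (hpos : ∀ th a x, 0 ≤ th → th ≤ c → 0 ≤ V th a x)
    (hL : ∀ th a x, 0 ≤ th → th ≤ c → LVal κ (Real.tanh x) (Vx th a x) (Vxx th a x) (Vt th a x)
      (Va th a x) ≤ 0)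
    {f g : ℝ → ℝ} (hf : ∀ a x, f (cp (-1) x) ≤ V c a x) (hg : ∀ a x, V 0 a x ≤ g (cp (-1) x)) :
    U1P.R D.radial P c f g := by
  intro s hs A hA hAs
  have hmA : MeasurableSet A := OneP.Past.measurableSet D hA
  have hS : ∀ (s : ℝ) (ω : Ω), ω ∈ D.alive s →
      D.Sl s ω = cp (-1) (xc (D.stl s ω).1 (D.stl s ω).2.1) := by
    intro s ω hω
    have := cp_neg_eq (D.stl_pos hω) 1
    rw [Real.rpow_one] at this
    exact this.symm
  refine le_trans ?_ ((radV D J hc hpos hL hs hA).trans ?_)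
  · refine setLIntegral_mono' (hmA.inter (D.measurableSet_alive _)) ?_
    rintro ω ⟨_, hω⟩
    refine ENNReal.ofReal_le_ofReal ?_
    show f (D.Sl (s + c) ω) ≤ _
    rw [hS _ _ hω]
    exact hf _ _
  · refine setLIntegral_mono' hmA ?_
    intro ω hω
    refine ENNReal.ofReal_le_ofReal ?_
    show _ ≤ g (D.Sl s ω)
    rw [hS _ _ (hA.1 hω)]
    exact hg _ _

/-! ### Green's function -/

/-- Green's function at `τ_s` -/
noncomputable def Gl (D : OneP F P (OP.gen κ) s₀) (s : ℝ) (ω : Ω) : ℝ := Gq κ (D.stl s ω)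

lemma Gq_nonneg {p : St} (hp : 0 < p.2.1) : 0 ≤ Gq κ p := by
  unfold Gq
  have := (sinq_pos hp).le
  positivity


/-- (U0): supermartingale property of `G` along levels. -/
theorem U0 [IsFiniteMeasure P] (hκ : 0 < κ) {s t : ℝ} (hst : s ≤ t) {A : Set Ω}
    (hA : D.Past s A) :
    ∫⁻ ω in A ∩ D.alive t, ENNReal.ofReal (Gl D t ω) ∂P ≤
      ∫⁻ ω in A, ENNReal.ofReal (Gl D s ω) ∂P := by
  have key : ∀ {s t : ℝ} (_ : s₀ ≤ s) (_ : s ≤ t) {A : Set Ω} (_ : D.Past s A),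
      ∫⁻ ω in A ∩ D.alive t, ENNReal.ofReal (Gl D t ω) ∂P ≤
      ∫⁻ ω in A, ENNReal.ofReal (Gl D s ω) ∂P := by
    intro s t hs hst A hA
    have h := D.core hs (sub_nonneg.2 hst) (Φ := pq (VG κ) 0 0) (contDiffOn_pq3 (jet_VG κ) 0 0)
      (fun p hp _ _ => by rw [← Gq_eq hκ.ne' hp]; exact Gq_nonneg hp)
      (fun p hp _ _ => (gen_G hκ hp).le) hA
    have hmA : MeasurableSet A := OneP.Past.measurableSet D hA
    rw [add_sub_cancel] at h
    have e1 : ∫⁻ ω in A ∩ D.alive t, ENNReal.ofReal (Gl D t ω) ∂P =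
        ∫⁻ ω in A ∩ D.alive t, ENNReal.ofReal (pq (VG κ) 0 0 (D.st (D.tau t ω) ω)) ∂P := by
      refine setLIntegral_congr_fun (hmA.inter (D.measurableSet_alive _)) ?_
      rintro ω ⟨_, hω⟩
      show ENNReal.ofReal (Gq κ (D.stl t ω)) = _
      rw [Gq_eq hκ.ne' (D.stl_pos hω)]
      rfl
    have e2 : ∫⁻ ω in A, ENNReal.ofReal (Gl D s ω) ∂P =
        ∫⁻ ω in A, ENNReal.ofReal (pq (VG κ) 0 0 (D.st (D.tau s ω) ω)) ∂P := by
      refine setLIntegral_congr_fun hmA ?_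
      intro ω hω
      show ENNReal.ofReal (Gq κ (D.stl s ω)) = _
      rw [Gq_eq hκ.ne' (D.stl_pos (hA.1 hω))]
      rfl
    rw [e1, e2]; exact h
  rcases le_total s₀ s with hs | hs
  · exact key hs hst hA
  · have e0 : ∀ r, r ≤ s₀ → ∀ ω, Gl D r ω = Gq κ (D.st 0 ω) := by
      intro r hr ω
      simp only [Gl, OneP.stl, D.tau_low hr]
    rcases le_total t s₀ with ht | ht
    · have : (fun ω => ENNReal.ofReal (Gl D t ω)) = fun ω => ENNReal.ofReal (Gl D s ω) := by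
        funext ω; rw [e0 t ht, e0 s hs]
      rw [this]
      exact lintegral_mono_set inter_subset_left
    · have hA' : D.Past s₀ A := by
        have := OneP.Past.step D hs hA
        rwa [D.alive_low le_rfl, inter_univ] at this
      have := key le_rfl ht hA'
      refine this.trans (le_of_eq ?_)
      have : (fun ω => ENNReal.ofReal (Gl D s₀ ω)) = fun ω => ENNReal.ofReal (Gl D s ω) := by
        funext ω; rw [e0 s₀ le_rfl, e0 s hs]
      rw [this]

/-! ### U2 -/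

/-- the function of U2 -/
noncomputable def V2 (κ q C c1 : ℝ) : ℝ → ℝ → ℝ → ℝ := fun th _ x =>
  (c1 * (Real.exp (κ * bb κ / 8 * th) * th ^ 2)) * cp (q - bb κ) x +
    (c1 * C * (Real.exp (κ * bb κ / 8 * th) * (1 - th))) * cp (-bb κ) x

theorem jet_V2 (κ q C c1 : ℝ) : Jet (V2 κ q C c1)
    (fun th _ x => (c1 * (κ * bb κ / 8 * Real.exp (κ * bb κ / 8 * th) * th ^ 2 +
        Real.exp (κ * bb κ / 8 * th) * (2 * th))) * cp (q - bb κ) x +
      (c1 * C * (κ * bb κ / 8 * Real.exp (κ * bb κ / 8 * th) * (1 - th) +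
        Real.exp (κ * bb κ / 8 * th) * (-1))) * cp (-bb κ) x)
    (fun _ _ _ => 0 + 0)
    (fun th _ x => (c1 * (Real.exp (κ * bb κ / 8 * th) * th ^ 2)) *
        ((q - bb κ) * Real.tanh x * cp (q - bb κ) x) +
      (c1 * C * (Real.exp (κ * bb κ / 8 * th) * (1 - th))) * (-bb κ * Real.tanh x * cp (-bb κ) x))
    (fun th _ x => (c1 * (Real.exp (κ * bb κ / 8 * th) * th ^ 2)) *
        ((q - bb κ) * cp (q - bb κ) x * ((q - bb κ - 1) * Real.tanh x ^ 2 + 1)) +
      (c1 * C * (Real.exp (κ * bb κ / 8 * th) * (1 - th))) *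
        (-bb κ * cp (-bb κ) x * ((-bb κ - 1) * Real.tanh x ^ 2 + 1))) := by
  refine Jet.add (Jet.tcp ?_ ?_ (q - bb κ)) (Jet.tcp ?_ ?_ (-bb κ))
  · intro s
    refine HasDerivAt.const_mul c1 ?_
    have h1 := (hasDerivAt_expc (κ * bb κ / 8) s).mul (hasDerivAt_pow 2 s)
    refine h1.congr_deriv ?_
    norm_num
  · fun_prop
  · intro s
    refine HasDerivAt.const_mul (c1 * C) ?_
    have h2 : HasDerivAt (fun s : ℝ => 1 - s) (-1) s := by
      simpa using (hasDerivAt_id s).const_sub 1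
    exact (hasDerivAt_expc (κ * bb κ / 8) s).mul h2
  · fun_prop

/-- the constant of U2 -/
noncomputable def CU2 (κ q : ℝ) : ℝ :=
  (κ * q / 2 * (1 + bb κ - q) + 8) ^ 2 / (16 * (κ * q / 2 * (bb κ - q)))

lemma CU2_pos {κ q : ℝ} (hκ : 0 < κ) (hq : 0 < q) (hqb : q < bb κ) : 0 < CU2 κ q := by
  unfold CU2
  have h1 : 0 < bb κ - q := by linarith
  have h2 : 0 < κ * q / 2 * (1 + bb κ - q) + 8 := by
    have : 0 < 1 + bb κ - q := by linarith
    positivity
  positivity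

set_option maxHeartbeats 1000000 in
theorem LVal_V2_nonpos {κ q : ℝ} (hκ : 0 < κ) (hq : 0 < q) (hqb : q < bb κ) (hq2 : q ≤ 2) {c1 : ℝ}
    (hc1 : 0 ≤ c1) {th : ℝ} (h0 : 0 ≤ th) (h1 : th ≤ 1) (x : ℝ) :
    LVal κ (Real.tanh x)
      ((c1 * (Real.exp (κ * bb κ / 8 * th) * th ^ 2)) *
        ((q - bb κ) * Real.tanh x * cp (q - bb κ) x) +
      (c1 * CU2 κ q * (Real.exp (κ * bb κ / 8 * th) * (1 - th))) *
        (-bb κ * Real.tanh x * cp (-bb κ) x))
      ((c1 * (Real.exp (κ * bb κ / 8 * th) * th ^ 2)) *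
        ((q - bb κ) * cp (q - bb κ) x * ((q - bb κ - 1) * Real.tanh x ^ 2 + 1)) +
      (c1 * CU2 κ q * (Real.exp (κ * bb κ / 8 * th) * (1 - th))) *
        (-bb κ * cp (-bb κ) x * ((-bb κ - 1) * Real.tanh x ^ 2 + 1)))
      ((c1 * (κ * bb κ / 8 * Real.exp (κ * bb κ / 8 * th) * th ^ 2 +
        Real.exp (κ * bb κ / 8 * th) * (2 * th))) * cp (q - bb κ) x +
      (c1 * CU2 κ q * (κ * bb κ / 8 * Real.exp (κ * bb κ / 8 * th) * (1 - th) +
        Real.exp (κ * bb κ / 8 * th) * (-1))) * cp (-bb κ) x) (0 + 0) ≤ 0 := by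
  have e3 : (0 + 0 : ℝ) = 0 * cp (q - bb κ) x + 0 * cp (-bb κ) x := by ring
  rw [e3, LVal_add, LVal_cp hκ, LVal_cp hκ]
  set t := Real.tanh x with ht
  set E := Real.exp (κ * bb κ / 8 * th) with hE
  have hEpos : 0 < E := Real.exp_pos _
  have hQ := cp_pos (-bb κ) x
  have hX := cp_pos q x
  have hs := cp_pos 2 x
  have hPQ : cp (q - bb κ) x = cp q x * cp (-bb κ) x := by rw [cp_mul, sub_eq_add_neg]
  have hst : cp 2 x * (1 - t ^ 2) = 1 := cp_two_mul x
  have hXs : cp q x ≤ cp 2 x := cp_le_cp hq2 x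
  have hs1 : 1 ≤ cp 2 x := by
    have := cp_le_cp (show (0:ℝ) ≤ 2 by norm_num) x
    rwa [cp_zero] at this
  set X := cp q x with hXd
  set s := cp 2 x with hsd
  set Q := cp (-bb κ) x with hQd
  set C := CU2 κ q with hC
  set K1 := κ * q / 2 * (1 + bb κ - q) with hK1
  set K2 := κ * q / 2 * (bb κ - q) with hK2
  have hb1 : 0 < bb κ - q := by linarith
  have hK1p : 0 < K1 := by
    have : 0 < 1 + bb κ - q := by linarith
    positivity
  have hK2p : 0 < K2 := by positivity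
  have hCeq : C = (K1 + 8) ^ 2 / (16 * K2) := rfl
  have h1t : 1 - t ^ 2 = 1 / s := by field_simp; linarith
  have h1t0 : 0 < 1 - t ^ 2 := by rw [h1t]; positivity
  -- main identity
  have main : (c1 * (E * th ^ 2) * Ar κ (q - bb κ) t + 4 * (1 - t ^ 2) *
        (c1 * (κ * bb κ / 8 * E * th ^ 2 + E * (2 * th))) + 0) * cp (q - bb κ) x +
      (c1 * C * (E * (1 - th)) * Ar κ (-bb κ) t + 4 * (1 - t ^ 2) *
        (c1 * C * (κ * bb κ / 8 * E * (1 - th) + E * (-1))) + 0) * Q =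
      c1 * E * Q * (1 - t ^ 2) * (X * (th * (th * (K1 - K2 * s) + 8)) - 4 * C) := by
    rw [hPQ]
    unfold Ar
    have hts : t ^ 2 = 1 - 1 / s := by linarith
    have hs0 : s ≠ 0 := hs.ne'
    rw [hts, hK1, hK2]
    field_simp
    ring
  rw [main]
  have hbr : X * (th * (th * (K1 - K2 * s) + 8)) ≤ 4 * C := by
    have hb : th * (th * (K1 - K2 * s) + 8) ≤ th * (K1 + 8 - K2 * (th * s)) := by
      refine mul_le_mul_of_nonneg_left ?_ h0
      have e : th * K1 ≤ 1 * K1 := mul_le_mul_of_nonneg_right h1 hK1p.le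
      have e' : th * (K1 - K2 * s) = th * K1 - K2 * (th * s) := by ring
      linarith
    have hC4 : 4 * C = (K1 + 8) ^ 2 / (4 * K2) := by rw [hCeq]; field_simp; ring
    rcases le_or_gt (K1 + 8 - K2 * (th * s)) 0 with hneg | hpos
    · have h2 : th * (K1 + 8 - K2 * (th * s)) ≤ 0 := mul_nonpos_of_nonneg_of_nonpos h0 hneg
      have h3 : X * (th * (th * (K1 - K2 * s) + 8)) ≤ 0 :=
        mul_nonpos_of_nonneg_of_nonpos hX.le (hb.trans h2)
      have h4 : 0 ≤ 4 * C := by rw [hC4]; positivity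
      linarith
    · have h2 : X * (th * (th * (K1 - K2 * s) + 8)) ≤ s * (th * (K1 + 8 - K2 * (th * s))) :=
        (mul_le_mul_of_nonneg_left hb hX.le).trans
          (mul_le_mul_of_nonneg_right hXs (mul_nonneg h0 hpos.le))
      refine h2.trans ?_
      rw [hC4, le_div_iff₀ (by positivity)]
      have e : (K1 + 8) ^ 2 - s * (th * (K1 + 8 - K2 * (th * s))) * (4 * K2) =
          (K1 + 8 - 2 * (K2 * (th * s))) ^ 2 := by ring
      have e' := sq_nonneg (K1 + 8 - 2 * (K2 * (th * s)))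
      linarith
  have hfac : 0 ≤ c1 * E * Q * (1 - t ^ 2) := by positivity
  exact mul_nonpos_of_nonneg_of_nonpos hfac (by linarith)

/-- **U2**. -/
theorem U2 [IsFiniteMeasure P] (hκ : 0 < κ) {q : ℝ} (hq : 0 < q) (hqb : q < bb κ) (hq2 : q ≤ 2)
    {s : ℝ} (hs : s₀ ≤ s) {A : Set Ω} (hA : D.Past s A) :
    ∫⁻ ω in A ∩ D.alive (s + 1), ENNReal.ofReal (Gl D (s + 1) ω * D.Sl (s + 1) ω ^ (-q)) ∂P ≤
      ENNReal.ofReal (CU2 κ q) * ∫⁻ ω in A, ENNReal.ofReal (Gl D s ω) ∂P := by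
  have hmA : MeasurableSet A := OneP.Past.measurableSet D hA
  set c1 := Real.exp (κ * bb κ / 8 * s) with hc1
  have hc1p : 0 < c1 := Real.exp_pos _
  have hCp := CU2_pos hκ hq hqb
  have h := radV D (jet_V2 κ q (CU2 κ q) c1) zero_le_one
    (fun th a x h0 h1 => by
      unfold V2
      have e1 := cp_pos (q - bb κ) x
      have e2 := cp_pos (-bb κ) x
      have e3 := Real.exp_pos (κ * bb κ / 8 * th)
      have e4 : 0 ≤ 1 - th := by linarith
      positivity)
    (fun th a x h0 h1 => LVal_V2_nonpos hκ hq hqb hq2 hc1p.le h0 h1 x) hs hA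
  have hbk : κ / 8 - 1 = -(κ * bb κ / 8) := by
    unfold bb; field_simp; ring
  have hG : ∀ (r : ℝ) (ω : Ω), ω ∈ D.alive r → s₀ ≤ r → Gl D r ω =
      Real.exp (κ * bb κ / 8 * r) * cp (-bb κ) (xc (D.stl r ω).1 (D.stl r ω).2.1) := by
    intro r ω hω hr
    have h3 := D.L_tau hr hω
    rw [Gl, Gq, cp_neg_eq (D.stl_pos hω)]
    congr 1
    rw [show (D.stl r ω).2.2.1 = -r from h3, hbk]
    ring_nf
  rw [← lintegral_const_mul' _ _ ENNReal.ofReal_ne_top]
  refine le_trans (le_of_eq ?_) (h.trans (le_of_eq ?_))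
  · refine setLIntegral_congr_fun (hmA.inter (D.measurableSet_alive _)) ?_
    rintro ω ⟨_, hω⟩
    simp only
    rw [hG _ _ hω (by linarith)]
    congr 1
    have hS : D.Sl (s + 1) ω ^ (-q) =
        cp q (xc (D.stl (s + 1) ω).1 (D.stl (s + 1) ω).2.1) := by
      have := cp_neg_eq (D.stl_pos hω) (-q)
      rw [neg_neg] at this
      exact this.symm
    rw [hS]
    unfold V2
    rw [sub_eq_add_neg q, ← cp_mul, hc1]
    have : Real.exp (κ * bb κ / 8 * (s + 1)) =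
        Real.exp (κ * bb κ / 8 * s) * Real.exp (κ * bb κ / 8 * 1) := by
      rw [← Real.exp_add]; ring_nf
    rw [this]
    ring
  · refine setLIntegral_congr_fun hmA ?_
    intro ω hω
    simp only
    rw [← ENNReal.ofReal_mul hCp.le, hG _ _ (hA.1 hω) hs]
    congr 1
    unfold V2
    simp only [mul_zero, Real.exp_zero]
    ring

/-- **U2'**: the bad mass is at most half. `δ` depends only on `κ`. -/
theorem U2bad [IsFiniteMeasure P] (hκ : 0 < κ) {q δ : ℝ} (hq : 0 < q) (hqb : q < bb κ)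
    (hq2 : q ≤ 2) (hδ : 0 < δ) (hδq : CU2 κ q * δ ^ q ≤ 1 / 2)
    {s : ℝ} (hs : s₀ ≤ s) {A : Set Ω} (hA : D.Past s A) :
    ∫⁻ ω in A ∩ D.alive (s + 1) ∩ {ω | D.Sl (s + 1) ω < δ}, ENNReal.ofReal (Gl D (s + 1) ω) ∂P ≤
      ENNReal.ofReal (1 / 2) * ∫⁻ ω in A, ENNReal.ofReal (Gl D s ω) ∂P := by
  have hmA : MeasurableSet A := OneP.Past.measurableSet D hA
  have h := U2 D hκ hq hqb hq2 hs hA
  have hmS : MeasurableSet (D.alive (s + 1) ∩ {ω | D.Sl (s + 1) ω < δ}) := by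
    have h1 := D.measurable_stl (s + 1)
    have h2 : Measurable (fun p : St => sinq p) := by
      unfold sinq
      fun_prop
    have h3 : D.alive (s + 1) ∩ {ω | D.Sl (s + 1) ω < δ} = D.alive (s + 1) ∩
        {ω | sinq ((D.alive (s + 1)).indicator (D.stl (s + 1)) ω) < δ} := by
      ext ω
      simp only [mem_inter_iff, mem_ofPred_eq, and_congr_right_iff]
      intro hω
      rw [indicator_of_mem hω]
      rfl
    rw [h3]
    exact (D.measurableSet_alive _).inter ((h2.comp h1) measurableSet_Iio)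
  have hδq0 : 0 < δ ^ q := Real.rpow_pos_of_pos hδ q
  calc ∫⁻ ω in A ∩ D.alive (s + 1) ∩ {ω | D.Sl (s + 1) ω < δ}, ENNReal.ofReal (Gl D (s + 1) ω) ∂P
      ≤ ∫⁻ ω in A ∩ D.alive (s + 1) ∩ {ω | D.Sl (s + 1) ω < δ}, ENNReal.ofReal (δ ^ q) *
          ENNReal.ofReal (Gl D (s + 1) ω * D.Sl (s + 1) ω ^ (-q)) ∂P := by
        refine setLIntegral_mono' ?_ ?_
        · rw [inter_assoc]; exact hmA.inter hmS
        · rintro ω ⟨⟨_, hω⟩, hlt⟩
          have hlt' : D.Sl (s + 1) ω < δ := hlt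
          rw [← ENNReal.ofReal_mul hδq0.le]
          refine ENNReal.ofReal_le_ofReal ?_
          have hSp : 0 < D.Sl (s + 1) ω := sinq_pos (D.stl_pos hω)
          have hG0 : 0 ≤ Gl D (s + 1) ω := Gq_nonneg (D.stl_pos hω)
          have h1 : 1 ≤ δ ^ q * D.Sl (s + 1) ω ^ (-q) := by
            rw [Real.rpow_neg hSp.le, ← div_eq_mul_inv, one_le_div (Real.rpow_pos_of_pos hSp q)]
            exact Real.rpow_le_rpow hSp.le hlt'.le hq.le
          nlinarith
    _ = ENNReal.ofReal (δ ^ q) * ∫⁻ ω in A ∩ D.alive (s + 1) ∩ {ω | D.Sl (s + 1) ω < δ},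
          ENNReal.ofReal (Gl D (s + 1) ω * D.Sl (s + 1) ω ^ (-q)) ∂P :=
        lintegral_const_mul' _ _ ENNReal.ofReal_ne_top
    _ ≤ ENNReal.ofReal (δ ^ q) * (ENNReal.ofReal (CU2 κ q) *
          ∫⁻ ω in A, ENNReal.ofReal (Gl D s ω) ∂P) := by
        gcongr
        exact (lintegral_mono_set inter_subset_left).trans h
    _ ≤ ENNReal.ofReal (1 / 2) * ∫⁻ ω in A, ENNReal.ofReal (Gl D s ω) ∂P := by
        rw [← mul_assoc, ← ENNReal.ofReal_mul hδq0.le]
        gcongr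
        linarith

/-- existence of the constants of U2'. -/
theorem exists_U2_const (hκ : 0 < κ) (hκ8 : κ < 8) : ∃ q δ : ℝ, 0 < q ∧ q < bb κ ∧ q ≤ 2 ∧ 0 < δ ∧
    δ ≤ 1 ∧ CU2 κ q * δ ^ q ≤ 1 / 2 := by
  have hb : 0 < bb κ := by
    unfold bb
    rw [sub_pos, lt_div_iff₀ hκ]; linarith
  set q := min (bb κ / 2) 2 with hq
  have hq0 : 0 < q := lt_min (by linarith) (by norm_num)
  have hqb : q < bb κ := (min_le_left _ _).trans_lt (by linarith)
  have hC := CU2_pos hκ hq0 hqb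
  set δ := min 1 ((1 / (2 * CU2 κ q)) ^ (1 / q)) with hδ
  have hx : 0 < 1 / (2 * CU2 κ q) := by positivity
  refine ⟨q, δ, hq0, hqb, min_le_right _ _, lt_min one_pos (Real.rpow_pos_of_pos hx _),
    min_le_left _ _, ?_⟩
  have h1 : δ ^ q ≤ ((1 / (2 * CU2 κ q)) ^ (1 / q)) ^ q :=
    Real.rpow_le_rpow (le_of_lt (lt_min one_pos (Real.rpow_pos_of_pos hx _))) (min_le_right _ _) hq0.le
  rw [← Real.rpow_mul hx.le, one_div_mul_cancel hq0.ne', Real.rpow_one] at h1
  calc CU2 κ q * δ ^ q ≤ CU2 κ q * (1 / (2 * CU2 κ q)) := by gcongr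
    _ = 1 / 2 := by field_simp

end gen

end Crest.Agent.R162.Rad
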