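import Mathlib
import Crest.Agent.R162.U3b
import Crest.Agent.R162.U3D
import Crest.Agent.R162.U3Defs
import Crest.Agent.R162.U3FF
import Crest.Agent.R162.OPTr2
import Crest.Agent.R162.Rad

-- ▼ part R162/U3c
section

/-!
Row 162 (S0243), node U3, part c: the four linear pieces of the extended trigger tube.
-/

set_option autoImplicit false

open MeasureTheory ProbabilityTheory Set
open scoped NNReal ENNReal Topology
open Crest.ProbabilityR.Loewner
open Crest.Agent.R162.FL Crest.Agent.R162.OP Crest.Agent.R162.OS Crest.Agent.R162.UB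

namespace Crest.Agent.R162.U3

universe u

variable {Ω : Type u} {m : MeasurableSpace Ω} {P : Measure Ω} {Fl : Filtration ℝ≥0 m}
  {B : ℝ≥0 → Ω → ℝ} {κ : ℝ} {w : ℂ}

section psi

variable {N ξ a : ℝ}

theorem psiE_1 (hN : 0 ≤ N) (hM : 0 ≤ Real.log N / 2) (h : a ≤ ξ + Real.log N / 2) :
    psiE N ξ a = ξ - a := by
  unfold psiE
  apply max_eq_left
  apply max_le (by linarith)
  refine (min_le_left _ _).trans (by linarith)

theorem psiE_2 (h : ξ + Real.log N / 2 ≤ a) (h' : a ≤ ξ + Real.log N / 2 + N) :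
    psiE N ξ a = -(Real.log N / 2) := by
  unfold psiE
  rw [max_eq_right ((by linarith : ξ - a ≤ -(Real.log N / 2)).trans (le_max_left _ _))]
  apply max_eq_left
  refine (min_le_left _ _).trans (by linarith)

theorem psiE_3 (hN : 0 ≤ N) (hM : 2 ≤ Real.log N / 2) (h : ξ + Real.log N / 2 + N ≤ a)
    (h' : a ≤ ξ + N + Real.log N - 2) :
    psiE N ξ a = a - ξ - N - Real.log N := by
  unfold psiE
  rw [min_eq_left (by linarith : a - ξ - N - Real.log N ≤ -2)]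
  rw [max_eq_right (by linarith : -(Real.log N / 2) ≤ a - ξ - N - Real.log N)]
  apply max_eq_right
  linarith

theorem psiE_4 (hN : 0 ≤ N) (hM : 2 ≤ Real.log N / 2) (h : ξ + N + Real.log N - 2 ≤ a) :
    psiE N ξ a = -2 := by
  unfold psiE
  rw [min_eq_right (by linarith : -2 ≤ a - ξ - N - Real.log N)]
  rw [max_eq_right (by linarith : -(Real.log N / 2) ≤ -2)]
  apply max_eq_right
  linarith

end psi

theorem ft_congr {r2 l c s c' s' b : ℝ} (h : c + s * b = c' + s' * b) {q : ℝ × ℝ × ℝ × ℝ}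
    (hq : q.2.2.2 = b) : ft r2 l c s q = ft r2 l c' s' q := by
  unfold ft; rw [hq, h]

theorem aesm_of_E3 (h3 : E3 Fl B κ w) {σ : Ω → ℝ≥0} (hσ : IsST Fl σ) {T0 : ℝ≥0}
    (hT0 : ∀ ω, σ ω ≤ T0) {A : Set Ω} (hA : EvST Fl σ A)
    (hal : ∀ ω ∈ A, AliveP κ B w (σ ω) ω) {f : ℝ × ℝ × ℝ × ℝ → ℝ} (hf : Measurable f) :
    AEStronglyMeasurable (fun ω => f (stP κ B w (σ ω) ω)) (P.restrict A) := by
  have hAm := measurableSet_of_evST hT0 hA
  classical
  set g : Ω → ℝ × ℝ × ℝ × ℝ := fun ω => if ω ∈ A then stP κ B w (σ ω) ω else 0 with hg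
  have hgm : Measurable g := by
    intro S hS
    have h4 : MeasurableSet (A ∩ {ω | AliveP κ B w (σ ω) ω ∧ stP κ B w (σ ω) ω ∈ S}) :=
      hAm.inter (measurableSet_of_evST hT0 (h3 σ S hσ hS))
    have h5 : g ⁻¹' S = (A ∩ {ω | AliveP κ B w (σ ω) ω ∧ stP κ B w (σ ω) ω ∈ S}) ∪
        (Aᶜ ∩ {_ω | (0 : ℝ × ℝ × ℝ × ℝ) ∈ S}) := by
      ext ω
      by_cases hω : ω ∈ A
      · simp [hg, hω, hal ω hω]
      · simp [hg, hω]
    rw [h5]
    exact h4.union (hAm.compl.inter (MeasurableSet.const _))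
  refine ((hf.comp hgm).aestronglyMeasurable).congr ?_
  filter_upwards [ae_restrict_mem hAm] with ω hω
  simp [hg, hω]

theorem measurable_ft (r2 l c s : ℝ) : Measurable (ft r2 l c s) := by
  unfold ft
  have := measurable_xq
  fun_prop

/-- the four linear pieces of the extended trigger tube, on one cell -/
theorem chain (hM : OPM.{u}) (hD : DStmt) [IsProbabilityMeasure P] (hB : IsBM Fl B P)
    (hκ : 0 < κ) (hκ8 : κ < 8) (hw : 0 < w.im) (h1 : E1 Fl B κ w) (h3 : E3 Fl B κ w)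
    {N ξ a0 E : ℝ} (hN : 1 ≤ N) (hM2 : 2 < Real.log N / 2) (hξ : 1 / 8 < ξ + Real.log N / 2)
    (ha0 : 0 ≤ a0) (hE : 0 < E)
    {σ : Ω → ℝ≥0} (hσ : IsST Fl σ) {T0 : ℝ≥0} (hT0 : ∀ ω, σ ω ≤ T0) {A : Set Ω}
    (hA : EvST Fl σ A)
    (hA1 : ∀ ω ∈ A, AliveP κ B w (σ ω) ω ∧ |xq (stP κ B w (σ ω) ω) - ξ| ≤ 1 / 8 ∧
      a0 ≤ (stP κ B w (σ ω) ω).2.2.2 ∧ (stP κ B w (σ ω) ω).2.2.2 ≤ a0 + 1 / 8) :
    ∃ A' : Set Ω, A' ⊆ A ∧ MeasurableSet A' ∧
      1 / 2 * Real.exp (-(lam κ (9 / 16) * (ξ + N + Real.log N - 2 + E))) * P.real A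
        ≤ P.real A' ∧
      ∀ ω ∈ A', ∃ T : ℝ≥0, σ ω ≤ T ∧ AliveP κ B w T ω ∧
        ath (driving κ B ω) T w - a0 = ξ + N + Real.log N - 2 + E ∧
        ∀ t ∈ Icc (σ ω : ℝ) T,
          |xfl (driving κ B ω) t w - psiE N ξ (ath (driving κ B ω) t w - a0)| ≤ 3 / 4 := by
  set M := Real.log N / 2 with hMdef
  have hlog : Real.log N = 2 * M := by rw [hMdef]; ring
  have hr0 : (0:ℝ) < 9 / 16 := by norm_num
  have hr1 : (9:ℝ) / 16 ≤ 1 := by norm_num
  set b1 := a0 + ξ + M with hb1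
  set b2 := a0 + ξ + M + N with hb2
  set b3 := a0 + ξ + N + 2 * M - 2 with hb3
  set b4 := a0 + ξ + N + 2 * M - 2 + E with hb4
  -- piece 1
  obtain ⟨τ1, A1, T1, p1⟩ := piece hM hD hB hκ hκ8 hw h1 h3 (r2 := 9 / 16) (c := ξ + a0) (s := -1)
    (b' := b1) hr0 hr1 (by norm_num) (by rw [hb1]; linarith) hσ hT0 hA (by
      intro ω hω
      obtain ⟨h4, h5, h6, h7⟩ := hA1 ω hω
      refine ⟨h4, ?_, by rw [hb1]; linarith⟩
      have h8 : |xq (stP κ B w (σ ω) ω) - (ξ + a0 + -1 * (stP κ B w (σ ω) ω).2.2.2)| ≤ 1 / 4 := by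
        rw [abs_le] at h5 ⊢
        constructor <;> linarith [h5.1, h5.2]
      have := sq_le_sq' (neg_le_of_abs_le h8) (le_of_abs_le h8)
      norm_num at this ⊢
      linarith)
  -- piece 2
  obtain ⟨τ2, A2, T2, p2⟩ := piece hM hD hB hκ hκ8 hw h1 h3 (r2 := 9 / 16) (c := -M) (s := 0)
    (b' := b2) hr0 hr1 (by norm_num) (by rw [hb2]; linarith) p1.st p1.leT p1.ev (by
      intro ω hω
      obtain ⟨h4, h5⟩ := p1.fin ω hω
      refine ⟨(p1.path ω hω (τ1 ω) (p1.le ω) le_rfl).1, ?_, ?_⟩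
      · rw [zero_mul, add_zero]
        rw [hb1] at h5
        convert h5 using 3
        ring
      · rw [h4, hb1, hb2]; linarith)
  -- piece 3
  obtain ⟨τ3, A3, T3, p3⟩ := piece hM hD hB hκ hκ8 hw h1 h3 (r2 := 9 / 16)
    (c := -a0 - ξ - N - 2 * M) (s := 1)
    (b' := b3) hr0 hr1 (by norm_num) (by rw [hb3]; linarith) p2.st p2.leT p2.ev (by
      intro ω hω
      obtain ⟨h4, h5⟩ := p2.fin ω hω
      refine ⟨(p2.path ω hω (τ2 ω) (p2.le ω) le_rfl).1, ?_, ?_⟩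
      · rw [h4, hb2]
        rw [zero_mul, add_zero] at h5
        convert h5 using 3
        ring
      · rw [h4, hb2, hb3]; linarith)
  -- piece 4
  obtain ⟨τ4, A4, T4, p4⟩ := piece hM hD hB hκ hκ8 hw h1 h3 (r2 := 9 / 16) (c := -2) (s := 0)
    (b' := b4) hr0 hr1 (by norm_num) (by rw [hb4]; linarith) p3.st p3.leT p3.ev (by
      intro ω hω
      obtain ⟨h4, h5⟩ := p3.fin ω hω
      refine ⟨(p3.path ω hω (τ3 ω) (p3.le ω) le_rfl).1, ?_, ?_⟩
      · rw [zero_mul, add_zero]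
        rw [hb3] at h5
        convert h5 using 3
        ring
      · rw [h4, hb3, hb4]; linarith)
  have hA1m := measurableSet_of_evST p1.leT p1.ev
  have hA2m := measurableSet_of_evST p2.leT p2.ev
  have hA3m := measurableSet_of_evST p3.leT p3.ev
  have hA4m := measurableSet_of_evST p4.leT p4.ev
  have hAm := measurableSet_of_evST hT0 hA
  set L := lam κ (9 / 16) with hL
  have hL0 : 0 < L := lam_pos hκ hr0
  refine ⟨A4, ((p4.sub.trans p3.sub).trans p2.sub).trans p1.sub, hA4m, ?_, ?_⟩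
  · -- the probability
    have e1 : ∫ ω in A1, ft (9 / 16) L (ξ + a0) (-1) (stP κ B w (τ1 ω) ω) ∂P
        = ∫ ω in A1, ft (9 / 16) L (-M) 0 (stP κ B w (τ1 ω) ω) ∂P :=
      setIntegral_congr_fun hA1m fun ω hω =>
        ft_congr (b := b1) (by rw [hb1]; ring) (p1.fin ω hω).1
    have e2 : ∫ ω in A2, ft (9 / 16) L (-M) 0 (stP κ B w (τ2 ω) ω) ∂P
        = ∫ ω in A2, ft (9 / 16) L (-a0 - ξ - N - 2 * M) 1 (stP κ B w (τ2 ω) ω) ∂P :=
      setIntegral_congr_fun hA2m fun ω hω =>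
        ft_congr (b := b2) (by rw [hb2]; ring) (p2.fin ω hω).1
    have e3 : ∫ ω in A3, ft (9 / 16) L (-a0 - ξ - N - 2 * M) 1 (stP κ B w (τ3 ω) ω) ∂P
        = ∫ ω in A3, ft (9 / 16) L (-2) 0 (stP κ B w (τ3 ω) ω) ∂P :=
      setIntegral_congr_fun hA3m fun ω hω =>
        ft_congr (b := b3) (by rw [hb3]; ring) (p3.fin ω hω).1
    have i1 := p1.ineq
    have i2 := p2.ineq
    have i3 := p3.ineq
    have i4 := p4.ineq
    rw [← hL] at i1 i2 i3 i4
    have hlow : Real.exp (L * a0) * (1 / 4) * P.real A ≤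
        ∫ ω in A, ft (9 / 16) L (ξ + a0) (-1) (stP κ B w (σ ω) ω) ∂P := by
      have hmeas : AEStronglyMeasurable
          (fun ω => ft (9 / 16) L (ξ + a0) (-1) (stP κ B w (σ ω) ω)) (P.restrict A) :=
        aesm_of_E3 h3 hσ hT0 hA (fun ω hω => (hA1 ω hω).1) (measurable_ft _ _ _ _)
      have hbd : ∀ ω ∈ A, Real.exp (L * a0) * (1 / 4) ≤
          ft (9 / 16) L (ξ + a0) (-1) (stP κ B w (σ ω) ω) ∧
          ft (9 / 16) L (ξ + a0) (-1) (stP κ B w (σ ω) ω) ≤ Real.exp (L * (a0 + 1 / 8)) := by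
        intro ω hω
        obtain ⟨h4, h5, h6, h7⟩ := hA1 ω hω
        unfold ft
        set a := (stP κ B w (σ ω) ω).2.2.2
        set x := xq (stP κ B w (σ ω) ω)
        have h8 : |x - (ξ + a0 + -1 * a)| ≤ 1 / 4 := by
          rw [abs_le] at h5 ⊢
          constructor <;> linarith [h5.1, h5.2]
        have h9 : (x - (ξ + a0 + -1 * a)) ^ 2 ≤ 1 / 16 := by
          have := sq_le_sq' (neg_le_of_abs_le h8) (le_of_abs_le h8)
          norm_num at this ⊢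
          linarith
        have h10 : 0 ≤ (x - (ξ + a0 + -1 * a)) ^ 2 := sq_nonneg _
        have h11 : 1 / 4 ≤ (9 / 16 - (x - (ξ + a0 + -1 * a)) ^ 2) ^ 2 := by nlinarith
        have h12 : (9 / 16 - (x - (ξ + a0 + -1 * a)) ^ 2) ^ 2 ≤ 1 := by nlinarith
        have h13 : Real.exp (L * a0) ≤ Real.exp (L * a) := Real.exp_le_exp.2 (by gcongr)
        have h14 : Real.exp (L * a) ≤ Real.exp (L * (a0 + 1 / 8)) :=
          Real.exp_le_exp.2 (by gcongr)
        constructor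
        · exact mul_le_mul h13 h11 (by norm_num) (Real.exp_pos _).le
        · calc _ ≤ Real.exp (L * (a0 + 1 / 8)) * 1 :=
                mul_le_mul h14 h12 (sq_nonneg _) (Real.exp_pos _).le
            _ = _ := mul_one _
      have hint : IntegrableOn
          (fun ω => ft (9 / 16) L (ξ + a0) (-1) (stP κ B w (σ ω) ω)) A P := by
        refine Integrable.mono' (integrable_const (Real.exp (L * (a0 + 1 / 8)))) hmeas ?_
        filter_upwards [ae_restrict_mem hAm] with ω hω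
        rw [Real.norm_eq_abs, abs_of_nonneg (ft_nonneg _ _ _ _ _)]
        exact (hbd ω hω).2
      exact setIntegral_ge_of_const_le_real hAm (measure_ne_top _ _) (fun ω hω => (hbd ω hω).1)
        hint
    have hup : ∫ ω in A4, ft (9 / 16) L (-2) 0 (stP κ B w (τ4 ω) ω) ∂P ≤
        Real.exp (L * b4) * (81 / 256) * P.real A4 := by
      refine (le_abs_self _).trans ?_
      rw [← Real.norm_eq_abs]
      refine norm_setIntegral_le_of_norm_le_const (measure_lt_top _ _) fun ω hω => ?_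
      obtain ⟨h4, h5⟩ := p4.fin ω hω
      rw [Real.norm_eq_abs, abs_of_nonneg (ft_nonneg _ _ _ _ _)]
      unfold ft
      rw [h4]
      have h6 : 0 ≤ (xq (stP κ B w (τ4 ω) ω) - (-2 + 0 * b4)) ^ 2 := sq_nonneg _
      have h7 : (9 / 16 - (xq (stP κ B w (τ4 ω) ω) - (-2 + 0 * b4)) ^ 2) ^ 2 ≤ 81 / 256 := by
        nlinarith
      gcongr
    have hch : Real.exp (L * a0) * (1 / 4) * P.real A ≤
        Real.exp (L * b4) * (81 / 256) * P.real A4 := by
      linarith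
    have hexp : Real.exp (L * b4) = Real.exp (L * a0) *
        Real.exp (L * (ξ + N + Real.log N - 2 + E)) := by
      rw [← Real.exp_add, hb4, hlog]; ring_nf
    rw [hexp] at hch
    set X := Real.exp (L * (ξ + N + Real.log N - 2 + E)) with hX
    have hX0 : 0 < X := Real.exp_pos _
    rw [Real.exp_neg, ← hX]
    have ha : 0 < Real.exp (L * a0) := Real.exp_pos _
    have h8 : 1 / 4 * P.real A ≤ X * (81 / 256) * P.real A4 := by
      have : Real.exp (L * a0) * (1 / 4 * P.real A) ≤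
          Real.exp (L * a0) * (X * (81 / 256) * P.real A4) := by
        calc _ = Real.exp (L * a0) * (1 / 4) * P.real A := by ring
          _ ≤ _ := hch
          _ = _ := by ring
      exact le_of_mul_le_mul_left this ha
    have hPA : 0 ≤ P.real A4 := measureReal_nonneg
    have h9 : P.real A ≤ 2 * X * P.real A4 := by
      have : 0 ≤ X * P.real A4 := by positivity
      nlinarith
    calc 1 / 2 * X⁻¹ * P.real A ≤ 1 / 2 * X⁻¹ * (2 * X * P.real A4) := by gcongr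
      _ = P.real A4 := by field_simp
  · -- the path
    intro ω hω4
    have hω3 := p4.sub hω4
    have hω2 := p3.sub hω3
    have hω1 := p2.sub hω2
    have hω := p1.sub hω1
    have hle : σ ω ≤ τ4 ω := (((p1.le ω).trans (p2.le ω)).trans (p3.le ω)).trans (p4.le ω)
    have hal : AliveP κ B w (τ4 ω) ω := (p4.path ω hω4 (τ4 ω) (p4.le ω) le_rfl).1
    have hF := hD _ w _ (continuousOn_driving (κ := κ) hB ω) hal
    refine ⟨τ4 ω, hle, hal, ?_, ?_⟩
    · have h4 : ath (driving κ B ω) (τ4 ω) w = b4 := (p4.fin ω hω4).1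
      rw [h4, hb4, hlog]; ring
    · intro t ht
      have ht0 : 0 ≤ t := (NNReal.coe_nonneg _).trans ht.1
      lift t to ℝ≥0 using ht0
      have hst : σ ω ≤ t := by exact_mod_cast ht.1
      have htt : t ≤ τ4 ω := by exact_mod_cast ht.2
      have hmono : ∀ s : ℝ≥0, s ≤ t → ath (driving κ B ω) s w ≤ ath (driving κ B ω) t w := by
        intro s hs
        exact hF.ath_mono.monotoneOn ⟨NNReal.coe_nonneg _, by exact_mod_cast hs.trans htt⟩
          ⟨NNReal.coe_nonneg _, by exact_mod_cast htt⟩ (by exact_mod_cast hs)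
      have hsq : ∀ y : ℝ, y ^ 2 ≤ 9 / 16 → |y| ≤ 3 / 4 := by
        intro y hy
        exact abs_le_of_sq_le_sq (by norm_num; exact hy) (by norm_num)
      rcases le_total t (τ1 ω) with h | h
      · obtain ⟨_, h5, h6⟩ := p1.path ω hω1 t hst h
        have h7 : a0 ≤ ath (driving κ B ω) t w := (hA1 ω hω).2.2.1.trans (hmono _ hst)
        have h6' : ath (driving κ B ω) t w ≤ b1 := h6
        rw [psiE_1 (by linarith) (by linarith) (by rw [hb1] at h6'; linarith)]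
        have h8 : (xfl (driving κ B ω) t w - (ξ + a0 + -1 * ath (driving κ B ω) t w)) ^ 2 ≤ 9 / 16 :=
          h5
        apply hsq
        convert h8 using 2
        ring
      rcases le_total t (τ2 ω) with h' | h'
      · obtain ⟨_, h5, h6⟩ := p2.path ω hω2 t h h'
        have h7 : b1 ≤ ath (driving κ B ω) t w := by
          rw [← (p1.fin ω hω1).1]; exact hmono _ h
        have h6' : ath (driving κ B ω) t w ≤ b2 := h6
        rw [psiE_2 (by rw [hb1] at h7; linarith) (by rw [hb2] at h6'; linarith)]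
        have h8 : (xfl (driving κ B ω) t w - (-M + 0 * ath (driving κ B ω) t w)) ^ 2 ≤ 9 / 16 :=
          h5
        apply hsq
        convert h8 using 2
        ring
      rcases le_total t (τ3 ω) with h'' | h''
      · obtain ⟨_, h5, h6⟩ := p3.path ω hω3 t h' h''
        have h7 : b2 ≤ ath (driving κ B ω) t w := by
          rw [← (p2.fin ω hω2).1]; exact hmono _ h'
        have h6' : ath (driving κ B ω) t w ≤ b3 := h6
        rw [psiE_3 (by linarith) (by linarith) (by rw [hb2] at h7; linarith)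
          (by rw [hb3] at h6'; linarith)]
        have h8 : (xfl (driving κ B ω) t w -
          (-a0 - ξ - N - 2 * M + 1 * ath (driving κ B ω) t w)) ^ 2 ≤ 9 / 16 := h5
        apply hsq
        convert h8 using 2
        rw [hlog]; ring
      · obtain ⟨_, h5, h6⟩ := p4.path ω hω4 t h'' htt
        have h7 : b3 ≤ ath (driving κ B ω) t w := by
          rw [← (p3.fin ω hω3).1]; exact hmono _ h''
        rw [psiE_4 (by linarith) (by linarith) (by rw [hb3] at h7; linarith)]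
        have h8 : (xfl (driving κ B ω) t w - (-2 + 0 * ath (driving κ B ω) t w)) ^ 2 ≤ 9 / 16 :=
          h5
        apply hsq
        convert h8 using 2
        ring

end Crest.Agent.R162.U3
end

-- ▼ part R162/U3X
section

/-!
Row 162 (S0243), node U3, sub-lemma X1 (helper263): the deterministic consequences of the cell tube.
The tube given relative to the cell centre `(ξ, a₀)` at distance `3/4` is the extended tube
`U3D.ExtAt` relative to `(x_σ, a_σ)` at distance `1`; the rest is `U3D.ext_level`.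
-/

set_option autoImplicit false

open Set
open Crest.Agent.R162.FL Crest.Agent.R162.OP Crest.Agent.R162.UB

namespace Crest.Agent.R162.U3

variable {W : ℝ → ℝ} {w : ℂ} {r N δ E σ T a₀ ξ : ℝ}

lemma abs_max_sub_max_le' {a b c d ε : ℝ} (h1 : |a - c| ≤ ε) (h2 : |b - d| ≤ ε) :
    |max a b - max c d| ≤ ε :=
  (abs_max_sub_max_le_max a b c d).trans (max_le h1 h2)

lemma abs_min_sub_min_le' {a b c d ε : ℝ} (h1 : |a - c| ≤ ε) (h2 : |b - d| ≤ ε) :
    |min a b - min c d| ≤ ε :=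
  (abs_min_sub_min_le_max a b c d).trans (max_le h1 h2)

/-- `psiE` moves by at most `ε + ε'` when `ξ` moves by `ε` and the clock moves by `ε'`. -/
lemma psiE_sub_le {N ξ ξ' a a' ε ε' : ℝ} (h1 : |ξ - ξ'| ≤ ε) (h2 : |a - a'| ≤ ε') :
    |psiE N ξ a - psiE N ξ' a'| ≤ ε + ε' := by
  have hε : 0 ≤ ε := (abs_nonneg _).trans h1
  have hε' : 0 ≤ ε' := (abs_nonneg _).trans h2
  have h1' := abs_le.1 h1
  have h2' := abs_le.1 h2
  unfold psiE
  refine abs_max_sub_max_le' ?_ (abs_max_sub_max_le' ?_ (abs_min_sub_min_le' ?_ ?_))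
  · exact abs_le.2 ⟨by linarith [h1'.1, h2'.2], by linarith [h1'.2, h2'.1]⟩
  · rw [sub_self, abs_zero]
    linarith
  · exact abs_le.2 ⟨by linarith [h1'.2, h2'.1], by linarith [h1'.1, h2'.2]⟩
  · rw [sub_self, abs_zero]
    linarith

/-- **the cell tube contains the extended tube** -/
theorem extAt_of_cell (hW : ContinuousOn W (Ici 0)) (hδ : 0 < δ) (hN1 : Real.log (2 / δ) ≤ N - 1)
    (hN2 : 4 ≤ Real.log N) (hE : 1 / 4 ≤ E) (h0 : 0 ≤ σ) (hσT : σ ≤ T) (hal : Alive W w T)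
    (hr : ups W σ w = r) (hs : δ ≤ sfl W σ w) (hξ : |xfl W σ w - ξ| ≤ 1 / 8)
    (ha1 : a₀ ≤ ath W σ w) (ha2 : ath W σ w ≤ a₀ + 1 / 8)
    (hT : ath W T w - a₀ = ξ + N + Real.log N - 2 + E)
    (htube : ∀ t ∈ Icc σ T, |xfl W t w - psiE N ξ (ath W t w - a₀)| ≤ 3 / 4) :
    ∃ T2 ∈ Icc σ T, U3D.ExtAt W w r N δ (E - 1 / 4) σ T2 := by
  have hσ : Alive W w σ := hal.mono h0 hσT
  have hx0 := abs_le.1 (U3D.abs_xfl_le' hδ hσ hs)
  have hξ' := abs_le.1 hξ
  have hcont : ContinuousOn (fun u => ath W u w) (Icc σ T) :=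
    (FL.continuousOn_ath hW hal).mono (Icc_subset_Icc h0 le_rfl)
  have hmem : ath W σ w + dur N (xfl W σ w) + (E - 1 / 4) ∈ Icc (ath W σ w) (ath W T w) := by
    unfold dur
    exact ⟨by linarith [hx0.1], by linarith [hξ'.2]⟩
  obtain ⟨T2, hT2, hT2e⟩ := intermediate_value_Icc hσT hcont hmem
  simp only at hT2e
  refine ⟨T2, hT2, h0, hT2.1, hal.mono (h0.trans hT2.1) hT2.2, hr, hs, by linarith, ?_⟩
  intro t ht
  have h1 := htube t ⟨ht.1, ht.2.trans hT2.2⟩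
  have h2 : |psiE N ξ (ath W t w - a₀) - U3D.psiE N (xfl W σ w) (ath W t w - ath W σ w)|
      ≤ 1 / 8 + 1 / 8 := by
    refine psiE_sub_le (by rwa [abs_sub_comm]) ?_
    exact abs_le.2 ⟨by linarith, by linarith⟩
  have h3 := abs_sub_le (xfl W t w) (psiE N ξ (ath W t w - a₀))
    (U3D.psiE N (xfl W σ w) (ath W t w - ath W σ w))
  linarith

/-- **the cell tube: trigger and first level time** -/
theorem cell_level (hW : ContinuousOn W (Ici 0)) (hδ : 0 < δ) (hN : 1 ≤ N)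
    (hN1 : Real.log (2 / δ) ≤ N - 1)
    (hN2 : 4 ≤ Real.log N) (hE : 1 / 4 ≤ E) (h0 : 0 ≤ σ) (hσT : σ ≤ T) (hal : Alive W w T)
    (hr : ups W σ w = r) (hs : δ ≤ sfl W σ w) (hξ : |xfl W σ w - ξ| ≤ 1 / 8)
    (ha1 : a₀ ≤ ath W σ w) (ha2 : ath W σ w ≤ a₀ + 1 / 8)
    (hT : ath W T w - a₀ = ξ + N + Real.log N - 2 + E)
    (htube : ∀ t ∈ Icc σ T, |xfl W t w - psiE N ξ (ath W t w - a₀)| ≤ 3 / 4) {l : ℝ}
    (hl1 : 16 * Real.exp 2 * (Real.log (2 / δ) + 6) ≤ l)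
    (hl2 : l ≤ 4 / Real.cosh 3 ^ 2 * (E - 1 / 4)) :
    ∃ T' ∈ Icc σ T, TrigAt W w r N δ σ T' ∧ ∃ t0 ∈ Icc T' T,
      ups W t0 w = r * Real.exp (-l) ∧ (∀ t, 0 ≤ t → t < t0 → r * Real.exp (-l) < ups W t w) ∧
      |xfl W t0 w| ≤ 3 ∧ 1 / Real.cosh 3 ≤ sfl W t0 w ∧ ups W T w ≤ r * Real.exp (-l) ∧
      ∀ τ ∈ Icc 0 T, ups W τ w = r * Real.exp (-l) → τ = t0 := by
  obtain ⟨T2, hT2, hext⟩ := extAt_of_cell hW hδ hN1 hN2 hE h0 hσT hal hr hs hξ ha1 ha2 hT htube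
  obtain ⟨T', hT', htr, t0, ht0, hu, hlt, hx, hsf⟩ :=
    U3D.ext_level hW hδ (by linarith) hN hN1 hN2 hl1 hl2 hext
  rw [mul_comm] at hu hlt
  have h0t0 : 0 ≤ t0 := (h0.trans hT'.1).trans ht0.1
  have ht0T : t0 ≤ T := ht0.2.trans hT2.2
  refine ⟨T', ⟨hT'.1, hT'.2.trans hT2.2⟩, htr, t0, ⟨ht0.1, ht0T⟩, hu, hlt, hx, hsf, ?_, ?_⟩
  · rw [← hu]
    exact ups_anti hW hal h0t0 ht0T
  · intro τ hτ hτe
    rcases lt_trichotomy τ t0 with h | h | h
    · exact absurd hτe (hlt τ hτ.1 h).ne'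
    · exact h
    · have := ups_strictAntiOn hW hal ⟨h0t0, ht0T⟩ hτ h
      simp only at this
      rw [hu, hτe] at this
      exact absurd this (lt_irrefl _)

/-- the statement X1 with the first level time in explicit form -/
def X1Stmt' : Prop := ∀ δ : ℝ, 0 < δ → ∃ l₁ : ℝ, 0 ≤ l₁ ∧ ∀ l₀ : ℝ, l₁ ≤ l₀ → ∃ E : ℝ, 1 ≤ E ∧
  ∃ N₀ : ℝ, 1 ≤ N₀ ∧ ∀ (W : ℝ → ℝ) (w : ℂ) (r N σ T a₀ ξ : ℝ), ContinuousOn W (Ici 0) → N₀ ≤ N →
    0 ≤ σ → σ ≤ T → Alive W w T → ups W σ w = r → δ ≤ sfl W σ w →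
    |xfl W σ w - ξ| ≤ 1 / 8 → a₀ ≤ ath W σ w → ath W σ w ≤ a₀ + 1 / 8 →
    ath W T w - a₀ = ξ + N + Real.log N - 2 + E →
    (∀ t ∈ Icc σ T, |xfl W t w - psiE N ξ (ath W t w - a₀)| ≤ 3 / 4) →
    ∃ T' ∈ Icc σ T, TrigAt W w r N δ σ T' ∧ ∃ t0 ∈ Icc T' T,
      ups W t0 w = r * Real.exp (-l₀) ∧
      (∀ t, 0 ≤ t → t < t0 → r * Real.exp (-l₀) < ups W t w) ∧
      |xfl W t0 w| ≤ 3 ∧ 1 / Real.cosh 3 ≤ sfl W t0 w ∧ ups W T w ≤ r * Real.exp (-l₀) ∧
      ∀ τ ∈ Icc 0 T, ups W τ w = r * Real.exp (-l₀) → τ = t0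

theorem x1' : X1Stmt' := by
  intro δ hδ
  refine ⟨max 0 (16 * Real.exp 2 * (Real.log (2 / δ) + 6)), le_max_left _ _, fun l₀ hl => ?_⟩
  have hl0 : 0 ≤ l₀ := (le_max_left _ _).trans hl
  have hl1 : 16 * Real.exp 2 * (Real.log (2 / δ) + 6) ≤ l₀ := (le_max_right _ _).trans hl
  have hc : 0 < Real.cosh 3 ^ 2 := by positivity
  have hE0 : 0 ≤ l₀ * Real.cosh 3 ^ 2 / 4 := by positivity
  refine ⟨l₀ * Real.cosh 3 ^ 2 / 4 + 1, by linarith,
    max (Real.exp 4) (|Real.log (2 / δ)| + 1), ?_, ?_⟩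
  · exact le_max_of_le_right (by linarith [abs_nonneg (Real.log (2 / δ))])
  intro W w r N σ T a₀ ξ hW hN h0 hσT hal hr hs hξ ha1 ha2 hT htube
  have hNe : Real.exp 4 ≤ N := (le_max_left _ _).trans hN
  have hNd : |Real.log (2 / δ)| + 1 ≤ N := (le_max_right _ _).trans hN
  have hN0 : 0 < N := (Real.exp_pos 4).trans_le hNe
  have hlN : 4 ≤ Real.log N := (Real.le_log_iff_exp_le hN0).2 hNe
  have hl2 : l₀ ≤ 4 / Real.cosh 3 ^ 2 * (l₀ * Real.cosh 3 ^ 2 / 4 + 1 - 1 / 4) := by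
    have e : 4 / Real.cosh 3 ^ 2 * (l₀ * Real.cosh 3 ^ 2 / 4 + 1 - 1 / 4)
        = l₀ + 3 / Real.cosh 3 ^ 2 := by
      field_simp
      ring
    rw [e]
    have : 0 ≤ 3 / Real.cosh 3 ^ 2 := by positivity
    linarith
  exact cell_level hW hδ (by linarith [abs_nonneg (Real.log (2 / δ))])
    (by linarith [le_abs_self (Real.log (2 / δ))]) hlN (by linarith) h0 hσT hal hr hs hξ ha1 ha2 hT htube hl1 hl2

/-- **X1** -/
theorem x1 : X1Stmt := by
  intro δ hδ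
  obtain ⟨l₁, -, h⟩ := x1' δ hδ
  refine ⟨l₁, fun l₀ hl => ?_⟩
  obtain ⟨E, hE, N₀, hN₀, h⟩ := h l₀ hl
  refine ⟨E, hE, N₀, hN₀, ?_⟩
  intro W w r N σ T a₀ ξ hW hN _ h0 hσT hal hr hs hξ ha1 ha2 hT htube
  obtain ⟨T', hT', htr, t0, ht0, -, -, hx, -, hle, huniq⟩ :=
    h W w r N σ T a₀ ξ hW hN h0 hσT hal hr hs hξ ha1 ha2 hT htube
  refine ⟨⟨T', hT'.2, htr⟩, hle, fun τ hτ hτe => ?_⟩
  rw [huniq τ ⟨h0.trans hτ.1, hτ.2⟩ hτe]
  exact hx

end Crest.Agent.R162.U3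
end

-- ▼ part R162/U3d

/-!
Row 162 (S0243), node U3, part d: exit-time facts, cells, and the trigger probability at a
radial level.
-/

set_option autoImplicit false

open MeasureTheory ProbabilityTheory Set
open scoped NNReal ENNReal Topology
open Crest.ProbabilityR.Loewner
open Crest.Agent.R162.FL Crest.Agent.R162.OP Crest.Agent.R162.OS Crest.Agent.R162.UB

namespace Crest.Agent.R162.U3

universe u

variable {Ω : Type u} {m : MeasurableSpace Ω} {P : Measure Ω} {Fl : Filtration ℝ≥0 m}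
  {B : ℝ≥0 → Ω → ℝ} {κ : ℝ} {w : ℂ}

theorem e1 (hB : IsBM Fl B P) : E1 Fl B κ w := by
  intro O δ σ T hO hδ hOδ hσ
  refine ⟨hit (stP κ B w) Oᶜ σ T, OPTr.hit_open_isST hB hδ hO hOδ hσ T, fun ω => le_hit,
    fun ω => hit_le_max, fun ω _ hin => ?_⟩
  obtain ⟨h1, h2, h3⟩ := OPTr.hit_open_spec (κ := κ) (w := w) hB hδ hO hOδ σ T hin
  refine ⟨fun t ht1 ht2 => ⟨(h1 t ht1 ht2.le).1, h2 t ht1 ht2⟩,
    (h1 _ le_hit le_rfl).1, (h1 _ le_hit le_rfl).2, fun h4 => ?_⟩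
  rcases h3 with h | h
  · exact h
  · exact absurd h4 h

theorem e3 (hB : IsBM Fl B P) : E3 Fl B κ w := fun _ _ hσ hS => OPTr.evST_alive_mem hB hS hσ

/-- countable disjoint cells -/
theorem cells {ι : Type*} [Countable ι] {A A' : ι → Set Ω} {q : ℝ≥0∞}
    (hAm : ∀ i, MeasurableSet (A i)) (hA'm : ∀ i, MeasurableSet (A' i))
    (hsub : ∀ i, A' i ⊆ A i) (hdisj : Pairwise (Function.onFun Disjoint A))
    (h : ∀ i, q * P (A i) ≤ P (A' i)) : q * P (⋃ i, A i) ≤ P (⋃ i, A' i) := by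
  have hd' : Pairwise (Function.onFun Disjoint A') := fun i j hij =>
    (hdisj hij).mono (hsub i) (hsub j)
  rw [measure_iUnion hdisj hAm, measure_iUnion hd' hA'm, ← ENNReal.tsum_mul_left]
  exact ENNReal.tsum_le_tsum h

section sig

open Rad

variable {gen' : (St → ℝ) → St → ℝ} {s₀ : ℝ} (D : OneP Fl P gen' s₀)

open Classical in
/-- `tau s` capped at `n` -/
noncomputable def sig (s : ℝ) (n : ℕ) (ω : Ω) : ℝ≥0 :=
  if ω ∈ D.alive s then min (D.tau s ω) n else n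

theorem sig_le (s : ℝ) (n : ℕ) (ω : Ω) : sig D s n ω ≤ n := by
  unfold sig; split_ifs
  · exact min_le_right _ _
  · exact le_rfl

theorem sig_eq {s : ℝ} {n : ℕ} {ω : Ω} (h : ω ∈ D.alive s) (hn : D.tau s ω ≤ n) :
    sig D s n ω = D.tau s ω := by
  unfold sig; rw [if_pos h, min_eq_left hn]

theorem sig_ST (s : ℝ) (n : ℕ) : IsST Fl (sig D s n) := by
  intro t
  have : {ω | sig D s n ω ≤ t} = (D.alive s ∩ {ω | D.tau s ω ≤ t}) ∪ {_ω | (n : ℝ≥0) ≤ t} := by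
    ext ω
    simp only [mem_ofPred_eq, mem_union, mem_inter_iff, sig]
    split_ifs with h
    · simp [h]
    · simp [h]
  rw [this]
  exact (D.tau_meas s t).union (MeasurableSet.const _)

theorem sig_EvST {s : ℝ} {A : Set Ω} (hA : D.Past s A) (n : ℕ) :
    EvST Fl (sig D s n) (A ∩ {ω | D.tau s ω ≤ n}) := by
  intro t
  have : A ∩ {ω | D.tau s ω ≤ n} ∩ {ω | sig D s n ω ≤ t} = A ∩ {ω | D.tau s ω ≤ min t n} := by
    ext ω
    simp only [mem_inter_iff, mem_ofPred_eq, le_min_iff]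
    constructor
    · rintro ⟨⟨h1, h2⟩, h3⟩
      rw [sig_eq D (hA.1 h1) h2] at h3
      exact ⟨h1, h3, h2⟩
    · rintro ⟨h1, h3, h2⟩
      refine ⟨⟨h1, h2⟩, ?_⟩
      rw [sig_eq D (hA.1 h1) h2]; exact h3
  rw [this]
  exact Fl.mono (min_le_left _ _) _ (hA.2 _)

end sig

/-- the cell `i/8 ≤ x < (i+1)/8`, `k/8 ≤ a < (k+1)/8` -/
def cell (i : ℤ) (k : ℕ) : Set (ℝ × ℝ × ℝ × ℝ) :=
  {q | ⌊8 * xq q⌋ = i ∧ ⌊8 * q.2.2.2⌋₊ = k}

theorem measurableSet_cell (i : ℤ) (k : ℕ) : MeasurableSet (cell i k) := by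
  have h1 : Measurable fun q : ℝ × ℝ × ℝ × ℝ => ⌊8 * xq q⌋ :=
    Int.measurable_floor.comp (measurable_xq.const_mul 8)
  have h2 : Measurable fun q : ℝ × ℝ × ℝ × ℝ => ⌊8 * q.2.2.2⌋₊ :=
    Nat.measurable_floor.comp (by fun_prop)
  exact (h1 (measurableSet_singleton i)).inter (h2 (measurableSet_singleton k))

theorem cell_spec {i : ℤ} {k : ℕ} {q : ℝ × ℝ × ℝ × ℝ} (hq : q ∈ cell i k) (ha : 0 ≤ q.2.2.2) :
    |xq q - (i : ℝ) / 8| ≤ 1 / 8 ∧ (k : ℝ) / 8 ≤ q.2.2.2 ∧ q.2.2.2 ≤ (k : ℝ) / 8 + 1 / 8 := by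
  obtain ⟨h1, h2⟩ := hq
  have h3 := Int.floor_le (8 * xq q)
  have h4 := Int.lt_floor_add_one (8 * xq q)
  have h5 := Nat.floor_le (show 0 ≤ 8 * q.2.2.2 by linarith)
  have h6 := Nat.lt_floor_add_one (8 * q.2.2.2)
  rw [h1] at h3 h4
  rw [h2] at h5 h6
  refine ⟨?_, by linarith, by linarith⟩
  rw [abs_le]
  constructor <;> linarith

/-- **Trigger probability at a stopping time.** -/
theorem ext_st (hM : OPM.{u}) [IsProbabilityMeasure P] (hB : IsBM Fl B P)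
    (hκ : 0 < κ) (hκ8 : κ < 8) (hw : 0 < w.im) {X N E : ℝ} (hX : 0 ≤ X) (hE : 0 < E)
    (hN : 1 ≤ N) (hNX : X + 3 ≤ Real.log N / 2)
    {σ : Ω → ℝ≥0} (hσ : IsST Fl σ) {T0 : ℝ≥0} (hT0 : ∀ ω, σ ω ≤ T0) {A : Set Ω}
    (hA : EvST Fl σ A)
    (hA1 : ∀ ω ∈ A, AliveP κ B w (σ ω) ω ∧ |xfl (driving κ B ω) (σ ω) w| ≤ X) :
    ∃ A' : Set Ω, A' ⊆ A ∧ MeasurableSet A' ∧
      ENNReal.ofReal (1 / 2 * Real.exp (-(lam κ (9 / 16) * (X + 1 + N + Real.log N - 2 + E)))) *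
        P A ≤ P A' ∧
      ∀ ω ∈ A', ∃ T : ℝ≥0, ∃ a0 ξ : ℝ, σ ω ≤ T ∧ AliveP κ B w T ω ∧
        |xfl (driving κ B ω) (σ ω) w - ξ| ≤ 1 / 8 ∧ a0 ≤ ath (driving κ B ω) (σ ω) w ∧
        ath (driving κ B ω) (σ ω) w ≤ a0 + 1 / 8 ∧
        ath (driving κ B ω) T w - a0 = ξ + N + Real.log N - 2 + E ∧
        ∀ t ∈ Icc (σ ω : ℝ) T,
          |xfl (driving κ B ω) t w - psiE N ξ (ath (driving κ B ω) t w - a0)| ≤ 3 / 4 := by
  set q : ℝ := 1 / 2 * Real.exp (-(lam κ (9 / 16) * (X + 1 + N + Real.log N - 2 + E))) with hq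
  have hL0 : 0 < lam κ (9 / 16) := lam_pos hκ (by norm_num)
  have hq0 : 0 ≤ q := by rw [hq]; positivity
  have hAm := measurableSet_of_evST hT0 hA
  -- the cells
  set C : ℤ × ℕ → Set Ω := fun p =>
    A ∩ {ω | AliveP κ B w (σ ω) ω ∧ stP κ B w (σ ω) ω ∈ cell p.1 p.2} with hC
  have hCev : ∀ p, EvST Fl σ (C p) := fun p =>
    evST_inter hA (e3 hB σ _ hσ (measurableSet_cell _ _))
  have hCm : ∀ p, MeasurableSet (C p) := fun p => measurableSet_of_evST hT0 (hCev p)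
  have hath : ∀ ω ∈ A, 0 ≤ (stP κ B w (σ ω) ω).2.2.2 := by
    intro ω hω
    have hF := flowFacts _ w _ (continuousOn_driving (κ := κ) hB ω) (hA1 ω hω).1
    exact hF.ath_nonneg _ ⟨NNReal.coe_nonneg _, le_rfl⟩
  have hU : A = ⋃ p, C p := by
    ext ω
    simp only [mem_iUnion]
    constructor
    · intro hω
      exact ⟨(⌊8 * xq (stP κ B w (σ ω) ω)⌋, ⌊8 * (stP κ B w (σ ω) ω).2.2.2⌋₊), hω,
        (hA1 ω hω).1, rfl, rfl⟩
    · rintro ⟨p, hp⟩; exact hp.1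
  have hdisj : Pairwise (Function.onFun Disjoint C) := by
    intro p p' hpp
    rw [Function.onFun, Set.disjoint_left]
    intro ω h h'
    apply hpp
    have e1 := h.2.2
    have e2 := h'.2.2
    exact Prod.ext (e1.1.symm.trans e2.1) (e1.2.symm.trans e2.2)
  have hex : ∀ p : ℤ × ℕ, ∃ A' : Set Ω, A' ⊆ C p ∧ MeasurableSet A' ∧
      ENNReal.ofReal q * P (C p) ≤ P A' ∧
      ∀ ω ∈ A', ∃ T : ℝ≥0, σ ω ≤ T ∧ AliveP κ B w T ω ∧
        ath (driving κ B ω) T w - (p.2 : ℝ) / 8 = (p.1 : ℝ) / 8 + N + Real.log N - 2 + E ∧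
        ∀ t ∈ Icc (σ ω : ℝ) T, |xfl (driving κ B ω) t w -
          psiE N ((p.1 : ℝ) / 8) (ath (driving κ B ω) t w - (p.2 : ℝ) / 8)| ≤ 3 / 4 := by
    intro p
    by_cases hne : (C p).Nonempty
    · obtain ⟨ω₀, hω₀⟩ := hne
      have h4 := cell_spec hω₀.2.2 (hath ω₀ hω₀.1)
      have h5 : |xq (stP κ B w (σ ω₀) ω₀)| ≤ X := (hA1 ω₀ hω₀.1).2
      have h6 : |(p.1 : ℝ) / 8| ≤ X + 1 / 8 := by
        have := h4.1
        rw [abs_le] at this h5 ⊢
        constructor <;> linarith [this.1, this.2, h5.1, h5.2]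
      obtain ⟨A', hA'1, hA'2, hA'3, hA'4⟩ := chain hM flowFacts hB hκ hκ8 hw (e1 hB) (e3 hB)
        (N := N) (ξ := (p.1 : ℝ) / 8) (a0 := (p.2 : ℝ) / 8) (E := E) hN (by linarith)
        (by have := (abs_le.1 h6).1; linarith) (by positivity) hE hσ hT0 (hCev p) (by
          intro ω hω
          exact ⟨hω.2.1, cell_spec hω.2.2 (hath ω hω.1)⟩)
      refine ⟨A', hA'1, hA'2, ?_, hA'4⟩
      have h7 : q ≤ 1 / 2 * Real.exp (-(lam κ (9 / 16) *
          ((p.1 : ℝ) / 8 + N + Real.log N - 2 + E))) := by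
        rw [hq]
        apply mul_le_mul_of_nonneg_left _ (by norm_num)
        apply Real.exp_le_exp.2
        have := (abs_le.1 h6).2
        apply neg_le_neg
        apply mul_le_mul_of_nonneg_left _ hL0.le
        linarith
      have h8 : q * P.real (C p) ≤ P.real A' :=
        (mul_le_mul_of_nonneg_right h7 measureReal_nonneg).trans hA'3
      calc ENNReal.ofReal q * P (C p)
          = ENNReal.ofReal (q * P.real (C p)) := by
            rw [measureReal_def, ENNReal.ofReal_mul (p := q) hq0,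
              ENNReal.ofReal_toReal (measure_ne_top _ _)]
        _ ≤ ENNReal.ofReal (P.real A') := ENNReal.ofReal_le_ofReal h8
        _ = P A' := by rw [measureReal_def, ENNReal.ofReal_toReal (measure_ne_top _ _)]
    · rw [not_nonempty_iff_eq_empty] at hne
      refine ⟨∅, empty_subset _, MeasurableSet.empty, ?_, fun ω hω => absurd hω (notMem_empty _)⟩
      rw [hne]; simp
  choose A' hA'1 hA'2 hA'3 hA'4 using hex
  refine ⟨⋃ p, A' p, ?_, MeasurableSet.iUnion hA'2, ?_, ?_⟩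
  · exact iUnion_subset fun p => (hA'1 p).trans inter_subset_left
  · conv_lhs => rw [hU]
    exact cells hCm hA'2 hA'1 hdisj hA'3
  · intro ω hω
    obtain ⟨p, hp⟩ := mem_iUnion.1 hω
    obtain ⟨T, hT1, hT2, hT3, hT4⟩ := hA'4 p ω hp
    have hω' := hA'1 p hp
    have h4 := cell_spec hω'.2.2 (hath ω hω'.1)
    exact ⟨T, (p.2 : ℝ) / 8, (p.1 : ℝ) / 8, hT1, hT2, h4.1, h4.2.1, h4.2.2, hT3, hT4⟩

end Crest.Agent.R162.U3
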