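import Mathlib
import Crest.Agent.R162.FLDef
import Crest.Agent.R162.FLC2
import Crest.Agent.R162.FL1
import Crest.Agent.R162.FL1b
import Crest.Agent.R162.KB1
import Crest.Agent.R162.U5a
import Crest.Agent.R162.U5c

-- ▼ part R162/U5b0
section

/-!
Row 162, node U5b: elementary calculus lemmas on `[0,T]`.
-/

set_option autoImplicit false

open Set MeasureTheory Filter Topology

namespace Crest.Agent.R162.U5b

/-- continuous extension from `[0,T]` -/
noncomputable def ext {E : Type*} (T : ℝ) (φ : ℝ → E) : ℝ → E := fun s => φ (max 0 (min s T))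

theorem ext_eq {E : Type*} {T : ℝ} {φ : ℝ → E} {s : ℝ} (hs : s ∈ Icc (0:ℝ) T) :
    ext T φ s = φ s := by
  unfold ext
  rw [min_eq_left hs.2, max_eq_right hs.1]

theorem continuous_ext {E : Type*} [TopologicalSpace E] {T : ℝ} (hT : 0 ≤ T) {φ : ℝ → E}
    (h : ContinuousOn φ (Icc 0 T)) : Continuous (ext T φ) := by
  unfold ext
  have h1 : Continuous fun s : ℝ => max 0 (min s T) := by fun_prop
  have h2 : ∀ s : ℝ, max 0 (min s T) ∈ Icc (0:ℝ) T := fun s =>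
    ⟨le_max_left _ _, max_le hT (min_le_right _ _)⟩
  exact h.comp_continuous h1 h2

theorem integral_ext {E : Type*} [NormedAddCommGroup E] [NormedSpace ℝ E] {T : ℝ} {φ : ℝ → E}
    {t : ℝ} (ht : t ∈ Icc (0:ℝ) T) :
    ∫ s in (0:ℝ)..t, ext T φ s = ∫ s in (0:ℝ)..t, φ s := by
  apply intervalIntegral.integral_congr
  intro s hs
  rw [uIcc_of_le ht.1] at hs
  exact ext_eq ⟨hs.1, hs.2.trans ht.2⟩

theorem hasDerivWithinAt_int {E : Type*} [NormedAddCommGroup E] [NormedSpace ℝ E] [CompleteSpace E]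
    {T : ℝ} {φ : ℝ → E} (h : ContinuousOn φ (Icc 0 T)) {t : ℝ} (ht : t ∈ Icc (0:ℝ) T) :
    HasDerivWithinAt (fun u => ∫ s in (0:ℝ)..u, φ s) (φ t) (Icc 0 T) t := by
  have hT : 0 ≤ T := ht.1.trans ht.2
  have h1 := (continuous_ext hT h).integral_hasStrictDerivAt 0 t
  have h2 : HasDerivWithinAt (fun u => ∫ s in (0:ℝ)..u, ext T φ s) (ext T φ t) (Icc 0 T) t :=
    h1.hasDerivAt.hasDerivWithinAt
  rw [ext_eq ht] at h2
  exact h2.congr (fun u hu => (integral_ext hu).symm) (integral_ext ht).symm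


theorem le_of_deriv_nonneg {T : ℝ} {F F' : ℝ → ℝ}
    (h : ∀ t ∈ Icc (0:ℝ) T, HasDerivWithinAt F (F' t) (Icc 0 T) t)
    (hn : ∀ t ∈ Icc (0:ℝ) T, 0 ≤ F' t) {a b : ℝ} (ha : a ∈ Icc (0:ℝ) T) (hb : b ∈ Icc (0:ℝ) T)
    (hab : a ≤ b) : F a ≤ F b := by
  have hm : MonotoneOn F (Icc 0 T) := by
    apply monotoneOn_of_deriv_nonneg (convex_Icc 0 T)
    · exact fun t ht => (h t ht).continuousWithinAt
    · intro t ht
      rw [interior_Icc] at ht
      exact ((h t (Ioo_subset_Icc_self ht)).hasDerivAt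
        (Icc_mem_nhds ht.1 ht.2)).differentiableAt.differentiableWithinAt
    · intro t ht
      rw [interior_Icc] at ht
      rw [((h t (Ioo_subset_Icc_self ht)).hasDerivAt (Icc_mem_nhds ht.1 ht.2)).deriv]
      exact hn t (Ioo_subset_Icc_self ht)
  exact hm ha hb hab

theorem eq_of_deriv_zero {T : ℝ} {F : ℝ → ℝ}
    (h : ∀ t ∈ Icc (0:ℝ) T, HasDerivWithinAt F 0 (Icc 0 T) t) {b : ℝ} (hb : b ∈ Icc (0:ℝ) T) :
    F b = F 0 := by
  have h0 : (0:ℝ) ∈ Icc (0:ℝ) T := ⟨le_rfl, hb.1.trans hb.2⟩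
  apply le_antisymm
  · have h2 : ∀ t ∈ Icc (0:ℝ) T, HasDerivWithinAt (-F) ((fun _ => 0) t) (Icc 0 T) t := by
      intro t ht
      have := (h t ht).neg
      rwa [neg_zero] at this
    have := le_of_deriv_nonneg h2 (fun _ _ => le_rfl) h0 hb hb.1
    simp only [Pi.neg_apply] at this
    linarith
  · exact le_of_deriv_nonneg h (fun _ _ => le_rfl) h0 hb hb.1


end Crest.Agent.R162.U5b
end

-- ▼ part R162/U5b1
section

/-!
Row 162, node U5b: bounds for the orbit of one point in the tube (input H1).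
-/

set_option autoImplicit false

open Set MeasureTheory Filter Topology

namespace Crest.Agent.R162.U5b

open Crest.Agent.R162.FL

variable {W : ℝ → ℝ} {z0 : ℂ} {T : ℝ} {g : ℝ → ℂ}

theorem flow_cont (hg : IsFlow W z0 T g) : ContinuousOn g (Icc 0 T) :=
  fun s hs => (hg.deriv s hs).continuousWithinAt

theorem Z_cont (hg : IsFlow W z0 T g) (hW : ContinuousOn W (Icc 0 T)) :
    ContinuousOn (fun s => g s - (W s : ℂ)) (Icc 0 T) :=
  (flow_cont hg).sub (Complex.continuous_ofReal.comp_continuousOn hW)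

theorem Z_im (s : ℝ) : (g s - (W s : ℂ)).im = (g s).im := by simp

theorem Z_ne (hg : IsFlow W z0 T g) {s : ℝ} (hs : s ∈ Icc (0:ℝ) T) : g s - (W s : ℂ) ≠ 0 := by
  intro h
  have h1 := hg.im_pos s hs
  rw [← Z_im (W := W), h] at h1
  simp at h1

theorem Z_norm_pos (hg : IsFlow W z0 T g) {s : ℝ} (hs : s ∈ Icc (0:ℝ) T) :
    0 < ‖g s - (W s : ℂ)‖ := norm_pos_iff.2 (Z_ne hg hs)

/-- the K-time -/
noncomputable def ath (W : ℝ → ℝ) (g : ℝ → ℂ) (t : ℝ) : ℝ :=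
  ∫ s in (0:ℝ)..t, 1 / ‖g s - (W s : ℂ)‖ ^ 2

theorem inv_sq_cont (hg : IsFlow W z0 T g) (hW : ContinuousOn W (Icc 0 T)) :
    ContinuousOn (fun s => 1 / ‖g s - (W s : ℂ)‖ ^ 2) (Icc 0 T) := by
  apply continuousOn_const.div ((Z_cont hg hW).norm.pow 2)
  intro s hs
  exact (pow_pos (Z_norm_pos hg hs) 2).ne'

theorem inv_cont (hg : IsFlow W z0 T g) (hW : ContinuousOn W (Icc 0 T)) :
    ContinuousOn (fun s => 1 / ‖g s - (W s : ℂ)‖) (Icc 0 T) := by
  apply continuousOn_const.div (Z_cont hg hW).norm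
  intro s hs
  exact (Z_norm_pos hg hs).ne'

theorem hasDeriv_ath (hg : IsFlow W z0 T g) (hW : ContinuousOn W (Icc 0 T)) {t : ℝ}
    (ht : t ∈ Icc (0:ℝ) T) :
    HasDerivWithinAt (ath W g) (1 / ‖g t - (W t : ℂ)‖ ^ 2) (Icc 0 T) t :=
  hasDerivWithinAt_int (inv_sq_cont hg hW) ht

theorem ath_zero : ath W g 0 = 0 := by simp [ath]

theorem ath_nonneg {t : ℝ} (ht : 0 ≤ t) : 0 ≤ ath W g t := by
  unfold ath
  apply intervalIntegral.integral_nonneg ht
  intro s _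
  positivity

theorem im_deriv (hg : IsFlow W z0 T g) {t : ℝ} (ht : t ∈ Icc (0:ℝ) T) :
    HasDerivWithinAt (fun s => (g s).im) (-2 * (g t).im * (1 / ‖g t - (W t : ℂ)‖ ^ 2))
      (Icc 0 T) t := by
  have h1 := Complex.imCLM.hasFDerivAt.comp_hasDerivWithinAt t (hg.deriv t ht)
  have h2 : Complex.imCLM (2 / (g t - (W t : ℂ))) = -2 * (g t).im * (1 / ‖g t - (W t : ℂ)‖ ^ 2) := by
    rw [Complex.imCLM_apply, Complex.div_im, ← Complex.normSq_eq_norm_sq]
    simp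
    ring
  rw [h2] at h1
  exact h1

theorem im_eq (hg : IsFlow W z0 T g) (hW : ContinuousOn W (Icc 0 T)) {t : ℝ}
    (ht : t ∈ Icc (0:ℝ) T) : (g t).im = z0.im * Real.exp (-2 * ath W g t) := by
  have h : ∀ t ∈ Icc (0:ℝ) T,
      HasDerivWithinAt (fun s => (g s).im * Real.exp (2 * ath W g s)) 0 (Icc 0 T) t := by
    intro t ht
    have h1 := im_deriv hg ht
    have h2 := ((hasDeriv_ath hg hW ht).const_mul 2).exp
    have h3 := h1.mul h2
    have h4 : -2 * (g t).im * (1 / ‖g t - (W t : ℂ)‖ ^ 2) * Real.exp (2 * ath W g t) +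
        (g t).im * (Real.exp (2 * ath W g t) * (2 * (1 / ‖g t - (W t : ℂ)‖ ^ 2))) = 0 := by ring
    rw [h4] at h3
    exact h3
  have h5 := eq_of_deriv_zero h ht
  simp only [ath_zero, hg.init, mul_zero, Real.exp_zero, mul_one] at h5
  rw [← h5, mul_assoc, ← Real.exp_add]
  simp

theorem norm_le_im_mul (z : ℂ) (hz : 0 < z.im) :
    ‖z‖ ≤ z.im * Real.exp |Real.arsinh (z.re / z.im)| := by
  have h1 : ‖z‖ = z.im * Real.cosh (Real.arsinh (z.re / z.im)) := by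
    have h2 : z.re * z.re + z.im * z.im = z.im ^ 2 * (1 + (z.re / z.im) ^ 2) := by
      field_simp
      ring
    rw [Real.cosh_arsinh, Complex.norm_def, Complex.normSq_apply, h2, Real.sqrt_mul (sq_nonneg _),
      Real.sqrt_sq hz.le]
  rw [h1]
  apply mul_le_mul_of_nonneg_left _ hz.le
  rw [← Real.cosh_abs, Real.cosh_eq]
  have : Real.exp (-|Real.arsinh (z.re / z.im)|) ≤ Real.exp |Real.arsinh (z.re / z.im)| :=
    Real.exp_le_exp.2 (by linarith [abs_nonneg (Real.arsinh (z.re / z.im))])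
  linarith

section H1

variable {X1 : ℝ}

theorem norm_Z_le (hg : IsFlow W z0 T g) (hW : ContinuousOn W (Icc 0 T)) (h0 : z0.im = 1)
    (H1 : ∀ t ∈ Icc (0:ℝ) T,
      |Real.arsinh ((g t - (W t : ℂ)).re / (g t - (W t : ℂ)).im)| ≤ X1 + ath W g t)
    {t : ℝ} (ht : t ∈ Icc (0:ℝ) T) :
    ‖g t - (W t : ℂ)‖ ≤ Real.exp X1 * Real.exp (-ath W g t) := by
  have h1 := norm_le_im_mul (g t - (W t : ℂ)) (by rw [Z_im]; exact hg.im_pos t ht)
  refine h1.trans ?_
  rw [Z_im, im_eq hg hW ht, h0, one_mul]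
  calc Real.exp (-2 * ath W g t) * Real.exp _ ≤
      Real.exp (-2 * ath W g t) * Real.exp (X1 + ath W g t) := by
        apply mul_le_mul_of_nonneg_left _ (Real.exp_pos _).le
        have := H1 t ht
        rw [Z_im, im_eq hg hW ht, h0, one_mul] at this
        exact Real.exp_le_exp.2 this
    _ = Real.exp X1 * Real.exp (-ath W g t) := by
        rw [← Real.exp_add, ← Real.exp_add]; congr 1; ring

theorem int_inv_le (hg : IsFlow W z0 T g) (hW : ContinuousOn W (Icc 0 T)) (h0 : z0.im = 1)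
    (H1 : ∀ t ∈ Icc (0:ℝ) T,
      |Real.arsinh ((g t - (W t : ℂ)).re / (g t - (W t : ℂ)).im)| ≤ X1 + ath W g t)
    {t : ℝ} (ht : t ∈ Icc (0:ℝ) T) :
    ∫ s in (0:ℝ)..t, 1 / ‖g s - (W s : ℂ)‖ ≤ Real.exp X1 * (1 - Real.exp (-ath W g t)) := by
  have h : ∀ t ∈ Icc (0:ℝ) T, HasDerivWithinAt
      (fun t => Real.exp X1 * (1 - Real.exp (-ath W g t)) - ∫ s in (0:ℝ)..t, 1 / ‖g s - (W s : ℂ)‖)
      (Real.exp X1 * (-(Real.exp (-ath W g t) * (-(1 / ‖g t - (W t : ℂ)‖ ^ 2)))) -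
        1 / ‖g t - (W t : ℂ)‖) (Icc 0 T) t := by
    intro t ht
    exact ((((hasDeriv_ath hg hW ht).fun_neg.exp).const_sub 1).const_mul _).sub
      (hasDerivWithinAt_int (inv_cont hg hW) ht)
  have hn : ∀ t ∈ Icc (0:ℝ) T, 0 ≤ Real.exp X1 * (-(Real.exp (-ath W g t) *
      (-(1 / ‖g t - (W t : ℂ)‖ ^ 2)))) - 1 / ‖g t - (W t : ℂ)‖ := by
    intro t ht
    have hp := Z_norm_pos hg ht
    have h1 := norm_Z_le hg hW h0 H1 ht
    have h2 : 1 / ‖g t - (W t : ℂ)‖ = ‖g t - (W t : ℂ)‖ * (1 / ‖g t - (W t : ℂ)‖ ^ 2) := by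
      field_simp
    have h3 : Real.exp X1 * (-(Real.exp (-ath W g t) * (-(1 / ‖g t - (W t : ℂ)‖ ^ 2)))) =
        (Real.exp X1 * Real.exp (-ath W g t)) * (1 / ‖g t - (W t : ℂ)‖ ^ 2) := by ring
    rw [h3, h2, sub_nonneg]
    exact mul_le_mul_of_nonneg_right h1 (by positivity)
  have h0T : (0:ℝ) ∈ Icc (0:ℝ) T := ⟨le_rfl, ht.1.trans ht.2⟩
  have h6 := le_of_deriv_nonneg h hn h0T ht ht.1
  simp only [ath_zero, intervalIntegral.integral_same] at h6
  simp at h6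
  have h7 : ∫ s in (0:ℝ)..t, 1 / ‖g s - (W s : ℂ)‖ = ∫ s in (0:ℝ)..t, ‖g s - (W s : ℂ)‖⁻¹ := by
    simp
  rw [h7]
  exact h6

theorem time_le (hg : IsFlow W z0 T g) (hW : ContinuousOn W (Icc 0 T)) (h0 : z0.im = 1)
    (H1 : ∀ t ∈ Icc (0:ℝ) T,
      |Real.arsinh ((g t - (W t : ℂ)).re / (g t - (W t : ℂ)).im)| ≤ X1 + ath W g t)
    {t : ℝ} (ht : t ∈ Icc (0:ℝ) T) :
    t ≤ Real.exp X1 ^ 2 / 2 := by
  have h : ∀ t ∈ Icc (0:ℝ) T, HasDerivWithinAt
      (fun t => Real.exp X1 ^ 2 / 2 * (1 - Real.exp (2 * (-ath W g t))) - t)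
      (Real.exp X1 ^ 2 / 2 * (-(Real.exp (2 * (-ath W g t)) *
        (2 * (-(1 / ‖g t - (W t : ℂ)‖ ^ 2))))) - 1) (Icc 0 T) t := by
    intro t ht
    exact (((((hasDeriv_ath hg hW ht).fun_neg.const_mul 2).exp).const_sub 1).const_mul _).sub
      (hasDerivWithinAt_id t _)
  have hn : ∀ t ∈ Icc (0:ℝ) T, 0 ≤ Real.exp X1 ^ 2 / 2 * (-(Real.exp (2 * (-ath W g t)) *
      (2 * (-(1 / ‖g t - (W t : ℂ)‖ ^ 2))))) - 1 := by
    intro t ht
    have hp := Z_norm_pos hg ht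
    have h1 := norm_Z_le hg hW h0 H1 ht
    have h2 : (1:ℝ) = ‖g t - (W t : ℂ)‖ ^ 2 * (1 / ‖g t - (W t : ℂ)‖ ^ 2) := by
      field_simp
    have h3 : Real.exp X1 ^ 2 / 2 * (-(Real.exp (2 * (-ath W g t)) *
        (2 * (-(1 / ‖g t - (W t : ℂ)‖ ^ 2))))) =
        (Real.exp X1 * Real.exp (-ath W g t)) ^ 2 * (1 / ‖g t - (W t : ℂ)‖ ^ 2) := by
      have : Real.exp (2 * (-ath W g t)) = Real.exp (-ath W g t) ^ 2 := by
        rw [← Real.exp_nat_mul]; norm_num
      rw [this]; ring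
    rw [h3, sub_nonneg]
    nth_rewrite 1 [h2]
    exact mul_le_mul_of_nonneg_right (pow_le_pow_left₀ hp.le h1 2) (by positivity)
  have h0T : (0:ℝ) ∈ Icc (0:ℝ) T := ⟨le_rfl, ht.1.trans ht.2⟩
  have h6 := le_of_deriv_nonneg h hn h0T ht ht.1
  simp only [ath_zero] at h6
  simp at h6
  have h8 : 0 < Real.exp (-(2 * ath W g t)) := Real.exp_pos _
  have h9 : 0 < Real.exp X1 ^ 2 / 2 := by positivity
  nlinarith

theorem norm_g_sub_le (hg : IsFlow W z0 T g) (hW : ContinuousOn W (Icc 0 T)) (h0 : z0.im = 1)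
    (H1 : ∀ t ∈ Icc (0:ℝ) T,
      |Real.arsinh ((g t - (W t : ℂ)).re / (g t - (W t : ℂ)).im)| ≤ X1 + ath W g t)
    {t : ℝ} (ht : t ∈ Icc (0:ℝ) T) :
    ‖g t - z0‖ ≤ 2 * Real.exp X1 := by
  have hsub : Icc (0:ℝ) t ⊆ Icc 0 T := Icc_subset_Icc_right ht.2
  have hc : ContinuousOn (fun s => 2 / (g s - (W s : ℂ))) (Icc 0 t) := by
    apply continuousOn_const.div ((Z_cont hg hW).mono hsub)
    intro s hs
    exact Z_ne hg (hsub hs)
  have h1 : ∫ s in (0:ℝ)..t, 2 / (g s - (W s : ℂ)) = g t - g 0 := by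
    apply intervalIntegral.integral_eq_sub_of_hasDerivAt_of_le ht.1 ((flow_cont hg).mono hsub)
    · intro s hs
      have hs' : s ∈ Icc (0:ℝ) T := hsub (Ioo_subset_Icc_self hs)
      exact (hg.deriv s hs').hasDerivAt (Icc_mem_nhds hs.1 (hs.2.trans_le ht.2))
    · exact hc.intervalIntegrable_of_Icc ht.1
  rw [hg.init] at h1
  rw [← h1]
  have h2 : ‖∫ s in (0:ℝ)..t, 2 / (g s - (W s : ℂ))‖ ≤
      ∫ s in (0:ℝ)..t, 2 * (1 / ‖g s - (W s : ℂ)‖) := by
    apply intervalIntegral.norm_integral_le_of_norm_le ht.1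
    · refine ae_of_all _ fun s _ => ?_
      rw [norm_div]; simp [div_eq_mul_inv]
    · apply ContinuousOn.intervalIntegrable_of_Icc ht.1
      exact continuousOn_const.mul ((inv_cont hg hW).mono hsub)
  refine h2.trans ?_
  rw [intervalIntegral.integral_const_mul]
  have h3 := int_inv_le hg hW h0 H1 ht
  have h4 : 0 < Real.exp (-ath W g t) := Real.exp_pos _
  have h5 : 0 < Real.exp X1 := Real.exp_pos _
  nlinarith

theorem norm_z0_le (hg : IsFlow W z0 T g) (hW : ContinuousOn W (Icc 0 T)) (h0 : z0.im = 1)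
    (hT : 0 ≤ T) (hW0 : W 0 = 0)
    (H1 : ∀ t ∈ Icc (0:ℝ) T,
      |Real.arsinh ((g t - (W t : ℂ)).re / (g t - (W t : ℂ)).im)| ≤ X1 + ath W g t) :
    ‖z0‖ ≤ Real.exp X1 := by
  have h1 := norm_Z_le hg hW h0 H1 (t := 0) ⟨le_rfl, hT⟩
  rw [hg.init, hW0, ath_zero] at h1
  simpa using h1

theorem norm_W_le (hg : IsFlow W z0 T g) (hW : ContinuousOn W (Icc 0 T)) (h0 : z0.im = 1)
    (hT : 0 ≤ T) (hW0 : W 0 = 0)
    (H1 : ∀ t ∈ Icc (0:ℝ) T,
      |Real.arsinh ((g t - (W t : ℂ)).re / (g t - (W t : ℂ)).im)| ≤ X1 + ath W g t)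
    {t : ℝ} (ht : t ∈ Icc (0:ℝ) T) :
    |W t| ≤ 4 * Real.exp X1 := by
  have h1 := norm_Z_le hg hW h0 H1 ht
  have h2 := norm_g_sub_le hg hW h0 H1 ht
  have h3 := norm_z0_le hg hW h0 hT hW0 H1
  have h4 : Real.exp (-ath W g t) ≤ 1 := by
    rw [Real.exp_le_one_iff]
    have := ath_nonneg (W := W) (g := g) ht.1
    linarith
  have h5 : (W t : ℂ) = (g t - z0) + z0 - (g t - (W t : ℂ)) := by ring
  have h6 : ‖(W t : ℂ)‖ ≤ ‖g t - z0‖ + ‖z0‖ + ‖g t - (W t : ℂ)‖ := by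
    calc ‖(W t : ℂ)‖ = ‖(g t - z0) + z0 - (g t - (W t : ℂ))‖ := by rw [← h5]
      _ ≤ ‖(g t - z0) + z0‖ + ‖g t - (W t : ℂ)‖ := norm_sub_le _ _
      _ ≤ ‖g t - z0‖ + ‖z0‖ + ‖g t - (W t : ℂ)‖ := by
          have := norm_add_le (g t - z0) z0
          linarith
  rw [Complex.norm_real, Real.norm_eq_abs] at h6
  have h7 : 0 < Real.exp X1 := Real.exp_pos _
  have h8 : Real.exp X1 * Real.exp (-ath W g t) ≤ Real.exp X1 := by nlinarith
  linarith

end H1

end Crest.Agent.R162.U5b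
end

-- ▼ part R162/U5b2
section

/-!
Row 162, node U5b: the continuous branch of the logarithm of `f_T(iy) - z0`.
-/

set_option autoImplicit false

open Set MeasureTheory Filter Topology

namespace Crest.Agent.R162.U5b

open Crest.Agent.R162.FL Crest.Agent.R162.FLC

variable {W : ℝ → ℝ} {z0 : ℂ} {T : ℝ}

/-- the log-branch -/
noncomputable def Jf (W : ℝ → ℝ) (T : ℝ) (z0 ζ : ℂ) : ℂ :=
  ∫ r in (0:ℝ)..T, 2 / (Zfl W r (ffl W T ζ) * Zfl W r z0)

theorem contAt_Zfl_ffl (hW : ContinuousOn W (Ici 0)) (hT : 0 ≤ T) {s : ℝ} (hs : s ∈ Icc (0:ℝ) T)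
    {ζ : ℂ} (hζ : 0 < ζ.im) : ContinuousAt (fun z => Zfl W s (ffl W T z)) ζ := by
  have h1 : ∀ᶠ z in 𝓝 ζ, ζ.im / 2 < z.im :=
    (Complex.continuous_im.tendsto ζ).eventually (lt_mem_nhds (by linarith))
  have h2 : Tendsto (fun z : ℂ => ‖z - ζ‖ * Real.exp (2 / (ζ.im / 2 * ζ.im) * T)) (𝓝 ζ) (𝓝 0) := by
    have : Continuous fun z : ℂ => ‖z - ζ‖ * Real.exp (2 / (ζ.im / 2 * ζ.im) * T) := by fun_prop
    have h3 := this.tendsto ζ
    simpa using h3
  unfold ContinuousAt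
  rw [tendsto_iff_norm_sub_tendsto_zero]
  apply squeeze_zero' (Eventually.of_forall fun _ => norm_nonneg _) _ h2
  filter_upwards [h1] with z hz
  have hz0 : 0 < z.im := by linarith
  have h4 : Zfl W s (ffl W T z) - Zfl W s (ffl W T ζ) = gfl W s (ffl W T z) - gfl W s (ffl W T ζ) := by
    simp [Zfl]
  rw [h4]
  refine (norm_gfl_ffl_sub_gfl_ffl_le hW hT hz0 hζ hs).trans ?_
  apply mul_le_mul_of_nonneg_left _ (norm_nonneg _)
  apply Real.exp_le_exp.2
  apply mul_le_mul_of_nonneg_right _ hT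
  apply div_le_div_of_nonneg_left (by norm_num) (by positivity)
  exact mul_le_mul_of_nonneg_right hz.le hζ.le

theorem norm_ge_im {z : ℂ} : z.im ≤ ‖z‖ := (le_abs_self _).trans (Complex.abs_im_le_norm z)

theorem contAt_Jf (hW : ContinuousOn W (Ici 0)) (h0 : Alive W z0 T) {ζ : ℂ} (hζ : 0 < ζ.im) :
    ContinuousAt (Jf W T z0) ζ := by
  have hT := h0.1
  unfold Jf
  have hlow : ∀ r ∈ Icc (0:ℝ) T, (gfl W T z0).im ≤ ‖Zfl W r z0‖ := fun r hr => by
    have h1 := im_anti h0 hr.1 hr.2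
    have h2 := norm_ge_im (z := Zfl W r z0)
    rw [FL.Zfl_im] at h2
    linarith
  have hp : 0 < (gfl W T z0).im := gfl_im_pos h0
  apply intervalIntegral.continuousAt_of_dominated_interval
    (bound := fun _ => 2 / (ζ.im / 2 * (gfl W T z0).im))
  · have h1 : ∀ᶠ z in 𝓝 ζ, 0 < z.im :=
      (Complex.continuous_im.tendsto ζ).eventually (lt_mem_nhds hζ)
    filter_upwards [h1] with z hz
    have hc : ContinuousOn (fun r => 2 / (Zfl W r (ffl W T z) * Zfl W r z0)) (Icc 0 T) := by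
      apply continuousOn_const.div
      · exact (continuousOn_Zfl hW (ffl_alive hW hT hz)).mul (continuousOn_Zfl hW h0)
      · intro r hr
        exact mul_ne_zero (FL.Zfl_ne_zero ((ffl_alive hW hT hz).mono hr.1 hr.2))
          (FL.Zfl_ne_zero (h0.mono hr.1 hr.2))
    rw [uIoc_of_le hT]
    exact (hc.mono Ioc_subset_Icc_self).aestronglyMeasurable measurableSet_Ioc
  · have h1 : ∀ᶠ z in 𝓝 ζ, ζ.im / 2 < z.im :=
      (Complex.continuous_im.tendsto ζ).eventually (lt_mem_nhds (by linarith))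
    filter_upwards [h1] with z hz
    refine ae_of_all _ fun r hr => ?_
    rw [uIoc_of_le hT] at hr
    have hr' : r ∈ Icc (0:ℝ) T := Ioc_subset_Icc_self hr
    have hz0 : 0 < z.im := by linarith
    rw [norm_div, norm_mul, Complex.norm_ofNat]
    have h3 := im_le_Zfl_ffl hW hT hz0 hr'
    have h4 := norm_ge_im (z := Zfl W r (ffl W T z))
    apply div_le_div_of_nonneg_left (by norm_num) (by positivity)
    apply mul_le_mul (by linarith) (hlow r hr') hp.le (norm_nonneg _)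
  · exact intervalIntegrable_const
  · refine ae_of_all _ fun r hr => ?_
    rw [uIoc_of_le hT] at hr
    have hr' : r ∈ Icc (0:ℝ) T := Ioc_subset_Icc_self hr
    apply continuousAt_const.div
    · exact (contAt_Zfl_ffl hW hT hr' hζ).mul continuousAt_const
    · exact mul_ne_zero (FL.Zfl_ne_zero ((ffl_alive hW hT hζ).mono hr'.1 hr'.2))
        (FL.Zfl_ne_zero (h0.mono hr'.1 hr'.2))

/-- the basic identity -/
theorem ffl_sub_z0 (hW : ContinuousOn W (Ici 0)) (h0 : Alive W z0 T) {ζ : ℂ} (hζ : 0 < ζ.im) :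
    ffl W T ζ - z0 = (ζ - Zfl W T z0) * Complex.exp (Jf W T z0 ζ) := by
  have hT := h0.1
  have h1 := ffl_sub hW hT hζ (FL.Zfl_im_pos h0)
  rw [ffl_Zfl hW h0] at h1
  exact h1

/-- norm bound for `J` -/
theorem norm_Jf_le (hW : ContinuousOn W (Ici 0)) (h0 : Alive W z0 T) {ζ : ℂ} (hζ : 0 < ζ.im) :
    ‖Jf W T z0 ζ‖ ≤ 2 / ζ.im * ∫ s in (0:ℝ)..T, 1 / ‖gfl W s z0 - (W s : ℂ)‖ := by
  have hT := h0.1
  have hg := h0.isFlow
  have hWc : ContinuousOn W (Icc 0 T) := hW.mono Icc_subset_Ici_self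
  unfold Jf
  rw [← intervalIntegral.integral_const_mul]
  apply intervalIntegral.norm_integral_le_of_norm_le hT
  · refine ae_of_all _ fun r hr => ?_
    have hr' : r ∈ Icc (0:ℝ) T := Ioc_subset_Icc_self hr
    have h3 := im_le_Zfl_ffl hW hT hζ hr'
    have h4 := norm_ge_im (z := Zfl W r (ffl W T ζ))
    have h5 : 0 < ‖Zfl W r z0‖ := norm_pos_iff.2 (FL.Zfl_ne_zero (h0.mono hr'.1 hr'.2))
    have h6 : Zfl W r z0 = gfl W r z0 - (W r : ℂ) := rfl
    rw [norm_div, norm_mul, Complex.norm_ofNat, ← h6]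
    rw [div_mul_div_comm, mul_one]
    apply div_le_div_of_nonneg_left (by norm_num) (by positivity)
    exact mul_le_mul_of_nonneg_right (h3.trans h4) h5.le
  · exact (continuousOn_const.mul (inv_cont hg hWc)).intervalIntegrable_of_Icc hT

/-- a priori bound for the preimage of a point -/
theorem norm_start_le {g : ℝ → ℂ} {p : ℂ} (hT : 0 ≤ T) (hg : IsFlow W p T g) {m r : ℝ} (hm : 0 < m)
    (hr : 0 ≤ r) (hWm : ∀ t ∈ Icc (0:ℝ) T, |W t| ≤ m) (hgT : ‖g T‖ ≤ r) :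
    ‖p‖ ≤ Real.sqrt ((r + 2 * m) ^ 2 + 9 * T) := by
  set M0 : ℝ := (r + 2 * m) ^ 2 with hM0
  have hM0p : 0 < M0 := by positivity
  have key : ∀ s ∈ Icc (0:ℝ) T, ‖g (T - s)‖ ≤ Real.sqrt (M0 + 9 * s) := by
    have hder : ∀ s ∈ Icc (0:ℝ) T, HasDerivWithinAt (fun s => g (T - s))
        (-(2 / (g (T - s) - (W (T - s) : ℂ)))) (Icc 0 T) s := by
      intro s hs
      have h1 : T - s ∈ Icc (0:ℝ) T := ⟨by linarith [hs.2], by linarith [hs.1]⟩
      have h2 : HasDerivWithinAt (fun s : ℝ => T - s) (-1) (Icc 0 T) s :=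
        ((hasDerivAt_id s).const_sub T).hasDerivWithinAt
      have h3 : MapsTo (fun s : ℝ => T - s) (Icc 0 T) (Icc 0 T) := fun x hx =>
        ⟨by linarith [hx.2], by linarith [hx.1]⟩
      have h4 := (hg.deriv (T - s) h1).scomp s h2 h3
      rw [neg_one_smul] at h4
      exact h4
    intro s hs
    have hBpos : ∀ x, 0 ≤ x → 0 < M0 + 9 * x := fun x hx => by linarith
    refine image_norm_le_of_norm_deriv_right_lt_deriv_boundary'
      (f := fun s => g (T - s)) (f' := fun s => -(2 / (g (T - s) - (W (T - s) : ℂ))))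
      (a := 0) (b := T) (B := fun s => Real.sqrt (M0 + 9 * s))
      (B' := fun s => 9 / (2 * Real.sqrt (M0 + 9 * s))) ?_ ?_ ?_ ?_ ?_ ?_ hs
    · exact fun s hs => (hder s hs).continuousWithinAt
    · intro s hs
      exact hasDerivWithinAt_Ici_of_Icc hs (hder s (Ico_subset_Icc_self hs))
    · simp only [sub_zero, mul_zero, add_zero]
      rw [hM0, Real.sqrt_sq (by positivity)]
      linarith
    · fun_prop
    · intro x hx
      have h1 : HasDerivAt (fun s : ℝ => M0 + 9 * s) (9 * 1) x :=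
        ((hasDerivAt_id x).const_mul 9).const_add M0
      have h2 := h1.sqrt (hBpos x hx.1).ne'
      rw [mul_one] at h2
      exact h2.hasDerivWithinAt
    · intro x hx he
      have h1 : T - x ∈ Icc (0:ℝ) T := ⟨by linarith [hx.2.le], by linarith [hx.1]⟩
      have hS : 2 * m ≤ Real.sqrt (M0 + 9 * x) := by
        apply Real.le_sqrt_of_sq_le
        have := hx.1
        nlinarith
      have hSp : 0 < Real.sqrt (M0 + 9 * x) := by linarith
      have h2 : Real.sqrt (M0 + 9 * x) / 2 ≤ ‖g (T - x) - (W (T - x) : ℂ)‖ := by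
        have h3 := norm_sub_norm_le (g (T - x)) (W (T - x) : ℂ)
        rw [he, Complex.norm_real, Real.norm_eq_abs] at h3
        have := hWm _ h1
        linarith
      rw [norm_neg, norm_div, Complex.norm_ofNat]
      rw [div_lt_div_iff₀ (by linarith) (by positivity)]
      nlinarith
  have := key T ⟨hT, le_rfl⟩
  rw [sub_self, hg.init] at this
  exact this

end Crest.Agent.R162.U5b
end

-- ▼ part R162/U5b3
section

/-!
Row 162, node U5b: assembled statement (from H1..H5 of U5a to the hypotheses of U5c).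
-/

set_option autoImplicit false

open Set MeasureTheory Filter Topology

namespace Crest.Agent.R162.U5b

open Crest.Agent.R162.FL Crest.Agent.R162.FLC Crest.Agent.R162.U5a

/-- the statement of KB5 for a fixed `M` -/
def KB5Stmt (M C : ℝ) : Prop :=
  ∀ f : ℂ → ℂ, DifferentiableOn ℂ f {z : ℂ | 0 < z.im} → Set.InjOn f {z : ℂ | 0 < z.im} →
    ∀ z0 : ℂ, 0 < z0.im → ∀ Φ : ℂ → ℂ, ContinuousOn Φ {z : ℂ | 0 < z.im} →
      (∀ z : ℂ, 0 < z.im → f z - f z0 = (z - z0) * Complex.exp (Φ z)) →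
      ∀ z : ℂ, 0 < z.im → ‖z - z0‖ ^ 2 ≤ M * (z.im * z0.im) → ‖Φ z - Φ z0‖ ≤ C

variable {W : ℝ → ℝ} {z0 : ℂ} {T : ℝ}

theorem clk_eq (t : ℝ) : clk (fun s => Zfl W s z0) t = ath W (fun s => gfl W s z0) t := by
  unfold clk ath
  congr 1
  funext s
  rw [one_div]
  rfl

theorem im_two_div_sq (Z : ℂ) (hZ : Z ≠ 0) :
    (2 / Z ^ 2).re - 2 * (‖Z‖ ^ 2)⁻¹ = -(4 * Z.im ^ 2 / ‖Z‖ ^ 4) := by
  have h1 : (‖Z‖ ^ 2 : ℝ) = Z.re ^ 2 + Z.im ^ 2 := by
    rw [← Complex.normSq_eq_norm_sq, Complex.normSq_apply]; ring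
  have h4 : (‖Z‖ ^ 4 : ℝ) = (Z.re ^ 2 + Z.im ^ 2) ^ 2 := by rw [← h1]; ring
  have hp : 0 < Z.re ^ 2 + Z.im ^ 2 := by
    rw [← h1]; have := norm_pos_iff.2 hZ; positivity
  rw [h1, h4, Complex.div_re]
  have h5 : Complex.normSq (Z ^ 2) = (Z.re ^ 2 + Z.im ^ 2) ^ 2 := by
    rw [map_pow, Complex.normSq_apply]; ring
  rw [h5]
  have h6 : (Z ^ 2).re = Z.re ^ 2 - Z.im ^ 2 := by rw [sq, Complex.mul_re]; ring
  have h7 : (2:ℂ).re = 2 := rfl
  have h8 : (2:ℂ).im = 0 := rfl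
  rw [h6, h7, h8]
  field_simp
  ring

/-- `Υ_T(z0) ≥ e^{-C2}` -/
theorem ups_ge (hW : ContinuousOn W (Ici 0)) (h0 : Alive W z0 T) (him : z0.im = 1) {C2 : ℝ}
    (H2 : ∫ s in (0:ℝ)..T, 4 * (Zfl W s z0).im ^ 2 / ‖Zfl W s z0‖ ^ 4 ≤ C2) :
    Real.exp (-C2) ≤ Crest.Agent.R162.KB1.ups (ffl W T) (Zfl W T z0) := by
  have hT := h0.1
  have hg := h0.isFlow
  have hWc : ContinuousOn W (Icc 0 T) := hW.mono Icc_subset_Ici_self
  have hζ := FL.Zfl_im_pos h0
  have e1 : (Zfl W T z0).im = Real.exp (-2 * ath W (fun s => gfl W s z0) T) := by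
    rw [FL.Zfl_im]
    have := im_eq hg hWc (t := T) ⟨hT, le_rfl⟩
    rw [him, one_mul] at this
    exact this
  have hZc := continuousOn_Zfl hW h0
  have hne : ∀ r ∈ Icc (0:ℝ) T, Zfl W r z0 ≠ 0 := fun r hr => FL.Zfl_ne_zero (h0.mono hr.1 hr.2)
  have hc1 : ContinuousOn (fun r => 2 / (Zfl W r z0) ^ 2) (Icc 0 T) :=
    continuousOn_const.div (hZc.pow 2) fun r hr => pow_ne_zero _ (hne r hr)
  have hc2 : ContinuousOn (fun r => 2 * (‖Zfl W r z0‖ ^ 2)⁻¹) (Icc 0 T) :=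
    continuousOn_const.mul ((hZc.norm.pow 2).inv₀ fun r hr =>
      pow_ne_zero _ (norm_ne_zero_iff.2 (hne r hr)))
  have e2 : (∫ r in (0:ℝ)..T, 2 / (Zfl W r z0) ^ 2).re =
      ∫ r in (0:ℝ)..T, (2 / (Zfl W r z0) ^ 2).re := by
    have := Complex.reCLM.intervalIntegral_comp_comm (hc1.intervalIntegrable_of_Icc (μ := volume) hT)
    simpa using this.symm
  have e3 : 2 * ath W (fun s => gfl W s z0) T = ∫ r in (0:ℝ)..T, 2 * (‖Zfl W r z0‖ ^ 2)⁻¹ := by
    rw [intervalIntegral.integral_const_mul]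
    congr 1
    unfold ath
    congr 1
    funext s
    rw [one_div]
    rfl
  have hc1r : ContinuousOn (fun r => (2 / (Zfl W r z0) ^ 2).re) (Icc 0 T) :=
    Complex.continuous_re.comp_continuousOn hc1
  have e4 : (∫ r in (0:ℝ)..T, 2 / (Zfl W r z0) ^ 2).re - 2 * ath W (fun s => gfl W s z0) T =
      -∫ s in (0:ℝ)..T, 4 * (Zfl W s z0).im ^ 2 / ‖Zfl W s z0‖ ^ 4 := by
    rw [e2, e3, ← intervalIntegral.integral_sub (hc1r.intervalIntegrable_of_Icc hT)
      (hc2.intervalIntegrable_of_Icc hT), ← intervalIntegral.integral_neg]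
    apply intervalIntegral.integral_congr
    intro r hr
    rw [uIcc_of_le hT] at hr
    exact im_two_div_sq _ (hne r hr)
  unfold Crest.Agent.R162.KB1.ups
  rw [deriv_ffl hW hT hζ, ffl_Zfl hW h0, Complex.norm_exp, e1, ← Real.exp_add]
  apply Real.exp_le_exp.2
  linarith

theorem phd_ge {ζ : ℂ} (hζ : 0 < ζ.im) (hre : ζ.im ≤ ζ.re) {y : ℝ} (hy : 0 < y) :
    1 / 3 ≤ Crest.Agent.R162.KB1.phd ζ (y * Complex.I) := by
  unfold Crest.Agent.R162.KB1.phd
  set w : ℂ := y * Complex.I with hw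
  have hwre : w.re = 0 := by simp [hw]
  have hwim : w.im = y := by simp [hw]
  have hd : 0 < ‖w - (starRingEnd ℂ) ζ‖ := by
    apply norm_pos_iff.2
    intro h
    have := congrArg Complex.im h
    rw [Complex.sub_im, Complex.conj_im, hwim] at this
    simp at this
    linarith
  rw [le_div_iff₀ hd]
  have hn : 0 ≤ ‖w - ζ‖ := norm_nonneg _
  apply le_of_sq_le_sq _ hn
  rw [mul_pow, ← Complex.normSq_eq_norm_sq, ← Complex.normSq_eq_norm_sq]
  simp only [Complex.normSq_apply, Complex.sub_re, Complex.sub_im, Complex.conj_re,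
    Complex.conj_im, hwre, hwim]
  nlinarith [sq_nonneg (y - ζ.im), sq_nonneg (y - ζ.re), mul_pos hy hζ,
    mul_le_mul_of_nonneg_left hre hζ.le, sq_nonneg (y - 2 * ζ.im), sq_nonneg (ζ.re - ζ.im)]

end Crest.Agent.R162.U5b
end

-- ▼ part R162/U5b

/-!
Row 162, node U5b: assembled statement (from H1..H5 of U5a to the hypotheses of U5c).
-/

set_option autoImplicit false

open Set MeasureTheory Filter Topology

namespace Crest.Agent.R162.U5b

open Crest.Agent.R162.FL Crest.Agent.R162.FLC Crest.Agent.R162.U5a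

variable {W : ℝ → ℝ} {z0 : ℂ} {T : ℝ}

/-- the continuous logarithm -/
noncomputable def Lg (W : ℝ → ℝ) (T : ℝ) (z0 : ℂ) (y : ℝ) : ℂ :=
  Complex.log (Zfl W T z0 - y * Complex.I) + Real.pi * Complex.I + Jf W T z0 (y * Complex.I)

/-- the continuous argument -/
noncomputable def Ag (W : ℝ → ℝ) (T : ℝ) (z0 : ℂ) (y : ℝ) : ℝ := (Lg W T z0 y).im

theorem exp_Lg (hW : ContinuousOn W (Ici 0)) (h0 : Alive W z0 T) (hre : 0 < (Zfl W T z0).re)
    {y : ℝ} (hy : 0 < y) :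
    Complex.exp (Lg W T z0 y) = ffl W T (y * Complex.I) - z0 := by
  have hyI : 0 < (y * Complex.I : ℂ).im := by simpa using hy
  have hne : Zfl W T z0 - y * Complex.I ≠ 0 := by
    intro h
    have := congrArg Complex.re h
    simp at this
    linarith
  rw [Lg, Complex.exp_add, Complex.exp_add, Complex.exp_log hne, Complex.exp_pi_mul_I,
    ffl_sub_z0 hW h0 hyI]
  ring

theorem exp_eq_norm_mul (L : ℂ) :
    Complex.exp L = ‖Complex.exp L‖ * Complex.exp (L.im * Complex.I) := by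
  rw [Complex.norm_exp]
  push_cast
  rw [← Complex.exp_add]
  congr 1
  exact (Complex.re_add_im L).symm

theorem contOn_Lg (hW : ContinuousOn W (Ici 0)) (h0 : Alive W z0 T) (hre : 0 < (Zfl W T z0).re) :
    ContinuousOn (Lg W T z0) (Ioi 0) := by
  unfold Lg
  apply ContinuousOn.add
  · apply ContinuousOn.add _ continuousOn_const
    apply ContinuousOn.clog (by fun_prop)
    intro y _
    rw [Complex.mem_slitPlane_iff]
    left
    simpa using hre
  · intro y hy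
    have hyI : 0 < (y * Complex.I : ℂ).im := by simpa using hy
    have h1 : ContinuousAt (fun y : ℝ => (y * Complex.I : ℂ)) y := by fun_prop
    have h2 : ContinuousAt (Jf W T z0) ((fun y : ℝ => (y * Complex.I : ℂ)) y) := contAt_Jf hW h0 hyI
    have h3 : ContinuousAt (fun y : ℝ => Jf W T z0 (y * Complex.I)) y :=
      ContinuousAt.comp (g := Jf W T z0) h2 h1
    exact h3.continuousWithinAt

/-- **U5b** -/
theorem U5b (X1 C2 c3 C3 C5 : ℝ) {CK : ℝ} (hKB5 : KB5Stmt (4 * Real.cosh 3) CK) :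
    ∃ C0 cR CR CV CL : ℝ, 0 < C0 ∧ 0 < cR ∧ 0 < CR ∧
      ∀ (W : ℝ → ℝ) (z0 : ℂ) (T N : ℝ), ContinuousOn W (Ici 0) → W 0 = 0 → Alive W z0 T →
        z0.im = 1 →
        (∀ t ∈ Icc (0:ℝ) T, |xc (Zfl W t z0)| ≤ X1 + clk (fun s => Zfl W s z0) t) →
        (∫ s in (0:ℝ)..T, 4 * (Zfl W s z0).im ^ 2 / ‖Zfl W s z0‖ ^ 4) ≤ C2 →
        (∫ s in (0:ℝ)..T, 2 / (Zfl W s z0) ^ 2).im ≤ -(c3 * Real.sqrt N) + C3 →
        (-3 ≤ xc (Zfl W T z0) ∧ xc (Zfl W T z0) ≤ -1) →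
        clk (fun s => Zfl W s z0) T ≤ N + Real.log N + C5 →
        0 < ‖Zfl W T z0‖ ∧ ‖Zfl W T z0‖ ≤ C0 ∧
        Real.log (C0 / ‖Zfl W T z0‖) ≤ 2 * (N + Real.log N) + CL ∧
        Real.exp (-C2) ≤ KB1.ups (ffl W T) (Zfl W T z0) ∧
        (∀ y ∈ Icc ‖Zfl W T z0‖ C0, HasDerivWithinAt (fun y : ℝ => ffl W T (y * Complex.I))
          (Complex.I * deriv (ffl W T) (y * Complex.I)) (Icc ‖Zfl W T z0‖ C0) y) ∧
        ContinuousOn (fun y : ℝ => Complex.I * deriv (ffl W T) (y * Complex.I))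
          (Icc ‖Zfl W T z0‖ C0) ∧
        (∀ y ∈ Icc ‖Zfl W T z0‖ C0, cR ≤ ‖ffl W T (y * Complex.I) - z0‖ ∧
          ‖ffl W T (y * Complex.I) - z0‖ ≤ CR) ∧
        ContinuousOn (Ag W T z0) (Icc ‖Zfl W T z0‖ C0) ∧
        (∀ y ∈ Icc ‖Zfl W T z0‖ C0, ffl W T (y * Complex.I) - z0 =
          ‖ffl W T (y * Complex.I) - z0‖ * Complex.exp (Ag W T z0 y * Complex.I)) ∧
        c3 * Real.sqrt N - CV ≤ |Ag W T z0 C0 - Ag W T z0 ‖Zfl W T z0‖| := by
  set K1 : ℝ := Real.exp X1 with hK1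
  have hK1p : 0 < K1 := Real.exp_pos _
  refine ⟨2 * K1, Real.exp (-C2) / 6, 16 * K1, 4 * Real.pi + 1 + C3 + CK,
    Real.log (2 * K1) + 2 * C5, by positivity, by positivity, by positivity, ?_⟩
  intro W z0 T N hW hW0 h0 him H1 H2 H3 H4 H5
  have hT := h0.1
  have hg := h0.isFlow
  have hWc : ContinuousOn W (Icc 0 T) := hW.mono Icc_subset_Ici_self
  set ζ : ℂ := Zfl W T z0 with hζdef
  have hζ : 0 < ζ.im := FL.Zfl_im_pos h0
  have hTT : T ∈ Icc (0:ℝ) T := ⟨hT, le_rfl⟩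
  have H1' : ∀ t ∈ Icc (0:ℝ) T,
      |Real.arsinh ((gfl W t z0 - (W t : ℂ)).re / (gfl W t z0 - (W t : ℂ)).im)| ≤
        X1 + ath W (fun s => gfl W s z0) t := by
    intro t ht
    have h1 := H1 t ht
    rw [clk_eq, xc, abs_neg] at h1
    exact h1
  -- position of ζ
  have hr1 : 1 ≤ ζ.re / ζ.im := by
    have h1 : 1 ≤ Real.arsinh (ζ.re / ζ.im) := by
      have := H4.2
      unfold xc at this
      linarith
    have h2 : Real.sinh 1 ≤ ζ.re / ζ.im := by
      have := Real.sinh_le_sinh.2 h1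
      rwa [Real.sinh_arsinh] at this
    have h3 : (1:ℝ) ≤ Real.sinh 1 := Real.self_le_sinh_iff.2 zero_le_one
    linarith
  have hre1 : ζ.im ≤ ζ.re := by
    rw [le_div_iff₀ hζ] at hr1
    linarith
  have hre : 0 < ζ.re := hζ.trans_le hre1
  have hρ : 0 < ‖ζ‖ := norm_pos_iff.2 (FL.Zfl_ne_zero h0)
  have hnorm : ‖ζ‖ ≤ ζ.im * Real.cosh 3 := by
    have h1 : Real.arsinh (ζ.re / ζ.im) ≤ 3 := by
      have := H4.1
      unfold xc at this
      linarith
    have h1' : 0 ≤ Real.arsinh (ζ.re / ζ.im) := Real.arsinh_nonneg_iff.2 (by positivity)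
    have h2 : ‖ζ‖ = ζ.im * Real.cosh (Real.arsinh (ζ.re / ζ.im)) := by
      have h2 : ζ.re * ζ.re + ζ.im * ζ.im = ζ.im ^ 2 * (1 + (ζ.re / ζ.im) ^ 2) := by
        field_simp
        ring
      rw [Real.cosh_arsinh, Complex.norm_def, Complex.normSq_apply, h2,
        Real.sqrt_mul (sq_nonneg _), Real.sqrt_sq hζ.le]
    rw [h2]
    apply mul_le_mul_of_nonneg_left _ hζ.le
    rw [Real.cosh_le_cosh, abs_of_nonneg h1', abs_of_pos (by norm_num : (0:ℝ) < 3)]
    exact h1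
  have hA0 : 0 ≤ ath W (fun s => gfl W s z0) T := ath_nonneg hT
  have hρK : ‖ζ‖ ≤ K1 := by
    have h1 := norm_Z_le hg hWc him H1' hTT
    have h2 : Real.exp (-ath W (fun s => gfl W s z0) T) ≤ 1 := by
      rw [Real.exp_le_one_iff]; linarith
    calc ‖ζ‖ ≤ K1 * Real.exp (-ath W (fun s => gfl W s z0) T) := h1
      _ ≤ K1 * 1 := mul_le_mul_of_nonneg_left h2 hK1p.le
      _ = K1 := mul_one _
  have himeq : ζ.im = Real.exp (-2 * ath W (fun s => gfl W s z0) T) := by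
    rw [hζdef, FL.Zfl_im]
    have := im_eq hg hWc hTT
    rw [him, one_mul] at this
    exact this
  have hups := ups_ge hW h0 him H2
  have hdf := differentiableOn_ffl hW hT
  have hinj := injOn_ffl hW hT
  have hopen : IsOpen {z : ℂ | 0 < z.im} := isOpen_lt continuous_const Complex.continuous_im
  have hyI : ∀ y : ℝ, 0 < y → 0 < (y * Complex.I : ℂ).im := fun y hy => by simpa using hy
  have hypos : ∀ y ∈ Icc ‖ζ‖ (2 * K1), 0 < y := fun y hy => hρ.trans_le hy.1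
  -- J bounds
  have hJ : ∀ y : ℝ, 0 < y → ‖Jf W T z0 (y * Complex.I)‖ ≤ 2 / y * K1 := by
    intro y hy
    have h1 := norm_Jf_le hW h0 (hyI y hy)
    have h2 := int_inv_le hg hWc him H1' hTT
    have h3 : (y * Complex.I : ℂ).im = y := by simp
    rw [h3] at h1
    refine h1.trans (mul_le_mul_of_nonneg_left (h2.trans ?_) (by positivity))
    have : 0 < Real.exp (-ath W (fun s => gfl W s z0) T) := Real.exp_pos _
    nlinarith
  refine ⟨hρ, by linarith, ?_, hups, ?_, ?_, ?_, ?_, ?_, ?_⟩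
  · -- number of scales
    rw [Real.log_div (by positivity) hρ.ne']
    have h1 : ζ.im ≤ ‖ζ‖ := norm_ge_im
    have h2 : -2 * ath W (fun s => gfl W s z0) T ≤ Real.log ‖ζ‖ := by
      rw [Real.le_log_iff_exp_le hρ, ← himeq]
      exact h1
    rw [clk_eq] at H5
    linarith
  · intro y hy
    have h1 : HasDerivAt (ffl W T) (deriv (ffl W T) (y * Complex.I)) (y * Complex.I) :=
      (hdf.differentiableAt (hopen.mem_nhds (hyI y (hypos y hy)))).hasDerivAt
    have h2 : HasDerivAt (fun y : ℝ => (y * Complex.I : ℂ)) Complex.I y := by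
      simpa using (Complex.ofRealCLM.hasDerivAt (x := y)).mul_const Complex.I
    have h3 := h1.comp y h2
    rw [mul_comm] at h3
    exact h3.hasDerivWithinAt
  · apply continuousOn_const.mul
    have h1 : ContinuousOn (deriv (ffl W T)) {z : ℂ | 0 < z.im} := (hdf.deriv hopen).continuousOn
    exact h1.comp (by fun_prop) fun y hy => hyI y (hypos y hy)
  · intro y hy
    constructor
    · have h1 := KB1.ups_le_norm_sub hdf hinj hζ (hyI y (hypos y hy))
      rw [ffl_Zfl hW h0] at h1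
      have h2 := phd_ge hζ hre1 (hypos y hy)
      have h3 : 0 < Real.exp (-C2) := Real.exp_pos _
      have h4 : Real.exp (-C2) * (1 / 3) ≤
          KB1.ups (ffl W T) ζ * KB1.phd ζ (y * Complex.I) :=
        mul_le_mul hups h2 (by norm_num) (h3.le.trans hups)
      linarith
    · have hal := ffl_alive hW hT (hyI y (hypos y hy))
      have hWm : ∀ t ∈ Icc (0:ℝ) T, |W t| ≤ 4 * K1 := fun t ht =>
        norm_W_le hg hWc him hT hW0 H1' ht
      have hgT : ‖gfl W T (ffl W T (y * Complex.I))‖ ≤ 6 * K1 := by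
        rw [gfl_ffl hW hT (hyI y (hypos y hy))]
        refine (norm_add_le _ _).trans ?_
        rw [norm_mul, Complex.norm_I, Complex.norm_real, Complex.norm_real, Real.norm_eq_abs,
          Real.norm_eq_abs, abs_of_pos (hypos y hy)]
        have := hWm T hTT
        linarith [hy.2]
      have h1 := norm_start_le hT hal.isFlow (m := 4 * K1) (r := 6 * K1) (by positivity)
        (by positivity) hWm hgT
      have h2 : Real.sqrt ((6 * K1 + 2 * (4 * K1)) ^ 2 + 9 * T) ≤ 15 * K1 := by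
        rw [Real.sqrt_le_left (by positivity)]
        have h3 := time_le hg hWc him H1' hTT
        have h4 : 0 < K1 ^ 2 := by positivity
        nlinarith
      have h3 := norm_z0_le hg hWc him hT hW0 H1'
      have h4 := norm_sub_le (ffl W T (y * Complex.I)) z0
      linarith
  · have h1 := contOn_Lg hW h0 hre
    exact Complex.continuous_im.comp_continuousOn (h1.mono fun y hy => hypos y hy)
  · intro y hy
    have h1 := exp_Lg hW h0 hre (hypos y hy)
    rw [← h1]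
    exact exp_eq_norm_mul _
  · -- winding
    have hC : ‖Jf W T z0 ((2 * K1 : ℝ) * Complex.I)‖ ≤ 1 := by
      have := hJ (2 * K1) (by positivity)
      have e : 2 / (2 * K1) * K1 = 1 := by field_simp
      rwa [e] at this
    have hJζ : Jf W T z0 ζ = ∫ s in (0:ℝ)..T, 2 / (Zfl W s z0) ^ 2 := by
      unfold Jf
      rw [hζdef, ffl_Zfl hW h0]
      congr 1
      funext r
      rw [sq]
    have hKBρ : ‖Jf W T z0 (‖ζ‖ * Complex.I) - Jf W T z0 ζ‖ ≤ CK := by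
      refine hKB5 (ffl W T) hdf hinj ζ hζ (Jf W T z0)
        (fun z hz => (contAt_Jf hW h0 hz).continuousWithinAt) ?_ (‖ζ‖ * Complex.I) (hyI _ hρ) ?_
      · intro z hz
        rw [ffl_Zfl hW h0]
        exact ffl_sub_z0 hW h0 hz
      · have h1 : ‖(‖ζ‖ * Complex.I : ℂ) - ζ‖ ≤ 2 * ‖ζ‖ := by
          refine (norm_sub_le _ _).trans ?_
          rw [norm_mul, Complex.norm_I, Complex.norm_real, norm_norm]
          linarith
        have h2 : (‖ζ‖ * Complex.I : ℂ).im = ‖ζ‖ := by simp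
        rw [h2]
        have h3 : ‖(‖ζ‖ * Complex.I : ℂ) - ζ‖ ^ 2 ≤ (2 * ‖ζ‖) ^ 2 :=
          pow_le_pow_left₀ (norm_nonneg _) h1 2
        have h4 : ‖ζ‖ * ‖ζ‖ ≤ ‖ζ‖ * (ζ.im * Real.cosh 3) := mul_le_mul_of_nonneg_left hnorm hρ.le
        nlinarith
    have a1 : |(Jf W T z0 ((2 * K1 : ℝ) * Complex.I)).im| ≤ 1 := (Complex.abs_im_le_norm _).trans hC
    have a2 : |(Jf W T z0 (‖ζ‖ * Complex.I) - Jf W T z0 ζ).im| ≤ CK :=
      (Complex.abs_im_le_norm _).trans hKBρ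
    rw [Complex.sub_im, hJζ] at a2
    have b1 := abs_le.1 (Complex.abs_arg_le_pi (ζ - ((2 * K1 : ℝ) : ℂ) * Complex.I))
    have b2 := abs_le.1 (Complex.abs_arg_le_pi (ζ - (‖ζ‖ : ℂ) * Complex.I))
    have e1 : Ag W T z0 (2 * K1) = (ζ - ((2 * K1 : ℝ) : ℂ) * Complex.I).arg + Real.pi +
        (Jf W T z0 ((2 * K1 : ℝ) * Complex.I)).im := by
      unfold Ag Lg
      rw [Complex.add_im, Complex.add_im, Complex.log_im]
      simp [hζdef]
    have e2 : Ag W T z0 ‖ζ‖ = (ζ - (‖ζ‖ : ℂ) * Complex.I).arg + Real.pi +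
        (Jf W T z0 (‖ζ‖ * Complex.I)).im := by
      unfold Ag Lg
      rw [Complex.add_im, Complex.add_im, Complex.log_im]
      simp [hζdef]
    refine le_trans ?_ (le_abs_self _)
    rw [e1, e2]
    have a1' := abs_le.1 a1
    have a2' := abs_le.1 a2
    linarith [b1.1, b1.2, b2.1, b2.2, a1'.1, a1'.2, a2'.1, a2'.2, H3]

end Crest.Agent.R162.U5b
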