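import Mathlib
import Crest.Agent.Lib.Bieberbach
import Crest.Agent.R162.U5b
import Crest.Agent.R162.U5
import Crest.Agent.R162.OSDefs
import Crest.Agent.R162.UBDefs
import Crest.Agent.R162.RadCore
import Crest.Prelude.Def_Loewner
import Crest.Agent.R162.Rad
import Crest.Agent.R162.SUPGb
import Crest.Agent.R162.UD
import Crest.Agent.R162.FLB
import Crest.Agent.R162.FLE2
import Crest.Agent.R162.OS
import Crest.Agent.R162.FL1b
import Crest.Agent.R162.FLD
import Crest.Agent.R162.OPM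
import Crest.Agent.R162.U3D
import Crest.Agent.R162.U3FF
import Crest.Agent.R162.U4C
import Crest.Agent.R162.U3d
import Crest.Agent.R162.Rad2
import Crest.Agent.R162.U4F

-- ▼ part R162/KB5
section

set_option autoImplicit false

namespace Crest.Agent.R162.KB

open Metric Set Filter Topology
open scoped ComplexConjugate Real

/-- nonvanishing analytic functions on the disc have analytic logarithms -/
theorem kb5_exists_log {φ : ℂ → ℂ} (hφ : DifferentiableOn ℂ φ (ball 0 1))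
    (hne : ∀ z ∈ ball (0:ℂ) 1, φ z ≠ 0) (h1 : φ 0 = 1) :
    ∃ L : ℂ → ℂ, DifferentiableOn ℂ L (ball 0 1) ∧ L 0 = 0 ∧
      ∀ z ∈ ball (0:ℂ) 1, φ z = Complex.exp (L z) := by
  have hd : DifferentiableOn ℂ (fun z => deriv φ z / φ z) (ball 0 1) :=
    (hφ.deriv isOpen_ball).div hφ hne
  obtain ⟨L0, hL0⟩ := hd.isExactOn_ball
  set L : ℂ → ℂ := fun z => L0 z - L0 0 with hL
  have hLd : ∀ z ∈ ball (0:ℂ) 1, HasDerivAt L (deriv φ z / φ z) z := by
    intro z hz
    exact (hL0 z hz).sub_const _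
  have hconst : ∀ z ∈ ball (0:ℂ) 1, φ z * Complex.exp (-L z) = 1 := by
    have hF : ∀ z ∈ ball (0:ℂ) 1, HasDerivAt (fun z => φ z * Complex.exp (-L z)) 0 z := by
      intro z hz
      have a1 : HasDerivAt φ (deriv φ z) z :=
        (hφ.differentiableAt (isOpen_ball.mem_nhds hz)).hasDerivAt
      have a2 := (hLd z hz).neg.cexp
      have a3 := a1.mul a2
      have a4 : deriv φ z * Complex.exp (-L z) +
          φ z * (Complex.exp (-L z) * -(deriv φ z / φ z)) = 0 := by
        have := hne z hz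
        field_simp
        ring
      rw [← a4]
      exact a3
    intro z hz
    have hconv : Convex ℝ (ball (0:ℂ) 1) := convex_ball 0 1
    have := hconv.is_const_of_fderivWithin_eq_zero (𝕜 := ℂ)
      (f := fun z => φ z * Complex.exp (-L z))
      (fun z hz => (hF z hz).differentiableAt.differentiableWithinAt) ?_ hz
      (mem_ball_self one_pos)
    · rw [this, h1, hL]; simp
    · intro x hx
      rw [fderivWithin_of_isOpen isOpen_ball hx, (hF x hx).hasFDerivAt.fderiv]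
      ext
      simp
  refine ⟨L, fun z hz => (hLd z hz).differentiableAt.differentiableWithinAt, by simp [hL], ?_⟩
  intro z hz
  have a1 := hconst z hz
  have : φ z * Complex.exp (-L z) * Complex.exp (L z) = Complex.exp (L z) := by
    rw [a1, one_mul]
  rwa [mul_assoc, ← Complex.exp_add, neg_add_cancel, Complex.exp_zero, mul_one] at this

/-- growth of the derivative of a univalent function on the disc (Gronwall from Bieberbach) -/
theorem kb5_deriv_growth {F : ℂ → ℂ} (hF : DifferentiableOn ℂ F (ball 0 1))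
    (hFi : InjOn F (ball 0 1)) {R : ℝ} (hR1 : R < 1) {ζ : ℂ} (hζ : ‖ζ‖ ≤ R) :
    ‖deriv F ζ‖ ≤ ‖deriv F 0‖ * Real.exp (6 / (1 - R ^ 2)) := by
  have hR0 : 0 ≤ R := le_trans (norm_nonneg _) hζ
  have hq : 0 < 1 - R ^ 2 := by nlinarith
  set K : ℝ := 6 / (1 - R ^ 2) with hK
  have hKp : 0 < K := by positivity
  have hdF : DifferentiableOn ℂ (deriv F) (ball 0 1) := hF.deriv isOpen_ball
  have hsec : ∀ w : ℂ, ‖w‖ ≤ R → ‖deriv (deriv F) w‖ ≤ K * ‖deriv F w‖ := by
    intro w hw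
    have h1 : ‖w‖ < 1 := lt_of_le_of_lt hw hR1
    have h2 := Crest.Agent.Lib.Bieberbach.bieberbach_disc hF hFi h1
    have h3 : ‖((1 - ‖w‖ ^ 2 : ℝ) : ℂ) * deriv (deriv F) w‖ ≤
        ‖((1 - ‖w‖ ^ 2 : ℝ) : ℂ) * deriv (deriv F) w - 2 * conj w * deriv F w‖ +
          ‖2 * conj w * deriv F w‖ := by
      have := norm_add_le (((1 - ‖w‖ ^ 2 : ℝ) : ℂ) * deriv (deriv F) w - 2 * conj w * deriv F w)
        (2 * conj w * deriv F w)
      simpa using this
    have h4 : ‖2 * conj w * deriv F w‖ ≤ 2 * ‖deriv F w‖ := by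
      rw [norm_mul, norm_mul, RCLike.norm_conj]
      have : ‖(2:ℂ)‖ = 2 := by norm_num
      rw [this]
      have := norm_nonneg (deriv F w)
      nlinarith [norm_nonneg w]
    have hwp : 0 < 1 - ‖w‖ ^ 2 := by nlinarith [norm_nonneg w]
    have h5 : ‖((1 - ‖w‖ ^ 2 : ℝ) : ℂ) * deriv (deriv F) w‖ =
        (1 - ‖w‖ ^ 2) * ‖deriv (deriv F) w‖ := by
      rw [norm_mul, Complex.norm_real, Real.norm_eq_abs, abs_of_pos hwp]
    rw [h5] at h3
    have h6 : (1 - ‖w‖ ^ 2) * ‖deriv (deriv F) w‖ ≤ 6 * ‖deriv F w‖ := by linarith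
    have h7 : 1 - R ^ 2 ≤ 1 - ‖w‖ ^ 2 := by nlinarith [norm_nonneg w]
    have h8 : (1 - R ^ 2) * ‖deriv (deriv F) w‖ ≤ 6 * ‖deriv F w‖ :=
      le_trans (mul_le_mul_of_nonneg_right h7 (norm_nonneg _)) h6
    rw [hK, div_mul_eq_mul_div, le_div_iff₀ hq]
    linarith
  have hmem : ∀ t ∈ Icc (0:ℝ) 1, ‖(t:ℂ) * ζ‖ ≤ R := by
    intro t ht
    rw [norm_mul, Complex.norm_real, Real.norm_eq_abs, abs_of_nonneg ht.1]
    nlinarith [ht.1, ht.2, norm_nonneg ζ]
  have hder : ∀ t ∈ Icc (0:ℝ) 1, HasDerivAt (fun t : ℝ => deriv F ((t:ℂ) * ζ))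
      (deriv (deriv F) ((t:ℂ) * ζ) * ζ) t := by
    intro t ht
    have hb : (t:ℂ) * ζ ∈ ball (0:ℂ) 1 := by
      rw [mem_ball_zero_iff]; exact lt_of_le_of_lt (hmem t ht) hR1
    have h1 : HasDerivAt (deriv F) (deriv (deriv F) ((t:ℂ) * ζ)) ((t:ℂ) * ζ) :=
      (hdF.differentiableAt (isOpen_ball.mem_nhds hb)).hasDerivAt
    have h2 : HasDerivAt (fun t : ℝ => (t:ℂ) * ζ) (1 * ζ) t :=
      (Complex.ofRealCLM.hasDerivAt (x := t)).mul_const ζ
    have h3 := h1.comp t h2
    rw [one_mul] at h3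
    exact h3
  have hg := norm_le_gronwallBound_of_norm_deriv_right_le
    (f := fun t : ℝ => deriv F ((t:ℂ) * ζ))
    (f' := fun t : ℝ => deriv (deriv F) ((t:ℂ) * ζ) * ζ) (δ := ‖deriv F 0‖) (K := K) (ε := 0)
    (a := 0) (b := 1)
    (fun t ht => (hder t ht).continuousAt.continuousWithinAt)
    (fun t ht => (hder t (Ico_subset_Icc_self ht)).hasDerivWithinAt)
    (by simp)
    (by
      intro t ht
      have h1 := hsec _ (hmem t (Ico_subset_Icc_self ht))
      rw [norm_mul, add_zero]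
      have h2 : ‖ζ‖ ≤ 1 := le_trans hζ hR1.le
      calc ‖deriv (deriv F) ((t:ℂ) * ζ)‖ * ‖ζ‖ ≤ ‖deriv (deriv F) ((t:ℂ) * ζ)‖ * 1 :=
            mul_le_mul_of_nonneg_left h2 (norm_nonneg _)
        _ ≤ K * ‖deriv F ((t:ℂ) * ζ)‖ := by rw [mul_one]; exact h1)
    1 (by simp)
  rw [gronwallBound_ε0] at hg
  simpa using hg

/-- the disc form of KB5 -/
theorem kb5_disc {F : ℂ → ℂ} (hF : DifferentiableOn ℂ F (ball 0 1))
    (hFi : InjOn F (ball 0 1)) :
    ∃ h : ℂ → ℂ, DifferentiableOn ℂ h (ball 0 1) ∧ h 0 = 0 ∧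
      (∀ ζ ∈ ball (0:ℂ) 1, F ζ - F 0 = ζ * (deriv F 0 * Complex.exp (h ζ))) ∧
      ∀ R : ℝ, 0 < R → R < 1 → ∀ ζ ∈ ball (0:ℂ) R,
        ‖h ζ‖ ≤ 2 * (6 / (1 - R ^ 2)) * ‖ζ‖ / (R - ‖ζ‖) := by
  have h0m : (0:ℂ) ∈ ball (0:ℂ) 1 := mem_ball_self one_pos
  have hnh : ball (0:ℂ) 1 ∈ 𝓝 (0:ℂ) := ball_mem_nhds 0 one_pos
  have hne : deriv F 0 ≠ 0 :=
    Crest.Agent.Lib.deriv_ne_zero_of_injOn isOpen_ball hF hFi h0m
  set a : ℂ := deriv F 0 with ha
  set φ : ℂ → ℂ := fun z => a⁻¹ * dslope F 0 z with hφ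
  have hφd : DifferentiableOn ℂ φ (ball 0 1) :=
    ((Complex.differentiableOn_dslope hnh).2 hF).const_mul _
  have hFφ : ∀ z, F z - F 0 = z * (a * φ z) := by
    intro z
    have := sub_smul_dslope F 0 z
    rw [sub_zero, smul_eq_mul] at this
    rw [hφ]
    simp only
    rw [← mul_assoc a, mul_inv_cancel₀ hne, one_mul, this]
  have hφ0 : φ 0 = 1 := by
    simp only [hφ]
    rw [dslope_same, ← ha, inv_mul_cancel₀ hne]
  have hφne : ∀ z ∈ ball (0:ℂ) 1, φ z ≠ 0 := by
    intro z hz h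
    by_cases hz0 : z = 0
    · rw [hz0, hφ0] at h; exact one_ne_zero h
    · have h1 := hFφ z
      rw [h, mul_zero, mul_zero, sub_eq_zero] at h1
      exact hz0 (hFi hz h0m h1)
  obtain ⟨L, hLd, hL0, hL⟩ := kb5_exists_log hφd hφne hφ0
  refine ⟨L, hLd, hL0, ?_, ?_⟩
  · intro ζ hζ
    rw [hFφ ζ, hL ζ hζ]
  · intro R hR0 hR1 ζ hζ
    have hq : 0 < 1 - R ^ 2 := by nlinarith
    set K : ℝ := 6 / (1 - R ^ 2) with hK
    have hKp : 0 < K := by positivity
    have hsub : ball (0:ℂ) R ⊆ ball 0 1 := ball_subset_ball hR1.le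
    apply Complex.borelCaratheodory_zero hKp (hLd.mono hsub) ?_ hR0 hζ hL0
    intro w hw
    simp only [mem_ofPred_eq]
    by_cases hw0 : w = 0
    · rw [hw0, hL0]; simpa using hKp.le
    · have hwR : ‖w‖ < R := mem_ball_zero_iff.1 hw
      have hcb : ∀ x ∈ closedBall (0:ℂ) ‖w‖, x ∈ ball (0:ℂ) 1 := by
        intro x hx
        rw [mem_closedBall_zero_iff] at hx
        rw [mem_ball_zero_iff]; linarith
      have h1 : ‖F w - F 0‖ ≤ (‖a‖ * Real.exp K) * ‖w - 0‖ := by
        apply (convex_closedBall (0:ℂ) ‖w‖).norm_image_sub_le_of_norm_deriv_le (𝕜 := ℂ)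
        · intro x hx
          exact hF.differentiableAt (isOpen_ball.mem_nhds (hcb x hx))
        · intro x hx
          rw [mem_closedBall_zero_iff] at hx
          exact kb5_deriv_growth hF hFi hR1 (by linarith)
        · simp
        · simp
      rw [hFφ w, hL w (hsub hw), norm_mul, norm_mul, Complex.norm_exp, sub_zero] at h1
      have h2 : 0 < ‖w‖ := norm_pos_iff.2 hw0
      have h3 : 0 < ‖a‖ := norm_pos_iff.2 hne
      have h4 : Real.exp (L w).re ≤ Real.exp K := by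
        have : ‖w‖ * ‖a‖ * Real.exp (L w).re ≤ ‖w‖ * ‖a‖ * Real.exp K := by nlinarith
        exact le_of_mul_le_mul_left this (mul_pos h2 h3)
      exact Real.exp_le_exp.1 h4

/-- **KB5, existence**: the holomorphic logarithm of the normalised difference quotient of a
univalent function on the half-plane is bounded on hyperbolic balls. -/
theorem KB5_exists (M : ℝ) : ∃ C : ℝ, 0 < C ∧ ∀ f : ℂ → ℂ,
    DifferentiableOn ℂ f {z : ℂ | 0 < z.im} → InjOn f {z : ℂ | 0 < z.im} →
    ∀ z0 : ℂ, 0 < z0.im → ∃ h : ℂ → ℂ, DifferentiableOn ℂ h {z : ℂ | 0 < z.im} ∧ h z0 = 0 ∧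
      (∀ z : ℂ, 0 < z.im → f z - f z0 = (z - z0) * (deriv f z0 * Complex.exp (h z))) ∧
      ∀ z : ℂ, 0 < z.im → ‖z - z0‖ ^ 2 ≤ M * (z.im * z0.im) → ‖h z‖ ≤ C := by
  -- constants
  set M' : ℝ := max M 0 with hM'
  have hM'0 : 0 ≤ M' := le_max_right _ _
  have hMM' : M ≤ M' := le_max_left _ _
  set r : ℝ := Real.sqrt (M' / (M' + 4)) with hr
  have hr0 : 0 ≤ r := Real.sqrt_nonneg _
  have hr1 : r < 1 := by
    rw [hr, Real.sqrt_lt' one_pos, one_pow, div_lt_one (by linarith)]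
    linarith
  set R : ℝ := (1 + r) / 2 with hR
  have hRr : r < R := by rw [hR]; linarith
  have hR0 : 0 < R := by rw [hR]; linarith
  have hR1 : R < 1 := by rw [hR]; linarith
  have hq : 0 < 1 - R ^ 2 := by nlinarith
  set C1 : ℝ := 2 * (6 / (1 - R ^ 2)) * 1 / (R - r) with hC1
  have hC1p : 0 < C1 := by
    rw [hC1]
    have : 0 < R - r := by linarith
    positivity
  set C2 : ℝ := (M' + 4) + 1 + π with hC2
  have hC2p : 0 < C2 := by rw [hC2]; have := Real.pi_pos; linarith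
  refine ⟨C1 + C2, by linarith, ?_⟩
  intro f hf hfi z0 hz0
  have hU : IsOpen {z : ℂ | 0 < z.im} := isOpen_lt continuous_const Complex.continuous_im
  set a : ℂ := z0 - conj z0 with ha
  have ha2 : a = 2 * z0.im * Complex.I := by
    rw [ha, Complex.sub_conj]; push_cast; ring
  have hane : a ≠ 0 := by
    rw [ha2]
    simp [hz0.ne']
  -- the Moebius map
  set m : ℂ → ℂ := fun ζ => conj z0 + a * (1 - ζ)⁻¹ with hm
  have hne : ∀ ζ ∈ ball (0:ℂ) 1, 1 - ζ ≠ 0 := by
    intro ζ hζ h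
    rw [mem_ball_zero_iff] at hζ
    have : ζ = 1 := by linear_combination -h
    rw [this] at hζ; simp at hζ
  have hm0 : m 0 = z0 := by simp [hm, ha]
  have hmder : ∀ ζ ∈ ball (0:ℂ) 1, HasDerivAt m (a * ((1 - ζ) ^ 2)⁻¹) ζ := by
    intro ζ hζ
    have h1 : HasDerivAt (fun ζ : ℂ => 1 - ζ) (-1) ζ := by
      simpa using (hasDerivAt_id ζ).const_sub 1
    have h2 := ((h1.fun_inv (hne ζ hζ)).const_mul a).const_add (conj z0)
    have h3 : a * (-(-1) / (1 - ζ) ^ 2) = a * ((1 - ζ) ^ 2)⁻¹ := by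
      rw [neg_neg, one_div]
    rw [← h3]
    exact h2
  have hmd : DifferentiableOn ℂ m (ball 0 1) := fun ζ hζ =>
    (hmder ζ hζ).differentiableAt.differentiableWithinAt
  have hmaps : MapsTo m (ball 0 1) {z : ℂ | 0 < z.im} := by
    intro ζ hζ
    have hd := hne ζ hζ
    have hn : 0 < Complex.normSq (1 - ζ) := Complex.normSq_pos.2 hd
    rw [mem_ball_zero_iff] at hζ
    have h1 : Complex.normSq ζ < 1 := by
      rw [Complex.normSq_eq_norm_sq]; have := norm_nonneg ζ; nlinarith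
    show 0 < (m ζ).im
    have h2 : (m ζ).im = z0.im * (1 - Complex.normSq ζ) / Complex.normSq (1 - ζ) := by
      simp only [hm, ha2, Complex.add_im, Complex.conj_im, Complex.mul_im, Complex.mul_re,
        Complex.inv_re, Complex.inv_im, Complex.I_re, Complex.I_im, Complex.ofReal_re,
        Complex.ofReal_im, Complex.re_ofNat, Complex.im_ofNat, Complex.sub_re, Complex.sub_im,
        Complex.one_re, Complex.one_im]
      have h3 : Complex.normSq (1 - ζ) = (1 - ζ.re) ^ 2 + ζ.im ^ 2 := by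
        rw [Complex.normSq_apply]; simp; ring
      have h4 : Complex.normSq ζ = ζ.re ^ 2 + ζ.im ^ 2 := by
        rw [Complex.normSq_apply]; ring
      rw [h3] at hn ⊢
      rw [h4]
      field_simp
      ring
    rw [h2]
    exact div_pos (mul_pos hz0 (by linarith)) hn
  have hmi : InjOn m (ball 0 1) := by
    intro p hp q hq' hpq
    simp only [hm, add_right_inj] at hpq
    have h1 := mul_left_cancel₀ hane hpq
    have h2 := inv_injective h1
    linear_combination -h2
  -- the composed function on the disc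
  set F : ℂ → ℂ := fun ζ => f (m ζ) with hF
  have hFd : DifferentiableOn ℂ F (ball 0 1) := hf.comp hmd hmaps
  have hFi : InjOn F (ball 0 1) := fun p hp q hq' hpq =>
    hmi hp hq' (hfi (hmaps hp) (hmaps hq') hpq)
  have h0m : (0:ℂ) ∈ ball (0:ℂ) 1 := mem_ball_self one_pos
  have hF0 : F 0 = f z0 := by simp only [hF, hm0]
  have hF1 : deriv F 0 = deriv f z0 * a := by
    have h1 : HasDerivAt f (deriv f z0) (m 0) := by
      rw [hm0]
      exact (hf.differentiableAt (hU.mem_nhds hz0)).hasDerivAt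
    have h2 := h1.comp 0 (hmder 0 h0m)
    have h3 : deriv F 0 = deriv f z0 * (a * ((1 - 0) ^ 2)⁻¹) := h2.deriv
    rw [h3]; simp
  obtain ⟨hD, hDd, hD0, hDeq, hDb⟩ := kb5_disc hFd hFi
  -- inverse Moebius map
  have hden : ∀ z : ℂ, 0 < z.im → z - conj z0 ≠ 0 := by
    intro z hz h
    have := congrArg Complex.im h
    simp at this
    linarith
  set k : ℂ → ℂ := fun z => (z - z0) / (z - conj z0) with hk
  have hknorm : ∀ z : ℂ, 0 < z.im → ‖k z‖ ^ 2 = ‖z - z0‖ ^ 2 / (‖z - z0‖ ^ 2 + 4 * (z.im * z0.im)) := by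
    intro z hz
    have h1 : ‖z - conj z0‖ ^ 2 = ‖z - z0‖ ^ 2 + 4 * (z.im * z0.im) := by
      rw [← Complex.normSq_eq_norm_sq, ← Complex.normSq_eq_norm_sq, Complex.normSq_apply,
        Complex.normSq_apply]
      simp
      ring
    simp only [hk]
    rw [norm_div, div_pow, h1]
  have hkball : ∀ z : ℂ, 0 < z.im → k z ∈ ball (0:ℂ) 1 := by
    intro z hz
    rw [mem_ball_zero_iff]
    have h1 := hknorm z hz
    have h2 : 0 < z.im * z0.im := mul_pos hz hz0
    have h3 : ‖k z‖ ^ 2 < 1 := by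
      rw [h1, div_lt_one (by positivity)]
      linarith
    have := norm_nonneg (k z)
    nlinarith
  have hmk : ∀ z : ℂ, 0 < z.im → m (k z) = z := by
    intro z hz
    have h1 := hden z hz
    have h2 : 1 - k z = a / (z - conj z0) := by
      simp only [hk, ha]
      field_simp
      ring
    simp only [hm]
    rw [h2, inv_div, mul_div_assoc', mul_comm a, mul_div_assoc, div_self hane]
    ring
  have hkd : DifferentiableOn ℂ k {z : ℂ | 0 < z.im} := by
    intro z hz
    exact ((differentiableAt_id.sub_const z0).div (differentiableAt_id.sub_const (conj z0))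
      (hden z hz)).differentiableWithinAt
  -- the logarithmic correction
  set p : ℂ → ℂ := fun z => (z - conj z0) / a with hp
  have hpre : ∀ z : ℂ, 0 < z.im → (p z).re = (z.im + z0.im) / (2 * z0.im) := by
    intro z hz
    simp only [hp]
    rw [ha2, Complex.div_re]
    simp [Complex.normSq_apply]
    field_simp
  have hpslit : ∀ z : ℂ, 0 < z.im → p z ∈ Complex.slitPlane := by
    intro z hz
    left
    rw [hpre z hz]
    positivity
  have hpd : DifferentiableOn ℂ p {z : ℂ | 0 < z.im} := by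
    intro z hz
    exact ((differentiableAt_id.sub_const (conj z0)).div_const a).differentiableWithinAt
  refine ⟨fun z => hD (k z) - Complex.log (p z), ?_, ?_, ?_, ?_⟩
  · exact (hDd.comp hkd (fun z hz => hkball z hz)).sub (hpd.clog (fun z hz => hpslit z hz))
  · have h1 : k z0 = 0 := by simp [hk]
    have h2 : p z0 = 1 := by simp only [hp]; rw [← ha, div_self hane]
    simp only [h1, h2, hD0, Complex.log_one, sub_zero]
  · intro z hz
    have h1 := hDeq (k z) (hkball z hz)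
    rw [hF0, hF1] at h1
    have h2 : F (k z) = f z := by simp only [hF]; rw [hmk z hz]
    rw [h2] at h1
    rw [h1, Complex.exp_sub, Complex.exp_log (Complex.slitPlane_ne_zero (hpslit z hz))]
    have h3 := hden z hz
    simp only [hk, hp]
    field_simp
  · intro z hz hzM
    have hpos : 0 < z.im * z0.im := mul_pos hz hz0
    have hzM' : ‖z - z0‖ ^ 2 ≤ M' * (z.im * z0.im) :=
      le_trans hzM (mul_le_mul_of_nonneg_right hMM' hpos.le)
    -- bound of k
    have hkr : ‖k z‖ ≤ r := by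
      rw [hr]
      apply Real.le_sqrt_of_sq_le
      rw [hknorm z hz, div_le_div_iff₀ (by positivity) (by linarith)]
      nlinarith [sq_nonneg ‖z - z0‖]
    have hkR : k z ∈ ball (0:ℂ) R := by rw [mem_ball_zero_iff]; linarith
    have hb1 : ‖hD (k z)‖ ≤ C1 := by
      refine le_trans (hDb R hR0 hR1 (k z) hkR) ?_
      rw [hC1]
      have h1 : 0 < R - r := by linarith
      have h2 : R - r ≤ R - ‖k z‖ := by linarith
      have h3 : ‖k z‖ ≤ 1 := by linarith
      gcongr
    -- bound of log p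
    have hb2 : ‖Complex.log (p z)‖ ≤ C2 := by
      have hpn : p z ≠ 0 := Complex.slitPlane_ne_zero (hpslit z hz)
      have h1 : ‖Complex.log (p z)‖ ≤ |Real.log ‖p z‖| + π := by
        have := Complex.norm_le_abs_re_add_abs_im (Complex.log (p z))
        rw [Complex.log_re, Complex.log_im] at this
        exact le_trans this (by
          have := Complex.abs_arg_le_pi (p z)
          linarith)
      have hratio : z.im ≤ (M' + 2) * z0.im := by
        have h2 : (z.im - z0.im) ^ 2 ≤ M' * (z.im * z0.im) := by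
          refine le_trans ?_ hzM'
          have h3 : |(z - z0).im| ≤ ‖z - z0‖ := Complex.abs_im_le_norm _
          rw [Complex.sub_im] at h3
          rw [← sq_abs (z.im - z0.im)]
          exact pow_le_pow_left₀ (abs_nonneg _) h3 2
        have h4 : z.im * z.im ≤ ((M' + 2) * z0.im) * z.im := by nlinarith [sq_nonneg z0.im]
        exact le_of_mul_le_mul_right h4 hz
      have hupper : ‖p z‖ ^ 2 ≤ (M' + 4) ^ 2 := by
        have h2 : ‖p z‖ ^ 2 = (‖z - z0‖ ^ 2 + 4 * (z.im * z0.im)) / (4 * z0.im ^ 2) := by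
          simp only [hp]
          rw [norm_div, div_pow]
          congr 1
          · rw [← Complex.normSq_eq_norm_sq, ← Complex.normSq_eq_norm_sq, Complex.normSq_apply,
              Complex.normSq_apply]
            simp
            ring
          · rw [ha2]
            simp only [norm_mul, Complex.norm_I, Complex.norm_real, Real.norm_eq_abs,
              Complex.norm_ofNat, mul_one, mul_pow, sq_abs]
            norm_num
        rw [h2, div_le_iff₀ (by positivity)]
        have h3 : z.im * z0.im ≤ (M' + 2) * z0.im ^ 2 := by nlinarith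
        nlinarith [sq_nonneg z0.im, mul_nonneg hM'0 hpos.le]
      have hup : ‖p z‖ ≤ M' + 4 := by
        have := abs_le_of_sq_le_sq' hupper (by linarith)
        exact this.2
      have hlow : 1 / 2 ≤ ‖p z‖ := by
        refine le_trans ?_ (Complex.re_le_norm (p z))
        rw [hpre z hz, le_div_iff₀ (by positivity)]
        linarith
      have hlog1 : Real.log ‖p z‖ ≤ M' + 4 := by
        have := Real.log_le_sub_one_of_pos (lt_of_lt_of_le (by norm_num) hlow)
        linarith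
      have hlog2 : -1 ≤ Real.log ‖p z‖ := by
        have h2 : Real.log (1 / 2) ≤ Real.log ‖p z‖ := Real.log_le_log (by norm_num) hlow
        have h3 : Real.log (1 / 2) = - Real.log 2 := by rw [one_div, Real.log_inv]
        have h4 := Real.log_two_lt_d9
        linarith
      have h5 : |Real.log ‖p z‖| ≤ (M' + 4) + 1 := by
        rw [abs_le]; constructor <;> linarith
      rw [hC2]; linarith
    calc ‖hD (k z) - Complex.log (p z)‖ ≤ ‖hD (k z)‖ + ‖Complex.log (p z)‖ := norm_sub_le _ _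
      _ ≤ C1 + C2 := add_le_add hb1 hb2

theorem kb5_convex_H : Convex ℝ {z : ℂ | 0 < z.im} := by
  intro x hx y hy a b ha hb hab
  simp only [mem_ofPred_eq] at hx hy ⊢
  have h1 : (a • x + b • y).im = a * x.im + b * y.im := by simp
  rw [h1]
  rcases eq_or_lt_of_le ha with h | h
  · rw [← h] at hab ⊢
    have : b = 1 := by linarith
    rw [this]; linarith
  · have := mul_pos h hx
    have := mul_nonneg hb hy.le
    linarith

/-- a continuous function on a preconnected set whose exponential is constant is constant -/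
theorem kb5_const_of_exp {S : Set ℂ} (hS : IsPreconnected S) {D : ℂ → ℂ} (hD : ContinuousOn D S)
    {c : ℂ} (hc : ∀ z ∈ S, Complex.exp (D z) = c) {x y : ℂ} (hx : x ∈ S) (hy : y ∈ S) :
    D x = D y := by
  have hkey : ∀ z ∈ S, ∃ n : ℤ, D z = D y + n * (2 * π * Complex.I) := by
    intro z hz
    have h1 : Complex.exp (D z) = Complex.exp (D y) := by rw [hc z hz, hc y hy]
    obtain ⟨n, hn⟩ := Complex.exp_eq_exp_iff_exists_int.1 h1
    exact ⟨n, hn⟩
  set g : ℂ → ℝ := fun z => ((D z).im - (D y).im) / (2 * π) with hg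
  have hgc : ContinuousOn g S :=
    ((Complex.continuous_im.comp_continuousOn hD).sub continuousOn_const).div_const _
  have hpi := Real.pi_pos
  have hgint : ∀ z ∈ S, ∃ n : ℤ, g z = n ∧ D z = D y + n * (2 * π * Complex.I) := by
    intro z hz
    obtain ⟨n, hn⟩ := hkey z hz
    refine ⟨n, ?_, hn⟩
    simp only [hg]
    rw [hn]
    simp
  have hgy : g y = 0 := by simp [hg]
  by_contra hne
  obtain ⟨n, hn1, hn2⟩ := hgint x hx
  have hn0 : n ≠ 0 := by
    intro h0
    rw [h0] at hn2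
    apply hne
    rw [hn2]; simp
  -- a non-integer value is attained
  have hsub1 := hS.intermediate_value hy hx hgc
  have hsub2 := hS.intermediate_value hx hy hgc
  rcases lt_or_gt_of_ne hn0 with h | h
  · have h1 : (n:ℝ) ≤ -1 := by exact_mod_cast Int.le_sub_one_of_lt h
    have h2 : (-1/2 : ℝ) ∈ Icc (g x) (g y) := by
      rw [hn1, hgy]; constructor <;> linarith
    obtain ⟨z, hz, hgz⟩ := hsub2 h2
    obtain ⟨k, hk, -⟩ := hgint z hz
    rw [hk] at hgz
    have h3 : ((2 * k : ℤ) : ℝ) = ((-1 : ℤ) : ℝ) := by push_cast; linarith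
    have h4 : 2 * k = -1 := by exact_mod_cast h3
    omega
  · have h1 : (1:ℝ) ≤ n := by exact_mod_cast h
    have h2 : (1/2 : ℝ) ∈ Icc (g y) (g x) := by
      rw [hn1, hgy]; constructor <;> linarith
    obtain ⟨z, hz, hgz⟩ := hsub1 h2
    obtain ⟨k, hk, -⟩ := hgint z hz
    rw [hk] at hgz
    have h3 : ((2 * k : ℤ) : ℝ) = ((1 : ℤ) : ℝ) := by push_cast; linarith
    have h4 : 2 * k = 1 := by exact_mod_cast h3
    omega

/-- the value of a continuous branch at the base point -/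
theorem KB5_exp_base {f : ℂ → ℂ} (hf : DifferentiableOn ℂ f {z : ℂ | 0 < z.im})
    {z0 : ℂ} (hz0 : 0 < z0.im) {Φ : ℂ → ℂ} (hΦ : ContinuousOn Φ {z : ℂ | 0 < z.im})
    (heq : ∀ z : ℂ, 0 < z.im → f z - f z0 = (z - z0) * Complex.exp (Φ z)) :
    Complex.exp (Φ z0) = deriv f z0 := by
  have hU : IsOpen {z : ℂ | 0 < z.im} := isOpen_lt continuous_const Complex.continuous_im
  have hda : HasDerivAt f (deriv f z0) z0 :=
    (hf.differentiableAt (hU.mem_nhds hz0)).hasDerivAt
  have h1 : Tendsto (slope f z0) (𝓝[≠] z0) (𝓝 (deriv f z0)) := hda.tendsto_slope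
  have hcont : ContinuousAt (fun z => Complex.exp (Φ z)) z0 :=
    (hΦ.continuousAt (hU.mem_nhds hz0)).cexp
  have h2 : Tendsto (fun z => Complex.exp (Φ z)) (𝓝[≠] z0) (𝓝 (Complex.exp (Φ z0))) :=
    hcont.tendsto.mono_left nhdsWithin_le_nhds
  have h3 : slope f z0 =ᶠ[𝓝[≠] z0] fun z => Complex.exp (Φ z) := by
    have hm : {z : ℂ | 0 < z.im} ∈ 𝓝[≠] z0 := nhdsWithin_le_nhds (hU.mem_nhds hz0)
    filter_upwards [hm, self_mem_nhdsWithin] with z hz hzne
    have hne : z - z0 ≠ 0 := sub_ne_zero.2 hzne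
    rw [slope_def_field, heq z hz]
    field_simp
  exact tendsto_nhds_unique (h2.congr' h3.symm) h1

/-- **KB5**: any continuous branch `Φ` of `log ((f z - f z0) / (z - z0))` varies by at most
`C(M)` on hyperbolic balls around `z0`. -/
theorem KB5 (M : ℝ) : ∃ C : ℝ, 0 < C ∧ ∀ f : ℂ → ℂ,
    DifferentiableOn ℂ f {z : ℂ | 0 < z.im} → InjOn f {z : ℂ | 0 < z.im} →
    ∀ z0 : ℂ, 0 < z0.im → ∀ Φ : ℂ → ℂ, ContinuousOn Φ {z : ℂ | 0 < z.im} →
      (∀ z : ℂ, 0 < z.im → f z - f z0 = (z - z0) * Complex.exp (Φ z)) →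
      ∀ z : ℂ, 0 < z.im → ‖z - z0‖ ^ 2 ≤ M * (z.im * z0.im) → ‖Φ z - Φ z0‖ ≤ C := by
  obtain ⟨C, hC, hK⟩ := KB5_exists M
  refine ⟨C, hC, ?_⟩
  intro f hf hfi z0 hz0 Φ hΦ heq z hz hzM
  obtain ⟨h, hhd, hh0, hheq, hhb⟩ := hK f hf hfi z0 hz0
  have hU : IsOpen {z : ℂ | 0 < z.im} := isOpen_lt continuous_const Complex.continuous_im
  have hne : deriv f z0 ≠ 0 := Crest.Agent.Lib.deriv_ne_zero_of_injOn hU hf hfi hz0
  have hbase := KB5_exp_base hf hz0 hΦ heq
  have hc : ∀ w ∈ {z : ℂ | 0 < z.im}, Complex.exp (Φ w - h w) = deriv f z0 := by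
    intro w hw
    by_cases hwz : w = z0
    · rw [hwz, hh0, sub_zero, hbase]
    · have h1 := heq w hw
      rw [hheq w hw] at h1
      have h2 := mul_left_cancel₀ (sub_ne_zero.2 hwz) h1
      rw [Complex.exp_sub, ← h2]
      field_simp
  have hconst := kb5_const_of_exp kb5_convex_H.isPreconnected
    (hΦ.sub hhd.continuousOn) hc (x := z) (y := z0) hz hz0
  have h3 : Φ z - Φ z0 = h z := by
    have h4 : Φ z - h z = Φ z0 - h z0 := hconst
    rw [hh0, sub_zero] at h4
    rw [← h4]; ring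
  rw [h3]
  exact hhb z hz hzM


end Crest.Agent.R162.KB
end

-- ▼ part R162/U5bF
section

/-!
Row 162, node U5b: final form (trigger in the normalised setting => branch data).
-/

set_option autoImplicit false

open Set MeasureTheory Filter Topology

namespace Crest.Agent.R162.U5b

open Crest.Agent.R162.FL Crest.Agent.R162.FLC Crest.Agent.R162.U5a

/-- **U5b**, final form. -/
theorem U5b_trig (Xb : ℝ) :
    ∃ cR CR cV CV CL N1 : ℝ, 0 < cR ∧ 0 < CR ∧ 0 < cV ∧ 0 < CL ∧ 1 ≤ N1 ∧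
      ∀ (W : ℝ → ℝ) (z0 : ℂ) (N T ξ : ℝ), ContinuousOn W (Ici 0) → W 0 = 0 → z0.im = 1 →
        Alive W z0 T → |ξ| ≤ Xb → N1 ≤ N → Trig ξ N T (fun t => Zfl W t z0) →
        ∃ (ρ C0 : ℝ) (A : ℝ → ℝ), 0 < ρ ∧ ρ ≤ C0 ∧ Real.log (C0 / ρ) ≤ CL * N ∧
          ContinuousOn A (Icc ρ C0) ∧
          (∀ y ∈ Icc ρ C0,
            ffl W T (y * Complex.I) - z0 =
              ‖ffl W T (y * Complex.I) - z0‖ * Complex.exp (A y * Complex.I) ∧
            cR ≤ ‖ffl W T (y * Complex.I) - z0‖ ∧ ‖ffl W T (y * Complex.I) - z0‖ ≤ CR) ∧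
          cV * Real.sqrt N - CV ≤ |A C0 - A ρ| := by
  obtain ⟨CK, -, hKB5⟩ := Crest.Agent.R162.KB.KB5 (4 * Real.cosh 3)
  obtain ⟨C0, cR, CR, CV, CL, hC0, hcR, hCR, hmain⟩ :=
    U5b (Xb + 1) (16 * Real.exp 2 * (Xb + 6)) (2 / Real.exp 1) (4 * (8 * Real.exp 1 + 1)) Xb
      (CK := CK) hKB5
  refine ⟨cR, CR, 2 / Real.exp 1, CV, 4 + |CL|, max 1 (Real.exp (2 * (Xb + 2))), hcR, hCR,
    by positivity, by positivity, le_max_left _ _, ?_⟩
  intro W z0 N T ξ hW hW0 him hal hξ hN htr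
  have hN1 : 1 ≤ N := (le_max_left _ _).trans hN
  have hNX : Xb + 2 ≤ Real.log N / 2 := by
    have h1 : Real.exp (2 * (Xb + 2)) ≤ N := (le_max_right _ _).trans hN
    have h2 := (Real.le_log_iff_exp_le (by linarith)).2 h1
    linarith
  have hT := hal.1
  have hZ : ContinuousOn (fun t => Zfl W t z0) (Icc 0 T) := continuousOn_Zfl hW hal
  have him' : ∀ t ∈ Icc 0 T, 0 < (Zfl W t z0).im := fun t ht => FL.Zfl_im_pos (hal.mono ht.1 ht.2)
  have h := hmain W z0 T N hW hW0 hal him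
    (fun t ht => H1 hZ him' hξ hN1 htr t ht)
    (H2 hZ him' hT hξ hN1 htr)
    (by
      have := H3 hZ him' hT hξ hN1 hNX htr
      simpa [neg_mul] using this)
    (H4 (Z := fun t => Zfl W t z0) (T := T) hT hξ hN1 hNX htr)
    (H5 hξ htr)
  obtain ⟨hρ, hρC, hlog, -, -, -, hR, hA, hAp, hwind⟩ := h
  refine ⟨‖Zfl W T z0‖, C0, Ag W T z0, hρ, hρC, ?_, hA, fun y hy => ⟨hAp y hy, (hR y hy).1, (hR y hy).2⟩,
    hwind⟩
  have h1 : Real.log N ≤ N := (Real.log_le_sub_one_of_pos (by linarith)).trans (by linarith)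
  have h2 : CL ≤ |CL| * N := by
    have := le_abs_self CL
    have := abs_nonneg CL
    nlinarith
  linarith

end Crest.Agent.R162.U5b
end

-- ▼ part R162/U5E
section

/-!
Row 162 (S0243), node U5: the frozen statement `UB.U5Stmt`, unconditional.
-/

set_option autoImplicit false

open MeasureTheory Metric Set Filter Topology
open scoped ENNReal

namespace Crest.Agent.R162.U5F

open Crest.Agent.R162.UB

theorem u5bOut : U5bOut := by
  intro Xb
  obtain ⟨cR, CR, cV, CV, CL, N1, h1, -, h3, h4, -, h⟩ := U5b.U5b_trig Xb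
  exact ⟨cR, CR, cV, CV, CL, N1, h1, h3, h4, h⟩

/-- **NODE U5** -/
theorem u5Stmt {κ : ℝ} (hκ : 0 < κ) : U5Stmt κ := u5 u5bOut hκ

end Crest.Agent.R162.U5F
end

-- ▼ part R162/U6
section

/-!
# Row 162, node U6: greedy selection over a finite family of random times, and charging

Stopping times / events as in `R162/OSDefs.lean` (`OS.IsST`, `OS.EvST`).
-/

set_option autoImplicit false
open MeasureTheory Set
open scoped NNReal ENNReal

namespace Crest.Agent.R162.U6

open Crest.Agent.R162.OS (IsST EvST)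

section Order

variable {Ω ι : Type*} [LinearOrder ι]

/-- `j` comes before `i` (order by the time, ties by the fixed order). -/
def before (T : ι → Ω → ℝ≥0) (ω : Ω) (j i : ι) : Prop :=
  T j ω < T i ω ∨ (T j ω = T i ω ∧ j < i)

variable {T : ι → Ω → ℝ≥0} {ω : Ω} {i j k : ι}

theorem before.le (h : before T ω j i) : T j ω ≤ T i ω := by
  rcases h with h | h
  · exact h.le
  · exact h.1.le

theorem before_irrefl : ¬ before T ω i i := by
  rintro (h | h)
  · exact lt_irrefl _ h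
  · exact lt_irrefl _ h.2

theorem before.trans (h1 : before T ω i j) (h2 : before T ω j k) : before T ω i k := by
  rcases h1 with h1 | ⟨h1, h1'⟩ <;> rcases h2 with h2 | ⟨h2, h2'⟩
  · exact Or.inl (h1.trans h2)
  · exact Or.inl (h2 ▸ h1)
  · exact Or.inl (h1 ▸ h2)
  · exact Or.inr ⟨h1.trans h2, h1'.trans h2'⟩

theorem before_or_before (h : i ≠ j) : before T ω i j ∨ before T ω j i := by
  rcases lt_trichotomy (T i ω) (T j ω) with h1 | h1 | h1
  · exact Or.inl (Or.inl h1)
  · rcases lt_or_gt_of_ne h with h2 | h2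
    · exact Or.inl (Or.inr ⟨h1, h2⟩)
    · exact Or.inr (Or.inr ⟨h1.symm, h2⟩)
  · exact Or.inr (Or.inl h1)

end Order

section Selection

variable {Ω ι : Type*} [LinearOrder ι] [Fintype ι]

/-- `n`-step approximation of the greedy selection. -/
def selN (T : ι → Ω → ℝ≥0) (A : ι → Set Ω) (Bad : ι → ι → Prop) : ℕ → Ω → ι → Prop
  | 0, _, _ => False
  | n + 1, ω, i => ω ∈ A i ∧ ∀ j, before T ω j i → selN T A Bad n ω j → ¬ Bad j i

/-- Greedy selection: `i` is selected iff its trigger `A i` occurs and no previously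
(in the order `before`) selected `j` blocks it (`Bad j i`). -/
def sel (T : ι → Ω → ℝ≥0) (A : ι → Set Ω) (Bad : ι → ι → Prop) (ω : Ω) (i : ι) : Prop :=
  selN T A Bad (Fintype.card ι) ω i

open Classical in
/-- number of indices before `i`. -/
noncomputable def rank (T : ι → Ω → ℝ≥0) (ω : Ω) (i : ι) : ℕ :=
  (Finset.univ.filter (fun j => before T ω j i)).card

variable {T : ι → Ω → ℝ≥0} {A : ι → Set Ω} {Bad : ι → ι → Prop} {ω : Ω} {i j : ι}

theorem rank_lt_rank (h : before T ω j i) : rank T ω j < rank T ω i := by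
  classical
  unfold rank
  apply Finset.card_lt_card
  rw [Finset.ssubset_iff_of_subset]
  · exact ⟨j, by simpa using h, by simpa using before_irrefl⟩
  · intro k hk
    simp only [Finset.mem_filter, Finset.mem_univ, true_and] at hk ⊢
    exact hk.trans h

theorem rank_lt_card : rank T ω i < Fintype.card ι := by
  classical
  unfold rank
  rw [← Finset.card_univ]
  apply Finset.card_lt_card
  rw [Finset.ssubset_iff_of_subset (Finset.subset_univ _)]
  exact ⟨i, Finset.mem_univ _, by simpa using before_irrefl⟩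

theorem selN_stab (n : ℕ) : ∀ (m : ℕ) (i : ι), rank T ω i < n → rank T ω i < m →
    (selN T A Bad n ω i ↔ selN T A Bad m ω i) := by
  induction n with
  | zero => intro m i h; omega
  | succ n ih =>
    intro m i h1 h2
    obtain ⟨m, rfl⟩ : ∃ m', m = m' + 1 := ⟨m - 1, by omega⟩
    simp only [selN]
    refine and_congr Iff.rfl ?_
    refine forall_congr' fun j => ?_
    refine forall_congr' fun hj => ?_
    have := rank_lt_rank hj
    rw [ih m j (by omega) (by omega)]

/-- The defining recursion of the greedy selection. -/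
theorem sel_iff : sel T A Bad ω i ↔
    (ω ∈ A i ∧ ∀ j, before T ω j i → sel T A Bad ω j → ¬ Bad j i) := by
  have h : sel T A Bad ω i ↔ selN T A Bad (Fintype.card ι + 1) ω i :=
    selN_stab _ _ _ rank_lt_card (rank_lt_card.trans (Nat.lt_succ_self _))
  rw [h]
  rfl

theorem sel.trigger (h : sel T A Bad ω i) : ω ∈ A i := (sel_iff.1 h).1

theorem sel.not_bad (hi : sel T A Bad ω i) (hj : sel T A Bad ω j) (h : before T ω j i) :
    ¬ Bad j i := (sel_iff.1 hi).2 j h hj

/-- covering: every triggered index is selected or blocked by a selected one before it. -/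
theorem exists_sel (h : ω ∈ A i) :
    sel T A Bad ω i ∨ ∃ j, before T ω j i ∧ sel T A Bad ω j ∧ Bad j i := by
  by_contra hc
  push Not at hc
  exact hc.1 (sel_iff.2 ⟨h, fun j hj hs => hc.2 j hj hs⟩)

end Selection

section Adapted

variable {Ω ι : Type*} [LinearOrder ι] [Fintype ι] {m : MeasurableSpace Ω}
  {ℱ : Filtration ℝ≥0 m} {T : ι → Ω → ℝ≥0} {A : ι → Set Ω} {Bad : ι → ι → Prop}

/-- `{S ≤ t}`-type sets: comparison of two stopping times before `t`. -/
theorem measurableSet_lt_of_stop {S U : Ω → ℝ≥0}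
    (hS : ∀ t, MeasurableSet[ℱ t] {ω | S ω ≤ t}) (hU : ∀ t, MeasurableSet[ℱ t] {ω | U ω ≤ t})
    (t : ℝ≥0) : MeasurableSet[ℱ t] {ω | S ω < U ω ∧ U ω ≤ t} := by
  -- `min S t`, `min U t` are `ℱ t`-measurable
  have key : ∀ {V : Ω → ℝ≥0}, (∀ t, MeasurableSet[ℱ t] {ω | V ω ≤ t}) →
      Measurable[ℱ t] (fun ω => min (V ω) t) := by
    intro V hV
    refine @measurable_of_Iic ℝ≥0 Ω _ _ _ (ℱ t) _ _ _ _ ?_
    intro a
    by_cases ha : t ≤ a
    · have : (fun ω => min (V ω) t) ⁻¹' Iic a = univ := by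
        ext ω; simp [min_le_iff, ha]
      rw [this]; exact MeasurableSet.univ
    · push Not at ha
      have : (fun ω => min (V ω) t) ⁻¹' Iic a = {ω | V ω ≤ a} := by
        ext ω; simp [min_le_iff, not_le.2 ha]
      rw [this]
      exact ℱ.mono ha.le _ (hV a)
  have h1 := key hS
  have h2 := key hU
  have h3 : {ω | S ω < U ω ∧ U ω ≤ t} =
      {ω | min (S ω) t < min (U ω) t} ∩ {ω | U ω ≤ t} := by
    ext ω
    simp only [mem_ofPred_eq, mem_inter_iff]
    constructor
    · rintro ⟨h, h'⟩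
      refine ⟨?_, h'⟩
      rw [min_eq_left h', min_eq_left (h.le.trans h')]
      exact h
    · rintro ⟨h, h'⟩
      refine ⟨?_, h'⟩
      rw [min_eq_left h'] at h
      by_contra hc
      push Not at hc
      rcases le_total (S ω) t with h4 | h4
      · rw [min_eq_left h4] at h
        exact absurd h (not_lt.2 hc)
      · rw [min_eq_right h4] at h
        exact absurd (h.trans_le h') (lt_irrefl _)
  rw [h3]
  exact (@measurableSet_lt ℝ≥0 Ω _ _ _ (ℱ t) _ _ _ _ _ h1 h2).inter (hU t)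

theorem measurableSet_before (hT : ∀ i, IsST ℱ (T i)) (j i : ι)
    (t : ℝ≥0) : MeasurableSet[ℱ t] ({ω | before T ω j i} ∩ {ω | T i ω ≤ t}) := by
  by_cases hji : j < i
  · have : ({ω | before T ω j i} ∩ {ω | T i ω ≤ t}) =
        ({ω | T i ω ≤ t} ∩ {ω | T j ω ≤ t}) \ {ω | T i ω < T j ω ∧ T j ω ≤ t} := by
      ext ω
      simp only [before, hji, and_true, mem_inter_iff, mem_ofPred_eq, mem_sdiff, not_and, not_le]
      constructor
      · rintro ⟨h, h'⟩
        have hle : T j ω ≤ T i ω := by rcases h with h | h <;> [exact h.le; exact h.le]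
        exact ⟨⟨h', hle.trans h'⟩, fun h2 => absurd hle (not_le.2 h2)⟩
      · rintro ⟨⟨h1, h3⟩, h2⟩
        refine ⟨?_, h1⟩
        have : T j ω ≤ T i ω := by
          by_contra hc
          push Not at hc
          exact absurd (h2 hc) (not_lt.2 h3)
        exact lt_or_eq_of_le this
    rw [this]
    exact ((hT i t).inter (hT j t)).diff (measurableSet_lt_of_stop (hT i) (hT j) t)
  · have : ({ω | before T ω j i} ∩ {ω | T i ω ≤ t}) = {ω | T j ω < T i ω ∧ T i ω ≤ t} := by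
      ext ω
      simp [before, hji]
    rw [this]
    exact measurableSet_lt_of_stop (hT j) (hT i) t

theorem measurableSet_selN (hT : ∀ i, IsST ℱ (T i))
    (hA : ∀ i, EvST ℱ (T i) (A i)) (n : ℕ) :
    ∀ (i : ι) (t : ℝ≥0), MeasurableSet[ℱ t] ({ω | selN T A Bad n ω i} ∩ {ω | T i ω ≤ t}) := by
  induction n with
  | zero =>
    intro i t
    have : ({ω | selN T A Bad 0 ω i} ∩ {ω | T i ω ≤ t}) = ∅ := by
      ext ω; simp [selN]
    rw [this]; exact @MeasurableSet.empty _ (ℱ t)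
  | succ n ih =>
    intro i t
    have : ({ω | selN T A Bad (n + 1) ω i} ∩ {ω | T i ω ≤ t}) =
        (A i ∩ {ω | T i ω ≤ t}) \ ⋃ j : {j : ι // Bad j i},
          (({ω | before T ω j i} ∩ {ω | T i ω ≤ t}) ∩
            ({ω | selN T A Bad n ω j} ∩ {ω | T j ω ≤ t})) := by
      ext ω
      simp only [selN, mem_inter_iff, mem_ofPred_eq, mem_sdiff, mem_iUnion, not_exists]
      constructor
      · rintro ⟨⟨h1, h2⟩, h3⟩
        exact ⟨⟨h1, h3⟩, fun j hj => h2 j hj.1.1 hj.2.1 j.2⟩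
      · rintro ⟨⟨h1, h3⟩, h2⟩
        exact ⟨⟨h1, fun j hj hs hb => h2 ⟨j, hb⟩ ⟨⟨hj, h3⟩, hs, hj.le.trans h3⟩⟩, h3⟩
    rw [this]
    refine (hA i t).diff (MeasurableSet.iUnion fun j => ?_)
    exact (measurableSet_before hT j i t).inter (ih j t)

/-- the event `i is selected` belongs to `F_{T i}`. -/
theorem evST_sel (hT : ∀ i, IsST ℱ (T i)) (hA : ∀ i, EvST ℱ (T i) (A i)) (i : ι) :
    EvST ℱ (T i) {ω | sel T A Bad ω i} :=
  fun t => measurableSet_selN hT hA _ i t

end Adapted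

section Charging

variable {Ω ι : Type*} [LinearOrder ι] [Fintype ι] {m : MeasurableSpace Ω}
  {ℱ : Filtration ℝ≥0 m} {T : ι → Ω → ℝ≥0}

/-- Events `D i ∈ F_{T i}`, pairwise disjoint, times bounded by `Tm`: they are glued to one
bounded stopping time. -/
theorem exists_glued_stop (Tm : ℝ≥0) (hTm : ∀ i ω, T i ω ≤ Tm) (D : ι → Set Ω)
    (hD : ∀ i, EvST ℱ (T i) (D i))
    (hdis : ∀ ω i j, ω ∈ D i → ω ∈ D j → i = j) :
    ∃ τ : Ω → ℝ≥0, IsST ℱ τ ∧ (∀ ω, τ ω ≤ Tm) ∧
      ∀ i, ∀ ω ∈ D i, τ ω = T i ω := by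
  classical
  refine ⟨fun ω => if h : ∃ i, ω ∈ D i then T h.choose ω else Tm, ?_, ?_, ?_⟩
  · intro t
    by_cases ht : Tm ≤ t
    · have : {ω | (if h : ∃ i, ω ∈ D i then T h.choose ω else Tm) ≤ t} = univ := by
        ext ω
        simp only [mem_ofPred_eq, mem_univ, iff_true]
        split_ifs with h
        · exact (hTm _ _).trans ht
        · exact ht
      rw [this]; exact MeasurableSet.univ
    · have : {ω | (if h : ∃ i, ω ∈ D i then T h.choose ω else Tm) ≤ t} =
          ⋃ i, (D i ∩ {ω | T i ω ≤ t}) := by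
        ext ω
        simp only [mem_ofPred_eq, mem_iUnion, mem_inter_iff]
        split_ifs with h
        · constructor
          · intro h'
            exact ⟨h.choose, h.choose_spec, h'⟩
          · rintro ⟨i, hi, hi'⟩
            rw [hdis ω _ i h.choose_spec hi]
            exact hi'
        · constructor
          · intro h'; exact absurd h' ht
          · rintro ⟨i, hi, _⟩; exact absurd ⟨i, hi⟩ h
      rw [this]
      exact MeasurableSet.iUnion fun i => hD i t
  · intro ω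
    dsimp only
    split_ifs with h
    · exact hTm _ _
    · exact le_rfl
  · intro i ω hi
    dsimp only
    have h : ∃ i, ω ∈ D i := ⟨i, hi⟩
    rw [dif_pos h, hdis ω _ i h.choose_spec hi]

/-- **Charging inequality for one point.** If `E[G_τ] ≤ g0` for all stopping times `τ ≤ Tm`
and the events `D i ∈ F_{T i}` are pairwise disjoint then `∑ E[G_{T i}; D i] ≤ g0`. -/
theorem sum_lintegral_le {P : Measure Ω} (Tm : ℝ≥0) (hTm : ∀ i ω, T i ω ≤ Tm) (D : ι → Set Ω)
    (hD : ∀ i, EvST ℱ (T i) (D i))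
    (hdis : ∀ ω i j, ω ∈ D i → ω ∈ D j → i = j)
    (G : ℝ≥0 → Ω → ℝ≥0∞) (g0 : ℝ≥0∞)
    (hG : ∀ τ : Ω → ℝ≥0, IsST ℱ τ → (∀ ω, τ ω ≤ Tm) →
      ∫⁻ ω, G (τ ω) ω ∂P ≤ g0) :
    ∑ i, ∫⁻ ω in D i, G (T i ω) ω ∂P ≤ g0 := by
  classical
  obtain ⟨τ, h1, h2, h3⟩ := exists_glued_stop Tm hTm D hD hdis
  refine le_trans ?_ (hG τ h1 h2)
  have hDm : ∀ i, MeasurableSet (D i) := by
    intro i
    have : D i = D i ∩ {ω | T i ω ≤ Tm} := by
      ext ω; simp [hTm i ω]
    rw [this]
    exact ℱ.le _ _ (hD i Tm)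
  calc ∑ i, ∫⁻ ω in D i, G (T i ω) ω ∂P = ∑ i, ∫⁻ ω in D i, G (τ ω) ω ∂P := by
        refine Finset.sum_congr rfl fun i _ => ?_
        refine setLIntegral_congr_fun (hDm i) fun ω hω => ?_
        simp only [h3 i ω hω]
    _ = ∫⁻ ω in ⋃ i ∈ (Finset.univ : Finset ι), D i, G (τ ω) ω ∂P := by
        rw [lintegral_biUnion_finset]
        · intro i _ j _ hij
          rw [Function.onFun, Set.disjoint_left]
          intro ω hi hj
          exact hij (hdis ω i j hi hj)
        · intro i _; exact hDm i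
    _ ≤ ∫⁻ ω, G (τ ω) ω ∂P := setLIntegral_le_lintegral _ _

end Charging

section Main

variable {Ω ι E : Type*} [LinearOrder ι] [Fintype ι] {m : MeasurableSpace Ω}
  {ℱ : Filtration ℝ≥0 m} {T : ι → Ω → ℝ≥0} {A : ι → Set Ω} {Bad : ι → ι → Prop}

theorem measurableSet_of_evST {τ : Ω → ℝ≥0} {D : Set Ω} {Tm : ℝ≥0} (h : EvST ℱ τ D)
    (hTm : ∀ ω, τ ω ≤ Tm) : MeasurableSet D := by
  have : D = D ∩ {ω | τ ω ≤ Tm} := by
    ext ω; simp [hTm ω]
  rw [this]
  exact ℱ.le _ _ (h Tm)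

theorem EvST_inter {τ : Ω → ℝ≥0} {D D' : Set Ω} (h : EvST ℱ τ D) (h' : EvST ℱ τ D') :
    EvST ℱ τ (D ∩ D') := by
  intro t
  have : D ∩ D' ∩ {ω | τ ω ≤ t} = (D ∩ {ω | τ ω ≤ t}) ∩ (D' ∩ {ω | τ ω ≤ t}) := by
    ext ω; simp only [mem_inter_iff]; tauto
  rw [this]
  exact (h t).inter (h' t)

/-- **U6, main inequality.** `c i` = cost of the covering set of `i`; `Ch i x` = event that the
point `x` is charged by `i`; `G x t ω` = the Green function process of `x`.
Expected cost of the selected covering sets `≤ C ∫ G0`. -/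
theorem lintegral_cost_le {P : Measure Ω} [SFinite P] [MeasurableSpace E] {ν : Measure E}
    [SFinite ν]
    (hT : ∀ i, IsST ℱ (T i)) (hA : ∀ i, EvST ℱ (T i) (A i)) (Tm : ℝ≥0) (hTm : ∀ i ω, T i ω ≤ Tm)
    (c : ι → ℝ≥0∞) (C : ℝ≥0∞) (Ch : ι → E → Set Ω) (hCh : ∀ i x, EvST ℱ (T i) (Ch i x))
    (G : E → ℝ≥0 → Ω → ℝ≥0∞) (G0 : E → ℝ≥0∞)
    (hmeas : ∀ i, AEMeasurable
      (fun p : Ω × E => (Ch i p.2).indicator (fun ω => G p.2 (T i ω) ω) p.1) (P.prod ν))
    (hmass : ∀ i, ∀ ω ∈ A i,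
      c i ≤ C * ∫⁻ x, (Ch i x).indicator (fun ω => G x (T i ω) ω) ω ∂ν)
    (honce : ∀ x ω i j, ω ∈ A i → ω ∈ A j → before T ω j i → ω ∈ Ch j x → ω ∈ Ch i x → Bad j i)
    (hG : ∀ x (τ : Ω → ℝ≥0), IsST ℱ τ → (∀ ω, τ ω ≤ Tm) → ∫⁻ ω, G x (τ ω) ω ∂P ≤ G0 x) :
    ∫⁻ ω, ∑ i, {ω | sel T A Bad ω i}.indicator (fun _ => c i) ω ∂P ≤ C * ∫⁻ x, G0 x ∂ν := by
  classical
  have hsm : ∀ i, MeasurableSet {ω | sel T A Bad ω i} := fun i =>
    measurableSet_of_evST (evST_sel hT hA i) (hTm i)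
  -- joint measurability of the restricted charge
  have hm2 : ∀ i, AEMeasurable (fun p : Ω × E =>
      {ω | sel T A Bad ω i}.indicator (fun ω => (Ch i p.2).indicator
        (fun ω => G p.2 (T i ω) ω) ω) p.1) (P.prod ν) := by
    intro i
    have h1 : MeasurableSet {p : Ω × E | sel T A Bad p.1 i} := measurable_fst (hsm i)
    have h2 := (hmeas i).indicator h1
    refine h2.congr (Filter.Eventually.of_forall fun p => ?_)
    simp only [indicator, mem_ofPred_eq]
  have hD : ∀ x, ∀ i, EvST ℱ (T i) ({ω | sel T A Bad ω i} ∩ Ch i x) := fun x i =>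
    EvST_inter (evST_sel hT hA i) (hCh i x)
  have hdis : ∀ x ω i j, ω ∈ {ω | sel T A Bad ω i} ∩ Ch i x →
      ω ∈ {ω | sel T A Bad ω j} ∩ Ch j x → i = j := by
    intro x ω i j hi hj
    by_contra hne
    have hi1 : sel T A Bad ω i := hi.1
    have hj1 : sel T A Bad ω j := hj.1
    rcases before_or_before (T := T) (ω := ω) hne with h | h
    · exact hj1.not_bad hi1 h (honce x ω j i hj1.trigger hi1.trigger h hi.2 hj.2)
    · exact hi1.not_bad hj1 h (honce x ω i j hi1.trigger hj1.trigger h hj.2 hi.2)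
  calc ∫⁻ ω, ∑ i, {ω | sel T A Bad ω i}.indicator (fun _ => c i) ω ∂P
      = ∑ i, ∫⁻ ω, {ω | sel T A Bad ω i}.indicator (fun _ => c i) ω ∂P := by
        rw [lintegral_finsetSum]
        intro i _
        exact measurable_const.indicator (hsm i)
    _ ≤ ∑ i, ∫⁻ ω, C * ∫⁻ x, {ω | sel T A Bad ω i}.indicator (fun ω => (Ch i x).indicator
          (fun ω => G x (T i ω) ω) ω) ω ∂ν ∂P := by
        refine Finset.sum_le_sum fun i _ => lintegral_mono fun ω => ?_
        by_cases h : sel T A Bad ω i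
        · have h' : ω ∈ {ω | sel T A Bad ω i} := h
          simp only [indicator_of_mem h']
          exact hmass i ω h.trigger
        · have h' : ω ∉ {ω | sel T A Bad ω i} := h
          simp only [indicator_of_notMem h']
          exact zero_le
    _ = ∑ i, C * ∫⁻ ω, ∫⁻ x, {ω | sel T A Bad ω i}.indicator (fun ω => (Ch i x).indicator
          (fun ω => G x (T i ω) ω) ω) ω ∂ν ∂P := by
        refine Finset.sum_congr rfl fun i _ => ?_
        rw [lintegral_const_mul'']
        exact (hm2 i).lintegral_prod_right'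
    _ = ∑ i, C * ∫⁻ x, ∫⁻ ω, {ω | sel T A Bad ω i}.indicator (fun ω => (Ch i x).indicator
          (fun ω => G x (T i ω) ω) ω) ω ∂P ∂ν := by
        refine Finset.sum_congr rfl fun i _ => ?_
        rw [lintegral_lintegral_swap (hm2 i)]
    _ = C * ∫⁻ x, ∑ i, ∫⁻ ω, {ω | sel T A Bad ω i}.indicator (fun ω => (Ch i x).indicator
          (fun ω => G x (T i ω) ω) ω) ω ∂P ∂ν := by
        rw [← Finset.mul_sum, lintegral_finsetSum']
        intro i _
        exact ((hm2 i).prod_swap).lintegral_prod_right'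
    _ ≤ C * ∫⁻ x, G0 x ∂ν := by
        gcongr with x
        refine le_trans (le_of_eq ?_) (sum_lintegral_le (P := P) Tm hTm
          (fun i => {ω | sel T A Bad ω i} ∩ Ch i x) (hD x) (hdis x) (G x) (G0 x) (hG x))
        refine Finset.sum_congr rfl fun i _ => ?_
        rw [← lintegral_indicator (measurableSet_of_evST (hD x i) (hTm i))]
        refine lintegral_congr fun ω => ?_
        rw [← indicator_indicator]

end Main

section Geometry

variable {Ω ι : Type*} [LinearOrder ι] [Fintype ι]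
  {T : ι → Ω → ℝ≥0} {A : ι → Set Ω} {ω : Ω}




end Geometry

end Crest.Agent.R162.U6
private theorem rz_ada8ebc730 : type_of% @_root_.Crest.Agent.R162.U6.selN.eq_def := @_root_.Crest.Agent.R162.U6.selN.eq_def -- L60
private theorem rz_bdca097a7f : type_of% @_root_.Crest.Agent.R162.U6.selN.eq_1 := @_root_.Crest.Agent.R162.U6.selN.eq_1 -- L60
end

-- ▼ part R162/U6F
section

/-!
Row 162, node U6, final form: `U6Stmt` of `UBDefs` from the trigger stopping times, the joint
measurability, the supermartingale bound and the comparison of conformal radii.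
-/

set_option autoImplicit false
open MeasureTheory ProbabilityTheory Set Filter Topology
open scoped NNReal ENNReal

namespace Crest.Agent.R162.U6F

open Crest.Agent.R162.FL Crest.Agent.R162.OP Crest.Agent.R162.OS Crest.Agent.R162.U6
  Crest.Agent.R162.UB
open Crest.ProbabilityR.Loewner

section Cap

variable {Ω ι : Type*} [LinearOrder ι] [Fintype ι]

open Classical in
/-- capped times -/
noncomputable def capT (T : ι → Ω → ℝ≥0) (A : ι → Set Ω) (n : ℝ≥0) (i : ι) (ω : Ω) : ℝ≥0 :=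
  if ω ∈ A i ∧ T i ω ≤ n then T i ω else n

/-- triggers before the cap -/
def capA (T : ι → Ω → ℝ≥0) (A : ι → Set Ω) (n : ℝ≥0) (i : ι) : Set Ω :=
  {ω | ω ∈ A i ∧ T i ω ≤ n}

variable {T : ι → Ω → ℝ≥0} {A : ι → Set Ω} {Bad : ι → ι → Prop} {n : ℝ≥0} {ω : Ω}

omit [LinearOrder ι] [Fintype ι] in
theorem capT_of_mem {i : ι} (h : ω ∈ capA T A n i) : capT T A n i ω = T i ω := if_pos h

omit [LinearOrder ι] [Fintype ι] in
theorem capT_of_notMem {i : ι} (h : ω ∉ capA T A n i) : capT T A n i ω = n := if_neg h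

omit [LinearOrder ι] [Fintype ι] in
theorem capT_le {i : ι} : capT T A n i ω ≤ n := by
  unfold capT
  split_ifs with h
  · exact h.2
  · exact le_rfl

theorem sel_cap_aux (k : ℕ) : ∀ i, rank T ω i < k → ω ∈ capA T A n i →
    (sel (capT T A n) (capA T A n) Bad ω i ↔ sel T A Bad ω i) := by
  induction k with
  | zero => intro i h; omega
  | succ k ih =>
    intro i hk hi
    rw [sel_iff (T := capT T A n), sel_iff (T := T)]
    constructor
    · rintro ⟨_, h⟩
      refine ⟨hi.1, fun j hj hs => ?_⟩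
      have hj' : ω ∈ capA T A n j := ⟨hs.trigger, hj.le.trans hi.2⟩
      refine h j ?_ ((ih j ?_ hj').2 hs)
      · unfold before at hj ⊢
        rw [capT_of_mem hi, capT_of_mem hj']
        exact hj
      · have := rank_lt_rank hj; omega
    · rintro ⟨_, h⟩
      refine ⟨hi, fun j hj hs => ?_⟩
      have hj' : ω ∈ capA T A n j := hs.trigger
      have hb : before T ω j i := by
        unfold before at hj ⊢
        rw [capT_of_mem hi, capT_of_mem hj'] at hj
        exact hj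
      refine h j hb ((ih j ?_ hj').1 hs)
      have := rank_lt_rank hb; omega

theorem sel_cap {i : ι} (hi : ω ∈ capA T A n i) :
    sel (capT T A n) (capA T A n) Bad ω i ↔ sel T A Bad ω i :=
  sel_cap_aux _ i (Nat.lt_succ_self _) hi

end Cap

section Main

variable {Ω : Type*} {m : MeasurableSpace Ω}

/-- The inputs of node U6. -/
structure Inputs (κ : ℝ) (P : Measure Ω) (F : Filtration ℝ≥0 m) (B : ℝ≥0 → Ω → ℝ) : Prop where
  cont : ∀ ω, ContinuousOn (driving κ B ω) (Ici 0)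
  zero : ∀ ω, driving κ B ω 0 = 0
  /-- U3M, uniqueness -/
  uniq : ∀ (ω : Ω) (w : ℂ) (r N δ σ T σ' T' : ℝ), TrigAt (driving κ B ω) w r N δ σ T →
    TrigAt (driving κ B ω) w r N δ σ' T' → T = T'
  /-- U3M, measurability -/
  meas : ∀ (w : ℂ) (r N δ : ℝ), 0 < w.im → 0 < r → 0 < δ → 1 ≤ N → ∀ t : ℝ≥0,
    MeasurableSet[F t] {ω | ∃ σ T, T ≤ (t : ℝ) ∧ TrigAt (driving κ B ω) w r N δ σ T}
  /-- FL-D, one point at a stopping time -/
  evst : ∀ z : ℂ, 0 < z.im → ∀ (c : ℝ) (τ : Ω → ℝ≥0), IsST F τ →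
    EvST F τ {ω | Alive (driving κ B ω) z (τ ω) ∧ c ≤ ups (driving κ B ω) (τ ω) z}
  /-- FL-D, joint measurability, set -/
  jset : ∀ (c : ℝ) (τ : Ω → ℝ≥0), Measurable τ → MeasurableSet
    {p : Ω × ℂ | 0 < p.2.im ∧ Alive (driving κ B p.1) p.2 (τ p.1) ∧
      c ≤ ups (driving κ B p.1) (τ p.1) p.2}
  /-- FL-D, joint measurability, weight -/
  jfun : ∀ (τ : Ω → ℝ≥0), Measurable τ → Measurable
    ({p : Ω × ℂ | 0 < p.2.im ∧ Alive (driving κ B p.1) p.2 (τ p.1)}.indicator
      (fun p => gr κ (driving κ B p.1) (τ p.1) p.2))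
  /-- FL-B -/
  anti : ∀ (ω : Ω) (z : ℂ) (s t : ℝ), 0 ≤ s → s ≤ t → Alive (driving κ B ω) z t →
    ups (driving κ B ω) t z ≤ ups (driving κ B ω) s z
  /-- SUPG -/
  supg : ∀ z : ℂ, 0 < z.im → ∀ τ : Ω → ℝ≥0, IsST F τ →
    ∫⁻ ω, ENNReal.ofReal (gr κ (driving κ B ω) (τ ω) z) ∂P ≤ ENNReal.ofReal (green κ z)
  /-- UD -/
  ud : ∀ (ω : Ω) (z w : ℂ) (T : ℝ), Alive (driving κ B ω) z T → Alive (driving κ B ω) w T →
    ups (driving κ B ω) T z ≤ 2 * ‖z - w‖ + 4 * ups (driving κ B ω) T w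

theorem alive_im_pos {W : ℝ → ℝ} {z : ℂ} {t : ℝ} (h : Alive W z t) : 0 < z.im := by
  obtain ⟨h0, g, hg⟩ := h
  have := hg.im_pos 0 ⟨le_rfl, h0⟩
  rwa [hg.init] at this

/-- The time of the trigger. -/
noncomputable def trigT (κ : ℝ) (B : ℝ≥0 → Ω → ℝ) (N δ : ℝ) (p : ℂ × ℝ) (ω : Ω) : ℝ≥0 :=
  open Classical in
  if h : ∃ T σ, TrigAt (driving κ B ω) p.1 p.2 N δ σ T then Real.toNNReal h.choose else 0

/-- The event that the trigger occurs. -/
def trigA (κ : ℝ) (B : ℝ≥0 → Ω → ℝ) (N δ : ℝ) (p : ℂ × ℝ) : Set Ω :=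
  {ω | Trig (driving κ B ω) p.1 p.2 N δ}

variable {κ : ℝ} {P : Measure Ω} {F : Filtration ℝ≥0 m} {B : ℝ≥0 → Ω → ℝ}

theorem Inputs.trigT_eq (h : Inputs κ P F B) {N δ : ℝ} {p : ℂ × ℝ} {ω : Ω} {σ T : ℝ}
    (hT : TrigAt (driving κ B ω) p.1 p.2 N δ σ T) : (trigT κ B N δ p ω : ℝ) = T := by
  have hex : ∃ T σ, TrigAt (driving κ B ω) p.1 p.2 N δ σ T := ⟨T, σ, hT⟩
  unfold trigT
  rw [dif_pos hex]
  obtain ⟨σ', hσ'⟩ := hex.choose_spec
  rw [h.uniq ω _ _ _ _ _ _ _ _ hσ' hT]
  exact Real.coe_toNNReal _ (hT.nonneg.trans hT.le)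

theorem Inputs.exists_trigAt (h : Inputs κ P F B) {N δ : ℝ} {p : ℂ × ℝ} {ω : Ω}
    (hω : ω ∈ trigA κ B N δ p) :
    ∃ σ, TrigAt (driving κ B ω) p.1 p.2 N δ σ (trigT κ B N δ p ω) := by
  obtain ⟨σ, T, hT⟩ := hω
  exact ⟨σ, by rw [h.trigT_eq hT]; exact hT⟩

theorem Inputs.set_eq (h : Inputs κ P F B) (N δ : ℝ) (p : ℂ × ℝ) (t : ℝ≥0) :
    {ω | ω ∈ trigA κ B N δ p ∧ trigT κ B N δ p ω ≤ t} =
      {ω | ∃ σ T, T ≤ (t : ℝ) ∧ TrigAt (driving κ B ω) p.1 p.2 N δ σ T} := by
  ext ω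
  simp only [mem_ofPred_eq]
  constructor
  · rintro ⟨h1, h2⟩
    obtain ⟨σ, hσ⟩ := h.exists_trigAt h1
    exact ⟨σ, _, by exact_mod_cast h2, hσ⟩
  · rintro ⟨σ, T, hle, hT⟩
    refine ⟨⟨σ, T, hT⟩, ?_⟩
    have := h.trigT_eq hT
    rw [← this] at hle
    exact_mod_cast hle

theorem Inputs.isST_cap (h : Inputs κ P F B) {N δ : ℝ} (hδ : 0 < δ) (hN : 1 ≤ N) {ι : Type*}
    (pt : ι → ℂ × ℝ) (hpt : ∀ i, 0 < (pt i).1.im ∧ 0 < (pt i).2) (n : ℝ≥0) (i : ι) :
    IsST F (capT (fun i => trigT κ B N δ (pt i)) (fun i => trigA κ B N δ (pt i)) n i) := by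
  intro t
  by_cases ht : n ≤ t
  · have : {ω | capT (fun i => trigT κ B N δ (pt i)) (fun i => trigA κ B N δ (pt i)) n i ω ≤ t}
        = univ := by
      ext ω; simp only [mem_ofPred_eq, mem_univ, iff_true]; exact capT_le.trans ht
    rw [this]; exact MeasurableSet.univ
  · have : {ω | capT (fun i => trigT κ B N δ (pt i)) (fun i => trigA κ B N δ (pt i)) n i ω ≤ t}
        = {ω | ω ∈ trigA κ B N δ (pt i) ∧ trigT κ B N δ (pt i) ω ≤ t} := by
      ext ω
      simp only [mem_ofPred_eq]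
      push Not at ht
      constructor
      · intro h1
        by_cases hc : ω ∈ capA (fun i => trigT κ B N δ (pt i)) (fun i => trigA κ B N δ (pt i)) n i
        · rw [capT_of_mem hc] at h1
          exact ⟨hc.1, h1⟩
        · rw [capT_of_notMem hc] at h1
          exact absurd h1 (not_le.2 ht)
      · rintro ⟨h1, h2⟩
        have hc : ω ∈ capA (fun i => trigT κ B N δ (pt i)) (fun i => trigA κ B N δ (pt i)) n i :=
          ⟨h1, h2.trans ht.le⟩
        rw [capT_of_mem hc]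
        exact h2
    rw [this, h.set_eq]
    exact h.meas _ _ _ _ (hpt i).1 (hpt i).2 hδ hN t

theorem Inputs.evST_capA (h : Inputs κ P F B) {N δ : ℝ} (hδ : 0 < δ) (hN : 1 ≤ N) {ι : Type*}
    (pt : ι → ℂ × ℝ) (hpt : ∀ i, 0 < (pt i).1.im ∧ 0 < (pt i).2) (n : ℝ≥0) (i : ι) :
    EvST F (capT (fun i => trigT κ B N δ (pt i)) (fun i => trigA κ B N δ (pt i)) n i)
      (capA (fun i => trigT κ B N δ (pt i)) (fun i => trigA κ B N δ (pt i)) n i) := by
  intro t
  have : (capA (fun i => trigT κ B N δ (pt i)) (fun i => trigA κ B N δ (pt i)) n i) ∩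
      {ω | capT (fun i => trigT κ B N δ (pt i)) (fun i => trigA κ B N δ (pt i)) n i ω ≤ t} =
      {ω | ω ∈ trigA κ B N δ (pt i) ∧ trigT κ B N δ (pt i) ω ≤ min n t} := by
    ext ω
    simp only [mem_inter_iff, mem_ofPred_eq, le_min_iff]
    constructor
    · rintro ⟨h1, h2⟩
      rw [capT_of_mem h1] at h2
      exact ⟨h1.1, h1.2, h2⟩
    · rintro ⟨h1, h2, h3⟩
      have hc : ω ∈ capA (fun i => trigT κ B N δ (pt i)) (fun i => trigA κ B N δ (pt i)) n i :=
        ⟨h1, h2⟩
      rw [capT_of_mem hc]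
      exact ⟨hc, h3⟩
  rw [this, h.set_eq]
  exact F.mono (min_le_right _ _) _ (h.meas _ _ _ _ (hpt i).1 (hpt i).2 hδ hN _)

/-- **Node U6, final form.** -/
theorem Inputs.u6 [IsProbabilityMeasure P] (h : Inputs κ P F B) : U6Stmt κ P B := by
  classical
  intro δ C₆ c₅ c N R hδ hC₆ hc₅ hc hN J hJ hlac hmass
  -- enumeration of `J`
  set pt : Fin J.card → ℂ × ℝ := fun i => (J.equivFin.symm i : ℂ × ℝ) with hpt_def
  have hptJ : ∀ i, pt i ∈ J := fun i => (J.equivFin.symm i).2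
  have hpt : ∀ i, 0 < (pt i).1.im ∧ 0 < (pt i).2 := fun i => ⟨(hJ _ (hptJ i)).1, (hJ _ (hptJ i)).2.1⟩
  set T : Fin J.card → Ω → ℝ≥0 := fun i => trigT κ B N δ (pt i) with hT_def
  set A : Fin J.card → Set Ω := fun i => trigA κ B N δ (pt i) with hA_def
  set Bad : Fin J.card → Fin J.card → Prop :=
    fun j i => ‖(pt i).1 - (pt j).1‖ ≤ 10 * C₆ * (pt j).2 with hBad_def
  set cost : Fin J.card → ℝ≥0∞ := fun i =>
    ENNReal.ofReal (c * (pt i).2 ^ dimParam κ * N ^ ((2 - dimParam κ) / 2)) with hcost_def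
  set H : Set ℂ := {z : ℂ | 0 < z.im ∧ ‖z‖ ≤ R} with hH_def
  have hHm : MeasurableSet H := by
    refine MeasurableSet.inter ?_ ?_
    · exact measurableSet_lt measurable_const Complex.measurable_im
    · exact measurableSet_le measurable_norm measurable_const
  -- the capped inequality
  have hcap : ∀ n : ℕ, ∑ i, P {ω | sel (capT T A n) (capA T A n) Bad ω i} * cost i ≤
      ∫⁻ z in H, ENNReal.ofReal (green κ z) := by
    intro n
    have hST : ∀ i, IsST F (capT T A n i) := fun i => h.isST_cap hδ hN pt hpt n i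
    have hEA : ∀ i, EvST F (capT T A n i) (capA T A n i) := fun i => h.evST_capA hδ hN pt hpt n i
    have hSTm : ∀ i, Measurable (capT T A n i) := fun i =>
      measurable_of_Iic fun a => F.le a _ (hST i a)
    -- charge
    set Ch : Fin J.card → ℂ → Set Ω := fun i z => {ω | ω ∈ capA T A n i ∧ 0 < z.im ∧
      z ∈ chargeSet (driving κ B ω) (pt i).1 (pt i).2 N C₆ c₅ (capT T A n i ω)} with hCh_def
    set G : ℂ → ℝ≥0 → Ω → ℝ≥0∞ := fun z t ω =>
      if 0 < z.im then ENNReal.ofReal (gr κ (driving κ B ω) t z) else 0 with hG_def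
    set G0 : ℂ → ℝ≥0∞ := fun z => ENNReal.ofReal (green κ z) with hG0_def
    have hCh : ∀ i z, EvST F (capT T A n i) (Ch i z) := by
      intro i z
      by_cases hz : 0 < z.im
      · by_cases hd : ‖z - (pt i).1‖ ≤ C₆ * (pt i).2
        · have : Ch i z = capA T A n i ∩ {ω | Alive (driving κ B ω) z (capT T A n i ω) ∧
              c₅ * (pt i).2 * N ^ (-(1 / 2 : ℝ)) ≤ ups (driving κ B ω) (capT T A n i ω) z} := by
            ext ω
            simp only [hCh_def, chargeSet, mem_ofPred_eq, mem_inter_iff, hz, hd, true_and]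
          rw [this]
          exact EvST_inter (hEA i) (h.evst z hz _ _ (hST i))
        · have : Ch i z = ∅ := by
            ext ω
            simp only [hCh_def, chargeSet, mem_ofPred_eq, mem_empty_iff_false, iff_false]
            rintro ⟨_, _, _, h2, _⟩
            exact hd h2
          rw [this]
          intro t; simp
      · have : Ch i z = ∅ := by
          ext ω
          simp only [hCh_def, mem_ofPred_eq, mem_empty_iff_false, iff_false]
          rintro ⟨_, h1, _⟩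
          exact hz h1
        rw [this]
        intro t; simp
    -- joint measurability
    have hAm : ∀ i, MeasurableSet (capA T A n i) := fun i =>
      measurableSet_of_evST (hEA i) (fun _ => capT_le)
    have hjset : ∀ i, MeasurableSet {p : Ω × ℂ | p.1 ∈ Ch i p.2} := by
      intro i
      have : {p : Ω × ℂ | p.1 ∈ Ch i p.2} =
          ({p : Ω × ℂ | p.1 ∈ capA T A n i} ∩ {p : Ω × ℂ | ‖p.2 - (pt i).1‖ ≤ C₆ * (pt i).2}) ∩
          {p : Ω × ℂ | 0 < p.2.im ∧ Alive (driving κ B p.1) p.2 (capT T A n i p.1) ∧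
            c₅ * (pt i).2 * N ^ (-(1 / 2 : ℝ)) ≤
              ups (driving κ B p.1) (capT T A n i p.1) p.2} := by
        ext p
        simp only [hCh_def, chargeSet, mem_ofPred_eq, mem_inter_iff]
        tauto
      rw [this]
      refine ((measurable_fst (hAm i)).inter ?_).inter (h.jset _ _ (hSTm i))
      exact measurableSet_le ((measurable_snd.sub_const _).norm) measurable_const
    have hjmeas : ∀ i, Measurable (fun p : Ω × ℂ =>
        (Ch i p.2).indicator (fun ω => G p.2 (capT T A n i ω) ω) p.1) := by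
      intro i
      have h1 := ((h.jfun _ (hSTm i)).ennreal_ofReal).indicator (hjset i)
      have h2 : (fun p : Ω × ℂ => (Ch i p.2).indicator (fun ω => G p.2 (capT T A n i ω) ω) p.1) =
          {p : Ω × ℂ | p.1 ∈ Ch i p.2}.indicator (fun x => ENNReal.ofReal
            (({p : Ω × ℂ | 0 < p.2.im ∧ Alive (driving κ B p.1) p.2 (capT T A n i p.1)}.indicator
              (fun p => gr κ (driving κ B p.1) (capT T A n i p.1) p.2)) x)) := by
        funext p
        by_cases hp : p.1 ∈ Ch i p.2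
        · have hp' : p ∈ {p : Ω × ℂ | p.1 ∈ Ch i p.2} := hp
          have hp'' : p ∈ {p : Ω × ℂ | 0 < p.2.im ∧
              Alive (driving κ B p.1) p.2 (capT T A n i p.1)} := ⟨hp.2.1, hp.2.2.1⟩
          rw [indicator_of_mem hp, indicator_of_mem hp', indicator_of_mem hp'']
          simp only [hG_def, hp.2.1, if_true]
        · have hp' : p ∉ {p : Ω × ℂ | p.1 ∈ Ch i p.2} := hp
          rw [indicator_of_notMem hp, indicator_of_notMem hp']
      rw [h2]
      exact h1
    have hmass' : ∀ i, ∀ ω ∈ capA T A n i, cost i ≤ 1 * ∫⁻ z,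
        (Ch i z).indicator (fun ω => G z (capT T A n i ω) ω) ω ∂(volume.restrict H) := by
      intro i ω hω
      obtain ⟨σ, hσ⟩ := h.exists_trigAt hω.1
      have hcapeq : capT T A n i ω = T i ω := capT_of_mem hω
      have h1 := hmass (driving κ B ω) σ (T i ω) (h.cont ω) (h.zero ω) (pt i) (hptJ i) hσ
      have hS : {z | ω ∈ Ch i z} =
          chargeSet (driving κ B ω) (pt i).1 (pt i).2 N C₆ c₅ (T i ω) := by
        ext z
        simp only [hCh_def, mem_ofPred_eq]
        constructor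
        · rintro ⟨_, _, h3⟩; rw [← hcapeq]; exact h3
        · intro h3
          exact ⟨hω, alive_im_pos h3.1, by rw [hcapeq]; exact h3⟩
      have hSm : MeasurableSet {z | ω ∈ Ch i z} := measurable_prodMk_left (hjset i)
      have hSH : {z | ω ∈ Ch i z} ∩ H = {z | ω ∈ Ch i z} := by
        apply inter_eq_left.2
        intro z hz
        have h3 : z ∈ chargeSet (driving κ B ω) (pt i).1 (pt i).2 N C₆ c₅ (T i ω) := by
          rw [← hS]; exact hz
        refine ⟨alive_im_pos h3.1, ?_⟩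
        have h4 := (hJ _ (hptJ i)).2.2.2
        calc ‖z‖ = ‖(z - (pt i).1) + (pt i).1‖ := by rw [sub_add_cancel]
          _ ≤ ‖z - (pt i).1‖ + ‖(pt i).1‖ := norm_add_le _ _
          _ ≤ R := by linarith [h3.2.1]
      rw [one_mul]
      refine h1.trans ?_
      rw [← hS]
      have h5 : ∀ z, (Ch i z).indicator (fun ω => G z (capT T A n i ω) ω) ω =
          {z | ω ∈ Ch i z}.indicator
            (fun z => ENNReal.ofReal (gr κ (driving κ B ω) (T i ω) z)) z := by
        intro z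
        by_cases hz : ω ∈ Ch i z
        · have hz' : z ∈ {z | ω ∈ Ch i z} := hz
          rw [indicator_of_mem hz, indicator_of_mem hz']
          simp only [hG_def, hz.2.1, if_true, hcapeq]
        · have hz' : z ∉ {z | ω ∈ Ch i z} := hz
          rw [indicator_of_notMem hz, indicator_of_notMem hz']
      simp only [h5]
      rw [setLIntegral_indicator hSm, hSH]
    have honce : ∀ z ω i j, ω ∈ capA T A n i → ω ∈ capA T A n j → before (capT T A n) ω j i →
        ω ∈ Ch j z → ω ∈ Ch i z → Bad j i := by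
      intro z ω i j hi hj hb hzj hzi
      obtain ⟨σi, hσi⟩ := h.exists_trigAt hi.1
      obtain ⟨σj, hσj⟩ := h.exists_trigAt hj.1
      have hTi : capT T A n i ω = T i ω := capT_of_mem hi
      have hTj : capT T A n j ω = T j ω := capT_of_mem hj
      have hle : T j ω ≤ T i ω := by
        have := hb.le; rwa [hTi, hTj] at this
      have hle' : ((T j ω : ℝ≥0) : ℝ) ≤ (T i ω : ℝ) := by exact_mod_cast hle
      obtain ⟨_, hzim, hCi⟩ := hzi
      obtain ⟨_, _, hCj⟩ := hzj
      rw [hTi] at hCi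
      rw [hTj] at hCj
      obtain ⟨ai, di, ui⟩ := hCi
      obtain ⟨aj, dj, _⟩ := hCj
      have h1 : ups (driving κ B ω) (T i ω) z ≤ ups (driving κ B ω) (T j ω) z :=
        h.anti ω z _ _ (T j ω).2 hle' ai
      have h2 : ups (driving κ B ω) (T j ω) z ≤
          2 * ‖z - (pt j).1‖ + 4 * ups (driving κ B ω) (T j ω) (pt j).1 :=
        h.ud ω z _ _ aj hσj.alive
      have h3 : ups (driving κ B ω) (T j ω) (pt j).1 ≤ (pt j).2 := by
        rw [← hσj.ups_eq]
        exact h.anti ω _ _ _ hσj.nonneg hσj.le hσj.alive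
      have h4 : c₅ * (pt i).2 * N ^ (-(1 / 2 : ℝ)) ≤ (2 * C₆ + 4) * (pt j).2 := by
        nlinarith
      have hNpos : 0 < N := by linarith
      have hN1 : N ^ (-(1 / 2 : ℝ)) * N ^ (1 / 2 : ℝ) = 1 := by
        rw [← Real.rpow_add hNpos]; norm_num
      have hNh : 0 < N ^ (1 / 2 : ℝ) := Real.rpow_pos_of_pos hNpos _
      have h5 : c₅ * (pt i).2 ≤ (2 * C₆ + 4) * N ^ (1 / 2 : ℝ) * (pt j).2 := by
        calc c₅ * (pt i).2 = c₅ * (pt i).2 * N ^ (-(1 / 2 : ℝ)) * N ^ (1 / 2 : ℝ) := by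
              rw [mul_assoc (c₅ * (pt i).2), hN1, mul_one]
          _ ≤ (2 * C₆ + 4) * (pt j).2 * N ^ (1 / 2 : ℝ) :=
              mul_le_mul_of_nonneg_right h4 hNh.le
          _ = (2 * C₆ + 4) * N ^ (1 / 2 : ℝ) * (pt j).2 := by ring
      have h6 : (pt i).2 ≤ (pt j).2 := by
        by_contra hcon
        push Not at hcon
        have := hlac _ (hptJ j) _ (hptJ i) hcon
        linarith
      have h7 : ‖(pt i).1 - (pt j).1‖ ≤ ‖z - (pt i).1‖ + ‖z - (pt j).1‖ := by
        calc ‖(pt i).1 - (pt j).1‖ = ‖(z - (pt j).1) - (z - (pt i).1)‖ := by congr 1; ring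
          _ ≤ ‖z - (pt j).1‖ + ‖z - (pt i).1‖ := norm_sub_le _ _
          _ = _ := add_comm _ _
      show ‖(pt i).1 - (pt j).1‖ ≤ 10 * C₆ * (pt j).2
      have hrj := (hpt j).2
      nlinarith [mul_le_mul_of_nonneg_left h6 (by linarith : (0:ℝ) ≤ C₆), mul_pos (by linarith : (0:ℝ) < C₆) hrj]
    have hG' : ∀ z (τ : Ω → ℝ≥0), IsST F τ → (∀ ω, τ ω ≤ (n : ℝ≥0)) →
        ∫⁻ ω, G z (τ ω) ω ∂P ≤ G0 z := by
      intro z τ hτ _
      by_cases hz : 0 < z.im
      · simp only [hG_def, hz, if_true]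
        exact h.supg z hz τ hτ
      · simp only [hG_def, hz, if_false, lintegral_zero]
        exact bot_le
    have hfin := lintegral_cost_le (P := P) (ν := volume.restrict H) (Bad := Bad) hST hEA n
      (fun i ω => capT_le) cost 1 Ch hCh G G0 (fun i => (hjmeas i).aemeasurable) hmass' honce hG'
    rw [one_mul] at hfin
    refine le_trans (le_of_eq ?_) hfin
    rw [lintegral_finsetSum]
    · refine Finset.sum_congr rfl fun i _ => ?_
      rw [lintegral_indicator_const
        (measurableSet_of_evST (evST_sel hST hEA i) (fun _ => capT_le)), mul_comm]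
    · intro i _
      exact measurable_const.indicator
        (measurableSet_of_evST (evST_sel hST hEA i) (fun _ => capT_le))
  -- the limit
  have hmono : ∀ i, Monotone (fun n : ℕ => {ω | sel (capT T A n) (capA T A n) Bad ω i}) := by
    intro i n n' hnn ω hω
    have h1 : ω ∈ capA T A (n : ℝ≥0) i := sel.trigger hω
    have h2 : ω ∈ capA T A (n' : ℝ≥0) i := ⟨h1.1, h1.2.trans (by exact_mod_cast hnn)⟩
    exact (sel_cap h2).2 ((sel_cap h1).1 hω)
  have hunion : ∀ i, ⋃ n : ℕ, {ω | sel (capT T A n) (capA T A n) Bad ω i} =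
      {ω | sel T A Bad ω i} := by
    intro i
    ext ω
    simp only [mem_iUnion, mem_ofPred_eq]
    constructor
    · rintro ⟨n, hn⟩
      have h1 : ω ∈ capA T A (n : ℝ≥0) i := sel.trigger hn
      exact (sel_cap h1).1 hn
    · intro hs
      obtain ⟨n, hn⟩ := exists_nat_ge (T i ω)
      exact ⟨n, (sel_cap (n := (n : ℝ≥0)) ⟨hs.trigger, hn⟩).2 hs⟩
  have hlim : ∑ i, P {ω | sel T A Bad ω i} * cost i ≤
      ∫⁻ z in H, ENNReal.ofReal (green κ z) := by
    have ht : Tendsto (fun n : ℕ => ∑ i, P {ω | sel (capT T A n) (capA T A n) Bad ω i} * cost i)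
        atTop (𝓝 (∑ i, P {ω | sel T A Bad ω i} * cost i)) := by
      refine tendsto_finset_sum _ fun i _ => ?_
      refine ENNReal.Tendsto.mul_const ?_ (Or.inr ENNReal.ofReal_ne_top)
      rw [← hunion i]
      exact tendsto_measure_iUnion_atTop (hmono i)
    exact le_of_tendsto' ht hcap
  -- conclusion
  refine ⟨fun p => {ω | ∃ i, pt i = p ∧ sel T A Bad ω i}, ?_, ?_⟩
  · intro ω q hq htr
    set i : Fin J.card := J.equivFin ⟨q, hq⟩ with hi_def
    have hpi : pt i = q := by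
      simp only [hpt_def, hi_def, Equiv.symm_apply_apply]
    have hAi : ω ∈ A i := by
      show Trig (driving κ B ω) (pt i).1 (pt i).2 N δ
      rw [hpi]; exact htr
    rcases exists_sel (T := T) (Bad := Bad) hAi with hs | ⟨j, _, hs, hb⟩
    · refine ⟨pt i, hptJ i, ⟨i, rfl, hs⟩, ?_⟩
      rw [hpi, sub_self, norm_zero]
      have := (hJ q hq).2.1
      positivity
    · refine ⟨pt j, hptJ j, ⟨j, rfl, hs⟩, ?_⟩
      rw [← hpi]
      exact hb
  · refine le_trans (le_of_eq ?_) hlim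
    have hinj : Function.Injective pt := by
      intro i j hij
      exact J.equivFin.symm.injective (Subtype.ext hij)
    have himg : J = Finset.univ.image pt := by
      ext p
      simp only [Finset.mem_image, Finset.mem_univ, true_and]
      constructor
      · intro hp
        exact ⟨J.equivFin ⟨p, hp⟩, by simp only [hpt_def, Equiv.symm_apply_apply]⟩
      · rintro ⟨i, rfl⟩; exact hptJ i
    refine (Finset.sum_congr himg fun p _ => rfl).trans ?_
    rw [Finset.sum_image (fun i _ j _ hij => hinj hij)]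
    refine Finset.sum_congr rfl fun i _ => ?_
    congr 2
    ext ω
    simp only [mem_ofPred_eq]
    constructor
    · rintro ⟨j, hj, hs⟩
      rw [← hinj hj]; exact hs
    · intro hs; exact ⟨i, rfl, hs⟩

end Main

end Crest.Agent.R162.U6F
end

-- ▼ part R162/SUPG
section

/-!
Row 162, node SUPG (helper613), abstract core: a nonnegative function of the state with
`gen Φ ≤ 0` is a supermartingale up to the lifetime, at every finite stopping time.
-/

set_option autoImplicit false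

open MeasureTheory ProbabilityTheory Filter Set
open scoped NNReal ENNReal Topology

namespace Crest.Agent.R162.SUPG

open Crest.Agent.R162.OS Crest.Agent.R162.Rad

variable {Ω : Type*} {m : MeasurableSpace Ω} {F : Filtration ℝ≥0 m} {P : Measure Ω}
  {gen : (St → ℝ) → St → ℝ} {s₀ : ℝ}

lemma IsST_min {σ τ : Ω → ℝ≥0} (hσ : IsST F σ) (hτ : IsST F τ) :
    IsST F (fun ω => min (σ ω) (τ ω)) := by
  intro t
  have : {ω | min (σ ω) (τ ω) ≤ t} = {ω | σ ω ≤ t} ∪ {ω | τ ω ≤ t} := by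
    ext ω; simp
  rw [this]
  exact (hσ t).union (hτ t)

lemma IsST_zero : IsST F (fun _ : Ω => (0 : ℝ≥0)) := by
  intro t
  simp

lemma measurable_indicator_Phi {Φ : St → ℝ} (hΦ : ContinuousOn Φ {p : St | 0 < p.2.1}) :
    Measurable ({p : St | 0 < p.2.1}.indicator Φ) := by
  have hop : IsOpen {p : St | 0 < p.2.1} := isOpen_lt continuous_const (by fun_prop)
  classical
  have := ContinuousOn.measurable_piecewise (s := {p : St | 0 < p.2.1}) (f := Φ)
    (g := (0 : St → ℝ)) hΦ continuousOn_const hop.measurableSet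
  rwa [piecewise_eq_indicator] at this

variable (D : OneP F P gen s₀)

/-- measurability of `Φ(st_τ)` on a measurable set of paths alive at `τ` -/
lemma measurable_Phi_at {τ : Ω → ℝ≥0} (hτ : IsST F τ) {B : Set Ω} (hB : MeasurableSet B)
    (hal : ∀ ω ∈ B, D.al (τ ω) ω) {Φ : St → ℝ} (hΦ : ContinuousOn Φ {p : St | 0 < p.2.1}) :
    Measurable (B.indicator fun ω => Φ (D.st (τ ω) ω)) := by
  have h1 := D.measurable_at hτ hB hal
  have h2 : (B.indicator fun ω => Φ (D.st (τ ω) ω)) =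
      B.indicator (fun ω => {p : St | 0 < p.2.1}.indicator Φ
        (B.indicator (fun ω => D.st (τ ω) ω) ω)) := by
    ext ω
    by_cases hω : ω ∈ B
    · simp only [indicator_of_mem hω]
      rw [indicator_of_mem]
      exact D.y_pos ω _ (hal ω hω)
    · simp only [indicator_of_notMem hω]
  rw [h2]
  exact ((measurable_indicator_Phi hΦ).comp h1).indicator hB

/-- **Supermartingale property up to the lifetime**, at an arbitrary finite stopping time. -/
theorem supg_core [IsFiniteMeasure P] {Φ : St → ℝ}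
    (hΦ : ContDiffOn ℝ 3 Φ {p : St | 0 < p.2.1})
    (hpos : ∀ p : St, 0 < p.2.1 → 0 ≤ Φ p)
    (hgen : ∀ p : St, 0 < p.2.1 → gen Φ p ≤ 0)
    {τ : Ω → ℝ≥0} (hτ : IsST F τ) :
    ∫⁻ ω, {ω | D.al (τ ω) ω}.indicator (fun ω => ENNReal.ofReal (Φ (D.st (τ ω) ω))) ω ∂P ≤
      ∫⁻ ω, ENNReal.ofReal (Φ (D.st 0 ω)) ∂P := by
  have hΦc : ContinuousOn Φ {p : St | 0 < p.2.1} := hΦ.continuousOn
  -- the localised stopping times
  set ρ : ℕ → Ω → ℝ≥0 := fun n ω => min (τ ω) (D.e n ω) with hρ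
  have hρST : ∀ n, IsST F (ρ n) := fun n => IsST_min hτ (D.e_ST n)
  have hρal : ∀ n ω, D.al (ρ n ω) ω ∧ D.st (ρ n ω) ω ∈ D.KK n := fun n ω =>
    D.e_KK n ω _ (min_le_right _ _)
  have h0al : ∀ ω, D.al 0 ω := fun ω => (D.e_KK 0 ω 0 (zero_le)).1
  have hmeas : ∀ n, Measurable fun ω => Φ (D.st (ρ n ω) ω) := by
    intro n
    have := measurable_Phi_at D (hρST n) MeasurableSet.univ (fun ω _ => (hρal n ω).1) hΦc
    simpa only [indicator_univ] using this
  have hmeas0 : Measurable fun ω => Φ (D.st 0 ω) := by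
    have := measurable_Phi_at D (IsST_zero (F := F)) MeasurableSet.univ (fun ω _ => h0al ω) hΦc
    simpa only [indicator_univ] using this
  -- one step
  have step : ∀ n, ∫⁻ ω, ENNReal.ofReal (Φ (D.st (ρ n ω) ω)) ∂P ≤
      ∫⁻ ω, ENNReal.ofReal (Φ (D.st 0 ω)) ∂P := by
    intro n
    obtain ⟨T, hT⟩ := D.e_le n
    have hopm := D.opm Φ (D.KK n) hΦ (D.KK_compact n) (D.KK_pos n)
      (fun p hp => hgen p (D.KK_pos n p hp)) (fun _ => 0) (ρ n) IsST_zero (hρST n) T
      (fun ω => (min_le_right _ _).trans (hT ω)) Set.univ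
      (by intro t; simp) (by
        intro ω _
        refine ⟨zero_le, fun t _ h2 => ?_⟩
        exact D.e_KK n ω t (h2.trans (min_le_right _ _)))
    simp only [Measure.restrict_univ] at hopm
    obtain ⟨C, hC⟩ := (D.KK_compact n).exists_bound_of_continuousOn
      (hΦc.mono fun p hp => D.KK_pos n p hp)
    have hint : Integrable (fun ω => Φ (D.st (ρ n ω) ω)) P :=
      Integrable.of_bound (hmeas n).aestronglyMeasurable C
        (Eventually.of_forall fun ω => hC _ (hρal n ω).2)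
    have hint0 : Integrable (fun ω => Φ (D.st 0 ω)) P :=
      Integrable.of_bound hmeas0.aestronglyMeasurable C
        (Eventually.of_forall fun ω => hC _ (D.e_KK n ω 0 (zero_le)).2)
    rw [← ofReal_integral_eq_lintegral_ofReal hint
        (Eventually.of_forall fun ω => hpos _ (D.y_pos ω _ (hρal n ω).1)),
      ← ofReal_integral_eq_lintegral_ofReal hint0
        (Eventually.of_forall fun ω => hpos _ (D.y_pos ω _ (h0al ω)))]
    exact ENNReal.ofReal_le_ofReal hopm
  -- Fatou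
  calc ∫⁻ ω, {ω | D.al (τ ω) ω}.indicator (fun ω => ENNReal.ofReal (Φ (D.st (τ ω) ω))) ω ∂P
      ≤ ∫⁻ ω, liminf (fun n => ENNReal.ofReal (Φ (D.st (ρ n ω) ω))) atTop ∂P := by
        refine lintegral_mono fun ω => ?_
        by_cases hω : D.al (τ ω) ω
        · have hmem : ω ∈ {ω | D.al (τ ω) ω} := hω
          simp only [indicator_of_mem hmem]
          obtain ⟨n, hn⟩ := D.e_exh ω _ hω
          have hev : ∀ᶠ k in atTop, ENNReal.ofReal (Φ (D.st (ρ k ω) ω)) =
              ENNReal.ofReal (Φ (D.st (τ ω) ω)) := by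
            filter_upwards [eventually_ge_atTop n] with k hk
            have : ρ k ω = τ ω := min_eq_left (hn.le.trans (D.e_mono ω hk))
            rw [this]
          rw [liminf_congr hev, liminf_const]
        · have hmem : ω ∉ {ω | D.al (τ ω) ω} := hω
          simp only [indicator_of_notMem hmem]
          exact zero_le
    _ ≤ liminf (fun n => ∫⁻ ω, ENNReal.ofReal (Φ (D.st (ρ n ω) ω)) ∂P) atTop :=
        lintegral_liminf_le fun n => (hmeas n).ennreal_ofReal
    _ ≤ ∫⁻ ω, ENNReal.ofReal (Φ (D.st 0 ω)) ∂P := by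
        refine liminf_le_of_le (by isBoundedDefault) fun b hb => ?_
        obtain ⟨n, hn⟩ := hb.exists
        exact hn.trans (step n)

end Crest.Agent.R162.SUPG
end

-- ▼ part R162/SUPGf
section

/-!
Row 162, node SUPG (helper613), final form: the Green process is a supermartingale.
-/

set_option autoImplicit false

open MeasureTheory ProbabilityTheory Filter Set
open scoped NNReal ENNReal Topology

namespace Crest.Agent.R162.SUPG

open Crest.Agent.R162.FL Crest.Agent.R162.OS Crest.Agent.R162.OP Crest.Agent.R162.UB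
open Crest.Agent.R162.Rad
open Crest.ProbabilityR.Loewner

universe u

variable {Ω : Type u} {m : MeasurableSpace Ω} {P : Measure Ω} [IsProbabilityMeasure P]
  {F : Filtration ℝ≥0 m} {B : ℝ≥0 → Ω → ℝ} {κ : ℝ}

/-- general form: a nonnegative function of the state with nonpositive generator. -/
theorem super_state (hM : OPM.{u}) (hB : IsBM F B P) (hκ : 0 < κ) {z : ℂ} (hz : 0 < z.im)
    {Φ : ℝ × ℝ × ℝ × ℝ → ℝ} (hΦ : ContDiffOn ℝ 3 Φ {p | 0 < p.2.1})
    (hpos : ∀ p : ℝ × ℝ × ℝ × ℝ, 0 < p.2.1 → 0 ≤ Φ p)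
    (hgen : ∀ p : ℝ × ℝ × ℝ × ℝ, 0 < p.2.1 → gen κ Φ p ≤ 0)
    {τ : Ω → ℝ≥0} (hτ : IsST F τ) :
    ∫⁻ ω, {ω | AliveP κ B z (τ ω) ω}.indicator
        (fun ω => ENNReal.ofReal (Φ (stP κ B z (τ ω) ω))) ω ∂P ≤
      ENNReal.ofReal (Φ (z.re, z.im, Real.log z.im, 0)) := by
  have h := supg_core (oneP hM hB hκ hz) hΦ hpos hgen hτ
  refine h.trans (le_of_eq ?_)
  have h0 : ∀ ω, (oneP hM hB hκ hz).st 0 ω = (z.re, z.im, Real.log z.im, 0) := by
    intro ω
    show stW (driving κ B ω) ((0 : ℝ≥0) : ℝ) z = _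
    rw [NNReal.coe_zero]
    unfold stW
    have hW : driving κ B ω 0 = 0 := by simp [driving, hB.zero ω]
    rw [ups_zero hz]
    simp only [Zfl, gfl_zero hz, hW, Complex.ofReal_zero, sub_zero, ath,
      intervalIntegral.integral_same]
  simp only [h0, lintegral_const, measure_univ, mul_one]

/-- **Node SUPG.** -/
theorem supg (hM : OPM.{u}) (hB : IsBM F B P) (hκ : 0 < κ) (hκ8 : κ < 8) {z : ℂ}
    (hz : 0 < z.im) {τ : Ω → ℝ≥0} (hτ : IsST F τ) :
    ∫⁻ ω, ENNReal.ofReal (gr κ (driving κ B ω) (τ ω) z) ∂P ≤ ENNReal.ofReal (green κ z) := by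
  have h := super_state hM hB hκ hz (Φ := Gq κ) contDiffOn_Gq (fun p hp => (Gq_pos hp).le)
    (fun p hp => (gen_Gq hκ hp).le) hτ
  have h1 : (∫⁻ ω, ENNReal.ofReal (gr κ (driving κ B ω) (τ ω) z) ∂P) =
      ∫⁻ ω, {ω | AliveP κ B z (τ ω) ω}.indicator
        (fun ω => ENNReal.ofReal (Gq κ (stP κ B z (τ ω) ω))) ω ∂P := by
    refine lintegral_congr fun ω => ?_
    by_cases hω : AliveP κ B z (τ ω) ω
    · rw [indicator_of_mem (show ω ∈ {ω | AliveP κ B z (τ ω) ω} from hω)]
      rw [gr_eq_Gq hω]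
      rfl
    · rw [indicator_of_notMem (show ω ∉ {ω | AliveP κ B z (τ ω) ω} from hω)]
      rw [gr_of_dead hκ8 hω, ENNReal.ofReal_zero]
  rw [h1]
  refine h.trans (le_of_eq ?_)
  congr 1
  have h2 := Gq_stW_zero (κ := κ) (W := fun _ => 0) rfl hz
  rw [← h2]
  unfold stW
  rw [ups_zero hz]
  simp only [Zfl, gfl_zero hz, Complex.ofReal_zero, sub_zero, ath,
    intervalIntegral.integral_same]

end Crest.Agent.R162.SUPG
end

-- ▼ part R162/U6G
section

/-!
Row 162, node U6, final assembly (helper620): the inputs of `U6F` from the flow library, the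
supermartingale bound SUPG, the node UD and the trigger node U3M.
-/

set_option autoImplicit false
open MeasureTheory ProbabilityTheory Set Filter Topology
open scoped NNReal ENNReal

namespace Crest.Agent.R162.U6F

open Crest.Agent.R162.FL Crest.Agent.R162.OP Crest.Agent.R162.OS Crest.Agent.R162.U6
  Crest.Agent.R162.UB
open Crest.ProbabilityR.Loewner

universe u

/-- All inputs of U6 except the node U3M (uniqueness and measurability of the trigger). -/
theorem inputs_of {Ω : Type u} {m : MeasurableSpace Ω} {P : Measure Ω} [IsProbabilityMeasure P]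
    {F : Filtration ℝ≥0 m} {B : ℝ≥0 → Ω → ℝ} {κ : ℝ}
    (hM : OPM.{u}) (hB : IsBM F B P) (hκ : 0 < κ) (hκ8 : κ < 8)
    (huniq : ∀ (ω : Ω) (w : ℂ) (r N δ σ T σ' T' : ℝ), TrigAt (driving κ B ω) w r N δ σ T →
      TrigAt (driving κ B ω) w r N δ σ' T' → T = T')
    (hmeas : ∀ (w : ℂ) (r N δ : ℝ) (t : ℝ≥0),
      MeasurableSet[F t] {ω | ∃ σ T, T ≤ (t : ℝ) ∧ TrigAt (driving κ B ω) w r N δ σ T}) :
    Inputs κ P F B where
  cont ω := (FLD.driving_cont hB κ ω).continuousOn
  zero ω := SUPG.driving_zero hB κ ω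
  uniq := huniq
  meas w r N δ _ _ _ _ t := hmeas w r N δ t
  evst z _ c τ hτ := FLD.evST_alive_ups hB κ z c hτ
  jset c τ hτ := FLD.measurableSet_alive_ups_at hB κ c hτ
  jfun τ hτ := FLD.measurable_gr_indicator_at hB κ κ hτ
  anti ω z s t hs hst hz := ups_anti (FLD.driving_cont hB κ ω).continuousOn hz hs hst
  supg z hz τ hτ := SUPG.supg hM hB hκ hκ8 hz hτ
  ud ω z w T hz hw := UD.udStmt _ z w T (FLD.driving_cont hB κ ω).continuousOn hz hw


end Crest.Agent.R162.U6F
end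

-- ▼ part R162/U3M
section

/-!
Row 162 (S0243), node U3M (helper556): the trigger time of a pair `(w, r)` is a stopping time,
and the two times of a trigger are unique.
-/

set_option autoImplicit false

open MeasureTheory ProbabilityTheory Set Filter Topology
open scoped NNReal ENNReal

namespace Crest.Agent.R162.U3M

open Crest.Agent.R162.FL Crest.Agent.R162.OP Crest.Agent.R162.OS Crest.Agent.R162.UB
open Crest.ProbabilityR.Loewner

/-! ### measurable projections over a compact parameter space -/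

section proj

variable {Ω K : Type*} [MeasurableSpace Ω] [TopologicalSpace K] [CompactSpace K]
  [TopologicalSpace.SeparableSpace K] [Nonempty K]

/-- an existential closed condition over a compact parameter space is measurable -/
lemma measurableSet_exists_le {F : Ω → K → ℝ} (hc : ∀ ω, Continuous (F ω))
    (hm : ∀ k, Measurable fun ω => F ω k) : MeasurableSet {ω | ∃ k, F ω k ≤ 0} := by
  have : {ω | ∃ k, F ω k ≤ 0} =
      ⋂ n : ℕ, ⋃ j : ℕ, {ω | F ω (TopologicalSpace.denseSeq K j) < 1 / ((n : ℝ) + 1)} := by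
    ext ω
    simp only [mem_iInter, mem_iUnion, mem_ofPred_eq]
    constructor
    · rintro ⟨k, hk⟩ n
      have hopen : IsOpen {k | F ω k < 1 / ((n : ℝ) + 1)} := isOpen_lt (hc ω) continuous_const
      obtain ⟨_, hmem, ⟨j, rfl⟩⟩ :=
        (TopologicalSpace.denseRange_denseSeq K).inter_open_nonempty _ hopen
          ⟨k, lt_of_le_of_lt hk (by positivity)⟩
      exact ⟨j, hmem⟩
    · intro h
      obtain ⟨k, -, hk⟩ :=
        isCompact_univ.exists_isMinOn (univ_nonempty (α := K)) (hc ω).continuousOn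
      refine ⟨k, ?_⟩
      by_contra hpos
      push Not at hpos
      obtain ⟨n, hn⟩ := exists_nat_one_div_lt hpos
      obtain ⟨j, hj⟩ := h n
      have := hk (mem_univ (TopologicalSpace.denseSeq K j))
      simp only [mem_ofPred_eq] at this
      linarith
  rw [this]
  exact MeasurableSet.iInter fun n => MeasurableSet.iUnion fun j =>
    measurableSet_lt (hm _) measurable_const

/-- supremum over a compact parameter space: measurability -/
lemma measurable_iSup_compact {F : Ω → K → ℝ} (hc : ∀ ω, Continuous (F ω))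
    (hm : ∀ k, Measurable fun ω => F ω k) : Measurable fun ω => ⨆ k, F ω k := by
  refine measurable_of_Iic fun c => ?_
  have hb : ∀ ω, BddAbove (range (F ω)) := fun ω => (isCompact_range (hc ω)).bddAbove
  have : (fun ω => ⨆ k, F ω k) ⁻¹' Iic c =
      ⋂ j : ℕ, {ω | F ω (TopologicalSpace.denseSeq K j) ≤ c} := by
    ext ω
    simp only [mem_preimage, mem_Iic, mem_iInter, mem_ofPred_eq]
    rw [ciSup_le_iff (hb ω)]
    constructor
    · intro h j; exact h _
    · intro h k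
      have hcl : IsClosed {k | F ω k ≤ c} := isClosed_le (hc ω) continuous_const
      have hd : DenseRange (TopologicalSpace.denseSeq K) :=
        TopologicalSpace.denseRange_denseSeq K
      exact hd.induction_on k hcl h
  rw [this]
  exact MeasurableSet.iInter fun j => measurableSet_le (hm _) measurable_const

omit [TopologicalSpace.SeparableSpace K] [Nonempty K] [MeasurableSpace Ω] in
/-- supremum over a compact parameter space: continuity in the other variable -/
lemma continuous_iSup_compact {L : Type*} [TopologicalSpace L] {f : L → K → ℝ}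
    (hf : Continuous (fun p : L × K => f p.1 p.2)) : Continuous fun l => ⨆ k, f l k := by
  have h := IsCompact.continuous_sSup (f := f) (K := (univ : Set K)) isCompact_univ hf
  simp only [image_univ] at h
  exact h

end proj

/-! ### the abstract event -/

section abs

/-- the point of `[a, b]` with barycentric coordinate `θ` -/
lemma exists_bary {a b s : ℝ} (h : s ∈ Icc a b) :
    ∃ θ : unitInterval, a + (θ : ℝ) * (b - a) = s := by
  rcases (h.1.trans h.2).eq_or_lt with hab | hab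
  · refine ⟨0, ?_⟩
    have h1 := h.1
    have h2 := h.2
    rw [show ((0 : unitInterval) : ℝ) = 0 from rfl, zero_mul, add_zero]
    linarith
  · have hpos : 0 < b - a := sub_pos.2 hab
    refine ⟨⟨(s - a) / (b - a), div_nonneg (sub_nonneg.2 h.1) hpos.le,
      (div_le_one hpos).2 (by linarith [h.2])⟩, ?_⟩
    simp only
    rw [div_mul_cancel₀ _ hpos.ne']
    ring

lemma bary_mem {a b : ℝ} (hab : a ≤ b) (θ : unitInterval) :
    a + (θ : ℝ) * (b - a) ∈ Icc a b := by
  have h0 := θ.2.1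
  have h1 := θ.2.2
  constructor
  · nlinarith
  · nlinarith

variable {Ω : Type*} [MeasurableSpace Ω]

lemma measurableSet_abs {t : ℝ} (ht : 0 ≤ t) {u a x S : ℝ → Ω → ℝ}
    (hu : ∀ ω, Continuous fun s => u s ω) (hum : ∀ s, Measurable (u s))
    (ha : ∀ ω, Continuous fun s => a s ω) (ham : ∀ s, Measurable (a s))
    (hx : ∀ ω, Continuous fun s => x s ω) (hxm : ∀ s, Measurable (x s))
    (hS : ∀ ω, Continuous fun s => S s ω) (hSm : ∀ s, Measurable (S s)) (r N δ : ℝ) :
    MeasurableSet {ω | ∃ σ T, 0 ≤ σ ∧ σ ≤ T ∧ T ≤ t ∧ u σ ω = r ∧ δ ≤ S σ ω ∧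
      a T ω - a σ ω = dur N (x σ ω) ∧
      ∀ s ∈ Icc σ T, |x s ω - psi N (x σ ω) (a s ω - a σ ω)| ≤ 1} := by
  set sg : unitInterval × unitInterval → ℝ := fun k => 0 + (k.1 : ℝ) * (t - 0) with hsg
  set Tt : unitInterval × unitInterval → ℝ := fun k => sg k + (k.2 : ℝ) * (t - sg k) with hTt
  set st : unitInterval × unitInterval → unitInterval → ℝ :=
    fun k θ => sg k + (θ : ℝ) * (Tt k - sg k) with hst
  have csg : Continuous sg := by rw [hsg]; fun_prop
  have cTt : Continuous Tt := by rw [hTt]; fun_prop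
  have cst : Continuous (fun p : (unitInterval × unitInterval) × unitInterval => st p.1 p.2) := by
    rw [hst]; fun_prop
  set H : Ω → unitInterval × unitInterval → unitInterval → ℝ := fun ω k θ =>
    |x (st k θ) ω - psi N (x (sg k) ω) (a (st k θ) ω - a (sg k) ω)| with hH
  have cH : ∀ ω, Continuous
      (fun p : (unitInterval × unitInterval) × unitInterval => H ω p.1 p.2) := by
    intro ω
    have h1 : Continuous (fun p : (unitInterval × unitInterval) × unitInterval =>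
      x (st p.1 p.2) ω) := (hx ω).comp cst
    have h2 : Continuous (fun p : (unitInterval × unitInterval) × unitInterval =>
      a (st p.1 p.2) ω) := (ha ω).comp cst
    have h3 : Continuous (fun p : (unitInterval × unitInterval) × unitInterval =>
      x (sg p.1) ω) := (hx ω).comp (csg.comp continuous_fst)
    have h4 : Continuous (fun p : (unitInterval × unitInterval) × unitInterval =>
      a (sg p.1) ω) := (ha ω).comp (csg.comp continuous_fst)
    simp only [hH, psi]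
    fun_prop
  set F : Ω → unitInterval × unitInterval → ℝ := fun ω k =>
    max (max |u (sg k) ω - r| (δ - S (sg k) ω))
      (max |a (Tt k) ω - a (sg k) ω - dur N (x (sg k) ω)| ((⨆ θ, H ω k θ) - 1)) with hF
  have cF : ∀ ω, Continuous (F ω) := by
    intro ω
    have h1 : Continuous (fun k => u (sg k) ω) := (hu ω).comp csg
    have h2 : Continuous (fun k => S (sg k) ω) := (hS ω).comp csg
    have h3 : Continuous (fun k => a (Tt k) ω) := (ha ω).comp cTt
    have h4 : Continuous (fun k => a (sg k) ω) := (ha ω).comp csg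
    have h5 : Continuous (fun k => x (sg k) ω) := (hx ω).comp csg
    have h6 : Continuous (fun k => ⨆ θ, H ω k θ) := continuous_iSup_compact (cH ω)
    simp only [hF, dur]
    fun_prop
  have mF : ∀ k, Measurable fun ω => F ω k := by
    intro k
    have h6 : Measurable (fun ω => ⨆ θ, H ω k θ) := by
      refine measurable_iSup_compact (F := fun ω θ => H ω k θ)
        (fun ω => (cH ω).comp (continuous_const.prodMk continuous_id)) fun θ => ?_
      have h1 := hxm (st k θ)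
      have h2 := hxm (sg k)
      have h3 := ham (st k θ)
      have h4 := ham (sg k)
      simp only [hH, psi]
      fun_prop
    have h1 := hum (sg k)
    have h2 := hSm (sg k)
    have h3 := ham (Tt k)
    have h4 := ham (sg k)
    have h5 := hxm (sg k)
    simp only [hF, dur]
    fun_prop
  have hmain := measurableSet_exists_le cF mF
  convert hmain using 1
  ext ω
  simp only [mem_ofPred_eq]
  constructor
  · rintro ⟨σ, T, h0, h1, h2, h3, h4, h5, h6⟩
    obtain ⟨α, hα⟩ := exists_bary (a := 0) (b := t) (s := σ) ⟨h0, h1.trans h2⟩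
    obtain ⟨β, hβ⟩ := exists_bary (a := σ) (b := t) (s := T) ⟨h1, h2⟩
    have e1 : sg (α, β) = σ := hα
    have e2 : Tt (α, β) = T := by
      simp only [hTt, e1]
      exact hβ
    refine ⟨(α, β), ?_⟩
    simp only [hF, e1, e2, max_le_iff]
    refine ⟨⟨?_, by linarith⟩, ?_, ?_⟩
    · rw [h3]; simp
    · rw [h5]; simp
    · have : (⨆ θ, H ω (α, β) θ) ≤ 1 := by
        refine ciSup_le fun θ => ?_
        simp only [hH, hst, e1, e2]
        exact h6 _ (bary_mem h1 θ)
      linarith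
  · rintro ⟨k, hk⟩
    simp only [hF, max_le_iff] at hk
    obtain ⟨⟨h1, h2⟩, h3, h4⟩ := hk
    have m1 : sg k ∈ Icc 0 t := bary_mem ht k.1
    have m2 : Tt k ∈ Icc (sg k) t := bary_mem m1.2 k.2
    refine ⟨sg k, Tt k, m1.1, m2.1, m2.2, ?_, by linarith, ?_, ?_⟩
    · have := abs_nonpos_iff.1 h1
      linarith
    · have := abs_nonpos_iff.1 h3
      linarith
    · intro s hs
      obtain ⟨θ, hθ⟩ := exists_bary hs
      have hb : BddAbove (range (H ω k)) :=
        (isCompact_range ((cH ω).comp (continuous_const.prodMk continuous_id))).bddAbove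
      have := le_ciSup hb θ
      have e : H ω k θ = |x s ω - psi N (x (sg k) ω) (a s ω - a (sg k) ω)| := by
        simp only [hH, hst, hθ]
      rw [← e]
      linarith

end abs

/-! ### deterministic facts -/

section det

variable {W : ℝ → ℝ} {w : ℂ} {T : ℝ}

lemma continuousOn_inv_norm_sq (hW : ContinuousOn W (Ici 0)) (h : Alive W w T) :
    ContinuousOn (fun s => 1 / ‖Zfl W s w‖ ^ 2) (Icc 0 T) := by
  have h1 := continuousOn_Zfl hW h
  refine continuousOn_const.div (h1.norm.pow 2) fun s hs => ?_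
  have := Zfl_ne_zero (h.mono hs.1 hs.2)
  positivity

lemma continuousOn_re_inv_sq (hW : ContinuousOn W (Ici 0)) (h : Alive W w T) :
    ContinuousOn (fun s => 2 * (((Zfl W s w) ^ 2)⁻¹).re) (Icc 0 T) := by
  have h1 := continuousOn_Zfl hW h
  refine continuousOn_const.mul ?_
  refine Complex.continuous_re.comp_continuousOn ?_
  refine (h1.pow 2).inv₀ fun s hs => ?_
  exact pow_ne_zero 2 (Zfl_ne_zero (h.mono hs.1 hs.2))

lemma hasDerivWithinAt_prim {f : ℝ → ℝ} (hf : ContinuousOn f (Icc 0 T)) {s : ℝ}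
    (hs : s ∈ Icc 0 T) :
    HasDerivWithinAt (fun s => ∫ v in (0 : ℝ)..s, f v) (f s) (Icc 0 T) s := by
  have hT : (0 : ℝ) ≤ T := hs.1.trans hs.2
  have : Fact (s ∈ Icc (0 : ℝ) T) := ⟨hs⟩
  refine intervalIntegral.integral_hasDerivWithinAt_right ?_ ?_ (hf s hs)
  · exact (hf.mono (Icc_subset_Icc le_rfl hs.2)).intervalIntegrable_of_Icc hs.1
  · exact hf.stronglyMeasurableAtFilter_nhdsWithin measurableSet_Icc s

lemma hasDerivWithinAt_ath (hW : ContinuousOn W (Ici 0)) (h : Alive W w T) {s : ℝ}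
    (hs : s ∈ Icc 0 T) :
    HasDerivWithinAt (fun s => ath W s w) (1 / ‖Zfl W s w‖ ^ 2) (Icc 0 T) s :=
  hasDerivWithinAt_prim (continuousOn_inv_norm_sq hW h) hs

lemma continuousOn_ath (hW : ContinuousOn W (Ici 0)) (h : Alive W w T) :
    ContinuousOn (fun s => ath W s w) (Icc 0 T) :=
  fun _ hs => (hasDerivWithinAt_ath hW h hs).continuousWithinAt

lemma strictMonoOn_ath (hW : ContinuousOn W (Ici 0)) (h : Alive W w T) :
    StrictMonoOn (fun s => ath W s w) (Icc 0 T) := by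
  refine strictMonoOn_of_deriv_pos (convex_Icc 0 T) (continuousOn_ath hW h) fun s hs => ?_
  rw [interior_Icc] at hs
  have h1 := (hasDerivWithinAt_ath hW h (Ioo_subset_Icc_self hs)).hasDerivAt
    (Icc_mem_nhds hs.1 hs.2)
  rw [h1.deriv]
  have := Zfl_ne_zero (h.mono hs.1.le hs.2.le)
  positivity

lemma hasDerivWithinAt_ups (hW : ContinuousOn W (Ici 0)) (h : Alive W w T) {s : ℝ}
    (hs : s ∈ Icc 0 T) :
    HasDerivWithinAt (fun s => ups W s w)
      (-(4 * (Zfl W s w).im ^ 2 / ‖Zfl W s w‖ ^ 4) * ups W s w) (Icc 0 T) s := by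
  have h1 := hasDerivWithinAt_im (hasDerivWithinAt_gfl' h hs)
  have h2 := (hasDerivWithinAt_prim (continuousOn_re_inv_sq hW h) hs).exp
  have h3 := h1.mul h2
  refine h3.congr_deriv ?_
  have hne := Zfl_ne_zero (h.mono hs.1 hs.2)
  have hY : (gfl W s w).im = (Zfl W s w).im := (Zfl_im W s w).symm
  simp only [ups]
  rw [hY]
  generalize Zfl W s w = Z at hne
  generalize (∫ v in (0 : ℝ)..s, 2 * (((Zfl W v w) ^ 2)⁻¹).re) = J
  have e4 : Complex.normSq Z = Z.re ^ 2 + Z.im ^ 2 := by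
    rw [Complex.normSq_apply]; ring
  have hn : Complex.normSq Z ≠ 0 := fun h0 => hne (Complex.normSq_eq_zero.1 h0)
  have e1 : (2 / Z).im = -(2 * Z.im / Complex.normSq Z) := by
    rw [Complex.div_im]; simp
  have e2 : ((Z ^ 2)⁻¹).re = (Z.re ^ 2 - Z.im ^ 2) / (Complex.normSq Z) ^ 2 := by
    rw [Complex.inv_re, map_pow]
    congr 1
    simp [pow_two]
  have e3 : ‖Z‖ ^ 4 = (Complex.normSq Z) ^ 2 := by
    rw [Complex.normSq_eq_norm_sq]; ring
  rw [e1, e2, e3]
  have key : -(2 * Z.im / Complex.normSq Z) +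
      Z.im * (2 * ((Z.re ^ 2 - Z.im ^ 2) / (Complex.normSq Z) ^ 2)) =
      -(4 * Z.im ^ 2 / (Complex.normSq Z) ^ 2) * Z.im := by
    field_simp
    rw [e4]
    ring
  calc -(2 * Z.im / Complex.normSq Z) * Real.exp J +
      Z.im * (Real.exp J * (2 * ((Z.re ^ 2 - Z.im ^ 2) / (Complex.normSq Z) ^ 2)))
      = (-(2 * Z.im / Complex.normSq Z) +
      Z.im * (2 * ((Z.re ^ 2 - Z.im ^ 2) / (Complex.normSq Z) ^ 2))) * Real.exp J := by ring
    _ = -(4 * Z.im ^ 2 / (Complex.normSq Z) ^ 2) * (Z.im * Real.exp J) := by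
      rw [key]; ring

lemma ups_pos (h : Alive W w T) : 0 < ups W T w :=
  mul_pos (gfl_im_pos h) (Real.exp_pos _)

lemma continuousOn_ups (hW : ContinuousOn W (Ici 0)) (h : Alive W w T) :
    ContinuousOn (fun s => ups W s w) (Icc 0 T) :=
  fun _ hs => (hasDerivWithinAt_ups hW h hs).continuousWithinAt

lemma strictAntiOn_ups (hW : ContinuousOn W (Ici 0)) (h : Alive W w T) :
    StrictAntiOn (fun s => ups W s w) (Icc 0 T) := by
  refine strictAntiOn_of_deriv_neg (convex_Icc 0 T) (continuousOn_ups hW h) fun s hs => ?_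
  rw [interior_Icc] at hs
  have hs' := Ioo_subset_Icc_self hs
  have h1 := (hasDerivWithinAt_ups hW h hs').hasDerivAt (Icc_mem_nhds hs.1 hs.2)
  rw [h1.deriv]
  have ha := h.mono hs'.1 hs'.2
  have h2 := Zfl_ne_zero ha
  have h3 := Zfl_im_pos ha
  have h4 := ups_pos ha
  have : 0 < 4 * (Zfl W s w).im ^ 2 / ‖Zfl W s w‖ ^ 4 * ups W s w := by positivity
  linarith

/-- the two times of a trigger are unique -/
theorem _root_.Crest.Agent.R162.UB.TrigAt.unique (hW : ContinuousOn W (Ici 0))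
    {r N δ σ σ₂ T₂ : ℝ} (h : TrigAt W w r N δ σ T) (h₂ : TrigAt W w r N δ σ₂ T₂) :
    σ = σ₂ ∧ T = T₂ := by
  have h0 : Alive W w (max T T₂) := by
    rcases le_total T T₂ with h' | h'
    · rw [max_eq_right h']; exact h₂.alive
    · rw [max_eq_left h']; exact h.alive
  have hσ : σ ∈ Icc 0 (max T T₂) := ⟨h.nonneg, h.le.trans (le_max_left _ _)⟩
  have hσ₂ : σ₂ ∈ Icc 0 (max T T₂) := ⟨h₂.nonneg, h₂.le.trans (le_max_right _ _)⟩
  have e1 : σ = σ₂ := (strictAntiOn_ups hW h0).injOn hσ hσ₂ (h.ups_eq.trans h₂.ups_eq.symm)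
  subst e1
  refine ⟨rfl, ?_⟩
  have hT : T ∈ Icc 0 (max T T₂) := ⟨h.nonneg.trans h.le, le_max_left _ _⟩
  have hT₂ : T₂ ∈ Icc 0 (max T T₂) := ⟨h.nonneg.trans h₂.le, le_max_right _ _⟩
  refine (strictMonoOn_ath hW h0).injOn hT hT₂ ?_
  have e3 := h.dur_eq
  have e4 := h₂.dur_eq
  linarith

end det

/-! ### measurability -/

section meas

variable {Ω : Type*} [MeasurableSpace Ω] {W : Ω → ℝ → ℝ} {w : ℂ} {t : ℝ}

lemma measurable_ups_at (hc : ∀ ω, ContinuousOn (W ω) (Ici 0))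
    (hm : ∀ s ∈ Icc 0 t, Measurable (fun ω => W ω s)) {s : ℝ} (hs : s ∈ Icc 0 t) (w : ℂ) :
    Measurable (fun ω => ups (W ω) s w) := by
  have h := FLD.measurable_ups (W := W) (t := s) hs.1
    (fun ω => (hc ω).mono Icc_subset_Ici_self) (fun v hv => hm v ⟨hv.1, hv.2.trans hs.2⟩)
  have h2 : Measurable (fun ω : Ω => (ω, w)) := measurable_id.prodMk measurable_const
  have h3 := h.comp h2
  simp only [Function.comp_def] at h3
  unfold ups
  exact h3

lemma measurable_ath_at (hc : ∀ ω, ContinuousOn (W ω) (Ici 0))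
    (hm : ∀ s ∈ Icc 0 t, Measurable (fun ω => W ω s)) {s : ℝ} (hs : s ∈ Icc 0 t) (w : ℂ) :
    Measurable (fun ω => ath (W ω) s w) := by
  have h := FLD.measurable_ath (W := W) (t := s) hs.1
    (fun ω => (hc ω).mono Icc_subset_Ici_self) (fun v hv => hm v ⟨hv.1, hv.2.trans hs.2⟩)
  have h2 : Measurable (fun ω : Ω => (ω, w)) := measurable_id.prodMk measurable_const
  have h3 := h.comp h2
  simp only [Function.comp_def] at h3
  unfold ath
  exact h3

lemma measurable_Zfl_at (hc : ∀ ω, ContinuousOn (W ω) (Ici 0))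
    (hm : ∀ s ∈ Icc 0 t, Measurable (fun ω => W ω s)) {s : ℝ} (hs : s ∈ Icc 0 t) (w : ℂ) :
    Measurable (fun ω => Zfl (W ω) s w) := by
  have h := FLD.measurable_gfl (W := W) (t := t) (s := s) w hs.2
    (fun ω => (hc ω).mono Icc_subset_Ici_self) hm
  exact h.sub (Complex.measurable_ofReal.comp (hm s hs))

lemma measurable_sfl_at (hc : ∀ ω, ContinuousOn (W ω) (Ici 0))
    (hm : ∀ s ∈ Icc 0 t, Measurable (fun ω => W ω s)) {s : ℝ} (hs : s ∈ Icc 0 t) (w : ℂ) :
    Measurable (fun ω => sfl (W ω) s w) := by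
  have h := measurable_Zfl_at hc hm hs w
  exact (Complex.measurable_im.comp h).div h.norm

lemma measurable_xfl_at (hc : ∀ ω, ContinuousOn (W ω) (Ici 0))
    (hm : ∀ s ∈ Icc 0 t, Measurable (fun ω => W ω s)) {s : ℝ} (hs : s ∈ Icc 0 t) (w : ℂ) :
    Measurable (fun ω => xfl (W ω) s w) := by
  have h := measurable_Zfl_at hc hm hs w
  exact Real.continuous_arsinh.measurable.comp
    ((Complex.measurable_re.comp h).neg.div (Complex.measurable_im.comp h))

lemma continuousOn_sfl {W : ℝ → ℝ} (hW : ContinuousOn W (Ici 0)) (h : Alive W w t) :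
    ContinuousOn (fun s => sfl W s w) (Icc 0 t) := by
  have h1 := continuousOn_Zfl hW h
  refine (Complex.continuous_im.comp_continuousOn h1).div h1.norm fun s hs => ?_
  exact norm_ne_zero_iff.2 (Zfl_ne_zero (h.mono hs.1 hs.2))

lemma continuousOn_xfl {W : ℝ → ℝ} (hW : ContinuousOn W (Ici 0)) (h : Alive W w t) :
    ContinuousOn (fun s => xfl W s w) (Icc 0 t) := by
  have h1 := continuousOn_Zfl hW h
  refine Real.continuous_arsinh.comp_continuousOn ?_
  refine (Complex.continuous_re.comp_continuousOn h1).neg.div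
    (Complex.continuous_im.comp_continuousOn h1) fun s hs => ?_
  exact (Zfl_im_pos (h.mono hs.1 hs.2)).ne'

/-- clamping to `[0, t]` -/
lemma clamp_facts (ht : 0 ≤ t) : Continuous (fun s : ℝ => max 0 (min s t)) ∧
    (∀ s : ℝ, max 0 (min s t) ∈ Icc 0 t) ∧ ∀ s ∈ Icc 0 t, max 0 (min s t) = s := by
  refine ⟨by fun_prop, fun s => ⟨le_max_left _ _, max_le ht (min_le_right _ _)⟩, fun s hs => ?_⟩
  rw [min_eq_left hs.2, max_eq_right hs.1]

open Classical in
/-- general continuity / measurability of a process frozen off the event `alive at t` -/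
lemma ext_facts (ht : 0 ≤ t) (hc : ∀ ω, ContinuousOn (W ω) (Ici 0))
    (hm : ∀ s ∈ Icc 0 t, Measurable (fun ω => W ω s)) (w : ℂ) (φ : (ℝ → ℝ) → ℝ → ℂ → ℝ)
    (h1 : ∀ W : ℝ → ℝ, ContinuousOn W (Ici 0) → Alive W w t →
      ContinuousOn (fun s => φ W s w) (Icc 0 t))
    (h2 : ∀ s ∈ Icc 0 t, Measurable (fun ω => φ (W ω) s w)) :
    (∀ ω, Continuous fun s =>
      if Alive (W ω) w t then φ (W ω) (max 0 (min s t)) w else 0) ∧
    (∀ s, Measurable fun ω =>
      if Alive (W ω) w t then φ (W ω) (max 0 (min s t)) w else 0) := by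
  obtain ⟨c1, c2, c3⟩ := clamp_facts ht
  constructor
  · intro ω
    by_cases hA : Alive (W ω) w t
    · simp only [hA, if_true]
      exact (h1 (W ω) (hc ω) hA).comp_continuous c1 c2
    · simp only [hA, if_false]
      exact continuous_const
  · intro s
    refine Measurable.ite ?_ (h2 _ (c2 s)) measurable_const
    exact FLD.measurableSet_alive (W := W) w (fun ω => (hc ω).mono Icc_subset_Ici_self) hm

theorem measurableSet_alive_trig (ht : 0 ≤ t) (hc : ∀ ω, ContinuousOn (W ω) (Ici 0))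
    (hm : ∀ s ∈ Icc 0 t, Measurable (fun ω => W ω s)) (w : ℂ) (r N δ : ℝ) :
    MeasurableSet {ω | Alive (W ω) w t ∧ ∃ σ T, T ≤ t ∧ TrigAt (W ω) w r N δ σ T} := by
  classical
  obtain ⟨u1, u2⟩ := ext_facts ht hc hm w ups (fun W hW h => continuousOn_ups hW h)
    (fun s hs => measurable_ups_at hc hm hs w)
  obtain ⟨a1, a2⟩ := ext_facts ht hc hm w ath (fun W hW h => continuousOn_ath hW h)
    (fun s hs => measurable_ath_at hc hm hs w)
  obtain ⟨x1, x2⟩ := ext_facts ht hc hm w xfl (fun W hW h => continuousOn_xfl hW h)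
    (fun s hs => measurable_xfl_at hc hm hs w)
  obtain ⟨S1, S2⟩ := ext_facts ht hc hm w sfl (fun W hW h => continuousOn_sfl hW h)
    (fun s hs => measurable_sfl_at hc hm hs w)
  have hE : MeasurableSet {ω | Alive (W ω) w t} :=
    FLD.measurableSet_alive (W := W) w (fun ω => (hc ω).mono Icc_subset_Ici_self) hm
  have hmain := hE.inter (measurableSet_abs ht u1 u2 a1 a2 x1 x2 S1 S2 r N δ)
  obtain ⟨c1, c2, c3⟩ := clamp_facts ht
  convert hmain using 1
  ext ω
  simp only [mem_ofPred_eq, mem_inter_iff]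
  refine and_congr_right fun hA => ?_
  simp only [hA, if_true]
  constructor
  · rintro ⟨σ, T, h1, h2⟩
    have m1 : σ ∈ Icc 0 t := ⟨h2.nonneg, h2.le.trans h1⟩
    have m2 : T ∈ Icc 0 t := ⟨h2.nonneg.trans h2.le, h1⟩
    refine ⟨σ, T, h2.nonneg, h2.le, h1, ?_, ?_, ?_, ?_⟩
    · rw [c3 σ m1]; exact h2.ups_eq
    · rw [c3 σ m1]; exact h2.sfl_ge
    · rw [c3 σ m1, c3 T m2]; exact h2.dur_eq
    · intro s hs
      rw [c3 σ m1, c3 s ⟨m1.1.trans hs.1, hs.2.trans h1⟩]
      exact h2.tube s hs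
  · rintro ⟨σ, T, h0, h1, h2, h3, h4, h5, h6⟩
    have m1 : σ ∈ Icc 0 t := ⟨h0, h1.trans h2⟩
    have m2 : T ∈ Icc 0 t := ⟨h0.trans h1, h2⟩
    rw [c3 σ m1] at h3 h4 h5 h6
    rw [c3 T m2] at h5
    refine ⟨σ, T, h2, h0, h1, hA.mono m2.1 m2.2, h3, h4, h5, ?_⟩
    intro s hs
    have := h6 s hs
    rwa [c3 s ⟨m1.1.trans hs.1, hs.2.trans h2⟩] at this

theorem measurableSet_trig_le (ht : 0 ≤ t) (hc : ∀ ω, ContinuousOn (W ω) (Ici 0))
    (hm : ∀ s ∈ Icc 0 t, Measurable (fun ω => W ω s)) (w : ℂ) (r N δ : ℝ) :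
    MeasurableSet {ω | ∃ σ T, T ≤ t ∧ TrigAt (W ω) w r N δ σ T} := by
  have : {ω | ∃ σ T, T ≤ t ∧ TrigAt (W ω) w r N δ σ T} =
      {ω | Alive (W ω) w t ∧ ∃ σ T, T ≤ t ∧ TrigAt (W ω) w r N δ σ T} ∪
      ⋃ (q : ℚ) (_ : (0 : ℝ) ≤ q ∧ (q : ℝ) ≤ t),
        {ω | Alive (W ω) w q ∧ ∃ σ T, T ≤ (q : ℝ) ∧ TrigAt (W ω) w r N δ σ T} := by
    ext ω
    simp only [mem_ofPred_eq, mem_union, mem_iUnion, exists_prop]
    constructor
    · rintro ⟨σ, T, h1, h2⟩
      rcases h1.eq_or_lt with h1' | h1'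
      · subst h1'
        exact Or.inl ⟨h2.alive, σ, _, le_rfl, h2⟩
      · right
        obtain ⟨v, hv1, η, hη, hv⟩ := h2.alive.exists_gt (hc ω)
        have hv2 : Alive (W ω) w v := hv w (by simpa using hη)
        obtain ⟨q, hq1, hq2⟩ := exists_rat_btwn (lt_min h1' hv1)
        have hT := h2.nonneg.trans h2.le
        refine ⟨q, ⟨hT.trans hq1.le, hq2.le.trans (min_le_left _ _)⟩,
          hv2.mono (hT.trans hq1.le) (hq2.le.trans (min_le_right _ _)), σ, T, hq1.le, h2⟩
    · rintro (⟨_, h⟩ | ⟨q, ⟨_, hq⟩, _, σ, T, h1, h2⟩)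
      · exact h
      · exact ⟨σ, T, h1.trans hq, h2⟩
  rw [this]
  refine (measurableSet_alive_trig ht hc hm w r N δ).union ?_
  refine MeasurableSet.iUnion fun q => MeasurableSet.iUnion fun hq => ?_
  exact measurableSet_alive_trig hq.1 hc (fun s hs => hm s ⟨hs.1, hs.2.trans hq.2⟩) w r N δ

end meas

/-! ### Brownian form -/

section bm

variable {Ω : Type*} {m : MeasurableSpace Ω} {F : Filtration ℝ≥0 m} {B : ℝ≥0 → Ω → ℝ}
  {P : Measure Ω}

lemma continuousOn_driving (hB : IsBM F B P) (κ : ℝ) (ω : Ω) :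
    ContinuousOn (driving κ B ω) (Ici 0) := by
  have h : Continuous (driving κ B ω) :=
    continuous_const.mul ((hB.cont ω).comp continuous_real_toNNReal)
  exact h.continuousOn

lemma measurable_driving (hB : IsBM F B P) (κ : ℝ) {t : ℝ≥0} {s : ℝ} (hs : s ∈ Icc 0 (t : ℝ)) :
    Measurable[F t] (fun ω => driving κ B ω s) := by
  have h1 : s.toNNReal ≤ t := Real.toNNReal_le_iff_le_coe.2 hs.2
  have h2 : Measurable[F t] (B s.toNNReal) := (hB.adapted s.toNNReal).mono (F.mono h1) le_rfl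
  exact (measurable_const_mul (Real.sqrt κ)).comp h2

/-- **U3M**: the trigger time is a stopping time. -/
theorem measurableSet_trig (hB : IsBM F B P) (κ : ℝ) (w : ℂ) (r N δ : ℝ) (t : ℝ≥0) :
    MeasurableSet[F t] {ω | ∃ σ T, T ≤ (t : ℝ) ∧ TrigAt (driving κ B ω) w r N δ σ T} :=
  @measurableSet_trig_le Ω (F t) (fun ω => driving κ B ω) t t.2
    (fun ω => continuousOn_driving hB κ ω) (fun _ hs => measurable_driving hB κ hs) w r N δ




variable {κ : ℝ} {w : ℂ} {r N δ : ℝ} {Tm : ℝ≥0}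














end bm

end Crest.Agent.R162.U3M
end

-- ▼ part R162/U6H
section

/-!
Row 162, node U6 (helper620): the inputs of `U6F` and the node U6, unconditionally.
-/

set_option autoImplicit false
open MeasureTheory ProbabilityTheory Set Filter Topology
open scoped NNReal ENNReal

namespace Crest.Agent.R162.U6F

open Crest.Agent.R162.FL Crest.Agent.R162.OP Crest.Agent.R162.OS Crest.Agent.R162.U6
  Crest.Agent.R162.UB
open Crest.ProbabilityR.Loewner

universe u

/-- The inputs of node U6, unconditionally. -/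
theorem inputs {Ω : Type u} {m : MeasurableSpace Ω} {P : Measure Ω} [IsProbabilityMeasure P]
    {F : Filtration ℝ≥0 m} {B : ℝ≥0 → Ω → ℝ} {κ : ℝ}
    (hB : IsBM F B P) (hκ : 0 < κ) (hκ8 : κ < 8) : Inputs κ P F B :=
  inputs_of Crest.Agent.R162.OPM.opm.{u} hB hκ hκ8
    (fun ω _ _ _ _ _ _ _ _ h h' =>
      (TrigAt.unique (FLD.driving_cont hB κ ω).continuousOn h h').2)
    (fun w r N δ t => U3M.measurableSet_trig hB κ w r N δ t)

/-- **Node U6**, unconditionally. -/
theorem u6 {Ω : Type u} {m : MeasurableSpace Ω} {P : Measure Ω} [IsProbabilityMeasure P]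
    {F : Filtration ℝ≥0 m} {B : ℝ≥0 → Ω → ℝ} {κ : ℝ}
    (hB : IsBM F B P) (hκ : 0 < κ) (hκ8 : κ < 8) : U6Stmt κ P B :=
  (inputs hB hκ hκ8).u6

end Crest.Agent.R162.U6F
end

-- ▼ part R162/U3G
section

/-!
Row 162 (S0243), node U3, the two halves of the U3 line of `U4C.Inputs` (helper204):
(M) measurability of the trigger event at the level `s + l`; (G) the `G`-form of the lower bound
from the `P`-form.
-/

set_option autoImplicit false

open MeasureTheory ProbabilityTheory Set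
open scoped NNReal ENNReal

namespace Crest.Agent.R162.U3G

open Crest.Agent.R162.FL Crest.Agent.R162.OP Crest.Agent.R162.OS Crest.Agent.R162.UB
open Crest.Agent.R162.Rad
open Crest.ProbabilityR.Loewner

universe u

variable {Ω : Type u} {m : MeasurableSpace Ω} {P : Measure Ω} {Fl : Filtration ℝ≥0 m}
  {B : ℝ≥0 → Ω → ℝ} {κ : ℝ} {w : ℂ} {s₀ : ℝ}



/-- **(G)** the `G`-form of the trigger bound from the `P`-form. `S` is `sin Θ` at the levels. -/
theorem gform {D : U1P.Radial (Ω := Ω) s₀} {b d' c C N s l : ℝ} (hb : 0 ≤ b)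
    (hc : 0 ≤ c) (hs : s₀ ≤ s)
    {A E X : Set Ω} (hA : D.F s A) (hAs : A ⊆ D.alive s) (hE : MeasurableSet E)
    (hEX : E ⊆ X)
    (hS : ∀ ω ∈ E, 1 / Real.cosh 3 ≤ D.S (s + l) ω)
    (hP : ENNReal.ofReal (c * Real.exp (-(C * N))) * P A ≤ P E) :
    ENNReal.ofReal (c * (Real.exp (d' * l) * (1 / Real.cosh 3) ^ b) * Real.exp (-(C * N))) *
        ∫⁻ ω in A, ENNReal.ofReal (Real.exp (d' * s) * D.S s ω ^ b) ∂P ≤
      ∫⁻ ω in X, ENNReal.ofReal (Real.exp (d' * (s + l)) * D.S (s + l) ω ^ b) ∂P := by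
  have hmA : MeasurableSet A := D.meas s hs A hA hAs
  have hch : 0 < 1 / Real.cosh 3 := by have := Real.cosh_pos 3; positivity
  have h1 : ∫⁻ ω in A, ENNReal.ofReal (Real.exp (d' * s) * D.S s ω ^ b) ∂P ≤
      ENNReal.ofReal (Real.exp (d' * s)) * P A := by
    calc ∫⁻ ω in A, ENNReal.ofReal (Real.exp (d' * s) * D.S s ω ^ b) ∂P
        ≤ ∫⁻ _ in A, ENNReal.ofReal (Real.exp (d' * s)) ∂P := by
          refine setLIntegral_mono' hmA fun ω hω => ENNReal.ofReal_le_ofReal ?_
          have h2 : D.S s ω ^ b ≤ 1 :=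
            Real.rpow_le_one (D.S_pos s hs ω (hAs hω)).le (D.S_le s hs ω (hAs hω)) hb
          nlinarith [Real.exp_pos (d' * s)]
      _ = ENNReal.ofReal (Real.exp (d' * s)) * P A := by
          rw [setLIntegral_const]
  have h3 : ENNReal.ofReal (Real.exp (d' * (s + l)) * (1 / Real.cosh 3) ^ b) * P E ≤
      ∫⁻ ω in X, ENNReal.ofReal (Real.exp (d' * (s + l)) * D.S (s + l) ω ^ b) ∂P := by
    calc ENNReal.ofReal (Real.exp (d' * (s + l)) * (1 / Real.cosh 3) ^ b) * P E
        = ∫⁻ _ in E, ENNReal.ofReal (Real.exp (d' * (s + l)) * (1 / Real.cosh 3) ^ b) ∂P := by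
          rw [setLIntegral_const]
      _ ≤ ∫⁻ ω in E, ENNReal.ofReal (Real.exp (d' * (s + l)) * D.S (s + l) ω ^ b) ∂P := by
          refine setLIntegral_mono' hE fun ω hω => ENNReal.ofReal_le_ofReal ?_
          gcongr
          exact hS ω hω
      _ ≤ _ := lintegral_mono_set hEX
  refine le_trans ?_ h3
  calc ENNReal.ofReal (c * (Real.exp (d' * l) * (1 / Real.cosh 3) ^ b) * Real.exp (-(C * N))) *
        ∫⁻ ω in A, ENNReal.ofReal (Real.exp (d' * s) * D.S s ω ^ b) ∂P
      ≤ ENNReal.ofReal (c * (Real.exp (d' * l) * (1 / Real.cosh 3) ^ b) * Real.exp (-(C * N))) *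
        (ENNReal.ofReal (Real.exp (d' * s)) * P A) := by gcongr
    _ = ENNReal.ofReal (Real.exp (d' * (s + l)) * (1 / Real.cosh 3) ^ b) *
        (ENNReal.ofReal (c * Real.exp (-(C * N))) * P A) := by
        rw [← mul_assoc, ← ENNReal.ofReal_mul (by positivity),
          ← mul_assoc (ENNReal.ofReal (Real.exp (d' * (s + l)) * (1 / Real.cosh 3) ^ b)),
          ← ENNReal.ofReal_mul (by positivity)]
        congr 2
        rw [mul_add, Real.exp_add]
        ring
    _ ≤ _ := by gcongr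




end Crest.Agent.R162.U3G
end

-- ▼ part R162/U3e
section

/-!
Row 162 (S0243), node U3, part e: the trigger probability at a radial level.
-/

set_option autoImplicit false

open MeasureTheory ProbabilityTheory Set
open scoped NNReal ENNReal Topology
open Crest.ProbabilityR.Loewner
open Crest.Agent.R162.FL Crest.Agent.R162.OP Crest.Agent.R162.OS Crest.Agent.R162.UB

namespace Crest.Agent.R162.U3

universe u

variable {Ω : Type u} {m : MeasurableSpace Ω} {P : Measure Ω} {Fl : Filtration ℝ≥0 m}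
  {B : ℝ≥0 → Ω → ℝ} {κ : ℝ} {w : ℂ}

theorem xfl_le_of_sfl {W : ℝ → ℝ} {t δ : ℝ} (hδ : 0 < δ) (hW : ContinuousOn W (Ici 0))
    (h : Alive W w t) (hs : δ ≤ sfl W t w) : |xfl W t w| ≤ Real.log (2 / δ) := by
  have hF := flowFacts W w t hW h
  have ht : t ∈ Icc (0:ℝ) t := ⟨h.1, le_rfl⟩
  have h1 := hF.sfl_eq t ht
  rw [h1] at hs
  have h2 : Real.cosh (xfl W t w) ≤ 1 / δ := by
    rw [le_div_iff₀ hδ]
    have hc := Real.cosh_pos (xfl W t w)
    have := mul_le_mul_of_nonneg_left hs hc.le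
    rw [mul_inv_cancel₀ hc.ne'] at this
    exact this
  have h3 : Real.exp |xfl W t w| / 2 ≤ Real.cosh (xfl W t w) := by
    rw [← Real.cosh_abs, Real.cosh_eq]
    have := Real.exp_pos (-|xfl W t w|)
    linarith
  rw [Real.le_log_iff_exp_le (by positivity)]
  have : 2 / δ = 2 * (1 / δ) := by ring
  rw [this]
  linarith

/-- **Trigger probability at a radial level**, all separations `l ≥ l₁`. -/
theorem ext_prob_all (hM : OPM.{u}) [IsProbabilityMeasure P] (hB : IsBM Fl B P) (hκ : 0 < κ)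
    (hκ8 : κ < 8) {δ : ℝ} (hδ : 0 < δ) :
    ∃ l₁ : ℝ, 16 * Real.exp 2 * (Real.log (2 / δ) + 6) ≤ l₁ ∧ 0 ≤ l₁ ∧ ∀ l : ℝ, l₁ ≤ l →
      ∃ N₀ C c : ℝ, 0 ≤ C ∧ 0 < c ∧
      c ≤ 1 ∧ ∀ (w : ℂ) (hw : 0 < w.im) (s : ℝ), -Real.log w.im ≤ s → ∀ N, N₀ ≤ N →
      ∀ A, (Rad.oneP hM hB hκ hw).Past s A →
      (∀ ω ∈ A, δ ≤ sfl (driving κ B ω) ((Rad.oneP hM hB hκ hw).tau s ω) w) →
      ∃ E' : Set Ω, E' ⊆ A ∧ MeasurableSet E' ∧
        ENNReal.ofReal (c * Real.exp (-(C * N))) * P A ≤ P E' ∧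
        ∀ ω ∈ E', Trig (driving κ B ω) w (Real.exp (-s)) N δ ∧
          ω ∈ (Rad.oneP hM hB hκ hw).alive (s + l) ∧
          1 / Real.cosh 3 ≤ sfl (driving κ B ω) ((Rad.oneP hM hB hκ hw).tau (s + l) ω) w := by
  obtain ⟨l₁, hl₁, hx⟩ := x1' δ hδ
  refine ⟨max l₁ (16 * Real.exp 2 * (Real.log (2 / δ) + 6)), le_max_right _ _,
    hl₁.trans (le_max_left _ _), fun l hl => ?_⟩
  obtain ⟨E, hE1, N₀, hN₀, hx⟩ := hx l ((le_max_left _ _).trans hl)
  set X : ℝ := |Real.log (2 / δ)| with hX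
  have hX0 : 0 ≤ X := abs_nonneg _
  set L := lam κ (9 / 16) with hL
  have hL0 : 0 < L := lam_pos hκ (by norm_num)
  refine ⟨max N₀ (Real.exp (2 * X + 6)), 2 * L,
    1 / 2 * Real.exp (-(L * (X + E))), by positivity, by positivity, ?_, ?_⟩
  · have : Real.exp (-(L * (X + E))) ≤ 1 := by
      apply Real.exp_le_one_iff.2
      have : 0 ≤ L * (X + E) := by positivity
      linarith
    linarith
  intro w hw s hs N hN A hA hAδ
  set D := Rad.oneP hM hB hκ hw with hD
  have hN1 : N₀ ≤ N := (le_max_left _ _).trans hN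
  have hN2 : Real.exp (2 * X + 6) ≤ N := (le_max_right _ _).trans hN
  have hNpos : 0 < N := (Real.exp_pos _).trans_le hN2
  have hNone : 1 ≤ N := hN₀.trans hN1
  have hlogN : 2 * X + 6 ≤ Real.log N := (Real.le_log_iff_exp_le hNpos).2 hN2
  have hlogN' : Real.log N ≤ N - 1 := Real.log_le_sub_one_of_pos hNpos
  have hal : ∀ ω ∈ A, AliveP κ B w (D.tau s ω) ω := fun ω hω => (D.tau_mem (hA.1 hω)).1
  have hstep : ∀ n : ℕ, ∃ A' : Set Ω, A' ⊆ A ∩ {ω | D.tau s ω ≤ n} ∧ MeasurableSet A' ∧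
      ENNReal.ofReal (1 / 2 * Real.exp (-(L * (X + 1 + N + Real.log N - 2 + E)))) *
        P (A ∩ {ω | D.tau s ω ≤ n}) ≤ P A' ∧
      ∀ ω ∈ A', ∃ T : ℝ≥0, ∃ a0 ξ : ℝ, sig D s n ω ≤ T ∧ AliveP κ B w T ω ∧
        |xfl (driving κ B ω) (sig D s n ω) w - ξ| ≤ 1 / 8 ∧
        a0 ≤ ath (driving κ B ω) (sig D s n ω) w ∧
        ath (driving κ B ω) (sig D s n ω) w ≤ a0 + 1 / 8 ∧
        ath (driving κ B ω) T w - a0 = ξ + N + Real.log N - 2 + E ∧
        ∀ t ∈ Icc (sig D s n ω : ℝ) T,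
          |xfl (driving κ B ω) t w - psiE N ξ (ath (driving κ B ω) t w - a0)| ≤ 3 / 4 := by
    intro n
    refine ext_st hM hB hκ hκ8 hw hX0 (by linarith) hNone (by linarith) (sig_ST D s n)
      (sig_le D s n) (sig_EvST D hA n) ?_
    rintro ω ⟨hω, hωn⟩
    rw [sig_eq D (hA.1 hω) hωn]
    refine ⟨hal ω hω, ?_⟩
    exact (xfl_le_of_sfl hδ (continuousOn_driving (κ := κ) hB ω) (hal ω hω) (hAδ ω hω)).trans
      (le_abs_self _)
  choose A' hA'1 hA'2 hA'3 hA'4 using hstep
  refine ⟨⋃ n, A' n, ?_, MeasurableSet.iUnion hA'2, ?_, ?_⟩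
  · exact iUnion_subset fun n => (hA'1 n).trans inter_subset_left
  · have hmono : Monotone fun n : ℕ => A ∩ {ω | D.tau s ω ≤ n} := by
      intro a b hab ω hω
      have h2 : D.tau s ω ≤ (a : ℝ≥0) := hω.2
      have h3 : ((a : ℕ) : ℝ≥0) ≤ (b : ℝ≥0) := by exact_mod_cast hab
      exact ⟨hω.1, h2.trans h3⟩
    have hAU : A = ⋃ n : ℕ, A ∩ {ω | D.tau s ω ≤ n} := by
      ext ω
      simp only [mem_iUnion, mem_inter_iff, mem_ofPred_eq]
      constructor
      · intro h
        obtain ⟨n, hn⟩ := exists_nat_ge (D.tau s ω)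
        exact ⟨n, h, hn⟩
      · rintro ⟨n, h, _⟩; exact h
    have hc : 1 / 2 * Real.exp (-(L * (X + E))) * Real.exp (-(2 * L * N)) ≤
        1 / 2 * Real.exp (-(L * (X + 1 + N + Real.log N - 2 + E))) := by
      rw [mul_assoc, ← Real.exp_add]
      apply mul_le_mul_of_nonneg_left _ (by norm_num)
      apply Real.exp_le_exp.2
      have : L * (X + 1 + N + Real.log N - 2 + E) ≤ L * (X + E + 2 * N) :=
        mul_le_mul_of_nonneg_left (by linarith) hL0.le
      nlinarith
    conv_lhs => rw [hAU]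
    rw [hmono.measure_iUnion, ENNReal.mul_iSup]
    refine iSup_le fun n => ?_
    calc _ ≤ ENNReal.ofReal (1 / 2 * Real.exp (-(L * (X + 1 + N + Real.log N - 2 + E)))) *
          P (A ∩ {ω | D.tau s ω ≤ n}) := by
          gcongr
      _ ≤ P (A' n) := hA'3 n
      _ ≤ P (⋃ n, A' n) := measure_mono (subset_iUnion _ _)
  · intro ω hω
    obtain ⟨n, hn⟩ := mem_iUnion.1 hω
    obtain ⟨T, a0, ξ, hT, hTal, hξ, ha1, ha2, hTa, htube⟩ := hA'4 n ω hn
    have hωA := hA'1 n hn
    rw [sig_eq D (hA.1 hωA.1) hωA.2] at hT hξ ha1 ha2 htube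
    have hWc := continuousOn_driving (κ := κ) hB ω
    have hF := flowFacts _ w _ hWc hTal
    have hτI : ((D.tau s ω : ℝ≥0) : ℝ) ∈ Icc (0:ℝ) T := ⟨NNReal.coe_nonneg _, by exact_mod_cast hT⟩
    have hups : ups (driving κ B ω) (D.tau s ω) w = Real.exp (-s) := by
      have h1 : Real.log (ups (driving κ B ω) (D.tau s ω) w) = -s := D.L_tau hs (hA.1 hωA.1)
      rw [← h1, Real.exp_log (hF.ups_pos _ hτI)]
    obtain ⟨T', hT', htr, t0, ht0, hu0, hlt, _, hsf, _, _⟩ := hx (driving κ B ω) w (Real.exp (-s))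
      N (D.tau s ω) T a0 ξ hWc hN1 (NNReal.coe_nonneg _) (by exact_mod_cast hT) hTal hups
      (hAδ ω hωA.1) hξ ha1 ha2 hTa htube
    refine ⟨⟨_, _, htr⟩, ?_⟩
    have ht00 : 0 ≤ t0 := ((NNReal.coe_nonneg _).trans hT'.1).trans ht0.1
    lift t0 to ℝ≥0 using ht00
    have ht0T : (t0 : ℝ) ≤ T := ht0.2
    have hal0 : AliveP κ B w t0 ω := Alive.mono hTal (NNReal.coe_nonneg _) ht0T
    have hlog0 : Real.log (ups (driving κ B ω) t0 w) = -(s + l) := by
      rw [hu0, ← Real.exp_add, Real.log_exp]; ring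
    have hmem : D.al t0 ω ∧ (D.st t0 ω).2.2.1 ≤ -(s + l) := ⟨hal0, le_of_eq hlog0⟩
    have halive : ω ∈ D.alive (s + l) := ⟨t0, hmem⟩
    have hle : D.tau (s + l) ω ≤ t0 := D.tau_le hmem.1 hmem.2
    have hge : t0 ≤ D.tau (s + l) ω := by
      by_contra hcon
      push Not at hcon
      have h1 := hlt (D.tau (s + l) ω) (NNReal.coe_nonneg _) (by exact_mod_cast hcon)
      have h2 := (D.tau_mem halive).2
      have h3 : Real.log (ups (driving κ B ω) (D.tau (s + l) ω) w) ≤ -(s + l) := h2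
      have h4 : 0 < Real.exp (-s) * Real.exp (-l) := by positivity
      have h5 := Real.log_lt_log h4 h1
      rw [← Real.exp_add, Real.log_exp] at h5
      linarith
    have heq : D.tau (s + l) ω = t0 := le_antisymm hle hge
    refine ⟨halive, ?_⟩
    rw [heq]
    exact hsf


/-- the form wanted by helper204's `U3H` (`ExtProb`) -/
theorem extProb (hM : OPM.{u}) [IsProbabilityMeasure P] (hB : IsBM Fl B P) (hκ : 0 < κ)
    (hκ8 : κ < 8) : ∀ δ : ℝ, 0 < δ → ∃ l₁ : ℝ, ∀ l : ℝ, l₁ ≤ l → ∃ N₀ C c : ℝ, 0 ≤ C ∧ 0 < c ∧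
      ∀ (w : ℂ) (hw : 0 < w.im) (s : ℝ), -Real.log w.im ≤ s → ∀ N, N₀ ≤ N →
      ∀ A, (Rad.oneP hM hB hκ hw).Past s A →
      (∀ ω ∈ A, δ ≤ sfl (driving κ B ω) ((Rad.oneP hM hB hκ hw).tau s ω) w) →
      ∃ E' : Set Ω, E' ⊆ A ∧ MeasurableSet E' ∧
        ENNReal.ofReal (c * Real.exp (-(C * N))) * P A ≤ P E' ∧
        ∀ ω ∈ E', Trig (driving κ B ω) w (Real.exp (-s)) N δ ∧
          ω ∈ (Rad.oneP hM hB hκ hw).alive (s + l) ∧
          1 / Real.cosh 3 ≤ sfl (driving κ B ω) ((Rad.oneP hM hB hκ hw).tau (s + l) ω) w := by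
  intro δ hδ
  obtain ⟨l₁, -, -, h3⟩ := ext_prob_all hM hB hκ hκ8 hδ
  refine ⟨l₁, fun l hl => ?_⟩
  obtain ⟨N₀, C, c, hC, hc, -, h⟩ := h3 l hl
  exact ⟨N₀, C, c, hC, hc, h⟩

end Crest.Agent.R162.U3
end

-- ▼ part R162/U3H

/-!
Row 162 (S0243), node U3: helper219's `U4F.U3In` from helper641's tube estimate (helper204).
-/

set_option autoImplicit false

open MeasureTheory ProbabilityTheory Set
open scoped NNReal ENNReal

namespace Crest.Agent.R162.U3H

open Crest.Agent.R162.FL Crest.Agent.R162.OP Crest.Agent.R162.OS Crest.Agent.R162.UB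
open Crest.Agent.R162.Rad
open Crest.ProbabilityR.Loewner

universe u

variable {Ω : Type u} {m : MeasurableSpace Ω} {P : Measure Ω} [IsProbabilityMeasure P]
  {Fl : Filtration ℝ≥0 m} {B : ℝ≥0 → Ω → ℝ} {κ : ℝ}

/-- the tube estimate (output of `U3e`) -/
def ExtProb (hM : OPM.{u}) (hB : IsBM Fl B P) (hκ : 0 < κ) : Prop :=
  ∀ δ : ℝ, 0 < δ → ∃ l₁ : ℝ, ∀ l : ℝ, l₁ ≤ l → ∃ N₀ C c : ℝ, 0 ≤ C ∧ 0 < c ∧
    ∀ (w : ℂ) (hw : 0 < w.im) (s : ℝ), -Real.log w.im ≤ s → ∀ N : ℝ, N₀ ≤ N →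
      ∀ A : Set Ω, (oneP hM hB hκ hw).Past s A →
        (∀ ω ∈ A, δ ≤ sfl (driving κ B ω) ((oneP hM hB hκ hw).tau s ω) w) →
        ∃ E' : Set Ω, E' ⊆ A ∧ MeasurableSet E' ∧
          ENNReal.ofReal (c * Real.exp (-(C * N))) * P A ≤ P E' ∧
          ∀ ω ∈ E', Trig (driving κ B ω) w (Real.exp (-s)) N δ ∧
            ω ∈ (oneP hM hB hκ hw).alive (s + l) ∧
            1 / Real.cosh 3 ≤ sfl (driving κ B ω) ((oneP hM hB hκ hw).tau (s + l) ω) w

lemma sinq_stW' (W : ℝ → ℝ) (t : ℝ) (w : ℂ) : sinq (stW W t w) = sfl W t w := by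
  unfold sinq stW sfl
  simp only
  rw [Complex.norm_def, Complex.normSq_apply, ← sq, ← sq]

lemma Sl_eq (hM : OPM.{u}) (hB : IsBM Fl B P) (hκ : 0 < κ) {w : ℂ} (hw : 0 < w.im) (s : ℝ)
    (ω : Ω) : (oneP hM hB hκ hw).Sl s ω =
      sfl (driving κ B ω) ((oneP hM hB hκ hw).tau s ω) w :=
  sinq_stW' _ _ _

/-- **the U3 input of helper219** -/
theorem u3In (hM : OPM.{u}) (hB : IsBM Fl B P) (hκ : 0 < κ) (hκ8 : κ ≤ 8)
    (h : ExtProb hM hB hκ) : U4F.U3In hM hB hκ := by
  intro δ hδ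
  obtain ⟨l₁, h1⟩ := h δ hδ
  refine ⟨max l₁ 0, fun l hl => ?_⟩
  have hl0 : 0 ≤ l := (le_max_right _ _).trans hl
  obtain ⟨N₀, C, c, hC, hc, h2⟩ := h1 l ((le_max_left _ _).trans hl)
  have hb : 0 ≤ 8 / κ - 1 := by
    rw [sub_nonneg, one_le_div hκ]; exact hκ8
  have hch : 0 < 1 / Real.cosh 3 := by have := Real.cosh_pos 3; positivity
  refine ⟨N₀, C, c * (Real.exp ((2 - dimParam κ) * l) * (1 / Real.cosh 3) ^ (8 / κ - 1)), hC,
    by positivity, ?_⟩
  intro w hw s hs N hN A hA hAδ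
  have hAs : A ⊆ (oneP hM hB hκ hw).alive s := hA.1
  have hmA : MeasurableSet A := OneP.Past.measurableSet _ hA
  obtain ⟨E, hEA, hEm, hPE, hE⟩ := h2 w hw s hs N hN A hA (fun ω hω => by
    have h3 : δ ≤ (oneP hM hB hκ hw).Sl s ω := hAδ hω
    rwa [Sl_eq] at h3)
  have hEal : E ⊆ (oneP hM hB hκ hw).alive (s + l) := fun ω hω => (hE ω hω).2.1
  have h3 := U3G.gform (D := (oneP hM hB hκ hw).radial) (d' := 2 - dimParam κ) hb hc.le hs hA hAs
    hEm (X := E) subset_rfl (fun ω hω => by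
      have h4 := (hE ω hω).2.2
      rw [← Sl_eq] at h4
      exact h4) hPE
  have e1 := U4F.gm_eq (oneP hM hB hκ hw) hs hmA hAs
  have e2 := U4F.gm_eq (oneP hM hB hκ hw) (s := s + l) (by linarith) hEm hEal
  unfold U4C.gm at e1 e2
  rw [e1, e2] at h3
  refine h3.trans (lintegral_mono_set ?_)
  intro ω hω
  exact ⟨⟨hEA hω, hEal hω⟩, (hE ω hω).1⟩

open Crest.Agent.R162.U3 in
/-- **Trigger probability at a radial level**, for every large `l` (helper641's proof of
`U3.ext_prob`, with `l` arbitrary). -/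
theorem extProb (hM : OPM.{u}) (hB : IsBM Fl B P) (hκ : 0 < κ) (hκ8 : κ < 8) :
    ExtProb hM hB hκ := by
  intro δ hδ
  obtain ⟨l₁, hl₁, hx⟩ := U3.x1' δ hδ
  refine ⟨max l₁ (16 * Real.exp 2 * (Real.log (2 / δ) + 6)), fun l hl => ?_⟩
  obtain ⟨E, hE1, N₀, hN₀, hx⟩ := hx l ((le_max_left _ _).trans hl)
  set X : ℝ := |Real.log (2 / δ)| with hX
  have hX0 : 0 ≤ X := abs_nonneg _
  set L := U3.lam κ (9 / 16) with hL
  have hL0 : 0 < L := U3.lam_pos hκ (by norm_num)
  refine ⟨max N₀ (Real.exp (2 * X + 6)), 2 * L,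
    1 / 2 * Real.exp (-(L * (X + E))), by positivity, by positivity, ?_⟩
  intro w hw s hs N hN A hA hAδ
  set D := Rad.oneP hM hB hκ hw with hD
  have hN1 : N₀ ≤ N := (le_max_left _ _).trans hN
  have hN2 : Real.exp (2 * X + 6) ≤ N := (le_max_right _ _).trans hN
  have hNpos : 0 < N := (Real.exp_pos _).trans_le hN2
  have hNone : 1 ≤ N := hN₀.trans hN1
  have hlogN : 2 * X + 6 ≤ Real.log N := (Real.le_log_iff_exp_le hNpos).2 hN2
  have hlogN' : Real.log N ≤ N - 1 := Real.log_le_sub_one_of_pos hNpos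
  have hal : ∀ ω ∈ A, AliveP κ B w (D.tau s ω) ω := fun ω hω => (D.tau_mem (hA.1 hω)).1
  have hstep : ∀ n : ℕ, ∃ A' : Set Ω, A' ⊆ A ∩ {ω | D.tau s ω ≤ n} ∧ MeasurableSet A' ∧
      ENNReal.ofReal (1 / 2 * Real.exp (-(L * (X + 1 + N + Real.log N - 2 + E)))) *
        P (A ∩ {ω | D.tau s ω ≤ n}) ≤ P A' ∧
      ∀ ω ∈ A', ∃ T : ℝ≥0, ∃ a0 ξ : ℝ, sig D s n ω ≤ T ∧ AliveP κ B w T ω ∧
        |xfl (driving κ B ω) (sig D s n ω) w - ξ| ≤ 1 / 8 ∧
        a0 ≤ ath (driving κ B ω) (sig D s n ω) w ∧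
        ath (driving κ B ω) (sig D s n ω) w ≤ a0 + 1 / 8 ∧
        ath (driving κ B ω) T w - a0 = ξ + N + Real.log N - 2 + E ∧
        ∀ t ∈ Icc (sig D s n ω : ℝ) T,
          |xfl (driving κ B ω) t w - psiE N ξ (ath (driving κ B ω) t w - a0)| ≤ 3 / 4 := by
    intro n
    refine ext_st hM hB hκ hκ8 hw hX0 (by linarith) hNone (by linarith) (sig_ST D s n)
      (sig_le D s n) (sig_EvST D hA n) ?_
    rintro ω ⟨hω, hωn⟩
    rw [sig_eq D (hA.1 hω) hωn]
    refine ⟨hal ω hω, ?_⟩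
    exact (xfl_le_of_sfl hδ (continuousOn_driving (κ := κ) hB ω) (hal ω hω) (hAδ ω hω)).trans
      (le_abs_self _)
  choose A' hA'1 hA'2 hA'3 hA'4 using hstep
  refine ⟨⋃ n, A' n, ?_, MeasurableSet.iUnion hA'2, ?_, ?_⟩
  · exact iUnion_subset fun n => (hA'1 n).trans inter_subset_left
  · have hmono : Monotone fun n : ℕ => A ∩ {ω | D.tau s ω ≤ n} := by
      intro a b hab ω hω
      have h2 : D.tau s ω ≤ (a : ℝ≥0) := hω.2
      have h3 : ((a : ℕ) : ℝ≥0) ≤ (b : ℝ≥0) := by exact_mod_cast hab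
      exact ⟨hω.1, h2.trans h3⟩
    have hAU : A = ⋃ n : ℕ, A ∩ {ω | D.tau s ω ≤ n} := by
      ext ω
      simp only [mem_iUnion, mem_inter_iff, mem_ofPred_eq]
      constructor
      · intro h
        obtain ⟨n, hn⟩ := exists_nat_ge (D.tau s ω)
        exact ⟨n, h, hn⟩
      · rintro ⟨n, h, _⟩; exact h
    have hc : 1 / 2 * Real.exp (-(L * (X + E))) * Real.exp (-(2 * L * N)) ≤
        1 / 2 * Real.exp (-(L * (X + 1 + N + Real.log N - 2 + E))) := by
      rw [mul_assoc, ← Real.exp_add]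
      apply mul_le_mul_of_nonneg_left _ (by norm_num)
      apply Real.exp_le_exp.2
      have : L * (X + 1 + N + Real.log N - 2 + E) ≤ L * (X + E + 2 * N) :=
        mul_le_mul_of_nonneg_left (by linarith) hL0.le
      nlinarith
    conv_lhs => rw [hAU]
    rw [hmono.measure_iUnion, ENNReal.mul_iSup]
    refine iSup_le fun n => ?_
    calc _ ≤ ENNReal.ofReal (1 / 2 * Real.exp (-(L * (X + 1 + N + Real.log N - 2 + E)))) *
          P (A ∩ {ω | D.tau s ω ≤ n}) := by
          gcongr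
      _ ≤ P (A' n) := hA'3 n
      _ ≤ P (⋃ n, A' n) := measure_mono (subset_iUnion _ _)
  · intro ω hω
    obtain ⟨n, hn⟩ := mem_iUnion.1 hω
    obtain ⟨T, a0, ξ, hT, hTal, hξ, ha1, ha2, hTa, htube⟩ := hA'4 n ω hn
    have hωA := hA'1 n hn
    rw [sig_eq D (hA.1 hωA.1) hωA.2] at hT hξ ha1 ha2 htube
    have hWc := continuousOn_driving (κ := κ) hB ω
    have hF := flowFacts _ w _ hWc hTal
    have hτI : ((D.tau s ω : ℝ≥0) : ℝ) ∈ Icc (0:ℝ) T := ⟨NNReal.coe_nonneg _, by exact_mod_cast hT⟩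
    have hups : ups (driving κ B ω) (D.tau s ω) w = Real.exp (-s) := by
      have h1 : Real.log (ups (driving κ B ω) (D.tau s ω) w) = -s := D.L_tau hs (hA.1 hωA.1)
      rw [← h1, Real.exp_log (hF.ups_pos _ hτI)]
    obtain ⟨T', hT', htr, t0, ht0, hu0, hlt, _, hsf, _, _⟩ := hx (driving κ B ω) w (Real.exp (-s))
      N (D.tau s ω) T a0 ξ hWc hN1 (NNReal.coe_nonneg _) (by exact_mod_cast hT) hTal hups
      (hAδ ω hωA.1) hξ ha1 ha2 hTa htube
    refine ⟨⟨_, _, htr⟩, ?_⟩
    have ht00 : 0 ≤ t0 := ((NNReal.coe_nonneg _).trans hT'.1).trans ht0.1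
    lift t0 to ℝ≥0 using ht00
    have ht0T : (t0 : ℝ) ≤ T := ht0.2
    have hal0 : AliveP κ B w t0 ω := Alive.mono hTal (NNReal.coe_nonneg _) ht0T
    have hlog0 : Real.log (ups (driving κ B ω) t0 w) = -(s + l) := by
      rw [hu0, ← Real.exp_add, Real.log_exp]; ring
    have hmem : D.al t0 ω ∧ (D.st t0 ω).2.2.1 ≤ -(s + l) := ⟨hal0, le_of_eq hlog0⟩
    have halive : ω ∈ D.alive (s + l) := ⟨t0, hmem⟩
    have hle : D.tau (s + l) ω ≤ t0 := D.tau_le hmem.1 hmem.2
    have hge : t0 ≤ D.tau (s + l) ω := by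
      by_contra hcon
      push Not at hcon
      have h1 := hlt (D.tau (s + l) ω) (NNReal.coe_nonneg _) (by exact_mod_cast hcon)
      have h2 := (D.tau_mem halive).2
      have h3 : Real.log (ups (driving κ B ω) (D.tau (s + l) ω) w) ≤ -(s + l) := h2
      have h4 : 0 < Real.exp (-s) * Real.exp (-l) := by positivity
      have h5 := Real.log_lt_log h4 h1
      rw [← Real.exp_add, Real.log_exp] at h5
      linarith
    have heq : D.tau (s + l) ω = t0 := le_antisymm hle hge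
    refine ⟨halive, ?_⟩
    rw [heq]
    exact hsf


/-- **the U3 input, unconditional** (given the master Dynkin formula) -/
theorem u3In' (hM : OPM.{u}) (hB : IsBM Fl B P) (hκ : 0 < κ) (hκ8 : κ < 8) :
    U4F.U3In hM hB hκ := u3In hM hB hκ hκ8.le (extProb hM hB hκ hκ8)

/-- **`U4Stmt`** from the `U1` input only. -/
theorem u4Stmt_of_u1 (hB : IsBM Fl B P) (hκ : 0 < κ) (hκ8 : κ < 8)
    (h1 : U4F.U1In OPM.opm.{u} hB hκ) : U4Stmt κ P B :=
  U4F.u4Stmt_of OPM.opm.{u} hB hκ hκ8 h1 (u3In' OPM.opm.{u} hB hκ hκ8)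
    (fun w r N δ t => U3M.measurableSet_trig hB κ w r N δ t)

end Crest.Agent.R162.U3H
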