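import Crest.Agent.R162.UBFin
import Crest.Agent.R162.U3H_Mg
import Crest.Agent.R162.U1B
import Crest.Agent.R162.UD
import Crest.Agent.R162.FLB
import Crest.Agent.R162.KB1
import Crest.Agent.R162.LB7u
import Crest.Agent.R162.LBDefs
import Crest.Agent.R162.FLE2
import Crest.Agent.R162.LBSkel
import Crest.Agent.R162.FLF
import Crest.Agent.R162.LBMeas2
import Mathlib
import Crest.Agent.R162.FLDef
import Crest.Agent.R162.Base
import Crest.Agent.R162.FL1b
import Crest.Agent.R162.FLC2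
import Crest.Agent.R162.KB2
import Crest.Agent.R162.LBC4
import Crest.Agent.R162.OPM

-- ▼ part R162/UBEnd
section

/-!
Row 162 (S0243): THE UPPER BOUND `Top.UBC κ`, unconditionally (helper744; nodes by many hands).
-/

set_option autoImplicit false

open MeasureTheory ProbabilityTheory
open scoped NNReal ENNReal

namespace Crest.Agent.R162.UB

open Crest.Agent.R162.OS

universe u

theorem u4Stmt {Ω : Type u} {m : MeasurableSpace Ω} {P : Measure Ω} [IsProbabilityMeasure P]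
    {F : Filtration ℝ≥0 m} {B : ℝ≥0 → Ω → ℝ} {κ : ℝ} (hκ : 0 < κ) (hκ8 : κ < 8)
    (hB : IsBM F B P) : U4Stmt κ P B :=
  U3H.u4Stmt_of_u1 hB hκ hκ8 (U1B.u1In OPM.opm.{u} hB hκ hκ8)

/-- **THE UPPER BOUND.** -/
theorem ubc {κ : ℝ} (hκ : 0 < κ) (hκ8 : κ < 8) : Top.UBC.{u} κ :=
  ubc_of_u4 hκ hκ8 (fun _ _ _ _ _ _ hB => u4Stmt hκ hκ8 hB)

end Crest.Agent.R162.UB
end

-- ▼ part R162/LB7cF
section

/-!
Row 162 (S0243), node LB7c, Fubini part (helper152): joint measurability of the content, no content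
in a ball before its centre is approached, mean content of a ball after a stopping time.
-/

set_option autoImplicit false

open Set Metric MeasureTheory Filter Topology ProbabilityTheory
open scoped NNReal ENNReal

namespace Crest.Agent.R162.LB7F

open Crest.Agent.R162.FL Crest.Agent.R162.OP Crest.Agent.R162.OS Crest.Agent.R162.LB
open Crest.ProbabilityR.Loewner

/-! ### joint measurability of the content -/

section meas

variable {Ω : Type*} {m : MeasurableSpace Ω} {W : Ω → ℝ → ℝ} {T : ℝ}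

/-- the density of the content as a function of `(Υ, S, Z)` -/
noncomputable def cdF (κ ε c1 lam : ℝ) (x : (ℝ × ℝ) × ℂ) : ℝ≥0∞ :=
  ENNReal.ofReal (chi (lam * x.1.1 / ε) * (lam * x.1.1) ^ (κ / 8 - 1) * x.1.2 ^ (8 / κ - 1) *
    (if c1 ≤ x.1.2 then 1 else 0) * (4 * x.1.2 ^ 2 / ‖x.2‖ ^ 2))

lemma measurable_cdF (κ ε c1 lam : ℝ) : Measurable (cdF κ ε c1 lam) := by
  unfold cdF
  have h1 : Measurable fun x : (ℝ × ℝ) × ℂ => chi (lam * x.1.1 / ε) :=
    measurable_chi.comp (by fun_prop)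
  have h2 : Measurable fun x : (ℝ × ℝ) × ℂ => (lam * x.1.1) ^ (κ / 8 - 1) := by fun_prop
  have h3 : Measurable fun x : (ℝ × ℝ) × ℂ => x.1.2 ^ (8 / κ - 1) := by fun_prop
  have h4 : Measurable fun x : (ℝ × ℝ) × ℂ => if c1 ≤ x.1.2 then (1:ℝ) else 0 :=
    Measurable.ite (measurableSet_le measurable_const (by fun_prop)) measurable_const
      measurable_const
  have h5 : Measurable fun x : (ℝ × ℝ) × ℂ => 4 * x.1.2 ^ 2 / ‖x.2‖ ^ 2 := by fun_prop
  exact ((((h1.mul h2).mul h3).mul h4).mul h5).ennreal_ofReal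

theorem jm_cd (κ ε c1 lam : ℝ) (hc : ∀ ω, ContinuousOn (W ω) (Icc 0 T))
    (hm : ∀ s ∈ Icc 0 T, Measurable (fun ω => W ω s)) :
    FLD.JM (m := m) T (fun p s => ENNReal.ofReal (cd κ ε c1 lam (W p.1) s p.2)) := by
  have h1 := FLD.jm_ups hc hm
  have h2 := FLD.jm_sfl hc hm
  have h3 := FLD.jm_Zfl hc hm
  have h12 : FLD.JM (m := m) T (fun p s => (ups (W p.1) s p.2, sfl (W p.1) s p.2)) :=
    h1.comp₂ h2 measurable_id
  exact h12.comp₂ h3 (measurable_cdF κ ε c1 lam)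

theorem measurable_cz (κ ε c1 lam : ℝ) (hc : ∀ ω, ContinuousOn (W ω) (Icc 0 T))
    (hm : ∀ s ∈ Icc 0 T, Measurable (fun ω => W ω s)) {a b : Ω → ℝ} (ha : Measurable a)
    (hb : Measurable b) (ha0 : ∀ ω, 0 ≤ a ω) (hbT : ∀ ω, b ω ≤ T) :
    Measurable (fun p : Ω × ℂ => cz κ ε c1 lam (W p.1) (Ioc (a p.1) (b p.1)) p.2) := by
  have h1 := jm_cd κ ε c1 lam hc hm
  unfold FLD.JM at h1
  have hS : MeasurableSet {x : (Ω × ℂ) × ℝ | a x.1.1 < x.2 ∧ x.2 ≤ b x.1.1} :=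
    (measurableSet_lt (ha.comp (measurable_fst.comp measurable_fst)) measurable_snd).inter
      (measurableSet_le measurable_snd (hb.comp (measurable_fst.comp measurable_fst)))
  have h2 := Measurable.lintegral_prod_right' (ν := (volume : Measure ℝ)) (h1.indicator hS)
  convert h2 using 1
  funext p
  unfold cz
  rw [← lintegral_indicator measurableSet_Ioc]
  refine lintegral_congr fun s => ?_
  by_cases hs : s ∈ Ioc (a p.1) (b p.1)
  · rw [indicator_of_mem hs, indicator_of_mem (show (p, s) ∈ _ from hs)]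
    have : s ∈ Icc 0 T := ⟨(ha0 _).trans hs.1.le, hs.2.trans (hbT _)⟩
    simp only [indicator_of_mem this]
  · rw [indicator_of_notMem hs, indicator_of_notMem (show (p, s) ∉ _ from hs)]

end meas

/-! ### no content before the centre is approached -/

section det

variable {W : ℝ → ℝ} {w0 w : ℂ} {κ ε c1 R s : ℝ}






end det

/-! ### mean content of a ball after a stopping time -/

section bm

variable {Ω : Type*} {m : MeasurableSpace Ω} {F : Filtration ℝ≥0 m} {P : Measure Ω}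
  {B : ℝ≥0 → Ω → ℝ} {κ ε c1 : ℝ}

theorem measurable_cz_at (hB : IsBM F B P) (lam : ℝ) {σ : Ω → ℝ≥0} (hσ : Measurable σ) (t : ℝ≥0) :
    Measurable (fun p : Ω × ℂ => cz κ ε c1 lam (driving κ B p.1) (Ioc (σ p.1 : ℝ) t) p.2) :=
  measurable_cz κ ε c1 lam (T := (t : ℝ)) (a := fun ω => (σ ω : ℝ)) (b := fun _ => (t : ℝ))
    (fun ω => (FLD.driving_cont hB κ ω).continuousOn) (fun _ _ => FLD.driving_meas' hB κ _)
    (measurable_coe_nnreal_real.comp hσ) measurable_const (fun ω => (σ ω).2) (fun _ => le_rfl)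







end bm

end Crest.Agent.R162.LB7F
end

-- ▼ part R162/LB7cM
section

/-!
Row 162 (S0243), node LB7c (M) (helper152): functionals of the inverse flow at a stopping time are
measurable with respect to the past.
-/

set_option autoImplicit false

open Set Metric MeasureTheory Filter Topology ProbabilityTheory
open scoped NNReal ENNReal

namespace Crest.Agent.R162.LB7M

open Crest.Agent.R162.FL Crest.Agent.R162.OP Crest.Agent.R162.OS Crest.Agent.R162.LB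
open Crest.ProbabilityR.Loewner

variable {Ω : Type*} {m : MeasurableSpace Ω} {F : Filtration ℝ≥0 m} {P : Measure Ω}
  {B : ℝ≥0 → Ω → ℝ} {κ : ℝ}

/-- the driving path stopped at `t` is an `F t ⊗ borel`-measurable family -/
lemma pfam_stopped (hB : IsBM F B P) (κ : ℝ) (t : ℝ≥0) :
    @LBM.PFam (Ω × ℝ) ((F t).prod (borel ℝ)) (fun a s => driving κ B a.1 (min s t)) := by
  refine @LBM.PFam.mk (Ω × ℝ) ((F t).prod (borel ℝ)) _ (fun a => ?_) (fun s hs => ?_)
  · exact ((FLD.driving_cont hB κ a.1).comp (continuous_id.min continuous_const)).continuousOn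
  · have h1 : Measurable[F t] (fun ω => driving κ B ω (min s t)) :=
      FLD.driving_meas hB κ ⟨le_min hs t.2, min_le_right _ _⟩
    exact h1.comp (@measurable_fst Ω ℝ (F t) (borel ℝ))

/-- a functional of the inverse flow which is measurable on measurable families is progressive -/
theorem evST_of_mfam {E : Type*} [MeasurableSpace E] {Ψ : (ℂ → ℂ) → E}
    (hΨ : ∀ (m' : MeasurableSpace (Ω × ℝ)) (G : Ω × ℝ → ℂ → ℂ), @LBM.MFam (Ω × ℝ) m' G →
      (∀ a, InjOn (G a) {z : ℂ | 0 < z.im}) → @Measurable _ _ m' _ (fun a => Ψ (G a)))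
    (hB : IsBM F B P) (κ : ℝ) {σ : Ω → ℝ≥0} (hσ : IsST F σ) {S : Set E} (hS : MeasurableSet S) :
    EvST F σ {ω | Ψ (ffl (driving κ B ω) (σ ω)) ∈ S} := by
  refine FLD.evST_of_joint (Q := fun ω s => Ψ (ffl (driving κ B ω) s) ∈ S) (fun t => ?_) hσ
  have hτ : @Measurable (Ω × ℝ) ℝ ((F t).prod (borel ℝ)) _ (fun a => max 0 (min a.2 (t:ℝ))) :=
    (measurable_const.max (measurable_id.min measurable_const)).comp
      (@measurable_snd Ω ℝ (F t) (borel ℝ))
  have h1 := @LBM.PFam.mfam (Ω × ℝ) ((F t).prod (borel ℝ)) _ (pfam_stopped hB κ t)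
    (fun a => max 0 (min a.2 (t:ℝ))) hτ (fun a => le_max_left _ _)
  have h2 := hΨ _ _ h1 (fun a => FLC.injOn_ffl
    ((FLD.driving_cont hB κ a.1).comp (continuous_id.min continuous_const)).continuousOn
    (le_max_left _ _))
  have h3 : @MeasurableSet (Ω × ℝ) ((F t).prod (borel ℝ)) {x | x.2 ∈ Icc 0 (t:ℝ)} :=
    (@measurable_snd Ω ℝ (F t) (borel ℝ)) measurableSet_Icc
  have h4 := @MeasurableSet.inter _ ((F t).prod (borel ℝ)) _ _ h3 (h2 hS)
  convert h4 using 1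
  ext x
  simp only [mem_ofPred_eq, mem_inter_iff, mem_preimage]
  refine and_congr_right fun hx => ?_
  have e : max 0 (min x.2 (t:ℝ)) = x.2 := by rw [min_eq_left hx.2, max_eq_right hx.1]
  rw [e, FLF.ffl_congr (W := driving κ B x.1) (W' := fun s => driving κ B x.1 (min s t))
    (fun s hs => by rw [min_eq_left (hs.2.trans hx.2)])]


variable {u0 : ℂ → ℝ} {q η θ : ℝ}

theorem evST_Lam (hB : IsBM F B P) (κ : ℝ) (hu : Continuous u0) {σ : Ω → ℝ≥0} (hσ : IsST F σ)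
    {S : Set ℝ≥0∞} (hS : MeasurableSet S) :
    EvST F σ {ω | Lam u0 q η (ffl (driving κ B ω) (σ ω)) ∈ S} :=
  evST_of_mfam (Ψ := fun f => Lam u0 q η f)
    (fun m' G hG _ => @LBM.MFam.Lam _ m' G u0 q η hG hu) hB κ hσ hS

theorem evST_Lam_le (hB : IsBM F B P) (κ : ℝ) (hu : Continuous u0) {σ : Ω → ℝ≥0} (hσ : IsST F σ)
    (c : ℝ≥0∞) : EvST F σ {ω | Lam u0 q η (ffl (driving κ B ω) (σ ω)) ≤ c} :=
  evST_Lam hB κ hu hσ measurableSet_Iic




lemma continuous_uB (w0 : ℂ) (R : ℝ) : Continuous (LBS.uB w0 R) := by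
  unfold LBS.uB
  exact continuous_const.max (continuous_infDist_pt _)


end Crest.Agent.R162.LB7M
end

-- ▼ part R162/LB7a
section

/-!
Row 162 (S0243), node LB7a: the deterministic bound for `Lambda_sigma`.
-/

set_option autoImplicit false

open Set Metric MeasureTheory
open scoped ComplexConjugate ENNReal

namespace Crest.Agent.R162.LB7a

open Crest.Agent.R162.FL Crest.Agent.R162.OP

variable {W : ℝ → ℝ} {z z' : ℂ} {s t r δ : ℝ}

/-! ## `ups` and the inverse flow -/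

/-- `Υ_t(f_t(z)) = Im z |f_t'(z)|` -/
theorem ups_ffl (hW : ContinuousOn W (Ici 0)) (ht : 0 ≤ t) (hz : 0 < z.im) :
    ups W t (ffl W t z) = z.im * ‖deriv (ffl W t) z‖ := by
  have ha := FLC.ffl_alive hW ht hz
  rw [FLC.deriv_ffl hW ht hz, Complex.norm_exp, ups, FLC.gfl_ffl hW ht hz]
  congr 1
  · simp
  · congr 1
    have hcont : ContinuousOn (fun s => 2 / (Zfl W s (ffl W t z)) ^ 2) (Icc 0 t) := by
      refine continuousOn_const.div ((continuousOn_Zfl hW ha).pow 2) fun r hr => ?_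
      exact pow_ne_zero _ (Zfl_ne_zero (ha.mono hr.1 hr.2))
    have hint : IntervalIntegrable (fun s => 2 / (Zfl W s (ffl W t z)) ^ 2) volume 0 t := by
      apply ContinuousOn.intervalIntegrable
      rwa [uIcc_of_le ht]
    have h1 := Complex.reCLM.intervalIntegral_comp_comm hint
    simp only [Complex.reCLM_apply] at h1
    rw [← h1]
    refine intervalIntegral.integral_congr fun r _ => ?_
    simp only [div_eq_mul_inv, Complex.mul_re]
    simp

theorem ups_eq (hW : ContinuousOn W (Ici 0)) (h : Alive W z t) :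
    ups W t z = (Zfl W t z).im * ‖deriv (ffl W t) (Zfl W t z)‖ := by
  rw [← ups_ffl hW h.1 (FLC.Zfl_im_pos hW h), FLC.ffl_Zfl hW h]

theorem ups_pos (h : Alive W z t) : 0 < ups W t z :=
  mul_pos (gfl_im_pos h) (Real.exp_pos _)

/-- Koebe: `B(z, Υ/2)` is in the domain -/
theorem ball_subset_Dom (hW : ContinuousOn W (Ici 0)) (h : Alive W z t) :
    ball z (ups W t z / 2) ⊆ Dom W t := by
  have h1 := KB.kb2 (FLC.differentiableOn_ffl hW h.1) (FLC.injOn_ffl hW h.1) (FLC.Zfl_im_pos hW h)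
  rw [FLC.ffl_Zfl hW h, FLC.ffl_image hW h.1, ← ups_eq hW h] at h1
  exact h1


/-- `Υ ≤ 2 Im` -/
theorem ups_le_two_im (hW : ContinuousOn W (Ici 0)) (h : Alive W z t) :
    ups W t z / 2 ≤ z.im := by
  by_contra hlt
  rw [not_le] at hlt
  have hz : 0 < z.im := h.im_pos
  have h1 : z - (z.im : ℂ) * Complex.I ∈ ball z (ups W t z / 2) := by
    rw [mem_ball, dist_eq_norm]
    simpa [abs_of_pos hz] using hlt
  have h2 : Alive W (z - (z.im : ℂ) * Complex.I) t := ball_subset_Dom hW h h1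
  have h3 := h2.im_pos
  simp at h3

/-- the centred flow is holomorphic on the domain -/
theorem differentiableOn_Zfl (hW : ContinuousOn W (Ici 0)) (ht : 0 ≤ t) :
    DifferentiableOn ℂ (Zfl W t) (Dom W t) := by
  obtain ⟨φ, hφd, -, -, hφ1, -⟩ := Crest.Agent.Lib.exists_holomorphic_inverse KB.isOpen_hp
    (FLC.differentiableOn_ffl hW ht) (FLC.injOn_ffl hW ht)
  rw [FLC.ffl_image hW ht] at hφd
  refine hφd.congr fun w hw => ?_
  have h1 := hφ1 (Zfl W t w) (FLC.Zfl_im_pos hW hw)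
  rw [FLC.ffl_Zfl hW hw] at h1
  exact h1.symm

/-! ## Harnack -/

/-- Schwarz lemma for the flow, pseudo-hyperbolic form -/
theorem schwarz_flow (hW : ContinuousOn W (Ici 0)) (ht : 0 ≤ t) (hr : 0 < r)
    (hb : ball z r ⊆ Dom W t) (hδ : ‖z' - z‖ ≤ δ * r) (hz' : ‖z' - z‖ < r) :
    ‖Zfl W t z' - Zfl W t z‖ ≤ δ * ‖Zfl W t z' - conj (Zfl W t z)‖ := by
  have hzb : z ∈ ball z r := mem_ball_self hr
  have hz'b : z' ∈ ball z r := by rwa [mem_ball, dist_eq_norm]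
  have hgz : 0 < (Zfl W t z).im := FLC.Zfl_im_pos hW (hb hzb)
  have hgz' : 0 < (Zfl W t z').im := FLC.Zfl_im_pos hW (hb hz'b)
  set h : ℂ → ℂ := KB.bom (Zfl W t z) ∘ Zfl W t with hh
  have hd : DifferentiableOn ℂ h (ball z r) := by
    intro w hw
    have h1 : HasDerivAt (Zfl W t) (deriv (Zfl W t) w) w :=
      (((differentiableOn_Zfl hW ht).mono hb).differentiableAt (isOpen_ball.mem_nhds hw)).hasDerivAt
    exact ((KB.bom_hasDerivAt hgz (FLC.Zfl_im_pos hW (hb hw))).comp w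
      h1).differentiableAt.differentiableWithinAt
  have e : h z = 0 := by simp [hh]
  have hmaps : MapsTo h (ball z r) (closedBall (h z) 1) := by
    intro w hw
    rw [e, mem_closedBall_zero_iff]
    exact (KB.bom_norm_lt hgz (FLC.Zfl_im_pos hW (hb hw))).le
  have h2 := Complex.dist_le_div_mul_dist_of_mapsTo_ball hd hmaps hz'b
  rw [e, dist_zero_right, dist_eq_norm] at h2
  have hne : 0 < ‖Zfl W t z' - conj (Zfl W t z)‖ := norm_pos_iff.2 (KB.conj_sub_ne hgz hgz')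
  have h3 : ‖h z'‖ = ‖Zfl W t z' - Zfl W t z‖ / ‖Zfl W t z' - conj (Zfl W t z)‖ := by
    simp [hh, KB.bom]
  rw [h3] at h2
  have h4 : 1 / r * ‖z' - z‖ ≤ δ := by
    rw [one_div, inv_mul_le_iff₀ hr]; linarith
  exact (div_le_iff₀ hne).1 (h2.trans h4)

/-- **Harnack**: on `B(z,r/2)` with `B(z,r)` in the domain, `Im g_t` changes at most by a factor `3` -/
theorem harnack (hW : ContinuousOn W (Ici 0)) (ht : 0 ≤ t) (hr : 0 < r)
    (hb : ball z r ⊆ Dom W t) (hz' : ‖z' - z‖ ≤ r / 2) :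
    (gfl W t z').im ≤ 3 * (gfl W t z).im ∧ (gfl W t z).im ≤ 3 * (gfl W t z').im := by
  have h1 := schwarz_flow (z' := z') (δ := 1 / 2) hW ht hr hb (by linarith) (by linarith)
  have hzb : z ∈ ball z r := mem_ball_self hr
  have hz'b : z' ∈ ball z r := by rw [mem_ball, dist_eq_norm]; linarith
  have hgz : 0 < (Zfl W t z).im := FLC.Zfl_im_pos hW (hb hzb)
  have hgz' : 0 < (Zfl W t z').im := FLC.Zfl_im_pos hW (hb hz'b)
  rw [← Zfl_im, ← Zfl_im]
  set a := Zfl W t z'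
  set b := Zfl W t z
  have h2 : ‖a - b‖ ^ 2 ≤ 1 / 4 * ‖a - conj b‖ ^ 2 := by
    have := pow_le_pow_left₀ (norm_nonneg _) h1 2
    rw [mul_pow] at this
    linarith
  rw [← Complex.normSq_eq_norm_sq, ← Complex.normSq_eq_norm_sq] at h2
  simp only [Complex.normSq_apply, Complex.sub_re, Complex.sub_im, Complex.conj_re,
    Complex.conj_im] at h2
  have h3 : 3 * (a.im + b.im) ^ 2 ≤ 16 * (a.im * b.im) := by nlinarith [sq_nonneg (a.re - b.re)]
  constructor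
  · by_contra hlt
    rw [not_le] at hlt
    nlinarith
  · by_contra hlt
    rw [not_le] at hlt
    nlinarith

/-- a point close to `z` on the normal line has large `S` -/
theorem sfl_ge (hW : ContinuousOn W (Ici 0)) (h : Alive W z t) {y : ℝ} (hy : 0 < y)
    (hz : Zfl W t z = y * Complex.I) (hz' : ‖z' - z‖ ≤ ups W t z / 10) :
    1 / 3 ≤ sfl W t z' := by
  have hu := ups_pos h
  have hb := ball_subset_Dom hW h
  have h1 := schwarz_flow (z' := z') (δ := 1 / 5) hW h.1 (by linarith) hb (by linarith) (by linarith)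
  have hz'b : z' ∈ ball z (ups W t z / 2) := by rw [mem_ball, dist_eq_norm]; linarith
  have hgz' : 0 < (Zfl W t z').im := FLC.Zfl_im_pos hW (hb hz'b)
  rw [hz] at h1
  set a := Zfl W t z' with ha
  have h2 : ‖a - conj ((y : ℂ) * Complex.I)‖ ≤ ‖a - y * Complex.I‖ + 2 * y := by
    have e : a - conj ((y : ℂ) * Complex.I) = (a - y * Complex.I) + 2 * (y * Complex.I) := by
      simp; ring
    rw [e]
    refine (norm_add_le _ _).trans ?_
    simp [abs_of_pos hy]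
  have h3 : ‖a - y * Complex.I‖ ≤ y / 2 := by linarith
  have h4 : y / 2 ≤ a.im := by
    have := Complex.abs_im_le_norm (a - y * Complex.I)
    simp at this
    have := (abs_le.1 (this.trans h3)).1
    linarith
  have h5 : ‖a‖ ≤ 3 / 2 * y := by
    have : a = (a - y * Complex.I) + y * Complex.I := by ring
    rw [this]
    refine (norm_add_le _ _).trans ?_
    simp [abs_of_pos hy]
    linarith
  have hapos : 0 < ‖a‖ := by
    rw [norm_pos_iff]
    intro h0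
    rw [h0] at hgz'
    simp at hgz'
  rw [sfl, ← ha, le_div_iff₀ hapos]
  linarith

/-! ## the `K`-time and the imaginary part -/

theorem ath_sub (hW : ContinuousOn W (Ici 0)) (h : Alive W z t) (hs : 0 ≤ s) (hst : s ≤ t) :
    Real.exp (2 * (ath W t z - ath W s z)) * (gfl W t z).im = (gfl W s z).im := by
  have ht := h.1
  set q : ℝ → ℝ := fun r => 1 / ‖Zfl W r z‖ ^ 2 with hq
  have hqc : ContinuousOn q (Icc 0 t) := by
    refine continuousOn_const.div ((continuousOn_Zfl hW h).norm.pow 2) fun r hr => ?_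
    exact pow_ne_zero _ (norm_ne_zero_iff.2 (Zfl_ne_zero (h.mono hr.1 hr.2)))
  set φ : ℝ → ℝ := fun x => Real.exp (2 * ∫ r in (0 : ℝ)..x, q r) * (gfl W x z).im with hφ
  have hqi : ∀ x ∈ Icc (0 : ℝ) t,
      HasDerivWithinAt (fun x => ∫ r in (0 : ℝ)..x, q r) (q x) (Icc 0 t) x := by
    intro x hx
    have h1 := hasDerivWithinAt_primitive (f := fun r => ((q r : ℝ) : ℂ))
      (Complex.continuous_ofReal.comp_continuousOn hqc) hx
    have h2 := hasDerivWithinAt_re h1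
    simp only [intervalIntegral.integral_ofReal, Complex.ofReal_re] at h2
    exact h2
  have hder : ∀ x ∈ Icc (0 : ℝ) t, HasDerivWithinAt φ 0 (Icc 0 t) x := by
    intro x hx
    have h1 := ((hqi x hx).const_mul 2).exp
    have h2 := hasDerivWithinAt_im (hasDerivWithinAt_gfl' h hx)
    have h3 := h1.mul h2
    have hax := h.mono hx.1 hx.2
    have e : (2 / Zfl W x z).im = -(2 * q x) * (gfl W x z).im := by
      rw [Complex.div_im, ← Zfl_im, hq]
      have : Complex.normSq (Zfl W x z) ≠ 0 := by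
        rw [Ne, Complex.normSq_eq_zero]; exact Zfl_ne_zero hax
      simp only [Complex.re_ofNat, Complex.im_ofNat, zero_mul, zero_div, zero_sub,
        ← Complex.normSq_eq_norm_sq]
      field_simp
    rw [e] at h3
    have e0 : Real.exp (2 * ∫ r in (0 : ℝ)..x, q r) * (2 * q x) * (gfl W x z).im +
        Real.exp (2 * ∫ r in (0 : ℝ)..x, q r) * (-(2 * q x) * (gfl W x z).im) = 0 := by ring
    rw [e0] at h3
    exact h3
  have hconst : φ s = φ t := by
    have h1 := (convex_Icc (0 : ℝ) t).norm_image_sub_le_of_norm_hasDerivWithin_le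
      (f := φ) (f' := fun _ => 0) (C := 0) hder (fun x _ => by simp)
      (x := t) ⟨ht, le_rfl⟩ (y := s) ⟨hs, hst⟩
    rw [zero_mul] at h1
    exact sub_eq_zero.1 (norm_le_zero_iff.1 h1)
  simp only [hφ] at hconst
  have e1 : ath W t z = ∫ r in (0 : ℝ)..t, q r := rfl
  have e2 : ath W s z = ∫ r in (0 : ℝ)..s, q r := rfl
  rw [← e1, ← e2] at hconst
  rw [mul_sub, Real.exp_sub, div_mul_eq_mul_div, ← hconst]
  field_simp


/-! ## the grid -/

/-- radii of the annuli -/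
noncomputable def rad (R : ℝ) (j : ℕ) : ℝ := 4 * R * 2 ^ j

/-- the grid of spacing `ρ e^{-m}/40` around `w0` -/
noncomputable def grid (w0 : ℂ) (ρ : ℝ) (m : ℕ) : Finset ℂ :=
  ((Finset.Icc (-⌈80 * Real.exp m⌉) ⌈80 * Real.exp m⌉) ×ˢ
    (Finset.Icc (-⌈80 * Real.exp m⌉) ⌈80 * Real.exp m⌉)).image
    fun kl : ℤ × ℤ => w0 + ((kl.1 : ℂ) + kl.2 * Complex.I) *
      ((ρ * Real.exp (-(m : ℝ)) / 40 : ℝ) : ℂ)

theorem card_grid (w0 : ℂ) (ρ : ℝ) (m : ℕ) :
    ((grid w0 ρ m).card : ℝ) ≤ 26569 * Real.exp (2 * m) := by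
  have h1 : (grid w0 ρ m).card ≤
      (Finset.Icc (-⌈80 * Real.exp m⌉) ⌈80 * Real.exp m⌉).card *
      (Finset.Icc (-⌈80 * Real.exp m⌉) ⌈80 * Real.exp m⌉).card := by
    rw [← Finset.card_product]
    exact Finset.card_image_le
  have he : 1 ≤ Real.exp (m : ℝ) := Real.one_le_exp (Nat.cast_nonneg m)
  have hc0 : 0 ≤ ⌈80 * Real.exp m⌉ := Int.ceil_nonneg (by positivity)
  have h2 : ((Finset.Icc (-⌈80 * Real.exp m⌉) ⌈80 * Real.exp m⌉).card : ℝ) ≤
      163 * Real.exp m := by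
    rw [Int.card_Icc]
    have h3 : (0 : ℤ) ≤ ⌈80 * Real.exp m⌉ + 1 - -⌈80 * Real.exp m⌉ := by omega
    have h4 : (((⌈80 * Real.exp m⌉ + 1 - -⌈80 * Real.exp m⌉).toNat : ℤ) : ℝ) =
        ((⌈80 * Real.exp m⌉ + 1 - -⌈80 * Real.exp m⌉ : ℤ) : ℝ) := by
      rw [Int.toNat_of_nonneg h3]
    rw [← Int.cast_natCast, h4]
    push_cast
    have h5 := Int.ceil_lt_add_one (80 * Real.exp m)
    linarith
  calc ((grid w0 ρ m).card : ℝ) ≤ ((Finset.Icc (-⌈80 * Real.exp m⌉) ⌈80 * Real.exp m⌉).card : ℝ) *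
      ((Finset.Icc (-⌈80 * Real.exp m⌉) ⌈80 * Real.exp m⌉).card : ℝ) := by exact_mod_cast h1
    _ ≤ (163 * Real.exp m) * (163 * Real.exp m) := by gcongr
    _ = 26569 * Real.exp (2 * m) := by
      rw [two_mul, Real.exp_add]; ring

theorem grid_cover {w0 p : ℂ} {ρ : ℝ} (hρ : 0 < ρ) (m : ℕ) (hp : ‖p - w0‖ ≤ ρ) :
    ∃ p' ∈ grid w0 ρ m, ‖p' - p‖ ≤ ρ * Real.exp (-(m : ℝ)) / 40 := by
  set h : ℝ := ρ * Real.exp (-(m : ℝ)) / 40 with hh
  have hpos : 0 < h := by positivity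
  have hρh : ρ = 40 * Real.exp m * h := by
    rw [hh, Real.exp_neg]; field_simp
  have he : 1 ≤ Real.exp (m : ℝ) := Real.one_le_exp (Nat.cast_nonneg m)
  have key : ∀ x : ℝ, |x| ≤ ρ → round (x / h) ∈
      Finset.Icc (-⌈80 * Real.exp m⌉) ⌈80 * Real.exp m⌉ ∧ |(round (x / h) : ℝ) * h - x| ≤ h / 2 := by
    intro x hx
    have h1 := abs_sub_round (x / h)
    have h2 : |x / h| ≤ 40 * Real.exp m := by
      rw [abs_div, abs_of_pos hpos, div_le_iff₀ hpos]
      rwa [← hρh]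
    have h3 := abs_le.1 h1
    have h4 := abs_le.1 h2
    have h5 := Int.le_ceil (80 * Real.exp m)
    refine ⟨?_, ?_⟩
    · rw [Finset.mem_Icc]
      constructor
      · have : ((-⌈80 * Real.exp m⌉ : ℤ) : ℝ) ≤ (round (x / h) : ℝ) := by
          push_cast; linarith [h3.1, h3.2, h4.1]
        exact_mod_cast this
      · have : (round (x / h) : ℝ) ≤ ((⌈80 * Real.exp m⌉ : ℤ) : ℝ) := by
          linarith [h3.1, h3.2, h4.2]
        exact_mod_cast this
    · have e : (round (x / h) : ℝ) * h - x = -((x / h - round (x / h)) * h) := by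
        field_simp; ring
      rw [e, abs_neg, abs_mul, abs_of_pos hpos]
      calc |x / h - (round (x / h) : ℝ)| * h ≤ 1 / 2 * h := by gcongr
        _ = h / 2 := by ring
  have hre := key (p - w0).re ((Complex.abs_re_le_norm _).trans hp)
  have him := key (p - w0).im ((Complex.abs_im_le_norm _).trans hp)
  refine ⟨w0 + (((round ((p - w0).re / h) : ℤ) : ℂ) + ((round ((p - w0).im / h) : ℤ) : ℂ) *
    Complex.I) * ((h : ℝ) : ℂ), ?_, ?_⟩
  · rw [grid, Finset.mem_image]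
    exact ⟨(round ((p - w0).re / h), round ((p - w0).im / h)),
      Finset.mem_product.2 ⟨hre.1, him.1⟩, rfl⟩
  · refine (Complex.norm_le_abs_re_add_abs_im _).trans ?_
    have e1 : (w0 + (((round ((p - w0).re / h) : ℤ) : ℂ) + ((round ((p - w0).im / h) : ℤ) : ℂ) *
        Complex.I) * ((h : ℝ) : ℂ) - p).re = (round ((p - w0).re / h) : ℝ) * h - (p - w0).re := by
      simp; ring
    have e2 : (w0 + (((round ((p - w0).re / h) : ℤ) : ℂ) + ((round ((p - w0).im / h) : ℤ) : ℂ) *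
        Complex.I) * ((h : ℝ) : ℂ) - p).im = (round ((p - w0).im / h) : ℝ) * h - (p - w0).im := by
      simp; ring
    rw [e1, e2]
    linarith [hre.2, him.2]

/-! ## the one-point estimate -/

open Classical in
/-- reference height of the annulus -/
noncomputable def amp (W : ℝ → ℝ) (w0 : ℂ) (K ρ s : ℝ) : ℝ :=
  if s = 0 ∧ w0.im ≤ K * ρ then ρ else (gfl W s w0).im

theorem amp_pos {w0 : ℂ} {K ρ s : ℝ} (hρ : 0 < ρ) (h : Alive W w0 s) : 0 < amp W w0 K ρ s := by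
  unfold amp
  split_ifs
  · exact hρ
  · exact gfl_im_pos h

theorem key_interval {K ρ M σ : ℝ} {w0 : ℂ} {m : ℕ} (hW : ContinuousOn W (Ici 0)) (hK : 4 ≤ K)
    (hρ : 0 < ρ) (hw0 : Alive W w0 σ) (hs0 : 0 ≤ s) (hs1 : s ≤ σ)
    (hs : (s = 0 ∧ w0.im ≤ K * ρ) ∨ K * ρ ≤ ups W s w0)
    (hgrid : ∀ p ∈ grid w0 ρ m, Alive W p σ → 1 / 3 ≤ sfl W σ p → ath W σ p - ath W s p ≤ M)
    {y : ℝ} (hy : 0 < y) (hp : ‖ffl W σ (y * Complex.I) - w0‖ ≤ ρ)
    (hu : ρ * Real.exp (-(m : ℝ)) ≤ y * ‖deriv (ffl W σ) (y * Complex.I)‖) :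
    amp W w0 K ρ s * (Real.exp (-(m + 2 * M)) / 27) ≤ y ∧ y ≤ amp W w0 K ρ s * (K + 1) := by
  have hyI : 0 < ((y : ℂ) * Complex.I).im := by simpa using hy
  have hσ := hw0.1
  set p := ffl W σ (y * Complex.I) with hpd
  have hpa : Alive W p σ := FLC.ffl_alive hW hσ hyI
  have hZp : Zfl W σ p = y * Complex.I := FLC.Zfl_ffl hW hσ hyI
  have hup : ups W σ p = y * ‖deriv (ffl W σ) (y * Complex.I)‖ := by
    rw [hpd, ups_ffl hW hσ hyI]; simp
  rw [← hup] at hu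
  have hyim : (gfl W σ p).im = y := by rw [← Zfl_im, hZp]; simp
  have hups : 0 < ups W σ p := ups_pos hpa
  obtain ⟨p', hp'g, hp'⟩ := grid_cover hρ m hp
  have hp'2 : ‖p' - p‖ ≤ ups W σ p / 10 := by linarith
  have hbσ := ball_subset_Dom hW hpa
  have hbs : ball p (ups W σ p / 2) ⊆ Dom W s := hbσ.trans (Dom_anti hs0 hs1)
  have hp'b : p' ∈ ball p (ups W σ p / 2) := by rw [mem_ball, dist_eq_norm]; linarith
  have hp'a : Alive W p' σ := hbσ hp'b
  have hS := sfl_ge hW hpa hy hZp hp'2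
  have hath := hgrid p' hp'g hp'a hS
  have hH1 := harnack (z' := p') hW hσ (by linarith) hbσ (by linarith)
  have hH2 := harnack (z' := p') hW hs0 (by linarith) hbs (by linarith)
  rw [hyim] at hH1
  have hsub := ath_sub hW hp'a hs0 hs1
  have hexp : Real.exp (2 * (ath W σ p' - ath W s p')) ≤ Real.exp (2 * M) :=
    Real.exp_le_exp.2 (by linarith)
  have hg' : 0 < (gfl W σ p').im := gfl_im_pos hp'a
  -- lower bound by the height at time `s`
  have hlow : (gfl W s p).im * (Real.exp (-(2 * M)) / 9) ≤ y := by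
    have h1 : (gfl W s p').im ≤ Real.exp (2 * M) * (3 * y) := by
      rw [← hsub]
      calc Real.exp (2 * (ath W σ p' - ath W s p')) * (gfl W σ p').im
          ≤ Real.exp (2 * M) * (gfl W σ p').im := by gcongr
        _ ≤ Real.exp (2 * M) * (3 * y) := by gcongr; exact hH1.1
    have h2 : (gfl W s p).im ≤ 9 * Real.exp (2 * M) * y := by linarith [hH2.2]
    rw [Real.exp_neg]
    have h3 : 0 < Real.exp (2 * M) := Real.exp_pos _
    calc (gfl W s p).im * ((Real.exp (2 * M))⁻¹ / 9)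
        ≤ (9 * Real.exp (2 * M) * y) * ((Real.exp (2 * M))⁻¹ / 9) := by gcongr
      _ = y := by field_simp
  have hup2 : y ≤ (gfl W s p).im := by
    have := im_anti hpa hs0 hs1
    rwa [hyim] at this
  have hm0 : Real.exp (-(m + 2 * M)) ≤ Real.exp (-(2 * M)) :=
    Real.exp_le_exp.2 (by have : (0:ℝ) ≤ m := Nat.cast_nonneg m; linarith)
  by_cases hc : s = 0 ∧ w0.im ≤ K * ρ
  · have hA : amp W w0 K ρ s = ρ := if_pos hc
    rw [hA]
    obtain ⟨hc1, hc2⟩ := hc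
    subst hc1
    rw [gfl_zero' hpa] at hlow hup2
    have h1 : ups W σ p / 2 ≤ p.im := ups_le_two_im hW hpa
    constructor
    · have h2 : ρ * Real.exp (-(m : ℝ)) / 2 ≤ p.im := by linarith
      have e : Real.exp (-(m + 2 * M)) = Real.exp (-(m : ℝ)) * Real.exp (-(2 * M)) := by
        rw [← Real.exp_add]; ring_nf
      rw [e]
      refine le_trans ?_ hlow
      have h3 : 0 < Real.exp (-(2 * M)) := Real.exp_pos _
      have h4 : 0 < ρ * Real.exp (-(m : ℝ)) := by positivity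
      calc ρ * (Real.exp (-(m : ℝ)) * Real.exp (-(2 * M)) / 27)
          = (ρ * Real.exp (-(m : ℝ)) / 27) * Real.exp (-(2 * M)) := by ring
        _ ≤ (p.im / 9) * Real.exp (-(2 * M)) :=
          mul_le_mul_of_nonneg_right (by linarith) h3.le
        _ = p.im * (Real.exp (-(2 * M)) / 9) := by ring
    · have h2 : (p - w0).im ≤ ρ := (le_abs_self _).trans ((Complex.abs_im_le_norm _).trans hp)
      rw [Complex.sub_im] at h2
      nlinarith
  · have hA : amp W w0 K ρ s = (gfl W s w0).im := if_neg hc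
    rw [hA]
    have hs' : K * ρ ≤ ups W s w0 := hs.resolve_left hc
    have hw0s : Alive W w0 s := hw0.mono hs0 hs1
    have hb : ball w0 (2 * ρ) ⊆ Dom W s := by
      refine Subset.trans (ball_subset_ball ?_) (ball_subset_Dom hW hw0s)
      nlinarith
    have hH3 := harnack (z' := p) hW hs0 (by linarith) hb (by linarith)
    have hY : 0 < (gfl W s w0).im := gfl_im_pos hw0s
    constructor
    · refine le_trans ?_ hlow
      calc (gfl W s w0).im * (Real.exp (-(m + 2 * M)) / 27)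
          ≤ (3 * (gfl W s p).im) * (Real.exp (-(2 * M)) / 27) :=
            mul_le_mul hH3.2 (by linarith) (by positivity) (by linarith [hH3.2])
        _ = (gfl W s p).im * (Real.exp (-(2 * M)) / 9) := by ring
    · calc y ≤ (gfl W s p).im := hup2
        _ ≤ 3 * (gfl W s w0).im := hH3.1
        _ ≤ (gfl W s w0).im * (K + 1) := by nlinarith


/-! ## the covering lemma -/

theorem lintegral_inv_Icc {a b B : ℝ} (ha : 0 < a) (hab : a ≤ b) (hB : 0 ≤ B) :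
    ∫⁻ y in Icc a b, ENNReal.ofReal (B / y) = ENNReal.ofReal (B * Real.log (b / a)) := by
  have hb : 0 < b := ha.trans_le hab
  have hcont : ContinuousOn (fun y : ℝ => B / y) (Icc a b) :=
    continuousOn_const.div continuousOn_id fun y hy => (ha.trans_le hy.1).ne'
  have hint : IntegrableOn (fun y : ℝ => B / y) (Icc a b) := hcont.integrableOn_Icc
  rw [← ofReal_integral_eq_lintegral_ofReal hint]
  · congr 1
    rw [integral_Icc_eq_integral_Ioc, ← intervalIntegral.integral_of_le hab]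
    have e : ∀ y : ℝ, B / y = B * (1 / y) := fun y => by ring
    simp_rw [e]
    rw [intervalIntegral.integral_const_mul, integral_one_div_of_pos ha hb]
  · rw [Filter.EventuallyLE, ae_restrict_iff' measurableSet_Icc]
    exact Filter.Eventually.of_forall fun y hy => div_nonneg hB (ha.le.trans hy.1)

theorem lintegral_cover {F : ℝ → ℝ≥0∞} {A : ℕ → ℝ} (hA : ∀ j, 0 < A j) {c : ℝ} (hc : 1 ≤ c)
    {B L : ℕ → ℕ → ℝ} (hB : ∀ j k, 0 ≤ B j k) (hL : ∀ j k, 0 ≤ L j k)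
    (h : ∀ y, 0 < y → ∃ j k, y ∈ Icc (A j * Real.exp (-L j k)) (A j * c) ∧
      F y ≤ ENNReal.ofReal (B j k / y)) :
    ∫⁻ y in Ioi 0, F y ≤ ∑' (j : ℕ), ∑' (k : ℕ), ENNReal.ofReal (B j k * (Real.log c + L j k)) := by
  set I : ℕ → ℕ → Set ℝ := fun j k => Icc (A j * Real.exp (-L j k)) (A j * c) with hI
  set G : ℕ → ℕ → ℝ → ℝ≥0∞ := fun j k => (I j k).indicator fun y => ENNReal.ofReal (B j k / y)
    with hG
  have hGm : ∀ j k, Measurable (G j k) := fun j k =>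
    (Measurable.ennreal_ofReal (measurable_const.div measurable_id)).indicator measurableSet_Icc
  have h1 : ∫⁻ y in Ioi 0, F y ≤ ∫⁻ y in Ioi 0, ∑' (j : ℕ), ∑' (k : ℕ), G j k y := by
    refine setLIntegral_mono' measurableSet_Ioi fun y hy => ?_
    obtain ⟨j, k, hyI, hF⟩ := h y hy
    refine hF.trans ?_
    have h2 : ENNReal.ofReal (B j k / y) = G j k y := by
      simp only [hG]
      rw [indicator_of_mem hyI]
    rw [h2]
    exact (ENNReal.le_tsum (f := fun k => G j k y) k).trans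
      (ENNReal.le_tsum (f := fun j => ∑' k, G j k y) j)
  refine h1.trans ((setLIntegral_le_lintegral _ _).trans ?_)
  rw [lintegral_tsum fun j => (Measurable.tsum fun k => hGm j k).aemeasurable]
  refine ENNReal.tsum_le_tsum fun j => ?_
  rw [lintegral_tsum fun k => (hGm j k).aemeasurable]
  refine ENNReal.tsum_le_tsum fun k => ?_
  simp only [hG]
  rw [lintegral_indicator measurableSet_Icc]
  have he : Real.exp (-L j k) ≤ 1 := Real.exp_le_one_iff.2 (by linarith [hL j k])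
  have hle : A j * Real.exp (-L j k) ≤ A j * c :=
    mul_le_mul_of_nonneg_left (he.trans hc) (hA j).le
  rw [lintegral_inv_Icc (mul_pos (hA j) (Real.exp_pos _)) hle (hB j k)]
  refine le_of_eq ?_
  congr 2
  have hAj := hA j
  rw [mul_div_mul_left _ _ hAj.ne', Real.log_div (by positivity) (Real.exp_pos _).ne', Real.log_exp]
  ring

theorem summable_aux {r : ℝ} (h0 : 0 ≤ r) (h1 : r < 1) :
    Summable fun n : ℕ => (1 + (n : ℝ)) * r ^ n := by
  have hr : ‖r‖ < 1 := by rwa [Real.norm_of_nonneg h0]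
  have h2 := summable_pow_mul_geometric_of_norm_lt_one 1 hr
  have h3 := summable_geometric_of_norm_lt_one hr
  refine (h3.add h2).congr fun n => ?_
  rw [pow_one]; ring

theorem tsum_bound {r1 r2 X : ℝ} (h10 : 0 ≤ r1) (h11 : r1 < 1) (h20 : 0 ≤ r2) (h21 : r2 < 1)
    (hX : 0 ≤ X) {T : ℕ → ℕ → ℝ}
    (hT : ∀ j k, T j k ≤ X * (((1 + (j : ℝ)) * r1 ^ j) * ((1 + (k : ℝ)) * r2 ^ k))) :
    ∑' (j : ℕ), ∑' (k : ℕ), ENNReal.ofReal (T j k) ≤
      ENNReal.ofReal (X * ((∑' j : ℕ, (1 + (j : ℝ)) * r1 ^ j) * ∑' k : ℕ, (1 + (k : ℝ)) * r2 ^ k)) := by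
  have ha : ∀ j : ℕ, 0 ≤ (1 + (j : ℝ)) * r1 ^ j := fun j => by positivity
  have hb : ∀ j : ℕ, 0 ≤ (1 + (j : ℝ)) * r2 ^ j := fun j => by positivity
  calc ∑' (j : ℕ), ∑' (k : ℕ), ENNReal.ofReal (T j k)
      ≤ ∑' (j : ℕ), ∑' (k : ℕ), ENNReal.ofReal X * (ENNReal.ofReal ((1 + (j : ℝ)) * r1 ^ j) *
          ENNReal.ofReal ((1 + (k : ℝ)) * r2 ^ k)) := by
        refine ENNReal.tsum_le_tsum fun j => ENNReal.tsum_le_tsum fun k => ?_
        rw [← ENNReal.ofReal_mul (ha j), ← ENNReal.ofReal_mul hX]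
        exact ENNReal.ofReal_le_ofReal (hT j k)
    _ = ENNReal.ofReal X * ((∑' (j : ℕ), ENNReal.ofReal ((1 + (j : ℝ)) * r1 ^ j)) *
          ∑' (k : ℕ), ENNReal.ofReal ((1 + (k : ℝ)) * r2 ^ k)) := by
        simp_rw [ENNReal.tsum_mul_left, ENNReal.tsum_mul_right]
    _ = ENNReal.ofReal (X * ((∑' j : ℕ, (1 + (j : ℝ)) * r1 ^ j) *
          ∑' k : ℕ, (1 + (k : ℝ)) * r2 ^ k)) := by
        rw [ENNReal.ofReal_mul hX, ENNReal.ofReal_mul (tsum_nonneg ha),
          ENNReal.ofReal_tsum_of_nonneg ha (summable_aux h10 h11),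
          ENNReal.ofReal_tsum_of_nonneg hb (summable_aux h20 h21)]


theorem psi_bound {q η u U x D : ℝ} (hq : 0 < q) (hη : 0 < η) {j : ℕ} (hu : 0 < u)
    (hD : (2 : ℝ) ^ j ≤ D) (hU : D ≤ U) (hx : 0 < x)
    (hux : u ≤ 4 * Real.exp 1 * x * max u U) :
    u ^ q * (max u U) ^ (-q - η) ≤ (4 * Real.exp 1) ^ q * (x ^ q * ((2 : ℝ) ^ j) ^ (-η)) := by
  have h2 : (0 : ℝ) < 2 ^ j := by positivity
  set M := max u U with hM
  have hM0 : 0 < M := lt_of_lt_of_le hu (le_max_left _ _)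
  have hDM : (2 : ℝ) ^ j ≤ M := (hD.trans hU).trans (le_max_right _ _)
  have e1 : M ^ (-q - η) = (M ^ q)⁻¹ * M ^ (-η) := by
    rw [sub_eq_add_neg, Real.rpow_add hM0, Real.rpow_neg hM0.le]
  have h3 : u ^ q ≤ (4 * Real.exp 1 * x * M) ^ q := Real.rpow_le_rpow hu.le hux hq.le
  have h4 : (4 * Real.exp 1 * x * M) ^ q = (4 * Real.exp 1) ^ q * x ^ q * M ^ q := by
    rw [Real.mul_rpow (by positivity) hM0.le, Real.mul_rpow (by positivity) hx.le]
  have h5 : M ^ (-η) ≤ ((2 : ℝ) ^ j) ^ (-η) :=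
    Real.rpow_le_rpow_of_nonpos h2 hDM (by linarith)
  have hMq : 0 < M ^ q := Real.rpow_pos_of_pos hM0 q
  rw [e1]
  calc u ^ q * ((M ^ q)⁻¹ * M ^ (-η))
      ≤ ((4 * Real.exp 1) ^ q * x ^ q * M ^ q) * ((M ^ q)⁻¹ * ((2 : ℝ) ^ j) ^ (-η)) := by
        rw [← h4]
        gcongr
    _ = (4 * Real.exp 1) ^ q * (x ^ q * ((2 : ℝ) ^ j) ^ (-η)) := by
        field_simp

theorem exp_four : (27 : ℝ) ≤ Real.exp 4 := by
  have h1 : (2.7 : ℝ) ≤ Real.exp 1 := by linarith [Real.exp_one_gt_d9]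
  have h2 : Real.exp 4 = Real.exp 1 ^ 4 := by
    rw [← Real.exp_nat_mul]; norm_num
  rw [h2]
  calc (27 : ℝ) ≤ 2.7 ^ 4 := by norm_num
    _ ≤ Real.exp 1 ^ 4 := by gcongr

theorem rad_pos {R : ℝ} (hR : 1 ≤ R) (j : ℕ) : 0 < rad R j := by
  unfold rad; positivity

theorem pointwise {q η CA K : ℝ} (hq : 0 < q) (hη : 0 < η) (hCA : 0 ≤ CA) (hK : 4 ≤ K)
    {w0 : ℂ} {R N σ : ℝ} {s : ℕ → ℝ} {u0 : ℂ → ℝ} (hW : ContinuousOn W (Ici 0)) (hR : 1 ≤ R)
    (hN : 1 ≤ N) (hRN : Real.log R ≤ N) (hw0 : Alive W w0 σ)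
    (hu0 : ∀ p, max 1 (‖p - w0‖ - R) ≤ u0 p)
    (hs : ∀ j, 0 ≤ s j ∧ s j ≤ σ ∧
      ((s j = 0 ∧ w0.im ≤ K * rad R j) ∨ K * rad R j ≤ ups W (s j) w0))
    (hgrid : ∀ j m : ℕ, ∀ p ∈ grid w0 (rad R j) m, Alive W p σ → 1 / 3 ≤ sfl W σ p →
        ath W σ p - ath W (s j) p ≤ CA * (N + j + m))
    {y : ℝ} (hy : 0 < y) :
    ∃ j k : ℕ, y ∈ Icc (amp W w0 K (rad R j) (s j) *
        Real.exp (-((6 + 6 * CA) * N * ((1 + j) * (1 + k))))) (amp W w0 K (rad R j) (s j) * (K + 1)) ∧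
      (y * ‖deriv (ffl W σ) (y * Complex.I)‖) ^ q *
        (max (y * ‖deriv (ffl W σ) (y * Complex.I)‖) (u0 (ffl W σ (y * Complex.I)))) ^ (-q - η) ≤
      (4 * Real.exp 1) ^ q * ((Real.exp (-q)) ^ k * ((2 : ℝ) ^ (-η)) ^ j) := by
  have hyI : 0 < ((y : ℂ) * Complex.I).im := by simpa using hy
  have hσ := hw0.1
  set p := ffl W σ (y * Complex.I) with hpd
  set u := y * ‖deriv (ffl W σ) (y * Complex.I)‖ with hu
  have hu0' : 0 < u := mul_pos hy (norm_pos_iff.2 (FLC.deriv_ffl_ne hW hσ hyI))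
  -- the annulus
  have hexj : ∃ j : ℕ, ‖p - w0‖ ≤ rad R j := by
    obtain ⟨n, hn⟩ := pow_unbounded_of_one_lt ‖p - w0‖ (one_lt_two)
    refine ⟨n, hn.le.trans ?_⟩
    unfold rad
    have : (0 : ℝ) < 2 ^ n := by positivity
    nlinarith
  classical
  obtain ⟨j, hj, hjmin⟩ : ∃ j : ℕ, ‖p - w0‖ ≤ rad R j ∧ ∀ i < j, ¬ ‖p - w0‖ ≤ rad R i :=
    ⟨Nat.find hexj, Nat.find_spec hexj, fun i hi => Nat.find_min hexj hi⟩
  set ρ := rad R j with hρd
  have hρ : 0 < ρ := rad_pos hR j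
  obtain ⟨m1, D, hm1, hD1, hD2, hD3⟩ : ∃ (m1 : ℕ) (D : ℝ), (m1 : ℝ) ≤ 2 * N ∧
      ρ * Real.exp (-(m1 : ℝ)) ≤ 4 * D ∧ (2 : ℝ) ^ j ≤ D ∧ D ≤ u0 p := by
    have hlog : 0 ≤ Real.log R := Real.log_nonneg hR
    rcases Nat.eq_zero_or_pos j with h0 | h0
    · refine ⟨⌈Real.log R⌉₊, 1, ?_, ?_, ?_, ?_⟩
      · have := Nat.ceil_lt_add_one hlog
        linarith
      · have h1 : R ≤ Real.exp (⌈Real.log R⌉₊ : ℝ) := by
          calc R = Real.exp (Real.log R) := (Real.exp_log (by linarith)).symm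
            _ ≤ _ := Real.exp_le_exp.2 (Nat.le_ceil _)
        have h2 : R * Real.exp (-(⌈Real.log R⌉₊ : ℝ)) ≤ 1 := by
          rw [Real.exp_neg, ← div_eq_mul_inv, div_le_one (Real.exp_pos _)]
          exact h1
        rw [hρd, h0]
        unfold rad
        rw [pow_zero]
        linarith
      · rw [h0, pow_zero]
      · exact (le_max_left _ _).trans (hu0 p)
    · refine ⟨0, R * 2 ^ j, by simp; linarith, ?_, ?_, ?_⟩
      · simp [hρd, rad, mul_assoc]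
      · have : (0 : ℝ) < 2 ^ j := by positivity
        nlinarith
      · have h1 := hjmin (j - 1) (by omega)
        rw [not_le] at h1
        have h2 : (2 : ℝ) ^ j = 2 * 2 ^ (j - 1) := by
          rw [← pow_succ']; congr 1; omega
        have h3 : (1 : ℝ) ≤ 2 ^ (j - 1) := one_le_pow₀ one_le_two
        refine le_trans ?_ ((le_max_right _ _).trans (hu0 p))
        unfold rad at h1
        rw [h2]
        nlinarith
  -- the size class
  have hexk : ∃ k : ℕ, ρ * Real.exp (-((m1 : ℝ) + k)) ≤ u := by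
    obtain ⟨k, hk⟩ := exists_nat_gt (Real.log (ρ / u))
    refine ⟨k, ?_⟩
    have h1 : ρ / u ≤ Real.exp k := by
      rw [← Real.log_le_iff_le_exp (by positivity)]
      exact hk.le
    have h2 : Real.exp (-((m1 : ℝ) + k)) ≤ Real.exp (-(k : ℝ)) :=
      Real.exp_le_exp.2 (by have : (0 : ℝ) ≤ m1 := Nat.cast_nonneg _; linarith)
    have h3 : 0 < Real.exp (k : ℝ) := Real.exp_pos _
    rw [div_le_iff₀ hu0'] at h1
    calc ρ * Real.exp (-((m1 : ℝ) + k)) ≤ (Real.exp k * u) * Real.exp (-(k : ℝ)) := by gcongr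
      _ = u := by rw [Real.exp_neg]; field_simp
  obtain ⟨k, hk, hkmin⟩ : ∃ k : ℕ, ρ * Real.exp (-((m1 : ℝ) + k)) ≤ u ∧
      ∀ i < k, ¬ ρ * Real.exp (-((m1 : ℝ) + i)) ≤ u :=
    ⟨Nat.find hexk, Nat.find_spec hexk, fun i hi => Nat.find_min hexk hi⟩
  have hmax0 : 0 < max u (u0 p) := lt_of_lt_of_le hu0' (le_max_left _ _)
  have he1 : (1 : ℝ) ≤ Real.exp 1 := Real.one_le_exp zero_le_one
  have hux : u ≤ 4 * Real.exp 1 * Real.exp (-(k : ℝ)) * max u (u0 p) := by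
    rcases Nat.eq_zero_or_pos k with h0 | h0
    · rw [h0]
      simp only [Nat.cast_zero, neg_zero, Real.exp_zero, mul_one]
      calc u ≤ max u (u0 p) := le_max_left _ _
        _ ≤ 4 * Real.exp 1 * max u (u0 p) := by nlinarith
    · obtain ⟨k', rfl⟩ : ∃ k', k = k' + 1 := ⟨k - 1, by omega⟩
      have h1 := hkmin k' (by omega)
      rw [not_le] at h1
      have e1 : Real.exp (-((m1 : ℝ) + k')) = Real.exp (-(m1 : ℝ)) *
          (Real.exp 1 * Real.exp (-((k' + 1 : ℕ) : ℝ))) := by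
        rw [← Real.exp_add, ← Real.exp_add]
        congr 1
        push_cast; ring
      rw [e1, ← mul_assoc] at h1
      have h2 : 0 < Real.exp 1 * Real.exp (-((k' + 1 : ℕ) : ℝ)) := by positivity
      calc u ≤ ρ * Real.exp (-(m1 : ℝ)) * (Real.exp 1 * Real.exp (-((k' + 1 : ℕ) : ℝ))) := h1.le
        _ ≤ (4 * D) * (Real.exp 1 * Real.exp (-((k' + 1 : ℕ) : ℝ))) := by gcongr
        _ ≤ (4 * max u (u0 p)) * (Real.exp 1 * Real.exp (-((k' + 1 : ℕ) : ℝ))) := by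
            gcongr
            exact hD3.trans (le_max_right _ _)
        _ = _ := by ring
  refine ⟨j, k, ?_, ?_⟩
  · obtain ⟨hs0, hs1, hs2⟩ := hs j
    have hj0 : (0 : ℝ) ≤ j := Nat.cast_nonneg j
    have hk0 : (0 : ℝ) ≤ k := Nat.cast_nonneg k
    have hm0 : (0 : ℝ) ≤ m1 := Nat.cast_nonneg m1
    have h1 := key_interval (m := m1 + k) (M := CA * (N + j + (m1 + k : ℕ))) hW hK hρ hw0
      hs0 hs1 hs2 (fun p' hp' ha hS => hgrid j (m1 + k) p' hp' ha hS) hy hj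
      (by push_cast; exact hk)
    refine ⟨le_trans ?_ h1.1, h1.2⟩
    have hA := amp_pos (K := K) hρ (hw0.mono hs0 hs1)
    refine mul_le_mul_of_nonneg_left ?_ hA.le
    have h27 : Real.exp (-4) ≤ 1 / 27 := by
      rw [Real.exp_neg, ← one_div]
      exact one_div_le_one_div_of_le (by norm_num) exp_four
    have hP : 1 + (j : ℝ) + k ≤ (1 + j) * (1 + k) := by nlinarith
    have hNP : N + j + k ≤ N * ((1 + j) * (1 + k)) := by nlinarith
    have hcA : 0 ≤ CA * (N * ((1 + j) * (1 + k)) - (N + j + k)) :=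
      mul_nonneg hCA (by linarith)
    have hcA2 : CA * (N + j + ((m1 : ℝ) + k)) ≤ 3 * CA * N * ((1 + j) * (1 + k)) := by
      have h5 : N + j + ((m1 : ℝ) + k) ≤ 3 * (N * ((1 + j) * (1 + k))) := by nlinarith
      calc CA * (N + j + ((m1 : ℝ) + k)) ≤ CA * (3 * (N * ((1 + j) * (1 + k)))) := by gcongr
        _ = _ := by ring
    have h6 : ((m1 : ℝ) + k) ≤ 2 * (N * ((1 + j) * (1 + k))) := by nlinarith
    have h7 : 1 ≤ N * ((1 + (j : ℝ)) * (1 + k)) := by nlinarith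
    calc Real.exp (-((6 + 6 * CA) * N * ((1 + j) * (1 + k))))
        ≤ Real.exp (-(((m1 + k : ℕ) : ℝ) + 2 * (CA * (N + j + (m1 + k : ℕ)))) + (-4)) := by
          apply Real.exp_le_exp.2
          push_cast
          nlinarith
      _ = Real.exp (-(((m1 + k : ℕ) : ℝ) + 2 * (CA * (N + j + (m1 + k : ℕ))))) * Real.exp (-4) :=
          Real.exp_add _ _
      _ ≤ Real.exp (-(((m1 + k : ℕ) : ℝ) + 2 * (CA * (N + j + (m1 + k : ℕ))))) * (1 / 27) := by
          gcongr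
      _ = _ := by ring
  · have h1 := psi_bound (x := Real.exp (-(k : ℝ))) hq hη hu0' hD2 hD3 (Real.exp_pos _) hux
    refine h1.trans (le_of_eq ?_)
    congr 2
    · rw [← Real.exp_mul, ← Real.exp_nat_mul]
      congr 1; ring
    · rw [← Real.rpow_natCast, ← Real.rpow_natCast, ← Real.rpow_mul (by norm_num),
        ← Real.rpow_mul (by norm_num)]
      congr 1; ring

/-- **LB7a** without the (unneeded) bound on `ups W σ w0`. -/
theorem lb7a' {q η CA K : ℝ} (hq : 0 < q) (hη : 0 < η) (hCA : 0 ≤ CA) (hK : 4 ≤ K) :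
    ∃ C' > 0, ∀ (W : ℝ → ℝ) (w0 : ℂ) (R N σ : ℝ) (s : ℕ → ℝ) (u0 : ℂ → ℝ),
      ContinuousOn W (Ici 0) → 1 ≤ R → 1 ≤ N → Real.log R ≤ N → Alive W w0 σ →
      (∀ p, max 1 (‖p - w0‖ - R) ≤ u0 p) →
      (∀ j, 0 ≤ s j ∧ s j ≤ σ ∧
        ((s j = 0 ∧ w0.im ≤ K * rad R j) ∨ K * rad R j ≤ ups W (s j) w0)) →
      (∀ j m : ℕ, ∀ p ∈ grid w0 (rad R j) m, Alive W p σ → 1 / 3 ≤ sfl W σ p →
        ath W σ p - ath W (s j) p ≤ CA * (N + j + m)) →
      ∫⁻ (y : ℝ) in Ioi 0, ENNReal.ofReal ((y * ‖deriv (ffl W σ) (y * Complex.I)‖) ^ q *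
        (max (y * ‖deriv (ffl W σ) (y * Complex.I)‖) (u0 (ffl W σ (y * Complex.I)))) ^ (-q - η) / y)
        ≤ ENNReal.ofReal (C' * N) := by
  set r1 : ℝ := (2 : ℝ) ^ (-η) with hr1
  set r2 : ℝ := Real.exp (-q) with hr2
  have h10 : 0 ≤ r1 := by positivity
  have h11 : r1 < 1 := Real.rpow_lt_one_of_one_lt_of_neg one_lt_two (by linarith)
  have h20 : 0 ≤ r2 := (Real.exp_pos _).le
  have h21 : r2 < 1 := by
    calc r2 < Real.exp 0 := Real.exp_lt_exp.2 (by linarith)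
      _ = 1 := Real.exp_zero
  set S1 := ∑' j : ℕ, (1 + (j : ℝ)) * r1 ^ j with hS1
  set S2 := ∑' k : ℕ, (1 + (k : ℝ)) * r2 ^ k with hS2
  have hS10 : 0 ≤ S1 := tsum_nonneg fun j => by positivity
  have hS20 : 0 ≤ S2 := tsum_nonneg fun j => by positivity
  set C1 : ℝ := (4 * Real.exp 1) ^ q with hC1
  have hC10 : 0 < C1 := by positivity
  have hlogK : 0 ≤ Real.log (K + 1) := Real.log_nonneg (by linarith)
  set C2 : ℝ := Real.log (K + 1) + (6 + 6 * CA) with hC2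
  have hC20 : 0 < C2 := by positivity
  refine ⟨C1 * C2 * (S1 * S2) + 1, by positivity, ?_⟩
  intro W w0 R N σ s u0 hW hR hN hRN hw0 hu0 hs hgrid
  have hcov := lintegral_cover
    (F := fun y => ENNReal.ofReal ((y * ‖deriv (ffl W σ) (y * Complex.I)‖) ^ q *
        (max (y * ‖deriv (ffl W σ) (y * Complex.I)‖)
          (u0 (ffl W σ (y * Complex.I)))) ^ (-q - η) / y))
    (A := fun j => amp W w0 K (rad R j) (s j))
    (fun j => amp_pos (rad_pos hR j) (hw0.mono (hs j).1 (hs j).2.1))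
    (c := K + 1) (by linarith)
    (B := fun j k => C1 * (r2 ^ k * r1 ^ j))
    (L := fun j k => (6 + 6 * CA) * N * ((1 + j) * (1 + k)))
    (fun j k => by positivity) (fun j k => by positivity) (by
      intro y hy
      obtain ⟨j, k, hmem, hle⟩ := pointwise hq hη hCA hK hW hR hN hRN hw0 hu0 hs hgrid hy
      refine ⟨j, k, hmem, ENNReal.ofReal_le_ofReal ?_⟩
      exact div_le_div_of_nonneg_right hle hy.le)
  refine hcov.trans ((tsum_bound (X := C1 * C2 * N) h10 h11 h20 h21 (by positivity) ?_).trans ?_)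
  · intro j k
    have hj0 : (0 : ℝ) ≤ j := Nat.cast_nonneg j
    have hk0 : (0 : ℝ) ≤ k := Nat.cast_nonneg k
    have h6 : 1 ≤ (1 + (j : ℝ)) * (1 + k) := by nlinarith [mul_nonneg hj0 hk0]
    have h7 : 1 ≤ N * ((1 + (j : ℝ)) * (1 + k)) := one_le_mul_of_one_le_of_one_le hN h6
    have h8 : Real.log (K + 1) + (6 + 6 * CA) * N * ((1 + j) * (1 + k)) ≤
        C2 * (N * ((1 + (j : ℝ)) * (1 + k))) := by
      rw [hC2]; nlinarith
    calc C1 * (r2 ^ k * r1 ^ j) * (Real.log (K + 1) + (6 + 6 * CA) * N * ((1 + j) * (1 + k)))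
        ≤ C1 * (r2 ^ k * r1 ^ j) * (C2 * (N * ((1 + (j : ℝ)) * (1 + k)))) := by gcongr
      _ = _ := by ring
  · refine ENNReal.ofReal_le_ofReal ?_
    have e : C1 * C2 * N * (S1 * S2) = C1 * C2 * (S1 * S2) * N := by ring
    rw [e]
    nlinarith


end Crest.Agent.R162.LB7a
end

-- ▼ part R162/LB7aL
section

/-!
Row 162 (S0243), node LB7a in the notation of `LBDefs`: `Λ(f_σ) ≤ C' N`.
-/

set_option autoImplicit false

open Set MeasureTheory

namespace Crest.Agent.R162.LB7a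

open Crest.Agent.R162.FL Crest.Agent.R162.OP

theorem Lam_eq (u0 : ℂ → ℝ) (q η : ℝ) (f : ℂ → ℂ) :
    LB.Lam u0 q η f = ∫⁻ (y : ℝ) in Ioi 0, ENNReal.ofReal
      ((y * ‖deriv f (y * Complex.I)‖) ^ q *
        (max (y * ‖deriv f (y * Complex.I)‖) (u0 (f (y * Complex.I)))) ^ (-q - η) / y) := by
  simp only [LB.Lam, LB.Psi, LB.mm, KB1.ups]
  refine setLIntegral_congr_fun measurableSet_Ioi fun y _ => ?_
  simp

/-- **LB7a** for `LB.Lam` -/
theorem lam_le {q η CA K : ℝ} (hq : 0 < q) (hη : 0 < η) (hCA : 0 ≤ CA) (hK : 4 ≤ K) :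
    ∃ C' > 0, ∀ (W : ℝ → ℝ) (w0 : ℂ) (R N σ : ℝ) (s : ℕ → ℝ) (u0 : ℂ → ℝ),
      ContinuousOn W (Ici 0) → 1 ≤ R → 1 ≤ N → Real.log R ≤ N → Alive W w0 σ →
      (∀ p, max 1 (‖p - w0‖ - R) ≤ u0 p) →
      (∀ j, 0 ≤ s j ∧ s j ≤ σ ∧
        ((s j = 0 ∧ w0.im ≤ K * rad R j) ∨ K * rad R j ≤ ups W (s j) w0)) →
      (∀ j m : ℕ, ∀ p ∈ grid w0 (rad R j) m, Alive W p σ → 1 / 3 ≤ sfl W σ p →
        ath W σ p - ath W (s j) p ≤ CA * (N + j + m)) →
      LB.Lam u0 q η (ffl W σ) ≤ ENNReal.ofReal (C' * N) := by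
  obtain ⟨C', hC', h⟩ := lb7a' (K := K) hq hη hCA hK
  refine ⟨C', hC', fun W w0 R N σ s u0 hW hR hN hRN hw0 hu0 hs hgrid => ?_⟩
  rw [Lam_eq]
  exact h W w0 R N σ s u0 hW hR hN hRN hw0 hu0 hs hgrid

end Crest.Agent.R162.LB7a
end

-- ▼ part R162/U1C
section

/-!
Row 162, node U1 (helper19): uniform one-point bound
`P (τ_s(w) < ∞) ≤ C e^{-(2-d)s} G_0(w)`, constant depending only on `κ`.
-/

set_option autoImplicit false

open MeasureTheory ProbabilityTheory Filter Set Topology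
open scoped NNReal ENNReal

namespace Crest.Agent.R162.U1C

open Crest.Agent.R162.OS Crest.Agent.R162.Rad Crest.Agent.R162.U4C
open Crest.Agent.R162.OP Crest.Agent.R162.U1P Crest.Agent.R162.GEN

universe u

/-- abstract survival for a relation closed under mono, smul, comp -/
theorem survivalQ {Q : ℝ → (ℝ → ℝ) → (ℝ → ℝ) → Prop}
    (hmono : ∀ {c : ℝ}, 0 ≤ c → ∀ {u v u' v' : ℝ → ℝ}, Q c u v →
      (∀ x, 0 < x → x ≤ 1 → u' x ≤ u x) → (∀ x, 0 < x → x ≤ 1 → v x ≤ v' x) → Q c u' v')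
    (hsmul : ∀ {c : ℝ} {u v : ℝ → ℝ}, Q c u v → ∀ {K : ℝ}, 0 ≤ K →
      Q c (fun x => K * u x) (fun x => K * v x))
    (hcomp : ∀ {c₁ c₂ : ℝ}, 0 ≤ c₁ → 0 ≤ c₂ → ∀ {u v w : ℝ → ℝ}, Q c₁ u v → Q c₂ v w →
      Q (c₁ + c₂) u w)
    {b η : ℝ} (hb : 0 < b) (hη : 0 < η) (hη2 : η < 2)
    (ha : ∀ c > 0, ∀ p p' : ℝ, 0 ≤ p → p < b → 0 < p' → p' ≤ p + 2 → p' < b →
      ∃ C ≥ 0, Q c (fun x => x ^ p) (fun x => C * x ^ p'))
    (hl : ∀ c > 0, ∀ p : ℝ, 0 ≤ p → p < b → b + η - 2 ≤ p →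
      ∃ C ≥ 0, Q c (fun x => x ^ p) (fun x => C * x ^ b))
    (c : ℝ) (hc : 0 < c) :
    ∃ C ≥ 0, Q c (fun _ => 1) (fun x => C * x ^ b) := by
  have key : ∀ k : ℕ, ∀ c > 0, ∀ p : ℝ, 0 ≤ p → p < b → b - p ≤ (k + 1) * (2 - η) →
      ∃ C ≥ 0, Q c (fun x => x ^ p) (fun x => C * x ^ b) := by
    intro k
    induction k with
    | zero =>
      intro c hc p hp hpb hle
      exact hl c hc p hp hpb (by norm_num at hle; linarith)
    | succ k ih =>
      intro c hc p hp hpb hle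
      by_cases hlast : b + η - 2 ≤ p
      · exact hl c hc p hp hpb hlast
      · rw [not_le] at hlast
        have hp'b : p + (2 - η) < b := by linarith
        obtain ⟨C₁, hC₁, h₁⟩ := ha (c / 2) (by positivity) p (p + (2 - η)) hp hpb (by linarith)
          (by linarith) hp'b
        obtain ⟨C₂, hC₂, h₂⟩ := ih (c / 2) (by positivity) (p + (2 - η)) (by linarith) hp'b (by
          push_cast at hle ⊢
          linarith)
        refine ⟨C₁ * C₂, mul_nonneg hC₁ hC₂, ?_⟩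
        have h₃ := hsmul h₂ hC₁
        have h₄ := hcomp (by positivity : (0:ℝ) ≤ c / 2) (by positivity : (0:ℝ) ≤ c / 2) h₁ h₃
        rw [show c / 2 + c / 2 = c by ring] at h₄
        exact hmono hc.le h₄ (fun x _ _ => le_rfl) (fun x _ _ => by rw [mul_assoc])
  obtain ⟨k, hk⟩ := exists_nat_gt (b / (2 - η))
  have h2 : (0:ℝ) < 2 - η := by linarith
  obtain ⟨C, hC, h⟩ := key k c hc 0 le_rfl hb (by
    rw [div_lt_iff₀ h2] at hk
    nlinarith)
  exact ⟨C, hC, hmono hc.le h (fun x _ _ => by simp) (fun x _ _ => le_rfl)⟩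

/-- the uniform relation -/
def QQ (κ c : ℝ) (u v : ℝ → ℝ) : Prop :=
  ∀ (hM : OPM.{u}) {Ω : Type u} {m : MeasurableSpace Ω} {P : Measure Ω} [IsProbabilityMeasure P]
    {Fl : Filtration ℝ≥0 m} {B : ℝ≥0 → Ω → ℝ} (hB : IsBM Fl B P) (hκ : 0 < κ) {w : ℂ}
    (hw : 0 < w.im), U1P.R (oneP hM hB hκ hw).radial P c u v

theorem surv {κ : ℝ} (hκ : 0 < κ) (hκ8 : κ < 8) :
    ∃ C ≥ 0, QQ.{u} κ 1 (fun _ => 1) (fun x => C * x ^ (8 / κ - 1)) := by
  have hb : 0 < bb κ := by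
    unfold bb; rw [sub_pos, lt_div_iff₀ hκ]; linarith
  obtain ⟨η, hη, hη2, hη1⟩ := U1B.exists_eta hb
  exact survivalQ (Q := QQ.{u} κ)
    (fun hc u v u' v' h h1 h2 hM Ω m P _ Fl B hB hκ w hw => (h hM hB hκ hw).mono hc h1 h2)
    (fun h K hK hM Ω m P _ Fl B hB hκ w hw => (h hM hB hκ hw).smul hK)
    (fun h1 h2 u v w' huv hvw hM Ω m P _ Fl B hB hκ w hw =>
      R.comp h1 h2 (huv hM hB hκ hw) (hvw hM hB hκ hw))
    hb hη hη2
    (fun c hc p p' hp hpb hp' hpp hp'b =>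
      ⟨1 / c * (8 / (κ * p' * min (bb κ - p') 1)), by
        have hmin : 0 < min (bb κ - p') 1 := lt_min (by linarith) one_pos
        positivity, fun hM Ω m P _ Fl B hB hκ w hw => U1B.stepA _ hκ hc hp hpb hp' hpp hp'b⟩)
    (fun c hc p hp hpb hpp =>
      ⟨1 / c * (2 * (8 / (κ * (bb κ + η) * η))), by positivity,
        fun hM Ω m P _ Fl B hB hκ w hw => U1B.stepB _ hκ hb hc hp hpb hη hη1 hpp⟩) 1 one_pos

/-- **U1, uniform**: `P (A ∩ alive (s+1)) ≤ C e^{-(1-κ/8)s} ∫_A G_s` -/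
theorem u1_past {κ : ℝ} (hκ : 0 < κ) (hκ8 : κ < 8) :
    ∃ C > 0, ∀ (hM : OPM.{u}) {Ω : Type u} {m : MeasurableSpace Ω} {P : Measure Ω}
      [IsProbabilityMeasure P] {Fl : Filtration ℝ≥0 m} {B : ℝ≥0 → Ω → ℝ} (hB : IsBM Fl B P)
      {w : ℂ} (hw : 0 < w.im) (s : ℝ), -Real.log w.im ≤ s → ∀ A : Set Ω,
      (oneP hM hB hκ hw).Past s A →
      P (A ∩ (oneP hM hB hκ hw).alive (s + 1)) ≤
        ENNReal.ofReal (C * Real.exp (-((1 - κ / 8) * s))) *
          ∫⁻ ω in A, ENNReal.ofReal (Gl (oneP hM hB hκ hw) s ω) ∂P := by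
  obtain ⟨C, hC, h⟩ := surv.{u} hκ hκ8
  refine ⟨C + 1, by positivity, ?_⟩
  intro hM Ω m P _ Fl B hB w hw s hs A hA
  have hmA : MeasurableSet A := OneP.Past.measurableSet _ hA
  have h1 := h hM hB hκ hw s hs A hA hA.1
  have e0 : ∫⁻ _ω in A ∩ (oneP hM hB hκ hw).alive (s + 1), ENNReal.ofReal 1 ∂P =
      P (A ∩ (oneP hM hB hκ hw).alive (s + 1)) := by
    rw [setLIntegral_const]; simp
  have h1' : P (A ∩ (oneP hM hB hκ hw).alive (s + 1)) ≤
      ∫⁻ ω in A, ENNReal.ofReal (C * (oneP hM hB hκ hw).Sl s ω ^ (8 / κ - 1)) ∂P := by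
    rw [← e0]; exact h1
  refine h1'.trans ?_
  rw [← lintegral_const_mul' _ _ ENNReal.ofReal_ne_top]
  refine setLIntegral_mono' hmA fun ω hω => ?_
  rw [← ENNReal.ofReal_mul (by positivity)]
  refine ENNReal.ofReal_le_ofReal ?_
  have h3 : ((oneP hM hB hκ hw).stl s ω).2.2.1 = -s := (oneP hM hB hκ hw).L_tau hs (hA.1 hω)
  have h4 : Gl (oneP hM hB hκ hw) s ω =
      Real.exp ((κ / 8 - 1) * (-s)) * (oneP hM hB hκ hw).Sl s ω ^ (8 / κ - 1) := by
    show Real.exp ((κ / 8 - 1) * ((oneP hM hB hκ hw).stl s ω).2.2.1) *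
      sinq ((oneP hM hB hκ hw).stl s ω) ^ (8 / κ - 1) = _
    rw [h3]
    rfl
  rw [h4]
  have h5 : 0 ≤ (oneP hM hB hκ hw).Sl s ω ^ (8 / κ - 1) := by
    refine Real.rpow_nonneg ?_ _
    exact ((oneP hM hB hκ hw).radial.S_pos s hs ω (hA.1 hω)).le
  have h6 : (C + 1) * Real.exp (-((1 - κ / 8) * s)) *
      (Real.exp ((κ / 8 - 1) * (-s)) * (oneP hM hB hκ hw).Sl s ω ^ (8 / κ - 1)) =
      (C + 1) * (Real.exp (-((1 - κ / 8) * s)) * Real.exp ((κ / 8 - 1) * (-s))) *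
        (oneP hM hB hκ hw).Sl s ω ^ (8 / κ - 1) := by ring
  rw [h6, ← Real.exp_add, show -((1 - κ / 8) * s) + (κ / 8 - 1) * (-s) = 0 by ring, Real.exp_zero,
    mul_one]
  exact mul_le_mul_of_nonneg_right (by linarith) h5

/-- **U1F**: `P (τ_s(w) < ∞) ≤ C e^{-(1-κ/8)s} green w` for `s ≥ -log (im w) + 1`, `C = C(κ)`. -/
theorem u1f {κ : ℝ} (hκ : 0 < κ) (hκ8 : κ < 8) :
    ∃ C > 0, ∀ (hM : OPM.{u}) {Ω : Type u} {m : MeasurableSpace Ω} {P : Measure Ω}
      [IsProbabilityMeasure P] {Fl : Filtration ℝ≥0 m} {B : ℝ≥0 → Ω → ℝ} (hB : IsBM Fl B P)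
      {w : ℂ} (hw : 0 < w.im) (s : ℝ), -Real.log w.im + 1 ≤ s →
      P ((oneP hM hB hκ hw).alive s) ≤
        ENNReal.ofReal (C * (Real.exp (-((1 - κ / 8) * s)) * UB.green κ w)) := by
  obtain ⟨C, hC, h⟩ := u1_past.{u} hκ hκ8
  refine ⟨C * Real.exp (1 - κ / 8), by positivity, ?_⟩
  intro hM Ω m P _ Fl B hB w hw s hs
  set D := oneP hM hB hκ hw with hD
  have hs1 : -Real.log w.im ≤ s - 1 := by linarith
  have h1 := h hM hB hw (s - 1) hs1 (D.alive (s - 1)) (D.alive_past _)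
  rw [← hD] at h1
  rw [show s - 1 + 1 = s by ring, inter_eq_right.2 (D.alive_anti (by linarith : s - 1 ≤ s))] at h1
  refine h1.trans ?_
  have h2 := U0 D hκ hs1 (D.alive_past (-Real.log w.im))
  rw [inter_eq_right.2 (D.alive_anti hs1)] at h2
  have h3 := U4F.gm_eq D le_rfl (D.measurableSet_alive _) (subset_refl (D.alive (-Real.log w.im)))
  have h4 := U4I.init hM hB hκ hw (D.alive (-Real.log w.im))
  have h5 : ∫⁻ ω in D.alive (-Real.log w.im), ENNReal.ofReal (Gl D (-Real.log w.im) ω) ∂P ≤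
      ENNReal.ofReal (UB.green κ w) := by
    rw [← h3]
    exact h4
  have hg : 0 ≤ UB.green κ w := by unfold UB.green; positivity
  calc ENNReal.ofReal (C * Real.exp (-((1 - κ / 8) * (s - 1)))) *
          ∫⁻ ω in D.alive (s - 1), ENNReal.ofReal (Gl D (s - 1) ω) ∂P
      ≤ ENNReal.ofReal (C * Real.exp (-((1 - κ / 8) * (s - 1)))) *
          ENNReal.ofReal (UB.green κ w) := by
        gcongr
        exact h2.trans h5
    _ = ENNReal.ofReal (C * Real.exp (1 - κ / 8) * (Real.exp (-((1 - κ / 8) * s)) *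
          UB.green κ w)) := by
        rw [← ENNReal.ofReal_mul (by positivity)]
        congr 1
        rw [show -((1 - κ / 8) * (s - 1)) = (1 - κ / 8) + -((1 - κ / 8) * s) by ring, Real.exp_add]
        ring

end Crest.Agent.R162.U1C
end

-- ▼ part R162/LBC5
section

/-!
Row 162, node LB-CONTENT, file 5 (helper499): unconditional upper bound `content_le'`, and the
supersolutions for the lower bound of the mass.
-/

set_option autoImplicit false
set_option linter.unusedSectionVars false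

open MeasureTheory ProbabilityTheory Set Filter
open scoped NNReal ENNReal Topology

namespace Crest.Agent.R162.LBC

open Crest.Agent.R162.GEN Crest.Agent.R162.OPGen
open FL OP OS Crest.ProbabilityR.Loewner

universe u

section

variable {Ω : Type u} {m : MeasurableSpace Ω} {P : Measure Ω} [IsProbabilityMeasure P]
  {Fl : Filtration ℝ≥0 m} {B : ℝ≥0 → Ω → ℝ} {κ : ℝ} {w : ℂ}

theorem exit_ok5 (hB : IsBM Fl B P) (κ : ℝ) (w : ℂ) : Exit Fl κ B w where
  st O hO δ hδ hOδ σ hσ T := OPTr.hit_open_isST hB hδ hO hOδ hσ T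
  ev O hO δ hδ hOδ σ hσ := by
    have h := OPTr.evST_alive_mem (w := w) (κ := κ) hB hO.measurableSet hσ
    convert h using 1
    ext ω
    simp only [mem_ofPred_eq]
    exact ⟨fun h => ⟨OPTr.aliveP_of_mem (lt_of_lt_of_le hδ (hOδ _ h)), h⟩, fun h => h.2⟩


end

/-! ### the part with small `S` -/

/-- constants of the `S^{-q}` supersolution -/
noncomputable def cc2 (κ q : ℝ) : ℝ := κ / 2 * q * (bb κ - q)
/-- see `cc2` -/
noncomputable def DD (κ q : ℝ) : ℝ := κ / 2 * q * (1 + bb κ - q) + 4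
/-- see `cc2` -/
noncomputable def MM (κ q : ℝ) : ℝ := DD κ q * Real.sqrt (cc2 κ q / (2 * DD κ q)) ^ (-q) / 4

section consts

variable {κ q : ℝ} (hκ : 0 < κ) (hq0 : 0 < q) (hqb : q < bb κ)

include hκ hq0 hqb

lemma cc2_pos : 0 < cc2 κ q := by
  unfold cc2
  have : 0 < bb κ - q := by linarith
  positivity

lemma DD_pos : 0 < DD κ q := by
  unfold DD
  have : 0 < 1 + bb κ - q := by linarith
  positivity

lemma MM_pos : 0 < MM κ q := by
  unfold MM
  have h1 := cc2_pos hκ hq0 hqb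
  have h2 := DD_pos hκ hq0 hqb
  positivity

/-- the algebraic inequality behind `gen_F2_le` -/
lemma alg_F2 {S : ℝ} (hS : 0 < S) :
    S ^ (-q) * (DD κ q * S ^ 2 - cc2 κ q / 2) ≤ 4 * MM κ q * S ^ 2 := by
  have h1 := cc2_pos hκ hq0 hqb
  have h2 := DD_pos hκ hq0 hqb
  have h3 := MM_pos hκ hq0 hqb
  have hSq : 0 < S ^ (-q) := Real.rpow_pos_of_pos hS _
  rcases le_or_gt (DD κ q * S ^ 2) (cc2 κ q / 2) with h | h
  · have : S ^ (-q) * (DD κ q * S ^ 2 - cc2 κ q / 2) ≤ 0 :=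
      mul_nonpos_of_nonneg_of_nonpos hSq.le (by linarith)
    have h4 : 0 ≤ 4 * MM κ q * S ^ 2 := by positivity
    linarith
  · set s0 := Real.sqrt (cc2 κ q / (2 * DD κ q)) with hs0
    have hs0p : 0 < s0 := Real.sqrt_pos.2 (by positivity)
    have hle : s0 ≤ S := by
      rw [hs0]
      refine Real.sqrt_le_iff.2 ⟨hS.le, ?_⟩
      rw [div_le_iff₀ (by positivity)]
      nlinarith
    have h5 : S ^ (-q) ≤ s0 ^ (-q) := Real.rpow_le_rpow_of_nonpos hs0p hle (by linarith)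
    have h6 : 4 * MM κ q * S ^ 2 = s0 ^ (-q) * (DD κ q * S ^ 2) := by
      unfold MM; rw [← hs0]; ring
    rw [h6]
    have h7 : 0 ≤ DD κ q * S ^ 2 := by positivity
    have h8 : 0 < s0 ^ (-q) := Real.rpow_pos_of_pos hs0p _
    calc S ^ (-q) * (DD κ q * S ^ 2 - cc2 κ q / 2) ≤ S ^ (-q) * (DD κ q * S ^ 2) := by
          gcongr; linarith
      _ ≤ s0 ^ (-q) * (DD κ q * S ^ 2) := by gcongr

end consts

/-- `G (R' S^{-q} + M R)` -/
noncomputable def F2 (κ q ε : ℝ) : ℝ × ℝ × ℝ × ℝ → ℝ :=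
  pq (fun th a x => V3 κ (q - bb κ) 0 (R1 ε) th a x
    + V3 κ (-bb κ) 0 (fun L => MM κ q * R0 ε L) th a x) 0 0

/-- the rate `(c₂/2) |Z|^{-2} G R' S^{-q}` -/
noncomputable def H2 (κ q ε : ℝ) (p : ℝ × ℝ × ℝ × ℝ) : ℝ :=
  cc2 κ q / 2 * (1 / (p.1 ^ 2 + p.2.1 ^ 2) * (Gq κ p * sinq p ^ (-q) * R1 ε p.2.2.1))

section F2

variable {κ q ε : ℝ} (hκ : 0 < κ) (hq0 : 0 < q) (hqb : q < bb κ) (hε : 0 < ε)

include hκ hq0 hqb hε

lemma F2_eq {p : ℝ × ℝ × ℝ × ℝ} (hp : 0 < p.2.1) :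
    F2 κ q ε p = Gq κ p * (R1 ε p.2.2.1 * sinq p ^ (-q) + MM κ q * R0 ε p.2.2.1) := by
  have h1 := pq_V3 κ (q - bb κ) 0 (R1 ε) p
  have h2 := pq_V3 κ (-bb κ) 0 (fun L => MM κ q * R0 ε L) p
  have h3 := E3_eq hκ.ne' q 0 hp
  have h4 := E3_eq' hκ.ne' hp
  have h5 : F2 κ q ε p = pq (V3 κ (q - bb κ) 0 (R1 ε)) 0 0 p
      + pq (V3 κ (-bb κ) 0 (fun L => MM κ q * R0 ε L)) 0 0 p := rfl
  rw [h5, h1, h2, h3, h4]
  simp only [neg_zero, zero_mul, Real.exp_zero, mul_one]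
  ring

lemma jets :
    Jet (V3 κ (q - bb κ) 0 (R1 ε)) (V3t κ (q - bb κ) 0 (R1 ε) (R2 ε)) (V3a κ (q - bb κ) 0 (R1 ε))
      (V3x κ (q - bb κ) 0 (R1 ε)) (V3xx κ (q - bb κ) 0 (R1 ε)) ∧
    Jet (V3 κ (-bb κ) 0 (fun L => MM κ q * R0 ε L))
      (V3t κ (-bb κ) 0 (fun L => MM κ q * R0 ε L) (fun L => MM κ q * R1 ε L))
      (V3a κ (-bb κ) 0 (fun L => MM κ q * R0 ε L)) (V3x κ (-bb κ) 0 (fun L => MM κ q * R0 ε L))
      (V3xx κ (-bb κ) 0 (fun L => MM κ q * R0 ε L)) :=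
  ⟨jet_V3 κ _ 0 (hasDerivAt_R1 hε) (contDiff_R1 hε),
    jet_V3 κ _ 0 (fun s => (hasDerivAt_R0 hε s).const_mul _)
      (contDiff_const.mul (contDiff_R0 hε))⟩

lemma gen_F2_eq {p : ℝ × ℝ × ℝ × ℝ} (hp : 0 < p.2.1) :
    gen κ (F2 κ q ε) p = gen κ (pq (V3 κ (q - bb κ) 0 (R1 ε)) 0 0) p
      + gen κ (pq (V3 κ (-bb κ) 0 (fun L => MM κ q * R0 ε L)) 0 0) p := by
  obtain ⟨J1, J2⟩ := jets hκ hq0 hqb hε
  exact gen_add J1 J2 hp

lemma gen_F2_le {p : ℝ × ℝ × ℝ × ℝ} (hp : 0 < p.2.1) :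
    gen κ (F2 κ q ε) p ≤ - H2 κ q ε p := by
  rw [gen_F2_eq hκ hq0 hqb hε hp,
    gen_V3 hκ _ 0 (hasDerivAt_R1 hε) (contDiff_R1 hε) hp,
    gen_V3 hκ _ 0 (g' := fun L => MM κ q * R1 ε L) (fun s => (hasDerivAt_R0 hε s).const_mul _)
      (contDiff_const.mul (contDiff_R0 hε)) hp,
    brk_b, brk_q, E3_eq hκ.ne' q 0 hp, E3_eq' hκ.ne' hp]
  simp only [neg_zero, zero_mul, Real.exp_zero, mul_one, mul_zero, zero_sub, sub_zero]
  have hG := Gq_pos κ hp
  have hS := sinq_pos' hp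
  have hR := R1_nonneg hε p.2.2.1
  have hR2 := abs_R2_le hε p.2.2.1
  have hD : 0 < p.1 ^ 2 + p.2.1 ^ 2 := by positivity
  have hSq : 0 < sinq p ^ (-q) := Real.rpow_pos_of_pos hS _
  have halg := alg_F2 hκ hq0 hqb hS
  unfold H2
  set S := sinq p
  set G := Gq κ p
  set L := p.2.2.1
  set r1 := R1 ε L
  set r2 := R2 ε L
  set X := S ^ (-q)
  have hlow : -r1 ≤ r2 := (abs_le.1 hR2).1
  have h1 : G * X * (r1 * (κ / 2 * q * (S ^ 2 - (bb κ - q) * (1 - S ^ 2))) - 4 * S ^ 2 * r2)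
      + G * -(4 * S ^ 2 * (MM κ q * r1)) ≤ -(cc2 κ q / 2 * (G * X * r1)) := by
    have e1 : κ / 2 * q * (S ^ 2 - (bb κ - q) * (1 - S ^ 2))
        = (DD κ q - 4) * S ^ 2 - cc2 κ q := by unfold DD cc2; ring
    rw [e1]
    have h2 : -(4 * S ^ 2 * r2) ≤ 4 * S ^ 2 * r1 := by nlinarith [sq_nonneg S]
    have h3 : G * X * (r1 * ((DD κ q - 4) * S ^ 2 - cc2 κ q) - 4 * S ^ 2 * r2)
        ≤ G * X * (r1 * (DD κ q * S ^ 2 - cc2 κ q)) := by
      refine mul_le_mul_of_nonneg_left ?_ (by positivity)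
      nlinarith
    have h4 : G * r1 * (X * (DD κ q * S ^ 2 - cc2 κ q / 2)) ≤ G * r1 * (4 * MM κ q * S ^ 2) :=
      mul_le_mul_of_nonneg_left halg (by positivity)
    nlinarith
  have h5 := mul_le_mul_of_nonneg_left h1 (by positivity : 0 ≤ 1 / (p.1 ^ 2 + p.2.1 ^ 2))
  calc _ = 1 / (p.1 ^ 2 + p.2.1 ^ 2) * (G * X * (r1 * (κ / 2 * q * (S ^ 2 - (bb κ - q) *
        (1 - S ^ 2))) - 4 * S ^ 2 * r2) + G * -(4 * S ^ 2 * (MM κ q * r1))) := by ring
    _ ≤ _ := h5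
    _ = _ := by ring

end F2

end Crest.Agent.R162.LBC
end

-- ▼ part R162/LBC6
section

/-!
Row 162, node LB-CONTENT, file 6 (helper499): exact Dynkin on a box, the smooth profile, the
time supersolution, and the deterministic time bound.
-/

set_option autoImplicit false
set_option linter.unusedSectionVars false

open MeasureTheory ProbabilityTheory Set Filter
open scoped NNReal ENNReal Topology

namespace Crest.Agent.R162.LBC

open Crest.Agent.R162.GEN Crest.Agent.R162.OPGen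
open FL OP OS Crest.ProbabilityR.Loewner

universe u

section prob

variable {Ω : Type u} {m : MeasurableSpace Ω} {P : Measure Ω} [IsProbabilityMeasure P]
  {Fl : Filtration ℝ≥0 m} {B : ℝ≥0 → Ω → ℝ} {κ : ℝ} {w : ℂ}

/-- exact Dynkin formula in `ENNReal` form when `gen κ F = -H ≤ 0 ≤ F`. -/
theorem box_eq (hM : OPM.{u}) (hB : IsBM Fl B P) (hκ : 0 < κ) (hw : 0 < w.im)
    (hE : Exit Fl κ B w) {F : ℝ × ℝ × ℝ × ℝ → ℝ} (hF : ContDiffOn ℝ 3 F {q | 0 < q.2.1})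
    (hF0 : ∀ q : ℝ × ℝ × ℝ × ℝ, 0 < q.2.1 → 0 ≤ F q)
    (hgc : ContinuousOn (gen κ F) {q | 0 < q.2.1}) {H : ℝ × ℝ × ℝ × ℝ → ℝ}
    (hH0 : ∀ q : ℝ × ℝ × ℝ × ℝ, 0 < q.2.1 → 0 ≤ H q)
    (hgen : ∀ q : ℝ × ℝ × ℝ × ℝ, 0 < q.2.1 → gen κ F q = - H q)
    {O : Set (ℝ × ℝ × ℝ × ℝ)} (hO : IsOpen O) {r : ℝ} (hr' : 0 < r) (hOr : O ⊆ bo r)
    {σ τ : Ω → ℝ≥0} (hσ : IsST Fl σ)
    (hτ : IsST Fl τ) {T : ℝ≥0} (hτT : ∀ ω, τ ω ≤ T) {A : Set Ω} (hA : EvST Fl σ A)
    (hστ : ∀ ω ∈ A, σ ω ≤ τ ω) (hAO : ∀ ω ∈ A, stP κ B w (σ ω) ω ∈ O) :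
    ∫⁻ ω in A, ENNReal.ofReal (F (stP κ B w (σ ω) ω)) ∂P
      = ∫⁻ ω in A, (∫⁻ s in Ioc (σ ω : ℝ) (min (hit (stP κ B w) Oᶜ σ T ω) (τ ω) : ℝ≥0),
        hr H κ B w ω s) ∂P
      + ∫⁻ ω in A, ENNReal.ofReal
          (F (stP κ B w (min (hit (stP κ B w) Oᶜ σ T ω) (τ ω)) ω)) ∂P := by
  obtain ⟨key, i1, i2, i3, heq⟩ := box_step hM hB hκ hw hE hF hgc hO hr' hOr hσ hτ hτT hA hστ hAO
  set τ' : Ω → ℝ≥0 := fun ω => min (hit (stP κ B w) Oᶜ σ T ω) (τ ω) with hτ'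
  have hAm : MeasurableSet A := hA.measurableSet
  have hclO : closure O ⊆ bc r := (closure_mono hOr).trans (closure_bo_subset r)
  have hpos : ∀ ω ∈ A, ∀ s : ℝ, (σ ω : ℝ) ≤ s → s ≤ τ' ω →
      Alive (driving κ B ω) w s ∧ 0 < (stW (driving κ B ω) s w).2.1 := by
    intro ω hω s h1 h2
    have hs0 : 0 ≤ s := (σ ω).2.trans h1
    have := (key ω hω).2 ⟨s, hs0⟩ (by exact_mod_cast h1) (by exact_mod_cast h2)
    exact ⟨this.1, bc_pos' hr' (hclO this.2)⟩
  have h1 : ∀ ω ∈ A, (∫⁻ s in Ioc (σ ω : ℝ) (τ' ω), hr H κ B w ω s)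
      = ENNReal.ofReal (-(∫ s in (σ ω : ℝ)..(τ' ω : ℝ), gen κ F (stW (driving κ B ω) s w))) := by
    intro ω hω
    have hle : (σ ω : ℝ) ≤ τ' ω := by exact_mod_cast (key ω hω).1
    have ha : Alive (driving κ B ω) w (τ' ω) := (hpos ω hω _ hle le_rfl).1
    have hc : ContinuousOn (fun s => -gen κ F (stW (driving κ B ω) s w))
        (Icc (σ ω : ℝ) (τ' ω)) := by
      refine (hgc.comp ((stW_contOn (cont_driving hB κ ω) ha).mono ?_) ?_).neg
      · exact Icc_subset_Icc NNReal.zero_le_coe le_rfl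
      · intro s hs
        exact (hpos ω hω s hs.1 hs.2).2
    have hi : IntegrableOn (fun s => -gen κ F (stW (driving κ B ω) s w))
        (Ioc (σ ω : ℝ) (τ' ω)) := hc.integrableOn_Icc.mono_set Ioc_subset_Icc_self
    have hnn : ∀ s ∈ Ioc (σ ω : ℝ) (τ' ω), H (stW (driving κ B ω) s w)
        = -gen κ F (stW (driving κ B ω) s w) ∧ 0 ≤ -gen κ F (stW (driving κ B ω) s w) := by
      intro s hs
      have hp := (hpos ω hω s hs.1.le hs.2).2
      have a1 := hgen _ hp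
      have a2 := hH0 _ hp
      constructor <;> linarith
    rw [← intervalIntegral.integral_neg, intervalIntegral.integral_of_le hle,
      ofReal_integral_eq_lintegral_ofReal hi ?_]
    · refine setLIntegral_congr_fun measurableSet_Ioc fun s hs => ?_
      unfold hr
      rw [indicator_of_mem (by exact (hpos ω hω s hs.1.le hs.2).1), (hnn s hs).1]
    · filter_upwards [ae_restrict_mem measurableSet_Ioc] with s hs
      exact (hnn s hs).2
  have hJ0 : ∀ ω ∈ A, 0 ≤ -(∫ s in (σ ω : ℝ)..(τ' ω : ℝ), gen κ F (stW (driving κ B ω) s w)) := by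
    intro ω hω
    have hle : (σ ω : ℝ) ≤ τ' ω := by exact_mod_cast (key ω hω).1
    rw [← intervalIntegral.integral_neg]
    refine intervalIntegral.integral_nonneg hle fun s hs => ?_
    have hp := (hpos ω hω s hs.1 hs.2).2
    have a1 := hgen _ hp
    have a2 := hH0 _ hp
    linarith
  have h2 : ∫⁻ ω in A, (∫⁻ s in Ioc (σ ω : ℝ) (τ' ω), hr H κ B w ω s) ∂P
      = ∫⁻ ω in A, ENNReal.ofReal (-(∫ s in (σ ω : ℝ)..(τ' ω : ℝ),
        gen κ F (stW (driving κ B ω) s w))) ∂P := setLIntegral_congr_fun hAm h1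
  have e1 : ∫⁻ ω in A, ENNReal.ofReal (-(∫ s in (σ ω : ℝ)..(τ' ω : ℝ),
        gen κ F (stW (driving κ B ω) s w))) ∂P
      = ENNReal.ofReal (∫ ω in A, -(∫ s in (σ ω : ℝ)..(τ' ω : ℝ),
        gen κ F (stW (driving κ B ω) s w)) ∂P) := by
    refine (ofReal_integral_eq_lintegral_ofReal (f := fun ω => -(∫ s in (σ ω : ℝ)..(τ' ω : ℝ),
        gen κ F (stW (driving κ B ω) s w))) i3.neg ?_).symm
    filter_upwards [ae_restrict_mem hAm] with ω hω
    exact hJ0 ω hω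
  have e2 : ∫⁻ ω in A, ENNReal.ofReal (F (stP κ B w (τ' ω) ω)) ∂P
      = ENNReal.ofReal (∫ ω in A, F (stP κ B w (τ' ω) ω) ∂P) := by
    rw [ofReal_integral_eq_lintegral_ofReal i2]
    filter_upwards [ae_restrict_mem hAm] with ω hω
    refine hF0 _ ?_
    exact (hpos ω hω _ (by exact_mod_cast (key ω hω).1) le_rfl).2
  have e3 : ∫⁻ ω in A, ENNReal.ofReal (F (stP κ B w (σ ω) ω)) ∂P
      = ENNReal.ofReal (∫ ω in A, F (stP κ B w (σ ω) ω) ∂P) := by
    rw [ofReal_integral_eq_lintegral_ofReal i1]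
    filter_upwards [ae_restrict_mem hAm] with ω hω
    refine hF0 _ ?_
    exact (hpos ω hω _ le_rfl (by exact_mod_cast (key ω hω).1)).2
  change _ = ∫⁻ ω in A, (∫⁻ s in Ioc (σ ω : ℝ) (τ' ω), hr H κ B w ω s) ∂P
    + ∫⁻ ω in A, ENNReal.ofReal (F (stP κ B w (τ' ω) ω)) ∂P
  rw [h2, e1, e2, e3, ← ENNReal.ofReal_add]
  · congr 1
    rw [integral_neg]
    change ∫ ω in A, F (stP κ B w (τ' ω) ω) ∂P = _ at heq
    rw [heq]
    ring
  · exact setIntegral_nonneg hAm hJ0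
  · refine setIntegral_nonneg hAm fun ω hω => hF0 _ ?_
    exact (hpos ω hω _ (by exact_mod_cast (key ω hω).1) le_rfl).2

end prob

/-! ### the smooth profile -/

theorem exists_psi : ∃ (ψ k : ℝ → ℝ) (m : ℝ), 0 < m ∧ ContDiff ℝ (⊤ : ℕ∞) ψ ∧ Continuous k ∧
    (∀ x, HasDerivAt ψ (k x) x) ∧ (∀ x, 0 ≤ ψ x) ∧ (∀ x, ψ x ≤ 1) ∧ (∀ x, x ≤ 0 → ψ x = 0) ∧
    (∀ x, Real.log 2 ≤ x → ψ x = m) ∧ (∀ x, 0 ≤ k x) ∧ (∀ x, k x ≤ (Real.log 2)⁻¹) ∧
    (∀ x, k x ≠ 0 → 0 ≤ x ∧ x ≤ Real.log 2) := by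
  have hl := LB.log_two_pos'
  have cS : ContDiff ℝ (⊤ : ℕ∞) Real.smoothTransition := Real.smoothTransition.contDiff
  have cd : Continuous (deriv Real.smoothTransition) := cS.continuous_deriv (by simp)
  have hdz : ∀ x, x < 0 ∨ 1 < x → deriv Real.smoothTransition x = 0 := by
    intro x hx
    rcases hx with hx | hx
    · have : Real.smoothTransition =ᶠ[𝓝 x] fun _ => (0:ℝ) := by
        filter_upwards [Iio_mem_nhds hx] with y hy
        exact Real.smoothTransition.zero_of_nonpos (le_of_lt hy)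
      rw [this.deriv_eq]; simp
    · have : Real.smoothTransition =ᶠ[𝓝 x] fun _ => (1:ℝ) := by
        filter_upwards [Ioi_mem_nhds hx] with y hy
        exact Real.smoothTransition.one_of_one_le (le_of_lt hy)
      rw [this.deriv_eq]; simp
  obtain ⟨M0, hM0⟩ := isCompact_Icc.exists_bound_of_continuousOn (cd.continuousOn (s := Icc 0 1))
  set M := max M0 1 with hM
  have hM1 : 1 ≤ M := le_max_right _ _
  have hMp : 0 < M := by linarith
  have hbd : ∀ x, deriv Real.smoothTransition x ≤ M := by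
    intro x
    by_cases hx : x < 0 ∨ 1 < x
    · rw [hdz x hx]; exact hMp.le
    · push Not at hx
      exact ((le_abs_self _).trans (hM0 x ⟨hx.1, hx.2⟩)).trans (le_max_left _ _)
  have hnn : ∀ x, 0 ≤ deriv Real.smoothTransition x := fun x =>
    Real.smoothTransition.monotone.deriv_nonneg
  refine ⟨fun x => Real.smoothTransition (x / Real.log 2) / M,
    fun x => deriv Real.smoothTransition (x / Real.log 2) / Real.log 2 / M, 1 / M, by positivity,
    ?_, ?_, ?_, ?_, ?_, ?_, ?_, ?_, ?_, ?_⟩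
  · exact (cS.comp (contDiff_id.div_const _)).div_const _
  · exact ((cd.comp (continuous_id.div_const _)).div_const _).div_const _
  · intro x
    have h1 : HasDerivAt Real.smoothTransition (deriv Real.smoothTransition (x / Real.log 2))
        (x / Real.log 2) := (cS.differentiable (by simp)).differentiableAt.hasDerivAt
    have h2 : HasDerivAt (fun x : ℝ => x / Real.log 2) (1 / Real.log 2) x :=
      (hasDerivAt_id x).div_const _
    have h3 := (h1.comp x h2).div_const M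
    have h4 : deriv Real.smoothTransition (x / Real.log 2) * (1 / Real.log 2) / M
        = deriv Real.smoothTransition (x / Real.log 2) / Real.log 2 / M := by ring
    rw [h4] at h3
    exact h3
  · intro x; have := Real.smoothTransition.nonneg (x / Real.log 2); positivity
  · intro x
    have := Real.smoothTransition.le_one (x / Real.log 2)
    rw [div_le_one hMp]; linarith
  · intro x hx
    beta_reduce
    rw [Real.smoothTransition.zero_of_nonpos (div_nonpos_of_nonpos_of_nonneg hx hl.le), zero_div]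
  · intro x hx
    beta_reduce
    rw [Real.smoothTransition.one_of_one_le ((one_le_div hl).2 hx)]
  · intro x; have := hnn (x / Real.log 2); positivity
  · intro x
    have := hbd (x / Real.log 2)
    rw [div_le_iff₀ hMp, div_le_iff₀ hl]
    calc _ ≤ M := this
      _ = _ := by field_simp
  · intro x hx
    have h1 : deriv Real.smoothTransition (x / Real.log 2) ≠ 0 := fun h => hx (by simp [h])
    have h2 : ¬ (x / Real.log 2 < 0 ∨ 1 < x / Real.log 2) := fun h => h1 (hdz _ h)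
    push Not at h2
    refine ⟨?_, ?_⟩
    · by_contra h; push Not at h
      exact absurd (div_neg_of_neg_of_pos h hl) (not_lt.2 h2.1)
    · have := (div_le_one hl).1 h2.2
      exact this

/-! ### the time supersolution -/

/-- `G e^{-pa} (S^{-p} + κ/2)` -/
noncomputable def Fp (κ p : ℝ) : ℝ × ℝ × ℝ × ℝ → ℝ :=
  pq (fun th a x => V3 κ (p - bb κ) p (fun _ => 1) th a x
    + V3 κ (-bb κ) p (fun _ => κ / 2) th a x) 0 0

section Fp

variable {κ p : ℝ} (hκ : 0 < κ) (hp0 : 0 < p) (hpb : p ≤ bb κ) (hp2 : p ≤ 2)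

include hκ hp0 hpb hp2

lemma E3_eqp {q : ℝ × ℝ × ℝ × ℝ} (hq : 0 < q.2.1) :
    E3 κ (-bb κ) p q = Gq κ q * Real.exp (-p * q.2.2.2) := by
  have := E3_eq hκ.ne' 0 p hq
  simpa using this

lemma Fp_eq {q : ℝ × ℝ × ℝ × ℝ} (hq : 0 < q.2.1) :
    Fp κ p q = Gq κ q * Real.exp (-p * q.2.2.2) * (sinq q ^ (-p) + κ / 2) := by
  have h1 := pq_V3 κ (p - bb κ) p (fun _ => 1) q
  have h2 := pq_V3 κ (-bb κ) p (fun _ => κ / 2) q
  have h5 : Fp κ p q = pq (V3 κ (p - bb κ) p (fun _ => 1)) 0 0 q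
      + pq (V3 κ (-bb κ) p (fun _ => κ / 2)) 0 0 q := rfl
  rw [h5, h1, h2, E3_eq hκ.ne' p p hq, E3_eqp hκ hp0 hpb hp2 hq]
  ring

lemma jetsp :
    Jet (V3 κ (p - bb κ) p (fun _ => 1)) (V3t κ (p - bb κ) p (fun _ => 1) (fun _ => 0))
      (V3a κ (p - bb κ) p (fun _ => 1)) (V3x κ (p - bb κ) p (fun _ => 1))
      (V3xx κ (p - bb κ) p (fun _ => 1)) ∧
    Jet (V3 κ (-bb κ) p (fun _ => κ / 2)) (V3t κ (-bb κ) p (fun _ => κ / 2) (fun _ => 0))
      (V3a κ (-bb κ) p (fun _ => κ / 2)) (V3x κ (-bb κ) p (fun _ => κ / 2))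
      (V3xx κ (-bb κ) p (fun _ => κ / 2)) :=
  ⟨jet_V3 κ _ p (fun s => hasDerivAt_const s _) contDiff_const,
    jet_V3 κ _ p (fun s => hasDerivAt_const s _) contDiff_const⟩

lemma gen_Fp_eq {q : ℝ × ℝ × ℝ × ℝ} (hq : 0 < q.2.1) :
    gen κ (Fp κ p) q = gen κ (pq (V3 κ (p - bb κ) p (fun _ => 1)) 0 0) q
      + gen κ (pq (V3 κ (-bb κ) p (fun _ => κ / 2)) 0 0) q := by
  obtain ⟨J1, J2⟩ := jetsp hκ hp0 hpb hp2
  exact gen_add J1 J2 hq

lemma gen_Fp_le {q : ℝ × ℝ × ℝ × ℝ} (hq : 0 < q.2.1) : gen κ (Fp κ p) q ≤ -0 := by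
  rw [gen_Fp_eq hκ hp0 hpb hp2 hq,
    gen_V3 hκ _ p (g' := fun _ => 0) (fun s => hasDerivAt_const s _) contDiff_const hq,
    gen_V3 hκ _ p (g' := fun _ => 0) (fun s => hasDerivAt_const s _) contDiff_const hq,
    brk_q, E3_eq hκ.ne' p p hq, E3_eqp hκ hp0 hpb hp2 hq]
  have hb : brk κ (-bb κ) p (sinq q ^ 2) = -p := by unfold brk; ring
  rw [hb]
  have hG := Gq_pos κ hq
  have hS := sinq_pos' hq
  have hS1 := sinq_le_one' hq
  have hD : 0 < q.1 ^ 2 + q.2.1 ^ 2 := by positivity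
  have hSq : 0 < sinq q ^ (-p) := Real.rpow_pos_of_pos hS _
  have he := Real.exp_pos (-p * q.2.2.2)
  have hSp : sinq q ^ (-p) * sinq q ^ 2 ≤ 1 := by
    rw [← Real.rpow_natCast (sinq q) 2, ← Real.rpow_add hS]
    exact Real.rpow_le_one hS.le hS1 (by push_cast; linarith)
  set S := sinq q
  set X := S ^ (-p)
  have key : X * (κ / 2 * p * (S ^ 2 - (bb κ - p) * (1 - S ^ 2)) - p) + -(κ / 2 * p) ≤ 0 := by
    have h1 : 0 ≤ (bb κ - p) * (1 - S ^ 2) := by
      apply mul_nonneg (by linarith)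
      nlinarith
    have h2 : κ / 2 * p * (X * S ^ 2) ≤ κ / 2 * p * 1 := by gcongr
    have h3 : 0 ≤ κ / 2 * p * X * ((bb κ - p) * (1 - S ^ 2)) := by positivity
    have h4 : 0 ≤ X * p := by positivity
    nlinarith
  have h5 : 0 ≤ 1 / (q.1 ^ 2 + q.2.1 ^ 2) * (Gq κ q * Real.exp (-p * q.2.2.2)) := by positivity
  have h6 := mul_nonpos_of_nonneg_of_nonpos h5 key
  refine le_trans (le_of_eq ?_) (h6.trans (by simp))
  ring

lemma cont_gen_Fp : ContinuousOn (gen κ (Fp κ p)) {q | 0 < q.2.1} := by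
  have h := (continuousOn_gen_V3 hκ (p - bb κ) p (g := fun _ => 1) (g' := fun _ => 0)
    (fun s => hasDerivAt_const s _) contDiff_const continuous_const).add
    (continuousOn_gen_V3 hκ (-bb κ) p (g := fun _ => κ / 2) (g' := fun _ => 0)
    (fun s => hasDerivAt_const s _) contDiff_const continuous_const)
  exact h.congr fun q hq => gen_Fp_eq hκ hp0 hpb hp2 hq

lemma contDiff_Fp : ContDiffOn ℝ 3 (Fp κ p) {q | 0 < q.2.1} := by
  obtain ⟨J1, J2⟩ := jetsp hκ hp0 hpb hp2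
  exact contDiffOn_pq3 (J1.add J2) 0 0

end Fp

/-! ### the deterministic time bound -/

theorem time_le {W : ℝ → ℝ} {w : ℂ} {t : ℝ} (hW : Continuous W) (h : Alive W w t) {Rr : ℝ}
    (hR : 0 < Rr)
    (hs : ∀ s ∈ Icc 0 t, Real.exp (-(stW W s w).2.2.2) ≤ Rr * sinq (stW W s w)) :
    t ≤ (w.im * Rr) ^ 2 / 2 := by
  have hw : 0 < w.im := h.im_pos
  set c := 2 / (w.im * Rr ^ 2) with hc
  have hc0 : 0 < c := by positivity
  have hcg : ContinuousOn (fun s => (gfl W s w).im + c * s) (Icc 0 t) :=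
    (Complex.continuous_im.comp_continuousOn (continuousOn_gfl h)).add
      (continuous_const.mul continuous_id).continuousOn
  have hder : ∀ s ∈ Ioo 0 t, HasDerivAt (fun s => (gfl W s w).im + c * s)
      ((2 / (gfl W s w - W s)).im + c) s := by
    intro s hs'
    have h1 : HasDerivAt (fun s => (gfl W s w).im) ((2 / (gfl W s w - W s)).im) s :=
      (hasDerivWithinAt_im (hasDerivWithinAt_gfl h (Ioo_subset_Icc_self hs'))).hasDerivAt
        (Icc_mem_nhds hs'.1 hs'.2)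
    have h2 : HasDerivAt (fun s : ℝ => c * s) c s := by
      simpa using (hasDerivAt_id s).const_mul c
    exact h1.add h2
  have hanti : AntitoneOn (fun s => (gfl W s w).im + c * s) (Icc 0 t) := by
    refine antitoneOn_of_deriv_nonpos (convex_Icc 0 t) hcg ?_ ?_
    · intro s hs'
      rw [interior_Icc] at hs'
      exact (hder s hs').differentiableAt.differentiableWithinAt
    · intro s hs'
      rw [interior_Icc] at hs'
      rw [(hder s hs').deriv]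
      have hs'' := Ioo_subset_Icc_self hs'
      have ha := h.mono hs''.1 hs''.2
      have hY := Y_pos ha
      have e1 := hs s hs''
      have e2 := Y_eq hW ha
      have hS := sinq_pos' hY
      have him : (2 / (gfl W s w - W s)).im = -(2 * (gfl W s w).im / ‖Zfl W s w‖ ^ 2) := by
        rw [im_two_div, Complex.normSq_eq_norm_sq]; rfl
      rw [him]
      have hYg : (stW W s w).2.1 = (gfl W s w).im := by rw [stW_Y, Zfl_im]
      have hsq : sinq (stW W s w) ^ 2 = (gfl W s w).im ^ 2 / ‖Zfl W s w‖ ^ 2 := by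
        rw [← sfl_eq']; unfold sfl; rw [div_pow, Zfl_im]
      have hN : 0 < ‖Zfl W s w‖ ^ 2 := by
        have := norm_pos_iff.2 (Zfl_ne_zero ha); positivity
      rw [hYg] at hY e2
      set y := (gfl W s w).im
      set N := ‖Zfl W s w‖ ^ 2
      set a := (stW W s w).2.2.2
      have h3 : Real.exp (-a) ^ 2 ≤ Rr ^ 2 * (y ^ 2 / N) := by
        rw [← hsq, ← mul_pow]
        exact pow_le_pow_left₀ (Real.exp_pos _).le e1 2
      have h4 : Real.exp (-a) ^ 2 = y / w.im := by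
        rw [e2, ← Real.exp_nat_mul]
        field_simp
        congr 1
        push_cast; ring
      rw [h4] at h3
      have h5 : c ≤ 2 * y / N := by
        rw [hc, div_le_div_iff₀ (by positivity) hN]
        rw [div_le_iff₀ hw] at h3
        have h6 : y * N ≤ Rr ^ 2 * y ^ 2 * w.im := by
          calc y * N ≤ (Rr ^ 2 * (y ^ 2 / N) * w.im) * N := by gcongr
            _ = _ := by field_simp
        have h7 : N ≤ Rr ^ 2 * y * w.im := by
          have : y * N ≤ y * (Rr ^ 2 * y * w.im) := by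
            calc _ ≤ _ := h6
              _ = _ := by ring
          exact le_of_mul_le_mul_left this hY
        nlinarith
      linarith
  have h0 := hanti ⟨le_rfl, h.1⟩ ⟨h.1, le_rfl⟩ h.1
  simp only [mul_zero, add_zero] at h0
  have hg0 : gfl W 0 w = w := gfl_zero' h
  rw [hg0] at h0
  have hgt := gfl_im_pos h
  have h8 : c * t ≤ w.im := by linarith
  rw [hc, div_mul_eq_mul_div, div_le_iff₀ (by positivity)] at h8
  nlinarith

end Crest.Agent.R162.LBC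
end

-- ▼ part R162/LBC7
section

/-!
Row 162, node LB-CONTENT, file 7 (helper499): lower bound of the mass of the content up to a fixed
time.
-/

set_option autoImplicit false
set_option linter.unusedSectionVars false

open MeasureTheory ProbabilityTheory Set Filter
open scoped NNReal ENNReal Topology

namespace Crest.Agent.R162.LBC

open Crest.Agent.R162.GEN Crest.Agent.R162.OPGen
open FL OP OS Crest.ProbabilityR.Loewner

universe u

lemma st0_eq {W : ℝ → ℝ} {w : ℂ} (hW0 : W 0 = 0) (hw : 0 < w.im) :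
    stW W 0 w = (w.re, w.im, Real.log w.im, 0) := by
  unfold stW ups ath
  simp [Zfl, gfl_zero hw, hW0]

/-- the domain of the exit time -/
def Od (r A Rr : ℝ) : Set (ℝ × ℝ × ℝ × ℝ) :=
  bo r ∩ {q | q.2.2.2 < A ∧ Real.exp (-q.2.2.2) < Rr * sinq q}

section Od

variable {r A Rr : ℝ}

lemma bo_pos (hr : 0 < r) {q : ℝ × ℝ × ℝ × ℝ} (hq : q ∈ bo r) : 0 < q.2.1 :=
  bc_pos' hr (bo_subset_bc r hq)

lemma isOpen_Od (hr : 0 < r) : IsOpen (Od r A Rr) := by
  have h1 : ContinuousOn (fun q : ℝ × ℝ × ℝ × ℝ =>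
      ((A - q.2.2.2, Rr * sinq q - Real.exp (-q.2.2.2)) : ℝ × ℝ)) (bo r) := by
    have hS := continuousOn_sinq.mono (fun q hq => bo_pos hr hq : bo r ⊆ {q | 0 < q.2.1})
    exact (by fun_prop : ContinuousOn (fun q : ℝ × ℝ × ℝ × ℝ => A - q.2.2.2) (bo r)).prodMk
      ((continuousOn_const.mul hS).sub (by fun_prop))
  have h2 := h1.isOpen_inter_preimage (isOpen_bo r) ((isOpen_Ioi (a := (0:ℝ))).prod
    (isOpen_Ioi (a := (0:ℝ))))
  convert h2 using 1
  ext q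
  simp only [Od, mem_inter_iff, mem_ofPred_eq, mem_preimage, mem_prod, mem_Ioi, sub_pos]

lemma closure_Od (hr : 0 < r) {q : ℝ × ℝ × ℝ × ℝ} (hq : q ∈ closure (Od r A Rr)) :
    q ∈ bc r ∧ q.2.2.2 ≤ A ∧ Real.exp (-q.2.2.2) ≤ Rr * sinq q := by
  have h1 : ContinuousOn (fun q : ℝ × ℝ × ℝ × ℝ =>
      ((A - q.2.2.2, Rr * sinq q - Real.exp (-q.2.2.2)) : ℝ × ℝ)) (bc r) := by
    have hS := continuousOn_sinq.mono (fun q hq => bc_pos' hr hq : bc r ⊆ {q | 0 < q.2.1})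
    exact (by fun_prop : ContinuousOn (fun q : ℝ × ℝ × ℝ × ℝ => A - q.2.2.2) (bc r)).prodMk
      ((continuousOn_const.mul hS).sub (by fun_prop))
  have h2 := h1.preimage_isClosed_of_isClosed (isCompact_bc r).isClosed
    ((isClosed_Ici (a := (0:ℝ))).prod (isClosed_Ici (a := (0:ℝ))))
  have h3 : Od r A Rr ⊆ bc r ∩ (fun q : ℝ × ℝ × ℝ × ℝ =>
      ((A - q.2.2.2, Rr * sinq q - Real.exp (-q.2.2.2)) : ℝ × ℝ)) ⁻¹' (Ici 0 ×ˢ Ici 0) := by
    intro p hp
    refine ⟨bo_subset_bc r hp.1, ?_, ?_⟩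
    · simpa using hp.2.1.le
    · simpa using hp.2.2.le
  have h4 := (closure_minimal h3 h2) hq
  refine ⟨h4.1, ?_, ?_⟩
  · have := h4.2.1; simpa using this
  · have := h4.2.2; simpa using this

end Od

/-- a radius that is certainly large enough -/
noncomputable def rr (y A Rr : ℝ) : ℝ :=
  y + y * Rr + Real.exp (2 * A) / y + |Real.log y| + 5 * A + 1

lemma rr_pos {y A Rr : ℝ} (hy : 0 < y) (hA : 0 < A) (hR : 0 < Rr) : 0 < rr y A Rr := by
  unfold rr; have := abs_nonneg (Real.log y); positivity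

lemma mem_bo_rr {W : ℝ → ℝ} {w : ℂ} {t : ℝ} (hW : Continuous W) (h : Alive W w t) {A Rr : ℝ}
    (hA : 0 < A) (hR : 0 < Rr) (ha : (stW W t w).2.2.2 ≤ A)
    (he : Real.exp (-(stW W t w).2.2.2) ≤ Rr * sinq (stW W t w)) :
    stW W t w ∈ bo (rr w.im A Rr) := by
  have hw : 0 < w.im := h.im_pos
  have hY := Y_pos h
  have e2 := Y_eq hW h
  have hL1 := L_le hW h
  have hL2 := le_L hW h
  have ha0 := a_nonneg h
  have hYle := Y_le hW h
  have hlog := abs_nonneg (Real.log w.im)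
  have hl1 := le_abs_self (Real.log w.im)
  have hl2 := neg_abs_le (Real.log w.im)
  have hexp : 0 < Real.exp (2 * A) / w.im := by positivity
  have hX : |(stW W t w).1| ≤ w.im * Rr := by
    unfold sinq at he
    set X := (stW W t w).1
    set Y := (stW W t w).2.1
    set a := (stW W t w).2.2.2
    have hN : 0 < Real.sqrt (X ^ 2 + Y ^ 2) := by positivity
    have h1 : |X| ≤ Real.sqrt (X ^ 2 + Y ^ 2) := by
      refine Real.abs_le_sqrt ?_
      nlinarith [sq_nonneg Y]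
    have h2 : Real.exp (-a) * Real.sqrt (X ^ 2 + Y ^ 2) ≤ Rr * Y := by
      calc _ ≤ (Rr * (Y / Real.sqrt (X ^ 2 + Y ^ 2))) * Real.sqrt (X ^ 2 + Y ^ 2) := by gcongr
        _ = Rr * Y := by field_simp
    have h3 : Real.sqrt (X ^ 2 + Y ^ 2) ≤ Rr * w.im * Real.exp (-a) := by
      have h4 : Real.exp (-a) * Real.sqrt (X ^ 2 + Y ^ 2)
          ≤ Real.exp (-a) * (Rr * w.im * Real.exp (-a)) := by
        calc _ ≤ Rr * Y := h2
          _ = Real.exp (-a) * (Rr * w.im * Real.exp (-a)) := by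
            rw [e2, show -2 * a = -a + -a by ring, Real.exp_add]; ring
      exact le_of_mul_le_mul_left h4 (Real.exp_pos _)
    have h5 : Real.exp (-a) ≤ 1 := Real.exp_le_one_iff.2 (by linarith)
    calc |X| ≤ _ := h1
      _ ≤ Rr * w.im * Real.exp (-a) := h3
      _ ≤ Rr * w.im * 1 := by gcongr
      _ = w.im * Rr := by ring
  have hYge : w.im * Real.exp (-2 * A) ≤ (stW W t w).2.1 := by
    rw [e2]
    have : Real.exp (-2 * A) ≤ Real.exp (-2 * (stW W t w).2.2.2) :=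
      Real.exp_le_exp.2 (by linarith)
    gcongr
  have hyR : 0 < w.im * Rr := by positivity
  refine mem_bo_of (M := w.im + w.im * Rr + |Real.log w.im| + 5 * A) (c := w.im * Real.exp (-2 * A))
    (by positivity) (by linarith) hYge ?_ ?_ ?_ ?_ ?_
  · rw [abs_of_pos hY]; linarith
  · rw [abs_le]; constructor <;> linarith
  · rw [abs_of_nonneg ha0]; linarith
  · unfold rr; linarith
  · have : 1 / (w.im * Real.exp (-2 * A)) = Real.exp (2 * A) / w.im := by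
      rw [show -2 * A = -(2 * A) by ring, Real.exp_neg]; field_simp
    rw [this]
    unfold rr; linarith

/-! ### the functions `F_b`, `H_b` -/

/-- `G ψ(L - log ε)` -/
noncomputable def Fb (κ ε : ℝ) (ψ : ℝ → ℝ) : ℝ × ℝ × ℝ × ℝ → ℝ :=
  pq (V3 κ (-bb κ) 0 (fun L => ψ (L - Real.log ε))) 0 0

/-- `k(L - log ε) G 4 S² |Z|^{-2}` -/
noncomputable def Hb (κ ε : ℝ) (k : ℝ → ℝ) (q : ℝ × ℝ × ℝ × ℝ) : ℝ :=
  k (q.2.2.1 - Real.log ε) * (Gq κ q * (4 * sinq q ^ 2 / (q.1 ^ 2 + q.2.1 ^ 2)))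

lemma Fb_eq {κ ε : ℝ} {ψ : ℝ → ℝ} (hκ : κ ≠ 0) {q : ℝ × ℝ × ℝ × ℝ} (hq : 0 < q.2.1) :
    Fb κ ε ψ q = ψ (q.2.2.1 - Real.log ε) * Gq κ q := by
  unfold Fb
  rw [pq_V3, E3_eq' hκ hq]

lemma hasDerivAt_shift' {ψ k : ℝ → ℝ} (h : ∀ x, HasDerivAt ψ (k x) x) (c s : ℝ) :
    HasDerivAt (fun L => ψ (L - c)) (k (s - c)) s := by
  have h1 : HasDerivAt (fun L : ℝ => L - c) 1 s := (hasDerivAt_id s).sub_const c
  have h2 : HasDerivAt (fun L => ψ (L - c)) (k (s - c) * 1) s := (h (s - c)).comp s h1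
  rwa [mul_one] at h2

lemma gen_Fb {κ ε : ℝ} {ψ k : ℝ → ℝ} (hκ : 0 < κ) (cψ : ContDiff ℝ (⊤ : ℕ∞) ψ)
    (hψ : ∀ x, HasDerivAt ψ (k x) x) {q : ℝ × ℝ × ℝ × ℝ} (hq : 0 < q.2.1) :
    gen κ (Fb κ ε ψ) q = - Hb κ ε k q := by
  unfold Fb
  rw [gen_V3 hκ (-bb κ) 0 (g' := fun L => k (L - Real.log ε)) (hasDerivAt_shift' hψ _)
    (cψ.comp (contDiff_id.sub contDiff_const)) hq, E3_eq' hκ.ne' hq, brk_b]
  unfold Hb
  ring

/-- the pointwise estimate at the exit point -/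
lemma exit_est {κ ε : ℝ} {ψ : ℝ → ℝ} (hκ : 0 < κ) (hκ8 : κ < 8) (hε : 0 < ε)
    (hψ1 : ∀ x, ψ x ≤ 1) (hψn : ∀ x, x ≤ 0 → ψ x = 0)
    {p c A Rr : ℝ} (hp0 : 0 < p) (hpb : p ≤ bb κ) (hp2 : p ≤ 2) (hc : 0 ≤ c) (hR : 0 < Rr)
    {q : ℝ × ℝ × ℝ × ℝ} (hq : 0 < q.2.1)
    (h : A ≤ q.2.2.2 ∨ Rr * sinq q ≤ Real.exp (-q.2.2.2)) :
    Fb κ ε ψ q ≤ (ε ^ (κ / 8 - 1) * Real.exp (-c * A)) * GEX.fS c 0 (bb κ / 2) q
      + Rr ^ (-p) * Fp κ p q := by
  have hG := Gq_pos κ hq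
  have hS := sinq_pos' hq
  have hS1 := sinq_le_one' hq
  have hb : 0 < bb κ := by
    unfold bb; have : 1 < 8 / κ := by rw [lt_div_iff₀ hκ]; linarith
    linarith
  rw [Fb_eq hκ.ne' hq, Fp_eq hκ hp0 hpb hp2 hq, GEX.fS_eq hq]
  have hSp : 0 < sinq q ^ (-p) := Real.rpow_pos_of_pos hS _
  have hSb : 0 < sinq q ^ (bb κ / 2) := Real.rpow_pos_of_pos hS _
  have hRp : 0 < Rr ^ (-p) := Real.rpow_pos_of_pos hR _
  have n1 : 0 ≤ (ε ^ (κ / 8 - 1) * Real.exp (-c * A)) * (Real.exp (c * q.2.2.2 + 0 * q.2.2.1) *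
      sinq q ^ (bb κ / 2)) := by positivity
  have n2 : 0 ≤ Rr ^ (-p) * (Gq κ q * Real.exp (-p * q.2.2.2) * (sinq q ^ (-p) + κ / 2)) := by
    positivity
  rcases h with h | h
  · -- `a ≥ A`
    have h1 : ψ (q.2.2.1 - Real.log ε) * Gq κ q ≤ ε ^ (κ / 8 - 1) * sinq q ^ (bb κ / 2) := by
      rcases le_or_gt (q.2.2.1 - Real.log ε) 0 with hL | hL
      · rw [hψn _ hL, zero_mul]; positivity
      · have h2 : ψ (q.2.2.1 - Real.log ε) * Gq κ q ≤ Gq κ q := by
          have := hψ1 (q.2.2.1 - Real.log ε); nlinarith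
        refine h2.trans ?_
        unfold Gq
        have h3 : Real.exp ((κ / 8 - 1) * q.2.2.1) ≤ ε ^ (κ / 8 - 1) := by
          rw [Real.rpow_def_of_pos hε]
          refine Real.exp_le_exp.2 ?_
          nlinarith
        have h4 : sinq q ^ (8 / κ - 1) ≤ sinq q ^ (bb κ / 2) := by
          refine Real.rpow_le_rpow_of_exponent_ge hS hS1 ?_
          change bb κ / 2 ≤ bb κ
          linarith
        exact mul_le_mul h3 h4 (Real.rpow_nonneg hS.le _) (Real.rpow_nonneg hε.le _)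
    have h5 : 1 ≤ Real.exp (-c * A) * Real.exp (c * q.2.2.2 + 0 * q.2.2.1) := by
      rw [← Real.exp_add]
      refine Real.one_le_exp ?_
      nlinarith
    have h6 : ε ^ (κ / 8 - 1) * sinq q ^ (bb κ / 2)
        ≤ (ε ^ (κ / 8 - 1) * Real.exp (-c * A)) * (Real.exp (c * q.2.2.2 + 0 * q.2.2.1) *
      sinq q ^ (bb κ / 2)) := by
      have h7 : 0 ≤ ε ^ (κ / 8 - 1) * sinq q ^ (bb κ / 2) := by positivity
      calc _ = (ε ^ (κ / 8 - 1) * sinq q ^ (bb κ / 2)) * 1 := by ring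
        _ ≤ (ε ^ (κ / 8 - 1) * sinq q ^ (bb κ / 2)) *
          (Real.exp (-c * A) * Real.exp (c * q.2.2.2 + 0 * q.2.2.1)) := by gcongr
        _ = _ := by ring
    linarith
  · -- `e^{-a} ≥ R S`
    have h2 : ψ (q.2.2.1 - Real.log ε) * Gq κ q ≤ Gq κ q := by
      have := hψ1 (q.2.2.1 - Real.log ε); nlinarith
    have h3 : Rr ≤ Real.exp (-q.2.2.2) / sinq q := by rw [le_div_iff₀ hS]; exact h
    have h4 : Rr ^ p ≤ (Real.exp (-q.2.2.2) / sinq q) ^ p :=
      Real.rpow_le_rpow hR.le h3 hp0.le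
    have h5 : (Real.exp (-q.2.2.2) / sinq q) ^ p = Real.exp (-p * q.2.2.2) * sinq q ^ (-p) := by
      rw [Real.div_rpow (Real.exp_pos _).le hS.le, ← Real.exp_mul, Real.rpow_neg hS.le,
        div_eq_mul_inv]
      congr 2
      ring
    rw [h5] at h4
    have h6 : 1 ≤ Rr ^ (-p) * (Real.exp (-p * q.2.2.2) * sinq q ^ (-p)) := by
      calc (1:ℝ) = Rr ^ (-p) * Rr ^ p := by
            rw [← Real.rpow_add hR]; simp
        _ ≤ _ := by gcongr
    have h7 : Gq κ q ≤ Rr ^ (-p) * (Gq κ q * Real.exp (-p * q.2.2.2) * (sinq q ^ (-p) + κ / 2)) := by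
      have h8 : 0 ≤ Rr ^ (-p) * (Gq κ q * Real.exp (-p * q.2.2.2) * (κ / 2)) := by positivity
      nlinarith
    linarith

end Crest.Agent.R162.LBC
end

-- ▼ part R162/LBC8
section

/-!
Row 162, node LB-CONTENT, file 8 (helper499): `MassAll`.
-/

set_option autoImplicit false
set_option linter.unusedSectionVars false

open MeasureTheory ProbabilityTheory Set Filter
open scoped NNReal ENNReal Topology

namespace Crest.Agent.R162.LBC

open Crest.Agent.R162.GEN Crest.Agent.R162.OPGen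
open FL OP OS Crest.ProbabilityR.Loewner

universe u

section prob

variable {Ω : Type u} {m : MeasurableSpace Ω} {P : Measure Ω} [IsProbabilityMeasure P]
  {Fl : Filtration ℝ≥0 m} {B : ℝ≥0 → Ω → ℝ} {κ : ℝ} {w : ℂ}

lemma driving_zero (hB : IsBM Fl B P) (κ : ℝ) (ω : Ω) : driving κ B ω 0 = 0 := by
  unfold driving
  simp [hB.zero ω]

/-- the state at time zero -/
noncomputable def s0 (w : ℂ) : ℝ × ℝ × ℝ × ℝ := (w.re, w.im, Real.log w.im, 0)

lemma stP_zero (hB : IsBM Fl B P) (hw : 0 < w.im) (ω : Ω) : stP κ B w 0 ω = s0 w := by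
  unfold stP
  rw [NNReal.coe_zero]
  exact st0_eq (driving_zero hB κ ω) hw

theorem mass_step (hB : IsBM Fl B P) (hκ : 0 < κ) (hκ8 : κ < 8) (hw : 0 < w.im)
    {ψ k : ℝ → ℝ} (cψ : ContDiff ℝ (⊤ : ℕ∞) ψ) (ck : Continuous k)
    (hψ : ∀ x, HasDerivAt ψ (k x) x) (hψ0 : ∀ x, 0 ≤ ψ x) (hψ1 : ∀ x, ψ x ≤ 1)
    (hψn : ∀ x, x ≤ 0 → ψ x = 0) (hk0 : ∀ x, 0 ≤ k x)
    {ε : ℝ} (hε : 0 < ε) {p : ℝ} (hp0 : 0 < p) (hpb : p ≤ bb κ) (hp2 : p ≤ 2)
    {Rr : ℝ} (hR : 1 < Rr * sinq (s0 w)) (hR0 : 0 < Rr) {n : ℕ} (hn : (w.im * Rr) ^ 2 / 2 < n)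
    {A : ℝ} (hA : 0 < A) {c : ℝ} (hc0 : 0 ≤ c) (hc1 : c ≤ κ * (bb κ / 2) / 2 * (bb κ / 2))
    (hc2 : c ≤ κ * (bb κ / 2) / 2) :
    ENNReal.ofReal (Fb κ ε ψ (s0 w)) ≤
      ∫⁻ ω, (∫⁻ s in Ioc (0:ℝ) n, hr (Hb κ ε k) κ B w ω s) ∂P
      + (ENNReal.ofReal (ε ^ (κ / 8 - 1) * Real.exp (-c * A))
        + ENNReal.ofReal (Rr ^ (-p) * Fp κ p (s0 w))) := by
  classical
  have hb : 0 < bb κ := by
    unfold bb; have : 1 < 8 / κ := by rw [lt_div_iff₀ hκ]; linarith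
    linarith
  set r := rr w.im A Rr with hr_def
  have hr0 : 0 < r := rr_pos hw hA hR0
  set O := Od r A Rr with hO_def
  have hO : IsOpen O := isOpen_Od hr0
  have hOr : O ⊆ bo r := inter_subset_left
  set σ : Ω → ℝ≥0 := fun _ => 0 with hσ_def
  set T : ℝ≥0 := (n : ℝ≥0) with hT
  set τ : Ω → ℝ≥0 := fun _ => T with hτ_def
  have hσ : IsST Fl σ := IsST.const 0
  have hτ : IsST Fl τ := IsST.const T
  have hE := exit_ok5 hB κ w
  have hAe : EvST Fl σ univ := EvST.univ hσ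
  have hW := fun ω => cont_driving hB κ ω
  have hal0 : ∀ ω, Alive (driving κ B ω) w (0:ℝ≥0) := fun ω => by
    rw [NNReal.coe_zero]; exact alive_zero hw
  have hs0O : ∀ ω, stP κ B w (σ ω) ω ∈ O := by
    intro ω
    have e0 : stP κ B w (σ ω) ω = s0 w := stP_zero hB hw ω
    refine ⟨?_, ?_, ?_⟩
    · have := mem_bo_rr (hW ω) (hal0 ω) hA hR0 (by
        have : stW (driving κ B ω) ((0:ℝ≥0):ℝ) w = s0 w := stP_zero (κ := κ) hB hw ω
        rw [this]; exact hA.le) (by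
        have : stW (driving κ B ω) ((0:ℝ≥0):ℝ) w = s0 w := stP_zero (κ := κ) hB hw ω
        rw [this]
        have h1 : (s0 w).2.2.2 = 0 := rfl
        rw [h1, neg_zero, Real.exp_zero]; exact hR.le)
      exact this
    · rw [e0]; exact hA
    · rw [e0]
      have h1 : (s0 w).2.2.2 = 0 := rfl
      rw [h1, neg_zero, Real.exp_zero]; exact hR
  have hg : ∀ s, HasDerivAt (fun L => ψ (L - Real.log ε)) (k (s - Real.log ε)) s :=
    hasDerivAt_shift' hψ _
  have cg : ContDiff ℝ (⊤ : ℕ∞) (fun L => ψ (L - Real.log ε)) :=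
    cψ.comp (contDiff_id.sub contDiff_const)
  have cg' : Continuous (fun L => k (L - Real.log ε)) := ck.comp (continuous_id.sub continuous_const)
  have hFb3 : ContDiffOn ℝ 3 (Fb κ ε ψ) {q | 0 < q.2.1} :=
    contDiffOn_pq3 (jet_V3 κ _ 0 hg cg) 0 0
  have hFb0 : ∀ q : ℝ × ℝ × ℝ × ℝ, 0 < q.2.1 → 0 ≤ Fb κ ε ψ q := fun q hq => by
    rw [Fb_eq hκ.ne' hq]; exact mul_nonneg (hψ0 _) (Gq_pos κ hq).le
  have hHb0 : ∀ q : ℝ × ℝ × ℝ × ℝ, 0 < q.2.1 → 0 ≤ Hb κ ε k q := fun q hq => by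
    unfold Hb
    have h1 := hk0 (q.2.2.1 - Real.log ε)
    have h2 := Gq_pos κ hq
    have h3 := sinq_pos' hq
    positivity
  have eqb := box_eq OPM.opm hB hκ hw hE hFb3 hFb0
    (continuousOn_gen_V3 hκ (-bb κ) 0 hg cg cg') hHb0 (fun q hq => gen_Fb hκ cψ hψ hq)
    hO hr0 hOr hσ hτ (T := T) (fun _ => le_rfl) hAe (fun _ _ => bot_le) (fun ω _ => hs0O ω)
  -- the two supermartingales
  have supP := box_super (H := fun _ => 0) OPM.opm hB hκ hw hE (contDiff_Fp hκ hp0 hpb hp2)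
    (fun q hq => by
      rw [Fp_eq hκ hp0 hpb hp2 hq]
      have h2 := Gq_pos κ hq
      have h3 := sinq_pos' hq
      positivity)
    (cont_gen_Fp hκ hp0 hpb hp2) (fun _ _ => le_rfl) (fun q hq => gen_Fp_le hκ hp0 hpb hp2 hq)
    hO hr0 hOr hσ hτ (T := T) (fun _ => le_rfl) hAe (fun _ _ => bot_le) (fun ω _ => hs0O ω)
  have hFs0 : ∀ q : ℝ × ℝ × ℝ × ℝ, 0 < q.2.1 → 0 ≤ GEX.fS c 0 (bb κ / 2) q := fun q hq => by
    rw [GEX.fS_eq hq]
    have h3 := sinq_pos' hq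
    positivity
  have hgS : ContinuousOn (gen κ (GEX.fS c 0 (bb κ / 2))) {q | 0 < q.2.1} := by
    have h0 : ContinuousOn (fun q : ℝ × ℝ × ℝ × ℝ =>
        GEX.fS c 0 (bb κ / 2) q / (q.1 ^ 2 + q.2.1 ^ 2) *
      (κ * (bb κ / 2) / 2 * (q.1 ^ 2 / (q.1 ^ 2 + q.2.1 ^ 2) * ((bb κ / 2) - (8 / κ - 1))
        - q.2.1 ^ 2 / (q.1 ^ 2 + q.2.1 ^ 2)) - 4 * 0 * (q.2.1 ^ 2 / (q.1 ^ 2 + q.2.1 ^ 2)) + c))
        {q | 0 < q.2.1} := by
      have h1 : ContinuousOn (GEX.fS c 0 (bb κ / 2)) {q : ℝ × ℝ × ℝ × ℝ | 0 < q.2.1} :=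
        (GEX.contDiffOn_fS c 0 (bb κ / 2) (n := 3)).continuousOn
      have hne : ∀ q ∈ {q : ℝ × ℝ × ℝ × ℝ | 0 < q.2.1}, q.1 ^ 2 + q.2.1 ^ 2 ≠ 0 := fun q hq => by
        have : (0:ℝ) < q.2.1 := hq
        positivity
      have h2 : ContinuousOn (fun q : ℝ × ℝ × ℝ × ℝ => q.1 ^ 2 / (q.1 ^ 2 + q.2.1 ^ 2))
          {q | 0 < q.2.1} := ContinuousOn.div (by fun_prop) (by fun_prop) hne
      have h3 : ContinuousOn (fun q : ℝ × ℝ × ℝ × ℝ => q.2.1 ^ 2 / (q.1 ^ 2 + q.2.1 ^ 2))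
          {q | 0 < q.2.1} := ContinuousOn.div (by fun_prop) (by fun_prop) hne
      exact (h1.div (by fun_prop) hne).mul ((((continuousOn_const.mul ((h2.mul
        continuousOn_const).sub h3)).sub (continuousOn_const.mul h3))).add continuousOn_const)
    exact h0.congr fun q hq => GEX.gen_fS hκ c 0 (bb κ / 2) hq
  have supS := box_super (H := fun _ => 0) OPM.opm hB hκ hw hE
    (GEX.contDiffOn_fS c 0 (bb κ / 2)) hFs0 hgS (fun _ _ => le_rfl)
    (fun q hq => by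
      have := GEX.gen_S_nonpos hκ (p := bb κ / 2) (la := c) (q := q) (by
        change c ≤ κ * (bb κ / 2) / 2 * (bb κ - bb κ / 2)
        linarith) hc2 hq
      simpa using this)
    hO hr0 hOr hσ hτ (T := T) (fun _ => le_rfl) hAe (fun _ _ => bot_le) (fun ω _ => hs0O ω)
  -- integrability of the terminal values
  obtain ⟨key, -, iS, -, -⟩ := box_step OPM.opm hB hκ hw hE
    (GEX.contDiffOn_fS c 0 (bb κ / 2)) hgS hO hr0 hOr hσ hτ (T := T) (fun _ => le_rfl) hAe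
    (fun _ _ => bot_le) (fun ω _ => hs0O ω)
  set τ' : Ω → ℝ≥0 := fun ω => min (hit (stP κ B w) Oᶜ σ T ω) (τ ω) with hτ'
  simp only [Measure.restrict_univ] at eqb supP supS
  have eσ : ∀ ω, stP κ B w (σ ω) ω = s0 w := fun ω => stP_zero hB hw ω
  -- pointwise estimate at the exit
  have hpt : ∀ ω, Fb κ ε ψ (stP κ B w (τ' ω) ω)
      ≤ (ε ^ (κ / 8 - 1) * Real.exp (-c * A)) * GEX.fS c 0 (bb κ / 2) (stP κ B w (τ' ω) ω)
        + Rr ^ (-p) * Fp κ p (stP κ B w (τ' ω) ω) := by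
    intro ω
    obtain ⟨h1, h2, h3⟩ := OPTr.hit_open_spec (κ := κ) (w := w) hB
      (δ := 1 / r) (by positivity) hO (fun q hq => (hOr hq).2.1.1.le) σ T (hs0O ω)
    have hcl := fun t (ht : t ≤ τ' ω) => (h1 t bot_le (ht.trans (min_le_left _ _)))
    have halt : Alive (driving κ B ω) w (τ' ω) := (hcl _ le_rfl).1
    have hbd : ∀ s ∈ Icc (0:ℝ) (τ' ω), Real.exp (-(stW (driving κ B ω) s w).2.2.2)
        ≤ Rr * sinq (stW (driving κ B ω) s w) := by
      intro s hs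
      exact (closure_Od hr0 (hcl ⟨s, hs.1⟩ (by exact_mod_cast hs.2)).2).2.2
    have htl := time_le (hW ω) halt hR0 hbd
    have hlt : hit (stP κ B w) Oᶜ σ T ω < T := by
      by_contra hc'
      push Not at hc'
      have : τ' ω = T := min_eq_right hc'
      rw [this, hT] at htl
      push_cast at htl
      linarith
    have hτ'e : τ' ω = hit (stP κ B w) Oᶜ σ T ω := min_eq_left hlt.le
    have hnot : stP κ B w (τ' ω) ω ∉ O := by
      rcases h3 with h3 | h3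
      · exfalso
        have hm : max T (σ ω) = T := max_eq_left bot_le
        rw [h3, hm] at hlt
        exact lt_irrefl _ hlt
      · rw [hτ'e]; exact h3
    have hcl' := closure_Od hr0 (hcl _ le_rfl).2
    have hY : 0 < (stP κ B w (τ' ω) ω).2.1 := bc_pos' hr0 hcl'.1
    have hbo : stP κ B w (τ' ω) ω ∈ bo r := mem_bo_rr (hW ω) halt hA hR0 hcl'.2.1 hcl'.2.2
    refine exit_est hκ hκ8 hε hψ1 hψn hp0 hpb hp2 hc0 hR0 hY ?_
    by_contra hcon
    push Not at hcon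
    exact hnot ⟨hbo, hcon.1, hcon.2⟩
  have hFbn : ∀ ω, 0 ≤ Fp κ p (stP κ B w (τ' ω) ω) ∧
      0 ≤ GEX.fS c 0 (bb κ / 2) (stP κ B w (τ' ω) ω) := by
    intro ω
    have hY : 0 < (stP κ B w (τ' ω) ω).2.1 := by
      have := ((key ω (mem_univ _)).2 (τ' ω) bot_le le_rfl).2
      exact bc_pos' hr0 ((closure_mono hOr).trans (closure_bo_subset r) this)
    refine ⟨?_, hFs0 _ hY⟩
    rw [Fp_eq hκ hp0 hpb hp2 hY]
    have h2 := Gq_pos κ hY
    have h3 := sinq_pos' hY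
    positivity
  have hterm : ∫⁻ ω, ENNReal.ofReal (Fb κ ε ψ (stP κ B w (τ' ω) ω)) ∂P
      ≤ ENNReal.ofReal (ε ^ (κ / 8 - 1) * Real.exp (-c * A))
        + ENNReal.ofReal (Rr ^ (-p) * Fp κ p (s0 w)) := by
    have hδ : 0 ≤ ε ^ (κ / 8 - 1) * Real.exp (-c * A) := by positivity
    have hRp : 0 ≤ Rr ^ (-p) := by positivity
    have iS' : AEMeasurable (fun ω => ENNReal.ofReal (ε ^ (κ / 8 - 1) * Real.exp (-c * A)) *
        ENNReal.ofReal (GEX.fS c 0 (bb κ / 2) (stP κ B w (τ' ω) ω))) P := by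
      have := iS.aestronglyMeasurable.aemeasurable
      rw [Measure.restrict_univ] at this
      exact this.ennreal_ofReal.const_mul _
    calc ∫⁻ ω, ENNReal.ofReal (Fb κ ε ψ (stP κ B w (τ' ω) ω)) ∂P
        ≤ ∫⁻ ω, (ENNReal.ofReal (ε ^ (κ / 8 - 1) * Real.exp (-c * A)) *
            ENNReal.ofReal (GEX.fS c 0 (bb κ / 2) (stP κ B w (τ' ω) ω))
          + ENNReal.ofReal (Rr ^ (-p)) * ENNReal.ofReal (Fp κ p (stP κ B w (τ' ω) ω))) ∂P := by
          refine lintegral_mono fun ω => ?_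
          rw [← ENNReal.ofReal_mul hδ, ← ENNReal.ofReal_mul hRp,
            ← ENNReal.ofReal_add (mul_nonneg hδ (hFbn ω).2) (mul_nonneg hRp (hFbn ω).1)]
          exact ENNReal.ofReal_le_ofReal (hpt ω)
      _ = ENNReal.ofReal (ε ^ (κ / 8 - 1) * Real.exp (-c * A)) *
            ∫⁻ ω, ENNReal.ofReal (GEX.fS c 0 (bb κ / 2) (stP κ B w (τ' ω) ω)) ∂P
          + ENNReal.ofReal (Rr ^ (-p)) * ∫⁻ ω, ENNReal.ofReal (Fp κ p (stP κ B w (τ' ω) ω)) ∂P := by
          rw [lintegral_add_left' iS', lintegral_const_mul' _ _ ENNReal.ofReal_ne_top,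
            lintegral_const_mul' _ _ ENNReal.ofReal_ne_top]
      _ ≤ ENNReal.ofReal (ε ^ (κ / 8 - 1) * Real.exp (-c * A)) * 1
          + ENNReal.ofReal (Rr ^ (-p)) * ENNReal.ofReal (Fp κ p (s0 w)) := by
          have a1 : ∫⁻ ω, ENNReal.ofReal (GEX.fS c 0 (bb κ / 2) (stP κ B w (τ' ω) ω)) ∂P ≤ 1 := by
            refine (le_add_self.trans supS).trans ?_
            have : ∀ ω, ENNReal.ofReal (GEX.fS c 0 (bb κ / 2) (stP κ B w (σ ω) ω)) ≤ 1 := by
              intro ω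
              rw [eσ ω, ENNReal.ofReal_le_one, GEX.fS_eq (q := s0 w) hw]
              have h1 : (s0 w).2.2.2 = 0 := rfl
              rw [h1, mul_zero, zero_mul, add_zero, Real.exp_zero, one_mul]
              exact Real.rpow_le_one (sinq_pos' (q := s0 w) hw).le (sinq_le_one' (q := s0 w) hw)
                (by positivity)
            calc _ ≤ ∫⁻ _ω, 1 ∂P := lintegral_mono this
              _ = 1 := by simp
          have a2 : ∫⁻ ω, ENNReal.ofReal (Fp κ p (stP κ B w (τ' ω) ω)) ∂P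
              ≤ ENNReal.ofReal (Fp κ p (s0 w)) := by
            refine (le_add_self.trans supP).trans ?_
            have : ∀ ω, ENNReal.ofReal (Fp κ p (stP κ B w (σ ω) ω))
                = ENNReal.ofReal (Fp κ p (s0 w)) := fun ω => by rw [eσ ω]
            rw [lintegral_congr this]
            simp
          gcongr
      _ = _ := by rw [mul_one, ENNReal.ofReal_mul hRp]
  have e1 : ENNReal.ofReal (Fb κ ε ψ (s0 w))
      = ∫⁻ ω, ENNReal.ofReal (Fb κ ε ψ (stP κ B w (σ ω) ω)) ∂P := by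
    rw [lintegral_congr fun ω => by rw [eσ ω]]
    simp
  rw [e1, eqb]
  refine add_le_add ?_ hterm
  refine lintegral_mono fun ω => lintegral_mono_set ?_
  refine Ioc_subset_Ioc ?_ ?_
  · simp [hσ_def]
  · have : τ' ω ≤ T := min_le_right _ _
    have h2 : (τ' ω : ℝ) ≤ (T : ℝ) := by exact_mod_cast this
    rw [hT] at h2
    push_cast at h2
    exact h2

end prob

end Crest.Agent.R162.LBC
end

-- ▼ part R162/LBC9

/-!
Row 162, node LB-CONTENT, file 9 (helper499): `MassAll`.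
-/

set_option autoImplicit false
set_option linter.unusedSectionVars false

open MeasureTheory ProbabilityTheory Set Filter
open scoped NNReal ENNReal Topology

namespace Crest.Agent.R162.LBC

open Crest.Agent.R162.GEN Crest.Agent.R162.OPGen
open FL OP OS Crest.ProbabilityR.Loewner

universe u

section prob

variable {Ω : Type u} {m : MeasurableSpace Ω} {P : Measure Ω} [IsProbabilityMeasure P]
  {Fl : Filtration ℝ≥0 m} {B : ℝ≥0 → Ω → ℝ} {κ : ℝ} {w : ℂ}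

/-- the mass of the smooth content up to time `n` -/
theorem mass_lower (hB : IsBM Fl B P) (hκ : 0 < κ) (hκ8 : κ < 8) (hw : 0 < w.im)
    {ψ k : ℝ → ℝ} (cψ : ContDiff ℝ (⊤ : ℕ∞) ψ) (ck : Continuous k)
    (hψ : ∀ x, HasDerivAt ψ (k x) x) (hψ0 : ∀ x, 0 ≤ ψ x) (hψ1 : ∀ x, ψ x ≤ 1)
    (hψn : ∀ x, x ≤ 0 → ψ x = 0) (hk0 : ∀ x, 0 ≤ k x)
    {ε : ℝ} (hε : 0 < ε) {p : ℝ} (hp0 : 0 < p) (hpb : p ≤ bb κ) (hp2 : p ≤ 2)
    {Rr : ℝ} (hR : 1 < Rr * sinq (s0 w)) (hR0 : 0 < Rr) {n : ℕ}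
    (hn : (w.im * Rr) ^ 2 / 2 < n) :
    ENNReal.ofReal (Fb κ ε ψ (s0 w)) ≤
      ∫⁻ ω, (∫⁻ s in Ioc (0:ℝ) n, hr (Hb κ ε k) κ B w ω s) ∂P
      + ENNReal.ofReal (Rr ^ (-p) * Fp κ p (s0 w)) := by
  have hb : 0 < bb κ := by
    unfold bb; have : 1 < 8 / κ := by rw [lt_div_iff₀ hκ]; linarith
    linarith
  set c : ℝ := min (κ * (bb κ / 2) / 2 * (bb κ / 2)) (κ * (bb κ / 2) / 2) with hc
  have hc0 : 0 < c := lt_min (by positivity) (by positivity)
  refine ENNReal.le_of_forall_pos_le_add fun η hη _ => ?_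
  set K := ε ^ (κ / 8 - 1) with hK
  have hKp : 0 < K := Real.rpow_pos_of_pos hε _
  have hη' : (0:ℝ) < η := by exact_mod_cast hη
  set A : ℝ := |Real.log (K / η)| / c + 1 with hA
  have hA0 : 0 < A := by positivity
  have hbd : K * Real.exp (-c * A) ≤ η := by
    have h1 : Real.log (K / η) ≤ c * A := by
      have h2 : c * A = |Real.log (K / η)| + c := by rw [hA]; field_simp
      rw [h2]
      linarith [le_abs_self (Real.log (K / η))]
    have h3 : Real.exp (-c * A) ≤ Real.exp (-Real.log (K / η)) :=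
      Real.exp_le_exp.2 (by linarith)
    rw [Real.exp_neg, Real.exp_log (by positivity)] at h3
    calc K * Real.exp (-c * A) ≤ K * (K / η)⁻¹ := by gcongr
      _ = η := by field_simp
  have h := mass_step hB hκ hκ8 hw cψ ck hψ hψ0 hψ1 hψn hk0 hε hp0 hpb hp2 hR hR0 hn hA0 hc0.le
    (min_le_left _ _) (min_le_right _ _)
  refine h.trans ?_
  have h2 : ENNReal.ofReal (ε ^ (κ / 8 - 1) * Real.exp (-c * A)) ≤ (η : ℝ≥0∞) := by
    rw [← ENNReal.ofReal_coe_nnreal]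
    exact ENNReal.ofReal_le_ofReal hbd
  calc _ ≤ ∫⁻ ω, (∫⁻ s in Ioc (0:ℝ) n, hr (Hb κ ε k) κ B w ω s) ∂P
      + ((η : ℝ≥0∞) + ENNReal.ofReal (Rr ^ (-p) * Fp κ p (s0 w))) := by gcongr
    _ = _ := by ring

/-- comparison of the smooth full rate with the rate of `LBDefs` -/
lemma Hb_le {k : ℝ → ℝ} (hκ : 0 < κ) {q : ℝ} (hq0 : 0 < q) (hqb : q < bb κ)
    (_hk0 : ∀ x, 0 ≤ k x) (hk1 : ∀ x, k x ≤ (Real.log 2)⁻¹)
    (hk2 : ∀ x, k x ≠ 0 → 0 ≤ x ∧ x ≤ Real.log 2) {ε : ℝ} (hε : 0 < ε) {c1 : ℝ}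
    {s : ℝ × ℝ × ℝ × ℝ} (hs : 0 < s.2.1) :
    Hb κ ε k s ≤ Hc κ ε c1 s + 56 * c1 ^ 2 / cc2 κ q * H2 κ q ε s := by
  have hG := Gq_pos κ hs
  have hS := sinq_pos' hs
  have hS1 := sinq_le_one' hs
  have hcc := cc2_pos hκ hq0 hqb
  have hSq : 0 < sinq s ^ (-q) := Real.rpow_pos_of_pos hS _
  have hR := R1_nonneg hε s.2.2.1
  have hN : 0 < s.1 ^ 2 + s.2.1 ^ 2 := by positivity
  have hH2 : 0 ≤ H2 κ q ε s := by unfold H2; positivity
  have hkx : k (s.2.2.1 - Real.log ε) ≤ LB.chi (Real.exp s.2.2.1 / ε) ∧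
      k (s.2.2.1 - Real.log ε) ≤ 7 * R1 ε s.2.2.1 := by
    by_cases hz : k (s.2.2.1 - Real.log ε) = 0
    · rw [hz]; exact ⟨LB.chi_nonneg _, by positivity⟩
    · obtain ⟨h1, h2⟩ := hk2 _ hz
      have e1 : Real.exp (s.2.2.1 - Real.log ε) = Real.exp s.2.2.1 / ε := by
        rw [Real.exp_sub, Real.exp_log hε]
      have w1 : 1 ≤ Real.exp s.2.2.1 / ε := by rw [← e1]; exact Real.one_le_exp h1
      have w2 : Real.exp s.2.2.1 / ε ≤ 2 := by
        rw [← e1]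
        calc _ ≤ Real.exp (Real.log 2) := Real.exp_le_exp.2 h2
          _ = 2 := Real.exp_log (by norm_num)
      rw [LB.chi_of_mem ⟨w1, w2⟩]
      refine ⟨hk1 _, (hk1 _).trans ?_⟩
      have h3 := R1_ge hε w1 w2
      have h4 : (Real.log 2)⁻¹ ≤ 14 / 9 := by
        rw [inv_le_comm₀ LB.log_two_pos' (by norm_num)]
        have := log_two_ge
        norm_num; linarith
      linarith
  rcases le_or_gt c1 (sinq s) with h | h
  · have e : Hb κ ε k s ≤ Hc κ ε c1 s := by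
      unfold Hb Hc
      rw [if_pos h, mul_one, mul_assoc]
      exact mul_le_mul_of_nonneg_right hkx.1 (by positivity)
    have : 0 ≤ 56 * c1 ^ 2 / cc2 κ q * H2 κ q ε s := by positivity
    linarith
  · have hc0 : 0 < c1 := hS.trans h
    have hHc : 0 ≤ Hc κ ε c1 s := Hc_nonneg hs
    have h1 : (1:ℝ) ≤ sinq s ^ (-q) := Real.one_le_rpow_of_pos_of_le_one_of_nonpos hS hS1
      (by linarith)
    have h2 : sinq s ^ 2 ≤ c1 ^ 2 := pow_le_pow_left₀ hS.le h.le 2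
    have h3 : Hb κ ε k s ≤ 7 * R1 ε s.2.2.1 * (Gq κ s * (4 * (c1 ^ 2 * sinq s ^ (-q)) /
        (s.1 ^ 2 + s.2.1 ^ 2))) := by
      unfold Hb
      have h4 : sinq s ^ 2 ≤ c1 ^ 2 * sinq s ^ (-q) := by nlinarith [sq_nonneg c1]
      have h5 : Gq κ s * (4 * sinq s ^ 2 / (s.1 ^ 2 + s.2.1 ^ 2))
          ≤ Gq κ s * (4 * (c1 ^ 2 * sinq s ^ (-q)) / (s.1 ^ 2 + s.2.1 ^ 2)) := by gcongr
      exact mul_le_mul hkx.2 h5 (by positivity) (by positivity)
    have h6 : 7 * R1 ε s.2.2.1 * (Gq κ s * (4 * (c1 ^ 2 * sinq s ^ (-q)) /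
        (s.1 ^ 2 + s.2.1 ^ 2))) = 56 * c1 ^ 2 / cc2 κ q * H2 κ q ε s := by
      unfold H2
      field_simp
      ring
    linarith

lemma measurable_R1 (ε : ℝ) : Measurable (R1 ε) := by unfold R1; fun_prop

lemma measurable_H2 (κ q ε : ℝ) : Measurable (H2 κ q ε) := by
  unfold H2
  refine Measurable.const_mul (Measurable.mul ?_ (Measurable.mul (Measurable.mul
    (measurable_Gq κ) (measurable_sinq.pow_const _)) ?_)) _
  · fun_prop
  · exact (measurable_R1 ε).comp (by fun_prop)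

/-- the part of the content with small `S` -/
theorem small_S (hB : IsBM Fl B P) (hκ : 0 < κ) (hw : 0 < w.im) {q : ℝ} (hq0 : 0 < q)
    (hqb : q < bb κ) {ε : ℝ} (hε : 0 < ε) (n : ℕ) :
    ∫⁻ ω, (∫⁻ s in Ioc (0:ℝ) n, hr (H2 κ q ε) κ B w ω s) ∂P
      ≤ ENNReal.ofReal (F2 κ q ε (s0 w)) := by
  obtain ⟨J1, J2⟩ := jets hκ hq0 hqb hε
  have hF3 : ContDiffOn ℝ 3 (F2 κ q ε) {q | 0 < q.2.1} := contDiffOn_pq3 (J1.add J2) 0 0
  have hcc := cc2_pos hκ hq0 hqb
  have hMM := MM_pos hκ hq0 hqb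
  have hgc : ContinuousOn (gen κ (F2 κ q ε)) {q | 0 < q.2.1} := by
    have h := (continuousOn_gen_V3 hκ (q - bb κ) 0 (hasDerivAt_R1 hε) (contDiff_R1 hε)
      (continuous_R2 hε)).add
      (continuousOn_gen_V3 hκ (-bb κ) 0 (g' := fun L => MM κ q * R1 ε L)
      (fun s => (hasDerivAt_R0 hε s).const_mul _) (contDiff_const.mul (contDiff_R0 hε))
      (continuous_const.mul (contDiff_R1 hε).continuous))
    exact h.congr fun s hs => gen_F2_eq hκ hq0 hqb hε hs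
  have h := super_int (σ := fun _ => 0) (τ := fun _ => (n : ℝ≥0)) (T := (n : ℝ≥0)) (A := univ)
    OPM.opm hB hκ hw (exit_ok5 hB κ w) hF3
    (fun s hs => by
      rw [F2_eq hκ hq0 hqb hε hs]
      have h1 := Gq_pos κ hs
      have h2 := sinq_pos' hs
      have h3 := R1_nonneg hε s.2.2.1
      have h4 := R0_nonneg hε s.2.2.1
      positivity)
    hgc (measurable_H2 κ q ε)
    (fun s hs => by
      unfold H2
      have h1 := Gq_pos κ hs
      have h2 := sinq_pos' hs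
      have h3 := R1_nonneg hε s.2.2.1
      positivity)
    (fun s hs => gen_F2_le hκ hq0 hqb hε hs)
    (IsST.const 0) (IsST.const _) (fun _ => le_rfl) (EvST.univ (IsST.const 0))
    (fun _ _ => bot_le)
  simp only [Measure.restrict_univ, univ_inter, NNReal.coe_zero, NNReal.coe_natCast] at h
  refine h.trans ?_
  calc _ ≤ ∫⁻ ω, ENNReal.ofReal (F2 κ q ε (stP κ B w 0 ω)) ∂P :=
        lintegral_mono' Measure.restrict_le_self le_rfl
    _ = ∫⁻ _ω, ENNReal.ofReal (F2 κ q ε (s0 w)) ∂P :=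
        lintegral_congr fun ω => by rw [stP_zero hB hw]
    _ = _ := by simp

/-- splitting of the smooth full content -/
theorem split_le (hB : IsBM Fl B P) (hκ : 0 < κ) {q : ℝ} (hq0 : 0 < q) (hqb : q < bb κ)
    {k : ℝ → ℝ} (hk0 : ∀ x, 0 ≤ k x) (hk1 : ∀ x, k x ≤ (Real.log 2)⁻¹)
    (hk2 : ∀ x, k x ≠ 0 → 0 ≤ x ∧ x ≤ Real.log 2) {ε : ℝ} (hε : 0 < ε) {c1 : ℝ} (n : ℕ) :
    ∫⁻ ω, (∫⁻ s in Ioc (0:ℝ) n, hr (Hb κ ε k) κ B w ω s) ∂P
      ≤ ∫⁻ ω, LB.Ct κ ε c1 (driving κ B ω) n w ∂P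
        + ENNReal.ofReal (56 * c1 ^ 2 / cc2 κ q) *
          ∫⁻ ω, (∫⁻ s in Ioc (0:ℝ) n, hr (H2 κ q ε) κ B w ω s) ∂P := by
  have hcc := cc2_pos hκ hq0 hqb
  have hC0 : 0 ≤ 56 * c1 ^ 2 / cc2 κ q := by positivity
  have mHc := meas_hr (κ := κ) (w := w) hB (measurable_Hc κ ε c1)
  have hpt : ∀ ω s, hr (Hb κ ε k) κ B w ω s ≤ hr (Hc κ ε c1) κ B w ω s
      + ENNReal.ofReal (56 * c1 ^ 2 / cc2 κ q) * hr (H2 κ q ε) κ B w ω s := by
    intro ω s
    unfold hr
    by_cases h : Alive (driving κ B ω) w s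
    · have hY := Y_pos h
      rw [indicator_of_mem (s := {s | Alive (driving κ B ω) w s}) h,
        indicator_of_mem (s := {s | Alive (driving κ B ω) w s}) h,
        indicator_of_mem (s := {s | Alive (driving κ B ω) w s}) h,
        ← ENNReal.ofReal_mul hC0, ← ENNReal.ofReal_add (Hc_nonneg hY)]
      · exact ENNReal.ofReal_le_ofReal (Hb_le hκ hq0 hqb hk0 hk1 hk2 hε hY)
      · have h1 := Gq_pos κ hY
        have h2 := sinq_pos' hY
        have h3 := R1_nonneg hε (stW (driving κ B ω) s w).2.2.1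
        unfold H2
        positivity
    · rw [indicator_of_notMem (s := {s | Alive (driving κ B ω) w s}) h]
      exact bot_le
  have hin : ∀ ω, (∫⁻ s in Ioc (0:ℝ) n, hr (Hb κ ε k) κ B w ω s)
      ≤ (∫⁻ s in Ioc (0:ℝ) n, hr (Hc κ ε c1) κ B w ω s)
        + ENNReal.ofReal (56 * c1 ^ 2 / cc2 κ q) *
          ∫⁻ s in Ioc (0:ℝ) n, hr (H2 κ q ε) κ B w ω s := by
    intro ω
    have m1 : Measurable (fun s => hr (Hc κ ε c1) κ B w ω s) := mHc.comp measurable_prodMk_left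
    rw [← lintegral_const_mul' _ _ ENNReal.ofReal_ne_top, ← lintegral_add_left m1]
    exact lintegral_mono fun s => hpt ω s
  have m2 : Measurable (fun ω => ∫⁻ s in Ioc (0:ℝ) n, hr (Hc κ ε c1) κ B w ω s) :=
    mHc.lintegral_prod_right'
  calc _ ≤ ∫⁻ ω, ((∫⁻ s in Ioc (0:ℝ) n, hr (Hc κ ε c1) κ B w ω s)
        + ENNReal.ofReal (56 * c1 ^ 2 / cc2 κ q) *
          ∫⁻ s in Ioc (0:ℝ) n, hr (H2 κ q ε) κ B w ω s) ∂P := lintegral_mono hin
    _ = _ := by
        rw [lintegral_add_left m2, lintegral_const_mul' _ _ ENNReal.ofReal_ne_top]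
        congr 1
        refine lintegral_congr fun ω => ?_
        unfold LB.Ct LB.cz
        exact lintegral_congr fun s => hr_Hc ε c1 ω s

end prob

set_option maxHeartbeats 4000000 in
/-- **mass of the content** -/
theorem massAll {κ : ℝ} (hκ : 0 < κ) (hκ8 : κ < 8) :
    ∃ c1 : ℝ, 0 < c1 ∧ c1 < 1 ∧ LBS.MassAll.{u} κ c1 := by
  have hb : 0 < bb κ := by
    unfold bb; have : 1 < 8 / κ := by rw [lt_div_iff₀ hκ]; linarith
    linarith
  obtain ⟨ψ, k, mψ, hm0, cψ, ck, hψ, hψ0, hψ1, hψn, hψm, hk0, hk1, hk2⟩ := exists_psi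
  set q : ℝ := min (bb κ) 2 / 2 with hq
  have hmin : 0 < min (bb κ) 2 := lt_min hb (by norm_num)
  have hq0 : 0 < q := by positivity
  have hqb : q < bb κ := by
    have := min_le_left (bb κ) 2
    rw [hq]; linarith
  have hq2 : q ≤ 2 := by
    have := min_le_right (bb κ) 2
    rw [hq]; linarith
  have hcc := cc2_pos hκ hq0 hqb
  have hMM := MM_pos hκ hq0 hqb
  have h2q : (0:ℝ) < 2 ^ q := by positivity
  -- the constants
  set D1 : ℝ := 4 * (2 ^ q + κ / 2) / mψ with hD1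
  have hD1p : 0 < D1 := by positivity
  set Rr : ℝ := 3 + D1 ^ (1 / q) with hRr
  have hRr3 : 3 ≤ Rr := by
    have : 0 ≤ D1 ^ (1 / q) := by positivity
    rw [hRr]; linarith
  have hRr0 : 0 < Rr := by linarith
  have hRq : Rr ^ (-q) * (2 ^ q + κ / 2) ≤ mψ / 4 := by
    have h1 : D1 ≤ Rr ^ q := by
      calc D1 = (D1 ^ (1 / q)) ^ q := by
            rw [← Real.rpow_mul hD1p.le]; field_simp; simp
        _ ≤ Rr ^ q := Real.rpow_le_rpow (by positivity) (by rw [hRr]; linarith) hq0.le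
    rw [Real.rpow_neg hRr0.le, inv_mul_le_iff₀ (by positivity)]
    calc (2:ℝ) ^ q + κ / 2 = D1 * (mψ / 4) := by rw [hD1]; field_simp
      _ ≤ Rr ^ q * (mψ / 4) := by gcongr
  obtain ⟨n, hn⟩ := exists_nat_gt ((2 * Rr) ^ 2 / 2)
  set Xc : ℝ := mψ * cc2 κ q / (224 * (2 ^ q + MM κ q)) with hXc
  have hXc0 : 0 < Xc := by positivity
  set c1 : ℝ := min (1 / 2) (Real.sqrt Xc) with hc1
  have hc10 : 0 < c1 := lt_min (by norm_num) (Real.sqrt_pos.2 hXc0)
  have hc11 : c1 < 1 := lt_of_le_of_lt (min_le_left _ _) (by norm_num)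
  have hc1X : c1 ^ 2 ≤ Xc := by
    calc c1 ^ 2 ≤ (Real.sqrt Xc) ^ 2 := pow_le_pow_left₀ hc10.le (min_le_right _ _) 2
      _ = Xc := Real.sq_sqrt hXc0.le
  have hCC : 56 * c1 ^ 2 / cc2 κ q * (2 ^ q + MM κ q) ≤ mψ / 4 := by
    calc 56 * c1 ^ 2 / cc2 κ q * (2 ^ q + MM κ q) ≤ 56 * Xc / cc2 κ q * (2 ^ q + MM κ q) := by
          gcongr
      _ = mψ / 4 := by rw [hXc]; field_simp; norm_num
  set g0 : ℝ := Real.exp ((κ / 8 - 1) * Real.log 2) * (1 / 2) ^ (8 / κ - 1) with hg0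
  have hg0p : 0 < g0 := by positivity
  refine ⟨c1, hc10, hc11, mψ / 2 * g0, 1 / 2, n, by positivity, by norm_num, ?_, ?_⟩
  · by_contra h
    have : n = 0 := by omega
    rw [this] at hn
    have h2 : 0 ≤ (2 * Rr) ^ 2 / 2 := by positivity
    push_cast at hn
    linarith
  intro ε hε hε2 z hz Ω _ P _ F B hB
  obtain ⟨hz1, hz2, hz3, hz4⟩ := hz
  have hzim : 0 < z.im := by linarith
  have hs0 : 0 < (s0 z).2.1 := hzim
  -- lower bound for the sine
  have hS : 1 / 2 ≤ sinq (s0 z) := by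
    have e : sinq (s0 z) = z.im / Real.sqrt (z.re ^ 2 + z.im ^ 2) := rfl
    rw [e, le_div_iff₀ (by positivity)]
    have : Real.sqrt (z.re ^ 2 + z.im ^ 2) ≤ 2 * z.im := by
      refine Real.sqrt_le_iff.2 ⟨by positivity, ?_⟩
      nlinarith
    linarith
  have hSp := sinq_pos' hs0
  have hS1 := sinq_le_one' hs0
  have hG := Gq_pos κ hs0
  have hSq : sinq (s0 z) ^ (-q) ≤ 2 ^ q := by
    calc sinq (s0 z) ^ (-q) ≤ (1 / 2 : ℝ) ^ (-q) :=
          Real.rpow_le_rpow_of_nonpos (by norm_num) hS (by linarith)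
      _ = 2 ^ q := by
          rw [Real.rpow_neg (by norm_num), ← Real.inv_rpow (by norm_num)]; norm_num
  have hGg : g0 ≤ Gq κ (s0 z) := by
    have e : Gq κ (s0 z) = Real.exp ((κ / 8 - 1) * Real.log z.im) * sinq (s0 z) ^ (8 / κ - 1) :=
      rfl
    rw [e, hg0]
    have h1 : Real.log z.im ≤ Real.log 2 := Real.log_le_log hzim hz4.le
    have h2 : (κ / 8 - 1) * Real.log 2 ≤ (κ / 8 - 1) * Real.log z.im := by nlinarith
    have h3 : (0:ℝ) ≤ 8 / κ - 1 := hb.le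
    have h4 : (1 / 2 : ℝ) ^ (8 / κ - 1) ≤ sinq (s0 z) ^ (8 / κ - 1) :=
      Real.rpow_le_rpow (by norm_num) hS h3
    exact mul_le_mul (Real.exp_le_exp.2 h2) h4 (by positivity) (Real.exp_pos _).le
  -- assemble
  have hRS : 1 < Rr * sinq (s0 z) := by nlinarith
  have hnz : (z.im * Rr) ^ 2 / 2 < n := by
    refine lt_of_le_of_lt ?_ hn
    have : z.im * Rr ≤ 2 * Rr := by nlinarith
    have h0 : 0 ≤ z.im * Rr := by positivity
    gcongr
  have A1 := mass_lower (κ := κ) (w := z) hB hκ hκ8 hzim cψ ck hψ hψ0 hψ1 hψn hk0 hε hq0 hqb.le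
    hq2 hRS hRr0 hnz
  have A2 := split_le (κ := κ) (w := z) hB hκ hq0 hqb hk0 hk1 hk2 hε (c1 := c1) n
  have A3 := small_S (κ := κ) (w := z) hB hκ hzim hq0 hqb hε n
  have v1 : Fb κ ε ψ (s0 z) = mψ * Gq κ (s0 z) := by
    rw [Fb_eq hκ.ne' hs0]
    congr 1
    refine hψm _ ?_
    have e : (s0 z).2.2.1 = Real.log z.im := rfl
    rw [e, ← Real.log_div hzim.ne' hε.ne']
    refine Real.log_le_log (by norm_num) ?_
    rw [le_div_iff₀ hε]; linarith
  have v2 : F2 κ q ε (s0 z) ≤ Gq κ (s0 z) * (2 ^ q + MM κ q) := by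
    rw [F2_eq hκ hq0 hqb hε hs0]
    have r0 := R0_le_one hε (s0 z).2.2.1
    have r1 : R1 ε (s0 z).2.2.1 ≤ 1 := by
      unfold R1
      have he := Real.exp_pos (s0 z).2.2.1
      rw [div_le_one (by positivity)]
      nlinarith [mul_pos hε he]
    have r1' := R1_nonneg hε (s0 z).2.2.1
    have hSqp : 0 < sinq (s0 z) ^ (-q) := Real.rpow_pos_of_pos hSp _
    have : R1 ε (s0 z).2.2.1 * sinq (s0 z) ^ (-q) + MM κ q * R0 ε (s0 z).2.2.1
        ≤ 1 * 2 ^ q + MM κ q * 1 := by gcongr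
    calc _ ≤ Gq κ (s0 z) * (1 * 2 ^ q + MM κ q * 1) := by gcongr
      _ = _ := by ring
  have v3 : Rr ^ (-q) * Fp κ q (s0 z) ≤ mψ / 4 * Gq κ (s0 z) := by
    rw [Fp_eq hκ hq0 hqb.le hq2 hs0]
    have e : (s0 z).2.2.2 = 0 := rfl
    rw [e, mul_zero, Real.exp_zero, mul_one]
    have hRp : 0 < Rr ^ (-q) := Real.rpow_pos_of_pos hRr0 _
    calc Rr ^ (-q) * (Gq κ (s0 z) * (sinq (s0 z) ^ (-q) + κ / 2))
        ≤ Rr ^ (-q) * (Gq κ (s0 z) * (2 ^ q + κ / 2)) := by gcongr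
      _ = (Rr ^ (-q) * (2 ^ q + κ / 2)) * Gq κ (s0 z) := by ring
      _ ≤ _ := by gcongr
  have v4 : ENNReal.ofReal (56 * c1 ^ 2 / cc2 κ q) * ENNReal.ofReal (F2 κ q ε (s0 z))
      ≤ ENNReal.ofReal (mψ / 4 * Gq κ (s0 z)) := by
    rw [← ENNReal.ofReal_mul (by positivity)]
    refine ENNReal.ofReal_le_ofReal ?_
    calc 56 * c1 ^ 2 / cc2 κ q * F2 κ q ε (s0 z)
        ≤ 56 * c1 ^ 2 / cc2 κ q * (Gq κ (s0 z) * (2 ^ q + MM κ q)) := by gcongr
      _ = (56 * c1 ^ 2 / cc2 κ q * (2 ^ q + MM κ q)) * Gq κ (s0 z) := by ring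
      _ ≤ _ := by gcongr
  set I : ℝ≥0∞ := ∫⁻ ω, LB.Ct κ ε c1 (driving κ B ω) n z ∂P with hI
  have tot : ENNReal.ofReal (mψ * Gq κ (s0 z))
      ≤ I + ENNReal.ofReal (mψ / 2 * Gq κ (s0 z)) := by
    rw [← v1]
    refine A1.trans ?_
    have s1 : ENNReal.ofReal (mψ / 2 * Gq κ (s0 z))
        = ENNReal.ofReal (mψ / 4 * Gq κ (s0 z)) + ENNReal.ofReal (mψ / 4 * Gq κ (s0 z)) := by
      rw [← ENNReal.ofReal_add (by positivity) (by positivity)]; congr 1; ring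
    rw [s1, ← add_assoc]
    refine add_le_add (A2.trans ?_) (ENNReal.ofReal_le_ofReal v3)
    refine add_le_add le_rfl ((mul_le_mul' le_rfl A3).trans v4)
  have split : ENNReal.ofReal (mψ * Gq κ (s0 z))
      = ENNReal.ofReal (mψ / 2 * Gq κ (s0 z)) + ENNReal.ofReal (mψ / 2 * Gq κ (s0 z)) := by
    rw [← ENNReal.ofReal_add (by positivity) (by positivity)]; congr 1; ring
  rw [split] at tot
  have fin := (ENNReal.add_le_add_iff_right ENNReal.ofReal_ne_top).1 tot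
  refine le_trans (ENNReal.ofReal_le_ofReal ?_) fin
  gcongr

end Crest.Agent.R162.LBC
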