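import Mathlib
import Crest.Agent.R162.Base
import Crest.Agent.R162.FLB
import Crest.Agent.R162.FLD
import Crest.Agent.R162.U5br

/-!
Row 162 (S0243), node LB-CONTENT (a) (helper8): deterministic facts and measurability of the
content functional
`C_t(z) = ∫_0^t χ(lam Υ_s/ε) (lam Υ_s)^{κ/8-1} S_s^{8/κ-1} 1{S_s ≥ c₁} 4 S_s² / |Z_s|² ds`.
`lam = 1` is the content of the point itself; `lam = |f'(z)|` is the content of the point `f z`
for the restarted flow (`f` univalent).
-/

set_option autoImplicit false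

open MeasureTheory Set Filter Topology
open scoped NNReal ENNReal

namespace Crest.Agent.R162.LBCont

open Crest.Agent.R162 Crest.Agent.R162.FL Crest.Agent.R162.OP

/-- rate of the content of the point `z` at time `s` -/
noncomputable def rate (κ : ℝ) (χ : ℝ → ℝ) (ε c₁ lam : ℝ) (W : ℝ → ℝ) (s : ℝ) (z : ℂ) : ℝ :=
  if c₁ ≤ sfl W s z then
    χ (lam * ups W s z / ε) * ((lam * ups W s z) ^ (κ / 8 - 1) * sfl W s z ^ (8 / κ - 1)) *
      (4 * sfl W s z ^ 2 / ‖Zfl W s z‖ ^ 2)
  else 0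

/-- content collected up to time `t` -/
noncomputable def cont (κ : ℝ) (χ : ℝ → ℝ) (ε c₁ lam : ℝ) (W : ℝ → ℝ) (t : ℝ) (z : ℂ) : ℝ≥0∞ :=
  ∫⁻ s in Ioc 0 t, ENNReal.ofReal (rate κ χ ε c₁ lam W s z)

/-- the bump -/
structure Bump (χ : ℝ → ℝ) : Prop where
  meas : Measurable χ
  nonneg : ∀ x, 0 ≤ χ x
  bdd : ∃ M, ∀ x, χ x ≤ M
  cont : ∀ x, x ≠ 1 → x ≠ 2 → ContinuousAt χ x
  supp : ∀ x, χ x ≠ 0 → 1 ≤ x ∧ x ≤ 2
  mass : ∫ x in (1 : ℝ)..2, χ x / x = 1

/-! ### measurability -/

section meas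

variable {Ω : Type*} [MeasurableSpace Ω] {W : Ω → ℝ → ℝ}

/-- primitives of jointly measurable functions are jointly measurable -/
theorem measurable_primitive {α : Type*} [MeasurableSpace α] {F : α × ℝ → ℝ} (hF : Measurable F) :
    Measurable (fun y : α × ℝ => ∫ r in Ioc (0 : ℝ) y.2, F (y.1, r)) := by
  have hset : MeasurableSet {q : (α × ℝ) × ℝ | 0 < q.2 ∧ q.2 ≤ q.1.2} :=
    (measurableSet_lt measurable_const measurable_snd).inter
      (measurableSet_le measurable_snd (measurable_snd.comp measurable_fst))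
  have h1 : Measurable (fun q : (α × ℝ) × ℝ =>
      ({q : (α × ℝ) × ℝ | 0 < q.2 ∧ q.2 ≤ q.1.2}).indicator
        (fun q => F (q.1.1, q.2)) q) :=
    (hF.comp ((measurable_fst.comp measurable_fst).prodMk measurable_snd)).indicator hset
  have h2 := (h1.stronglyMeasurable.integral_prod_right' (ν := volume)).measurable
  convert h2 using 1
  funext y
  rw [← integral_indicator measurableSet_Ioc]
  rfl


variable {T : ℝ}

/-- `(ω, z, s) ↦ Z_s(z)` is jointly measurable on `[0,T]` -/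
theorem measurable_Zfl_joint (hc : ∀ ω, ContinuousOn (W ω) (Icc 0 T))
    (hm : ∀ s ∈ Icc 0 T, Measurable (fun ω => W ω s)) :
    Measurable (fun x : (Ω × ℂ) × ℝ =>
      (Icc 0 T).indicator (fun s => Zfl (W x.1.1) s x.1.2) x.2) := by
  have h1 := FLD.measurable_gfl_joint (W := W) hc hm
  have h2 := FLD.measurable_drive_joint (W := W) hc hm
  have h3 : Measurable (fun x : (Ω × ℂ) × ℝ =>
      (Icc 0 T).indicator (fun s => W x.1.1 s) x.2) :=
    h2.comp ((measurable_fst.comp measurable_fst).prodMk measurable_snd)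
  have h4 : Measurable (fun x : (Ω × ℂ) × ℝ =>
      (Iic T).indicator (fun s => gfl (W x.1.1) s x.1.2) x.2 -
        (((Icc 0 T).indicator (fun s => W x.1.1 s) x.2 : ℝ) : ℂ)) :=
    h1.sub (Complex.measurable_ofReal.comp h3)
  have h5 := h4.indicator (measurable_snd (measurableSet_Icc (a := (0:ℝ)) (b := T)))
  convert h5 using 1
  funext x
  by_cases hx : x.2 ∈ Icc 0 T
  · rw [indicator_of_mem hx, indicator_of_mem (by simpa using hx),
      indicator_of_mem (mem_Iic.2 hx.2), indicator_of_mem hx]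
    rfl
  · rw [indicator_of_notMem hx, indicator_of_notMem (by simpa using hx)]

/-- `(ω, z, s) ↦ Υ_s(z)` is jointly measurable on `[0,T]` -/
theorem measurable_ups_joint (hc : ∀ ω, ContinuousOn (W ω) (Icc 0 T))
    (hm : ∀ s ∈ Icc 0 T, Measurable (fun ω => W ω s)) :
    Measurable (fun x : (Ω × ℂ) × ℝ =>
      (Icc 0 T).indicator (fun s => ups (W x.1.1) s x.1.2) x.2) := by
  have hZ := measurable_Zfl_joint (W := W) hc hm
  have h1 := FLD.measurable_gfl_joint (W := W) hc hm
  have hF : Measurable (fun x : (Ω × ℂ) × ℝ =>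
      2 * ((((Icc 0 T).indicator (fun s => Zfl (W x.1.1) s x.1.2) x.2) ^ 2)⁻¹).re) := by
    fun_prop
  have hP := measurable_primitive hF
  have h4 : Measurable (fun x : (Ω × ℂ) × ℝ =>
      ((Iic T).indicator (fun s => gfl (W x.1.1) s x.1.2) x.2).im *
        Real.exp (∫ r in Ioc (0:ℝ) x.2,
          2 * ((((Icc 0 T).indicator (fun s => Zfl (W x.1.1) s x.1.2) r) ^ 2)⁻¹).re)) :=
    (Complex.measurable_im.comp h1).mul (Real.measurable_exp.comp hP)
  have h5 := h4.indicator (measurable_snd (measurableSet_Icc (a := (0:ℝ)) (b := T)))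
  convert h5 using 1
  funext x
  by_cases hx : x.2 ∈ Icc 0 T
  · rw [indicator_of_mem hx, indicator_of_mem (by simpa using hx),
      indicator_of_mem (mem_Iic.2 hx.2)]
    unfold ups
    rw [intervalIntegral.integral_of_le hx.1]
    congr 2
    refine setIntegral_congr_fun measurableSet_Ioc fun r hr => ?_
    rw [indicator_of_mem (show r ∈ Icc 0 T from ⟨hr.1.le, hr.2.trans hx.2⟩)]
  · rw [indicator_of_notMem hx, indicator_of_notMem (by simpa using hx)]

/-- `(ω, z, s) ↦ S_s(z)` is jointly measurable on `[0,T]` -/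
theorem measurable_sfl_joint (hc : ∀ ω, ContinuousOn (W ω) (Icc 0 T))
    (hm : ∀ s ∈ Icc 0 T, Measurable (fun ω => W ω s)) :
    Measurable (fun x : (Ω × ℂ) × ℝ =>
      (Icc 0 T).indicator (fun s => sfl (W x.1.1) s x.1.2) x.2) := by
  have hZ := measurable_Zfl_joint (W := W) hc hm
  have h5 : Measurable (fun x : (Ω × ℂ) × ℝ =>
      ((Icc 0 T).indicator (fun s => Zfl (W x.1.1) s x.1.2) x.2).im /
        ‖(Icc 0 T).indicator (fun s => Zfl (W x.1.1) s x.1.2) x.2‖) :=
    (Complex.measurable_im.comp hZ).div hZ.norm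
  convert h5 using 1
  funext x
  by_cases hx : x.2 ∈ Icc 0 T
  · rw [indicator_of_mem hx, indicator_of_mem hx]; rfl
  · rw [indicator_of_notMem hx, indicator_of_notMem hx]; simp

/-- the rate is jointly measurable in `(ω, z, s)`, `s ∈ [0,T]`; `lam` may depend on `(ω, z)` -/
theorem measurable_rate_joint {κ ε c₁ : ℝ} {χ : ℝ → ℝ} (hχ : Measurable χ)
    {lam : Ω × ℂ → ℝ} (hl : Measurable lam)
    (hc : ∀ ω, ContinuousOn (W ω) (Icc 0 T))
    (hm : ∀ s ∈ Icc 0 T, Measurable (fun ω => W ω s)) :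
    Measurable (fun x : (Ω × ℂ) × ℝ =>
      (Icc 0 T).indicator (fun s => rate κ χ ε c₁ (lam x.1) (W x.1.1) s x.1.2) x.2) := by
  have hZ := measurable_Zfl_joint (W := W) hc hm
  have hU := measurable_ups_joint (W := W) hc hm
  have hS := measurable_sfl_joint (W := W) hc hm
  have hlam : Measurable (fun x : (Ω × ℂ) × ℝ => lam x.1) := hl.comp measurable_fst
  set U : (Ω × ℂ) × ℝ → ℝ := fun x => (Icc 0 T).indicator (fun s => ups (W x.1.1) s x.1.2) x.2
    with hUdef
  set S : (Ω × ℂ) × ℝ → ℝ := fun x => (Icc 0 T).indicator (fun s => sfl (W x.1.1) s x.1.2) x.2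
    with hSdef
  set Z : (Ω × ℂ) × ℝ → ℂ := fun x => (Icc 0 T).indicator (fun s => Zfl (W x.1.1) s x.1.2) x.2
    with hZdef
  have hm1 : Measurable (fun x => χ (lam x.1 * U x / ε)) :=
    hχ.comp ((hlam.mul hU).div_const ε)
  have hm2 : Measurable (fun x : (Ω × ℂ) × ℝ => (lam x.1 * U x) ^ (κ / 8 - 1)) :=
    (hlam.mul hU).pow_const _
  have hm3 : Measurable (fun x : (Ω × ℂ) × ℝ => S x ^ (8 / κ - 1)) := hS.pow_const _
  have hm4 : Measurable (fun x : (Ω × ℂ) × ℝ => 4 * S x ^ 2 / ‖Z x‖ ^ 2) :=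
    ((hS.pow_const 2).const_mul 4).div (hZ.norm.pow_const 2)
  have hset : MeasurableSet {x : (Ω × ℂ) × ℝ | c₁ ≤ S x} := measurableSet_le measurable_const hS
  have h1 : Measurable (fun x : (Ω × ℂ) × ℝ => if c₁ ≤ S x then
      χ (lam x.1 * U x / ε) * ((lam x.1 * U x) ^ (κ / 8 - 1) * S x ^ (8 / κ - 1)) *
        (4 * S x ^ 2 / ‖Z x‖ ^ 2) else 0) :=
    Measurable.ite hset ((hm1.mul (hm2.mul hm3)).mul hm4) measurable_const
  have h5 := h1.indicator (measurable_snd (measurableSet_Icc (a := (0:ℝ)) (b := T)))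
  convert h5 using 1
  funext x
  by_cases hx : x.2 ∈ Icc 0 T
  · rw [indicator_of_mem hx, indicator_of_mem (by simpa using hx)]
    simp only [hUdef, hSdef, hZdef, indicator_of_mem hx]
    rfl
  · rw [indicator_of_notMem hx, indicator_of_notMem (by simpa using hx)]



end meas

/-! ### deterministic facts -/

section det

variable {W : ℝ → ℝ} {z : ℂ} {κ ε c₁ lam : ℝ} {χ : ℝ → ℝ} {s t u : ℝ}









/-! #### primitive of the bump -/














/-! #### monotonicity, bounds, continuity -/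














/-! #### restart (cocycle) -/






/-! #### continuity in time -/


end det

end Crest.Agent.R162.LBCont
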