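import Mathlib
import Crest.Prelude.Def_Loewner
import Crest.Agent.R162.FLC3
import Crest.Agent.R162.FLD
import Crest.Agent.R162.Base

/-!
Row 162 (S0243), LB-EXP part 1 (helper384): the functionals of the Loewner flow at time `t` depend
only on the driving function on `[0,t]`; concatenation of paths.
-/

set_option autoImplicit false

open MeasureTheory Set
open scoped NNReal ENNReal

namespace Crest.Agent.R162.LBDrv

open Crest.Agent.R162.FL Crest.Agent.R162.OP Crest.ProbabilityR.Loewner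

variable {W W' : ℝ → ℝ} {t : ℝ}

lemma Zfl_congr (h : EqOn W W' (Icc 0 t)) {s : ℝ} (hs : s ∈ Icc 0 t) (z : ℂ) :
    Zfl W s z = Zfl W' s z := by
  rw [Zfl, Zfl, FLD.gfl_congr (fun _ hr => h ⟨hr.1, hr.2.trans hs.2⟩), h hs]

lemma alive_congr (h : EqOn W W' (Icc 0 t)) {s : ℝ} (hs : s ≤ t) (z : ℂ) :
    Alive W z s ↔ Alive W' z s :=
  FLD.alive_congr (fun _ hr => h ⟨hr.1, hr.2.trans hs⟩)

lemma gfl_congr (h : EqOn W W' (Icc 0 t)) {s : ℝ} (hs : s ≤ t) (z : ℂ) :
    gfl W s z = gfl W' s z :=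
  FLD.gfl_congr (fun _ hr => h ⟨hr.1, hr.2.trans hs⟩)

open Classical in
private lemma pick_congr (p q : ℂ → Prop) (z : ℂ) (h : p = q) :
    (if h : ∃ w, p w then h.choose else z) = (if h : ∃ w, q w then h.choose else z) := by
  subst h
  rfl

lemma ffl_congr (h : EqOn W W' (Icc 0 t)) {s : ℝ} (hs : s ∈ Icc 0 t) :
    ffl W s = ffl W' s := by
  funext z
  have he : (fun w => Alive W w s ∧ gfl W s w = z + W s) =
      (fun w => Alive W' w s ∧ gfl W' s w = z + W' s) := by
    funext w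
    rw [alive_congr h hs.2, gfl_congr h hs.2, h hs]
  exact pick_congr _ _ z he

lemma ups_congr (h : EqOn W W' (Icc 0 t)) {s : ℝ} (hs : s ∈ Icc 0 t) (z : ℂ) :
    ups W s z = ups W' s z := by
  unfold ups
  rw [gfl_congr h hs.2]
  congr 2
  refine intervalIntegral.integral_congr fun r hr => ?_
  rw [uIcc_of_le hs.1] at hr
  rw [Zfl_congr h ⟨hr.1, hr.2.trans hs.2⟩]


lemma sfl_congr (h : EqOn W W' (Icc 0 t)) {s : ℝ} (hs : s ∈ Icc 0 t) (z : ℂ) :
    sfl W s z = sfl W' s z := by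
  unfold sfl
  rw [Zfl_congr h hs]



/-! ### driving functions of paths -/

/-- the driving function of a path -/
noncomputable def drv (κ : ℝ) (p : ℝ≥0 → ℝ) : ℝ → ℝ := fun t => Real.sqrt κ * p t.toNNReal


lemma continuous_drv (κ : ℝ) {p : ℝ≥0 → ℝ} (hp : Continuous p) : Continuous (drv κ p) :=
  continuous_const.mul (hp.comp continuous_real_toNNReal)

lemma drv_zero (κ : ℝ) {p : ℝ≥0 → ℝ} (hp : p 0 = 0) : drv κ p 0 = 0 := by
  simp [drv, hp]




end Crest.Agent.R162.LBDrv
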