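import Mathlib
import Crest.Agent.R162.OS2

set_option autoImplicit false

/-!
Row 162, node LB-ST, part 1 (helper332): the right-continuous filtration `F₊`.
`IsBM F B P → IsBM F₊ B P`; for a right-continuous filtration `{τ < t} ∈ F t` is enough for a
stopping time; countable infima; debuts of "open" sets (strict inequalities, countably many
parameters or a separable parameter).
-/

open MeasureTheory ProbabilityTheory Filter Topology
open scoped NNReal ENNReal

namespace Crest.Agent.R162.LBST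

open Crest.Agent.R162.OS

variable {Ω : Type*} {m : MeasurableSpace Ω} {F : Filtration ℝ≥0 m} {P : Measure Ω}

/-! ### the right-continuous filtration -/

lemma measurableSet_rightCont_iff {t : ℝ≥0} {A : Set Ω} :
    MeasurableSet[F.rightCont t] A ↔ ∀ j, t < j → MeasurableSet[F j] A := by
  rw [Filtration.rightCont_eq]
  simp only [MeasurableSpace.measurableSet_iInf, gt_iff_lt]

lemma le_rc (F : Filtration ℝ≥0 m) (t : ℝ≥0) : F t ≤ F.rightCont t :=
  Filtration.le_rightCont F t

lemma rc_le {s t : ℝ≥0} (h : s < t) : F.rightCont s ≤ F t := fun _ hA =>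
  measurableSet_rightCont_iff.1 hA t h

lemma IsST.rc {τ : Ω → ℝ≥0} (h : IsST F τ) : IsST F.rightCont τ := fun t =>
  le_rc F t _ (h t)

lemma EvST.rc {τ : Ω → ℝ≥0} {A : Set Ω} (h : EvST F τ A) : EvST F.rightCont τ A := fun t =>
  le_rc F t _ (h t)


private lemma dl (k : ℕ) : (0 : ℝ≥0) < 1 / ((k : ℝ≥0) + 1) := by positivity

private lemma tendsto_inv_nat : Tendsto (fun k : ℕ => 1 / ((k : ℝ≥0) + 1)) atTop (𝓝 0) :=
  NNReal.tendsto_coe.1 (by
    simpa using tendsto_one_div_add_atTop_nhds_zero_nat (𝕜 := ℝ))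

theorem isBM_rightCont [IsProbabilityMeasure P] {B : ℝ≥0 → Ω → ℝ} (h : IsBM F B P) :
    IsBM F.rightCont B P := by
  have hBm : ∀ t, Measurable (B t) := fun t => (h.adapted t).mono (F.le t) le_rfl
  refine ⟨h.cont, h.zero, fun t => (h.adapted t).mono (le_rc F t) le_rfl, h.law, fun s => ?_⟩
  -- the σ-algebras of the increments after `s + 1/(k+1)`
  let e : ℕ → ℝ≥0 := fun k => 1 / ((k : ℝ≥0) + 1)
  let G : ℕ → MeasurableSpace Ω := fun k =>
    MeasurableSpace.comap (fun ω (u : ℝ≥0) => B (s + e k + u) ω - B (s + e k) ω)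
      MeasurableSpace.pi
  have hGm : ∀ k (u : ℝ≥0), Measurable[G k] (fun ω => B (s + e k + u) ω - B (s + e k) ω) := by
    intro k u
    exact (measurable_pi_apply (X := fun _ : ℝ≥0 => ℝ) u).comp (comap_measurable
      (fun ω (u : ℝ≥0) => B (s + e k + u) ω - B (s + e k) ω))
  have hGle : ∀ k, G k ≤ m := by
    intro k
    refine Measurable.comap_le ?_
    exact measurable_pi_lambda _ fun u => (hBm _).sub (hBm _)
  have hind : ∀ k, Indep (G k) (F.rightCont s) P := by
    intro k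
    refine indep_of_indep_of_le_right (h.indep (s + e k)) ?_
    exact rc_le (lt_add_of_pos_right s (dl k))
  have hanti : ∀ k, e (k + 1) ≤ e k := by
    intro k
    simp only [e]
    refine one_div_le_one_div_of_le (by positivity) ?_
    push_cast
    exact add_le_add_left (le_add_of_nonneg_right zero_le_one) _
  have hmono : Monotone G := by
    refine monotone_nat_of_le_succ fun k => ?_
    refine Measurable.comap_le ?_
    refine @measurable_pi_lambda _ _ _ (G (k + 1)) _ _ fun u => ?_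
    have h1 := (hGm (k + 1) (e k - e (k + 1) + u)).sub (hGm (k + 1) (e k - e (k + 1)))
    have h2 : ∀ ω, B (s + e k + u) ω - B (s + e k) ω =
        (B (s + e (k + 1) + (e k - e (k + 1) + u)) ω - B (s + e (k + 1)) ω) -
        (B (s + e (k + 1) + (e k - e (k + 1))) ω - B (s + e (k + 1)) ω) := by
      intro ω
      have h3 : s + e (k + 1) + (e k - e (k + 1)) = s + e k := by
        rw [add_assoc, add_tsub_cancel_of_le (hanti k)]
      rw [← add_assoc, h3]
      ring
    simp only [h2]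
    exact h1
  have hsup := indep_iSup_of_monotone hind hGle (F.rightCont.le s) hmono
  refine indep_of_indep_of_le_left hsup ?_
  refine Measurable.comap_le ?_
  refine @measurable_pi_lambda _ _ _ (⨆ k, G k) _ _ fun u => ?_
  rcases eq_or_ne u 0 with hu | hu
  · subst hu
    simp only [add_zero, sub_self]
    exact @measurable_const _ _ _ (⨆ k, G k) _
  have hu0 : 0 < u := pos_iff_ne_zero.2 hu
  -- limit of measurable functions
  have hle : ∀ k, G k ≤ ⨆ k, G k := fun k => le_iSup G k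
  have hmeas : ∀ k, Measurable[⨆ k, G k]
      (fun ω => B (s + e k + (u - e k)) ω - B (s + e k) ω) := by
    intro k
    exact (hGm k (u - e k)).mono (hle k) le_rfl
  refine @measurable_of_tendsto_metrizable _ _ (⨆ k, G k) _ _ _ _
    (fun k ω => B (s + e k + (u - e k)) ω - B (s + e k) ω) _ hmeas ?_
  rw [tendsto_pi_nhds]
  intro ω
  have hc := h.cont ω
  have ht : Tendsto e atTop (𝓝 0) := tendsto_inv_nat
  have t1 : Tendsto (fun k => s + e k + (u - e k)) atTop (𝓝 (s + u)) := by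
    have h1 : ∀ᶠ k in atTop, e k < u := ht.eventually_lt_const hu0
    refine Tendsto.congr' (f₁ := fun _ => s + u) ?_ tendsto_const_nhds
    filter_upwards [h1] with k hk
    rw [add_assoc, add_tsub_cancel_of_le hk.le]
  have t2 : Tendsto (fun k => s + e k) atTop (𝓝 s) := by
    simpa using (tendsto_const_nhds (x := s)).add ht
  exact ((hc.tendsto _).comp t1).sub ((hc.tendsto _).comp t2)

/-! ### stopping times of a right-continuous filtration -/

section rc

variable [F.IsRightContinuous]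

theorem isST_of_lt {τ : Ω → ℝ≥0} (h : ∀ t, MeasurableSet[F t] {ω | τ ω < t}) : IsST F τ := by
  have h1 : IsStoppingTime F (fun ω => ((τ ω : ℝ≥0) : WithTop ℝ≥0)) := by
    refine isStoppingTime_of_measurableSet_lt_of_isRightContinuous fun t => ?_
    simpa only [WithTop.coe_lt_coe] using h t
  intro t
  have := h1 t
  simpa only [WithTop.coe_le_coe] using this


/-- enough: `{τ < t}` is `F t`-measurable for rational (or any dense set of) `t`. -/
theorem evST_of_lt {τ : Ω → ℝ≥0} {A : Set Ω} (h : ∀ t, MeasurableSet[F t] (A ∩ {ω | τ ω < t})) :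
    EvST F τ A := by
  intro t
  have h1 : MeasurableSet[F.rightCont t] (A ∩ {ω | τ ω ≤ t}) := by
    rw [measurableSet_rightCont_iff]
    intro j hj
    have e : A ∩ {ω | τ ω ≤ t} = ⋂ k : ℕ, (A ∩ {ω | τ ω < min j (t + 1 / ((k : ℝ≥0) + 1))}) := by
      ext ω
      simp only [Set.mem_inter_iff, Set.mem_ofPred_eq, Set.mem_iInter, lt_min_iff]
      constructor
      · rintro ⟨h1, h2⟩ k
        exact ⟨h1, h2.trans_lt hj, h2.trans_lt (lt_add_of_pos_right t (dl k))⟩
      · intro h1
        refine ⟨(h1 0).1, ?_⟩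
        have t1 : Tendsto (fun k : ℕ => t + 1 / ((k : ℝ≥0) + 1)) atTop (𝓝 (t + 0)) :=
          tendsto_inv_nat.const_add t
        rw [add_zero] at t1
        exact ge_of_tendsto' t1 fun k => (h1 k).2.2.le
    rw [e]
    refine MeasurableSet.iInter fun k => ?_
    exact F.mono (min_le_left _ _) _ (h _)
  rwa [Filtration.IsRightContinuous.eq] at h1



/-! ### debuts of open sets -/

/-- First `t ≥ σ` with `O t ω`, capped at `max T σ` (`hit X K σ T` is the case
`O t ω := X t ω ∈ K`). -/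
noncomputable def deb (O : ℝ≥0 → Ω → Prop) (σ : Ω → ℝ≥0) (T : ℝ≥0) (ω : Ω) : ℝ≥0 :=
  sInf ({t | σ ω ≤ t ∧ O t ω} ∪ {max T (σ ω)})


section debl
omit [F.IsRightContinuous]
variable {O : ℝ≥0 → Ω → Prop} {σ : Ω → ℝ≥0} {T : ℝ≥0} {ω : Ω}

lemma deb_le_max : deb O σ T ω ≤ max T (σ ω) := csInf_le (OrderBot.bddBelow _) (Or.inr rfl)



lemma deb_le_of {t : ℝ≥0} (h1 : σ ω ≤ t) (h2 : O t ω) : deb O σ T ω ≤ t :=
  csInf_le (OrderBot.bddBelow _) (Or.inl ⟨h1, h2⟩)

lemma not_of_lt_deb {t : ℝ≥0} (h1 : σ ω ≤ t) (h2 : t < deb O σ T ω) : ¬ O t ω := fun h =>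
  absurd (deb_le_of h1 h) (not_le.2 h2)

lemma deb_lt_iff {t : ℝ≥0} :
    deb O σ T ω < t ↔ (∃ s, σ ω ≤ s ∧ s < t ∧ O s ω) ∨ max T (σ ω) < t := by
  constructor
  · intro h
    obtain ⟨s, hs, hst⟩ := exists_lt_of_csInf_lt
      (⟨max T (σ ω), Or.inr rfl⟩ : ({t | σ ω ≤ t ∧ O t ω} ∪ {max T (σ ω)} : Set ℝ≥0).Nonempty) h
    rcases hs with hs | hs
    · exact Or.inl ⟨s, hs.1, hst, hs.2⟩
    · rw [Set.mem_singleton_iff.1 hs] at hst
      exact Or.inr hst
  · rintro (⟨s, h1, h2, h3⟩ | h)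
    · exact (deb_le_of h1 h3).trans_lt h2
    · exact deb_le_max.trans_lt h


end debl

/-- **Debut theorem for right-open events.** -/
theorem isST_deb {σ : Ω → ℝ≥0} (hσ : IsST F σ) {O : ℝ≥0 → Ω → Prop}
    (hmeas : ∀ t, MeasurableSet[F t] {ω | σ ω ≤ t ∧ O t ω})
    (hopen : ∀ ω t, σ ω ≤ t → O t ω → ∀ᶠ s in 𝓝[>] t, O s ω) (T : ℝ≥0) :
    IsST F (deb O σ T) := by
  refine isST_of_lt fun t => ?_
  have e : {ω | deb O σ T ω < t} = (⋃ q : {q : ℚ // 0 ≤ q ∧ ((q : ℚ) : ℝ) < t},
      {ω | σ ω ≤ Real.toNNReal ((q : ℚ) : ℝ) ∧ O (Real.toNNReal ((q : ℚ) : ℝ)) ω}) ∪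
      {ω | max T (σ ω) < t} := by
    ext ω
    simp only [Set.mem_ofPred_eq, Set.mem_union, Set.mem_iUnion, Subtype.exists, exists_prop]
    rw [deb_lt_iff]
    refine or_congr ?_ Iff.rfl
    constructor
    · rintro ⟨s, h1, h2, h3⟩
      have h4 := hopen ω s h1 h3
      have h5 : ∀ᶠ r in 𝓝[>] s, r < t := by
        exact eventually_nhdsWithin_of_eventually_nhds (Iio_mem_nhds h2)
      obtain ⟨u, hu, hus⟩ := mem_nhdsGT_iff_exists_Ioo_subset.1 (h4.and h5)
      -- choose a rational in `(s, u)`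
      obtain ⟨q, hq1, hq2⟩ := exists_rat_btwn (NNReal.coe_lt_coe.2 hu)
      have hq0 : (0 : ℝ) ≤ (q : ℝ) := (NNReal.coe_nonneg s).trans hq1.le
      have hm : Real.toNNReal (q : ℝ) ∈ Set.Ioo s u := by
        constructor
        · rw [← NNReal.coe_lt_coe, Real.coe_toNNReal _ hq0]; exact hq1
        · rw [← NNReal.coe_lt_coe, Real.coe_toNNReal _ hq0]; exact hq2
      have h6 := hus hm
      refine ⟨q, ⟨by exact_mod_cast hq0, ?_⟩, h1.trans hm.1.le, h6.1⟩
      have h7 : ((Real.toNNReal (q : ℝ) : ℝ≥0) : ℝ) < t := NNReal.coe_lt_coe.2 h6.2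
      rwa [Real.coe_toNNReal _ hq0] at h7
    · rintro ⟨q, ⟨hq0, hqt⟩, h1, h2⟩
      refine ⟨Real.toNNReal (q : ℝ), h1, ?_, h2⟩
      rw [← NNReal.coe_lt_coe, Real.coe_toNNReal _ (by exact_mod_cast hq0)]
      exact hqt
  rw [e]
  refine MeasurableSet.union (MeasurableSet.iUnion fun q => ?_) ?_
  · refine F.mono ?_ _ (hmeas _)
    rw [← NNReal.coe_le_coe, Real.coe_toNNReal _ (by exact_mod_cast q.2.1)]
    exact q.2.2.le
  · have : {ω | max T (σ ω) < t} = {ω | T < t ∧ σ ω < t} := by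
      ext ω; simp
    rw [this]
    by_cases hT : T < t
    · simp only [hT, true_and]
      exact hσ.measurableSet_lt t
    · simp only [hT, false_and]
      exact @MeasurableSet.empty _ (F t)

end rc

end Crest.Agent.R162.LBST
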