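import Mathlib
import Crest.Prelude.Def_Loewner
import Crest.Agent.R162.FLDef

/-!
Row 162 (S0243), node LB-BC: Brownian restart and scaling, independence of blocks, and
"almost surely there is a good block in every time interval".
-/

set_option autoImplicit false

open MeasureTheory ProbabilityTheory Filter Set
open scoped NNReal ENNReal Topology

namespace Crest.Agent.R162.LBbc

set_option warn.classDefReducibility false
set_option linter.unusedSectionVars false

variable {Ω : Type*} [mΩ : MeasurableSpace Ω] {P : Measure Ω}

/-- continuous paths -/
abbrev PathSp := {f : ℝ≥0 → ℝ // Continuous f}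

/-- the σ-algebra of the coordinates `≤ T` on the path space -/
def sig (T : ℝ≥0) : MeasurableSpace PathSp :=
  MeasurableSpace.comap (fun (f : PathSp) (v : Set.Iic T) => f.1 v) inferInstance

/-- the natural (raw) filtration -/
def past (B : ℝ≥0 → Ω → ℝ) (t : ℝ≥0) : MeasurableSpace Ω :=
  MeasurableSpace.comap (fun ω (v : Set.Iic t) => B v ω) inferInstance

















theorem sig_le (T : ℝ≥0) : sig T ≤ (inferInstance : MeasurableSpace PathSp) := by
  unfold sig
  have : Measurable (fun (f : PathSp) (v : Set.Iic T) => f.1 v) :=
    measurable_pi_lambda _ (fun v => (measurable_pi_apply v.1).comp measurable_subtype_coe)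
  exact this.comap_le

theorem measurable_sig {T v : ℝ≥0} (h : v ≤ T) : Measurable[sig T] (fun f : PathSp => f.1 v) := by
  have : (fun f : PathSp => f.1 v) = (fun x : Set.Iic T → ℝ => x ⟨v, h⟩) ∘
      (fun (f : PathSp) (v : Set.Iic T) => f.1 v) := rfl
  rw [this]
  exact (measurable_pi_apply _).comp (comap_measurable _)








end Crest.Agent.R162.LBbc
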