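import Mathlib
import Crest.Agent.R162.FLC3
import Crest.Agent.R162.FLD

/-!
Row 162, node LB-ST (part 2, helper183): stability of the inverse flow `ffl W t z` in the driving
function, joint continuity on path space, measurability of `ffl`, of its derivative, and of
`f ∘ ffl` for a fixed continuous / holomorphic `f` on the half-plane.
Everything is stated for an arbitrary measurable space `m` on `Ω`; use it with `m := F t`.
-/

set_option autoImplicit false

open Set MeasureTheory Complex Filter Topology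
open scoped NNReal

namespace Crest.Agent.R162.LBST

open Crest.Agent.R162.FL Crest.Agent.R162.FLC

variable {W V : ℝ → ℝ} {t : ℝ} {z : ℂ}

/-! ## stability in the driving function -/

lemma hasDerivWithinAt_rev {g : ℝ → ℂ} {g' : ℂ} {r : ℝ} (hr : r ∈ Ico (0:ℝ) t)
    (h : HasDerivWithinAt g g' (Icc 0 t) (t - r)) :
    HasDerivWithinAt (fun r => g (t - r)) (-g') (Ici r) r := by
  have hmap : MapsTo (fun v : ℝ => t - v) (Icc 0 t) (Icc 0 t) := by
    intro x hx
    exact ⟨by linarith [hx.2], by linarith [hx.1]⟩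
  have d1 : HasDerivWithinAt (fun v : ℝ => t - v) (-1) (Icc 0 t) r :=
    ((hasDerivAt_id r).const_sub t).hasDerivWithinAt
  have d2 := HasDerivWithinAt.scomp r h d1 hmap
  have d3 : HasDerivWithinAt (fun r => g (t - r)) (-g') (Icc 0 t) r := by
    rw [neg_one_smul] at d2
    exact d2
  exact d3.mono_of_mem_nhdsWithin (Icc_mem_nhdsGE_of_mem hr)

theorem norm_sol_sub_sol_le (ht : 0 ≤ t) {g h : ℝ → ℂ} (hg : IsSol W t g) (hh : IsSol V t h)
    {y : ℝ} (hy : 0 < y) (hgy : ∀ s ∈ Icc 0 t, y ≤ (g s).im) (hhy : ∀ s ∈ Icc 0 t, y ≤ (h s).im)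
    {M : ℝ} (hM : ∀ s ∈ Icc 0 t, |W s - V s| ≤ M) :
    ‖g 0 - h 0‖ ≤ (‖g t - h t‖ + M) * Real.exp (2 / y ^ 2 * t) := by
  have hM0 : 0 ≤ M := (abs_nonneg _).trans (hM 0 (left_mem_Icc.2 ht))
  have hK : (0:ℝ) < 2 / y ^ 2 := by positivity
  have hKc : ((Real.toNNReal (2 / y ^ 2) : ℝ≥0) : ℝ) = 2 / y ^ 2 := Real.coe_toNNReal _ hK.le
  have hmem : ∀ r ∈ Ico (0:ℝ) t, t - r ∈ Icc (0:ℝ) t := by
    intro r hr
    exact ⟨by linarith [hr.2], by linarith [hr.1]⟩
  have hcont : ∀ {k : ℝ → ℂ}, ContinuousOn k (Icc 0 t) →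
      ContinuousOn (fun r => k (t - r)) (Icc 0 t) := by
    intro k hk
    refine hk.comp (by fun_prop) ?_
    intro x hx
    exact ⟨by linarith [hx.2], by linarith [hx.1]⟩
  have key := dist_le_of_approx_trajectories_ODE_of_mem
    (v := fun r x => -(2 / (x - (W (t - r) : ℂ)))) (s := fun _ => {x : ℂ | y ≤ x.im})
    (K := Real.toNNReal (2 / y ^ 2)) (f := fun r => g (t - r)) (g := fun r => h (t - r))
    (f' := fun r => -(2 / (g (t - r) - W (t - r)))) (g' := fun r => -(2 / (h (t - r) - V (t - r))))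
    (a := 0) (b := t) (εf := 0) (εg := 2 / y ^ 2 * M) (δ := ‖g t - h t‖)
    ?_ (hcont hg.continuousOn) ?_ ?_ ?_ (hcont hh.continuousOn) ?_ ?_ ?_ ?_ t (right_mem_Icc.2 ht)
  · simp only [sub_self, dist_eq_norm, sub_zero, zero_add] at key
    refine key.trans ?_
    rw [gronwallBound_of_K_ne_0 (by rw [hKc]; exact hK.ne'), hKc]
    have h1 : 2 / y ^ 2 * M / (2 / y ^ 2) = M := by field_simp
    rw [h1]
    nlinarith [Real.exp_pos (2 / y ^ 2 * t)]
  · intro r _
    refine LipschitzOnWith.of_dist_le_mul ?_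
    intro a ha b hb
    rw [dist_eq_norm, dist_eq_norm, hKc, neg_sub_neg, norm_sub_rev]
    exact two_div_lip hy _ ha hb
  · intro r hr
    exact hasDerivWithinAt_rev hr (hg.hasDeriv (hmem r hr))
  · intro r _
    simp
  · intro r hr
    exact hgy _ (hmem r hr)
  · intro r hr
    exact hasDerivWithinAt_rev hr (hh.hasDeriv (hmem r hr))
  · intro r hr
    have hr' := hmem r hr
    rw [dist_eq_norm, neg_sub_neg]
    have e1 := sub_ofReal_ne (hh.im_pos hr') (W (t - r))
    have e2 := sub_ofReal_ne (hh.im_pos hr') (V (t - r))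
    have e : 2 / (h (t - r) - (W (t - r) : ℂ)) - 2 / (h (t - r) - (V (t - r) : ℂ)) =
        2 * ((W (t - r) - V (t - r) : ℝ) : ℂ) /
          ((h (t - r) - (W (t - r) : ℂ)) * (h (t - r) - (V (t - r) : ℂ))) := by
      push_cast
      field_simp
      ring
    rw [e, norm_div, norm_mul, norm_mul, Complex.norm_ofNat, Complex.norm_real, Real.norm_eq_abs]
    have h1 : y ≤ ‖h (t - r) - (W (t - r) : ℂ)‖ := (hhy _ hr').trans (im_le_norm_sub _ _)
    have h2 : y ≤ ‖h (t - r) - (V (t - r) : ℂ)‖ := (hhy _ hr').trans (im_le_norm_sub _ _)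
    rw [div_mul_eq_mul_div, sq]
    have h3 := hM _ hr'
    gcongr
  · intro r hr
    exact hhy _ (hmem r hr)
  · simp [dist_eq_norm]

/-- **Stability of the inverse flow in the driving function.** -/
theorem norm_ffl_drive_le (hW : ContinuousOn W (Ici 0)) (hV : ContinuousOn V (Ici 0)) (ht : 0 ≤ t)
    (hz : 0 < z.im) {M : ℝ} (hM : ∀ s ∈ Icc 0 t, |W s - V s| ≤ M) :
    ‖ffl W t z - ffl V t z‖ ≤ (|W t - V t| + M) * Real.exp (2 / z.im ^ 2 * t) := by
  have key := norm_sol_sub_sol_le ht (isSol_ffl hW ht hz) (isSol_ffl hV ht hz) hz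
    (fun s hs => im_le_gfl_ffl hW ht hz hs) (fun s hs => im_le_gfl_ffl hV ht hz hs) hM
  simp only [gfl_zero_ffl hW ht hz, gfl_zero_ffl hV ht hz, gfl_ffl hW ht hz, gfl_ffl hV ht hz] at key
  refine key.trans (le_of_eq ?_)
  have : z + (W t : ℂ) - (z + V t) = ((W t - V t : ℝ) : ℂ) := by push_cast; ring
  rw [this, Complex.norm_real, Real.norm_eq_abs]

/-! ## locality and trivial values -/

open Classical in
lemma dite_choose_congr {P Q : ℂ → Prop} (h : P = Q) (z : ℂ) :
    (if h : ∃ w, P w then h.choose else z) = (if h : ∃ w, Q w then h.choose else z) := by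
  subst h; rfl

/-- `ffl W t` only depends on `W` on `[0,t]`. -/
theorem ffl_congr (ht : 0 ≤ t) (h : ∀ s ∈ Icc 0 t, W s = V s) (z : ℂ) :
    ffl W t z = ffl V t z := by
  have e : (fun w => Alive W w t ∧ gfl W t w = z + W t) =
      (fun w => Alive V w t ∧ gfl V t w = z + V t) := by
    funext w
    rw [FLD.gfl_congr h, h t ⟨ht, le_rfl⟩, propext (FLD.alive_congr h)]
  unfold ffl
  exact dite_choose_congr e z

lemma gfl_im_pos' (h : Alive W z t) : 0 < (gfl W t z).im := by
  rw [gfl, dif_pos h]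
  exact h.2.choose_spec.im_pos t ⟨h.1, le_rfl⟩

/-- outside the half-plane the inverse flow is the identity (by convention) -/
theorem ffl_of_im_nonpos (W : ℝ → ℝ) (t : ℝ) (hz : z.im ≤ 0) : ffl W t z = z := by
  unfold ffl
  rw [dif_neg]
  rintro ⟨w, ha, hw⟩
  have := gfl_im_pos' ha
  rw [hw, FLC.add_im] at this
  linarith

/-! ## joint continuity on path space -/

/-- the inverse flow on path space -/
noncomputable def fC (T : ℝ) (x : (C(unitInterval, ℝ) × ℝ) × ℂ) : ℂ :=
  ffl (FLD.ofI T x.1.1) (FLD.clampT T x.1.2) x.2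

theorem continuousOn_fC {T : ℝ} (hT : 0 ≤ T) : ContinuousOn (fC T) {x | 0 < x.2.im} := by
  rintro ⟨⟨p, s⟩, z⟩ hz
  have hz' : 0 < z.im := hz
  apply ContinuousAt.continuousWithinAt
  rw [ContinuousAt, tendsto_iff_dist_tendsto_zero]
  set C : ℝ := Real.exp (2 / (z.im / 2) ^ 2 * T) with hC
  have hC0 : 0 < C := Real.exp_pos _
  have hcont : ContinuousAt (fun x : (C(unitInterval, ℝ) × ℝ) × ℂ =>
      ffl (FLD.ofI T p) (FLD.clampT T x.1.2) x.2) ((p, s), z) := by
    have h1 := continuousOn_ffl (FLD.continuous_ofI T p).continuousOn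
    have h2 : ContinuousAt (fun x : (C(unitInterval, ℝ) × ℝ) × ℂ =>
        ((FLD.clampT T x.1.2, x.2) : ℝ × ℂ)) ((p, s), z) := by
      have := FLD.continuous_clampT T
      exact (Continuous.prodMk (this.comp (continuous_snd.comp continuous_fst))
        continuous_snd).continuousAt
    have h3 : ContinuousWithinAt (fun q : ℝ × ℂ => ffl (FLD.ofI T p) q.1 q.2)
        (Ici 0 ×ˢ {z : ℂ | 0 < z.im}) (FLD.clampT T s, z) :=
      h1 _ ⟨(FLD.clampT_mem hT s).1, hz'⟩
    have h4 : Tendsto (fun x : (C(unitInterval, ℝ) × ℝ) × ℂ =>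
        ((FLD.clampT T x.1.2, x.2) : ℝ × ℂ)) (𝓝 ((p, s), z))
        (𝓝[Ici 0 ×ˢ {z : ℂ | 0 < z.im}] (FLD.clampT T s, z)) := by
      refine tendsto_nhdsWithin_iff.2 ⟨h2, ?_⟩
      have : ∀ᶠ x : (C(unitInterval, ℝ) × ℝ) × ℂ in 𝓝 ((p, s), z), 0 < x.2.im :=
        ((Complex.continuous_im.comp continuous_snd).tendsto _).eventually_const_lt hz'
      filter_upwards [this] with x hx
      exact ⟨(FLD.clampT_mem hT _).1, hx⟩
    exact h3.tendsto.comp h4
  have hev : ∀ᶠ x : (C(unitInterval, ℝ) × ℝ) × ℂ in 𝓝 ((p, s), z),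
      dist (fC T x) (fC T ((p, s), z)) ≤ 2 * dist x.1.1 p * C +
        dist (ffl (FLD.ofI T p) (FLD.clampT T x.1.2) x.2)
          (ffl (FLD.ofI T p) (FLD.clampT T s) z) := by
    have h0 : ∀ᶠ x : (C(unitInterval, ℝ) × ℝ) × ℂ in 𝓝 ((p, s), z), z.im / 2 < x.2.im :=
      ((Complex.continuous_im.comp continuous_snd).tendsto _).eventually_const_lt
        (by show z.im / 2 < z.im; linarith)
    filter_upwards [h0] with x hx
    have hx0 : 0 < x.2.im := lt_trans (by positivity) hx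
    refine (dist_triangle _ (ffl (FLD.ofI T p) (FLD.clampT T x.1.2) x.2) _).trans ?_
    refine add_le_add ?_ le_rfl
    have hmem := FLD.clampT_mem hT x.1.2
    have hbd : ∀ r ∈ Icc 0 (FLD.clampT T x.1.2),
        |FLD.ofI T x.1.1 r - FLD.ofI T p r| ≤ dist x.1.1 p :=
      fun r _ => FLD.abs_ofI_sub_le T _ _ r
    have := norm_ffl_drive_le (FLD.continuous_ofI T x.1.1).continuousOn
      (FLD.continuous_ofI T p).continuousOn hmem.1 hx0 hbd
    rw [dist_eq_norm, fC]
    refine this.trans ?_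
    have h1 : |FLD.ofI T x.1.1 (FLD.clampT T x.1.2) - FLD.ofI T p (FLD.clampT T x.1.2)| ≤
        dist x.1.1 p := FLD.abs_ofI_sub_le T _ _ _
    refine mul_le_mul (by linarith) (Real.exp_le_exp.2 ?_) (Real.exp_pos _).le (by positivity)
    refine mul_le_mul ?_ hmem.2 hmem.1 (by positivity)
    gcongr
  refine squeeze_zero' (Eventually.of_forall fun _ => dist_nonneg) hev ?_
  have h5 : Tendsto (fun x : (C(unitInterval, ℝ) × ℝ) × ℂ => 2 * dist x.1.1 p * C)
      (𝓝 ((p, s), z)) (𝓝 (2 * dist p p * C)) := by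
    have : Continuous (fun x : (C(unitInterval, ℝ) × ℝ) × ℂ => 2 * dist x.1.1 p * C) := by
      fun_prop
    exact this.tendsto _
  have h6 := (tendsto_iff_dist_tendsto_zero.1 hcont.tendsto)
  have := h5.add h6
  simpa using this

attribute [local instance] FLD.instMSC
local instance instBSC : BorelSpace C(unitInterval, ℝ) := ⟨rfl⟩

theorem measurable_fC {T : ℝ} (hT : 0 ≤ T) : Measurable (fC T) := by
  classical
  have hs : MeasurableSet {x : (C(unitInterval, ℝ) × ℝ) × ℂ | 0 < x.2.im} :=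
    measurableSet_lt measurable_const (Complex.measurable_im.comp measurable_snd)
  have h := (continuousOn_fC hT).measurable_piecewise
    (g := fun x : (C(unitInterval, ℝ) × ℝ) × ℂ => x.2) continuous_snd.continuousOn hs
  convert h using 1
  funext x
  by_cases hx : 0 < x.2.im
  · rw [piecewise_eq_of_mem _ _ _ (show x ∈ {x : (C(unitInterval, ℝ) × ℝ) × ℂ | 0 < x.2.im} from hx)]
  · rw [piecewise_eq_of_notMem _ _ _
      (show x ∉ {x : (C(unitInterval, ℝ) × ℝ) × ℂ | 0 < x.2.im} from hx)]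
    exact ffl_of_im_nonpos _ _ (not_lt.1 hx)

section meas

variable {Ω : Type*} {m : MeasurableSpace Ω} {T : ℝ} {W : Ω → ℝ → ℝ}

lemma ofI_toI' {T : ℝ} (hT : 0 ≤ T) (w : ℝ → ℝ) (h : ContinuousOn w (Icc 0 T)) :
    ∀ s ∈ Icc 0 T, w s = FLD.ofI T (FLD.toI T hT w h) s := by
  rcases hT.eq_or_lt with h0 | h0
  · subst h0
    intro s hs
    have hs0 : s = 0 := le_antisymm hs.2 hs.1
    subst hs0
    simp [FLD.ofI, FLD.toI]
  · exact FLD.ofI_toI h0 w h

/-- **Joint measurability of the inverse flow** in `(ω, s, z)`, `s` clamped to `[0,T]`. -/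
theorem measurable_ffl_joint (hT : 0 ≤ T) (hc : ∀ ω, ContinuousOn (W ω) (Icc 0 T))
    (hm : ∀ s ∈ Icc 0 T, Measurable (fun ω => W ω s)) :
    Measurable (fun x : (Ω × ℝ) × ℂ => ffl (W x.1.1) (FLD.clampT T x.1.2) x.2) := by
  have h1 : Measurable (fun x : (Ω × ℝ) × ℂ =>
      (((FLD.toI T hT (W x.1.1) (hc x.1.1), x.1.2), x.2) : (C(unitInterval, ℝ) × ℝ) × ℂ)) :=
    (((FLD.measurable_toI hT hc hm).comp (measurable_fst.comp measurable_fst)).prodMk
      (measurable_snd.comp measurable_fst)).prodMk measurable_snd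
  have h2 := (measurable_fC hT).comp h1
  convert h2 using 1
  funext x
  have hmem := FLD.clampT_mem hT x.1.2
  simp only [Function.comp, fC]
  exact ffl_congr hmem.1 (fun s hs => ofI_toI' hT _ (hc _) s ⟨hs.1, hs.2.trans hmem.2⟩) _

/-- `(ω, z) ↦ ffl (W ω) s z` is measurable for `0 ≤ s ≤ T`. -/
theorem measurable_ffl_pt {s : ℝ} (hs : s ∈ Icc 0 T) (hc : ∀ ω, ContinuousOn (W ω) (Icc 0 T))
    (hm : ∀ s ∈ Icc 0 T, Measurable (fun ω => W ω s)) :
    Measurable (fun p : Ω × ℂ => ffl (W p.1) s p.2) := by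
  have h := measurable_ffl_joint (hs.1.trans hs.2) hc hm
  have h2 : Measurable (fun p : Ω × ℂ => (((p.1, s), p.2) : (Ω × ℝ) × ℂ)) :=
    (measurable_fst.prodMk measurable_const).prodMk measurable_snd
  have h3 := h.comp h2
  simpa only [Function.comp_def, FLD.clampT_of_mem hs] using h3

/-- `ω ↦ ffl (W ω) s z` is measurable for `0 ≤ s ≤ T`. -/
theorem measurable_ffl {s : ℝ} (hs : s ∈ Icc 0 T) (z : ℂ)
    (hc : ∀ ω, ContinuousOn (W ω) (Icc 0 T))
    (hm : ∀ s ∈ Icc 0 T, Measurable (fun ω => W ω s)) :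
    Measurable (fun ω => ffl (W ω) s z) :=
  (measurable_ffl_pt hs hc hm).comp (measurable_id.prodMk measurable_const)




/-! ## composition with a fixed map `f` -/


lemma ffl_im_pos' (hc : ContinuousOn V (Icc 0 t)) (ht : 0 ≤ t) (hz : 0 < z.im) :
    0 < (ffl V t z).im := by
  set U := FLD.ofI t (FLD.toI t ht V hc) with hU
  have hUc : ContinuousOn U (Ici 0) := (FLD.continuous_ofI t _).continuousOn
  have e : ffl V t z = ffl U t z := ffl_congr ht (ofI_toI' ht _ hc) z
  rw [e]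
  exact ffl_im_pos hUc ht hz






end meas

/-! ## continuity in `(t, z)` of `f ∘ f_t` and of its derivative, for a fixed path -/

theorem continuousOn_comp_ffl {E : Type*} [TopologicalSpace E] {f : ℂ → E}
    (hf : ContinuousOn f {z | 0 < z.im}) (hW : ContinuousOn W (Ici 0)) :
    ContinuousOn (fun p : ℝ × ℂ => f (ffl W p.1 p.2)) (Ici 0 ×ˢ {z : ℂ | 0 < z.im}) :=
  hf.comp (continuousOn_ffl hW) (fun p hp => ffl_im_pos hW hp.1 hp.2)


end Crest.Agent.R162.LBST
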