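import Crest.Agent.R162.OSDefs
import Crest.Agent.R162.LB5
import Crest.Agent.R162.LBbc
import Crest.Agent.R162.LBSkel
import Crest.Agent.R162.LB6c
import Crest.Agent.R162.LBST2
import Crest.Agent.R162.LBSTf
import Crest.Agent.R162.LBDrv

-- ▼ part R162/LBStop
section

/-!
Row 162 (S0243), LB-EXP part 2 (helper384): the path stopped at a stopping time, as an
`F_σ`-measurable map into the path space.
-/

set_option autoImplicit false

open MeasureTheory ProbabilityTheory Set
open scoped NNReal ENNReal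

namespace Crest.Agent.R162.LBStop

open Crest.Agent.R162.OS Crest.Agent.R162.LBI

variable {Ω : Type*} {m : MeasurableSpace Ω} {P : Measure Ω} {F : Filtration ℝ≥0 m}
  {B : ℝ≥0 → Ω → ℝ} {σ : Ω → ℝ≥0}

abbrev PathSp := {f : ℝ≥0 → ℝ // Continuous f}

/-- `min σ r` is `F r`-measurable -/
theorem measurable_min (hσ : IsST F σ) (r : ℝ≥0) : Measurable[F r] (fun ω => min (σ ω) r) := by
  let _ : MeasurableSpace Ω := F r
  refine measurable_of_Iic fun a => ?_
  by_cases h : r ≤ a
  · have e : (fun ω => min (σ ω) r) ⁻¹' Iic a = univ := by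
      ext ω
      simp only [mem_preimage, mem_Iic, mem_univ, iff_true]
      exact (min_le_right _ _).trans h
    rw [e]
    exact MeasurableSet.univ
  · push Not at h
    have e : (fun ω => min (σ ω) r) ⁻¹' Iic a = {ω | σ ω ≤ a} := by
      ext ω
      simp only [mem_preimage, mem_Iic, mem_ofPred_eq, min_le_iff, or_iff_left_iff_imp]
      intro h2
      exact absurd h2 (not_le.2 h)
    rw [e]
    exact F.mono h.le _ (hσ a)

/-- the value at a time `≤ r` which is `F r`-measurable -/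
theorem measurable_eval (hB : IsBM F B P) (r : ℝ≥0) {τ : Ω → ℝ≥0} (hτ : Measurable[F r] τ)
    (hle : ∀ ω, τ ω ≤ r) : Measurable[F r] (fun ω => B (τ ω) ω) := by
  let _ : MeasurableSpace Ω := F r
  have h1 : Measurable (Function.uncurry fun (s : ℝ≥0) (ω : Ω) => B (min s r) ω) := by
    refine measurable_uncurry_of_continuous_of_measurable (fun ω => ?_) (fun s => ?_)
    · exact (hB.cont ω).comp (continuous_id.min continuous_const)
    · exact (hB.adapted (min s r)).mono (F.mono (min_le_right _ _)) le_rfl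
  have h2 : Measurable fun ω => (τ ω, ω) := hτ.prodMk measurable_id
  have h3 := h1.comp h2
  have e : (fun ω => B (τ ω) ω) = (Function.uncurry fun (s : ℝ≥0) (ω : Ω) => B (min s r) ω) ∘
      fun ω => (τ ω, ω) := by
    funext ω
    simp only [Function.comp_apply, Function.uncurry_apply_pair, min_eq_left (hle ω)]
  rw [e]
  exact h3

/-- the stopped path -/
def stp (p : ℝ≥0 → ℝ) (s : ℝ≥0) : ℝ≥0 → ℝ := fun t => p (min t s)

theorem continuous_stp {p : ℝ≥0 → ℝ} (hp : Continuous p) (s : ℝ≥0) : Continuous (stp p s) :=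
  hp.comp (continuous_id.min continuous_const)


/-- the stopping time is measurable with respect to its past -/
theorem measurable_self (hσ : IsST F σ) : Measurable[stSigma F σ hσ] σ := by
  let _ : MeasurableSpace Ω := stSigma F σ hσ
  refine measurable_of_Iic fun a => ?_
  change EvST F σ (σ ⁻¹' Iic a)
  intro t
  have e : (σ ⁻¹' Iic a) ∩ {ω | σ ω ≤ t} = {ω | σ ω ≤ min a t} := by
    ext ω
    simp only [mem_inter_iff, mem_preimage, mem_Iic, mem_ofPred_eq, le_min_iff]
  rw [e]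
  exact F.mono (min_le_right _ _) _ (hσ _)

/-- the value of the stopped path at time `t` is `F_σ`-measurable -/
theorem measurable_stp_eval (hB : IsBM F B P) (hσ : IsST F σ) (t : ℝ≥0) :
    Measurable[stSigma F σ hσ] (fun ω => B (min t (σ ω)) ω) := by
  intro D hD r
  have h1 : Measurable[F r] (fun ω => B (min t (min (σ ω) r)) ω) := by
    refine measurable_eval hB r ?_ (fun ω => (min_le_right _ _).trans (min_le_right _ _))
    have h0 := measurable_min hσ r
    let _ : MeasurableSpace Ω := F r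
    exact measurable_const.min h0
  have e : ((fun ω => B (min t (σ ω)) ω) ⁻¹' D) ∩ {ω | σ ω ≤ r} =
      ((fun ω => B (min t (min (σ ω) r)) ω) ⁻¹' D) ∩ {ω | σ ω ≤ r} := by
    ext ω
    simp only [mem_inter_iff, mem_preimage, mem_ofPred_eq]
    constructor
    · rintro ⟨h2, h3⟩
      rw [min_eq_left h3]
      exact ⟨h2, h3⟩
    · rintro ⟨h2, h3⟩
      rw [min_eq_left h3] at h2
      exact ⟨h2, h3⟩
  rw [e]
  exact @MeasurableSet.inter _ (F r) _ _ (h1 hD) (hσ r)

/-- the stopped path and the stopping time -/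
def Y (hB : IsBM F B P) (σ : Ω → ℝ≥0) (ω : Ω) : PathSp × ℝ≥0 :=
  (⟨stp (fun t => B t ω) (σ ω), continuous_stp (hB.cont ω) _⟩, σ ω)

theorem measurable_Y (hB : IsBM F B P) (hσ : IsST F σ) :
    Measurable[stSigma F σ hσ] (Y hB σ) := by
  let _ : MeasurableSpace Ω := stSigma F σ hσ
  refine Measurable.prodMk ?_ (measurable_self hσ)
  refine Measurable.subtype_mk ?_
  exact measurable_pi_lambda _ fun t => measurable_stp_eval hB hσ t

end Crest.Agent.R162.LBStop
end

-- ▼ part R162/SMK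
section

/-!
Row 162, node LB-SMK (helper426): resampling of Brownian motion after a stopping time.
-/

set_option autoImplicit false

open MeasureTheory ProbabilityTheory Filter Topology Set
open scoped NNReal ENNReal

noncomputable section

namespace Crest.Agent.R162.SMK

open Crest.Agent.R162.OS

variable {Ω : Type*} {m : MeasurableSpace Ω} {P : Measure Ω}
  {F : Filtration ℝ≥0 m} {B : ℝ≥0 → Ω → ℝ}

lemma meas (hB : IsBM F B P) (t : ℝ≥0) : Measurable (B t) := (hB.adapted t).mono (F.le t) le_rfl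

lemma isProb (hB : IsBM F B P) : IsProbabilityMeasure P := by
  have h := hB.law 0 0
  have h2 : (P.map (fun ω => B (0 + 0) ω - B 0 ω)) Set.univ = 1 := by
    rw [h]; exact measure_univ
  have hm : Measurable (fun ω => B (0 + 0) ω - B 0 ω) := (meas hB _).sub (meas hB _)
  rw [Measure.map_apply hm MeasurableSet.univ] at h2
  exact ⟨by simpa using h2⟩

/-- increments -/
lemma hasIndepIncrements (hB : IsBM F B P) : HasIndepIncrements B P := by
  have := isProb hB
  refine HasIndepIncrements.of_nat fun t ht _ => ?_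
  rw [iIndepFun_iff_measure_inter_preimage_eq_mul]
  intro S sets hS
  induction S using Finset.induction_on_max with
  | empty => simp
  | insert a s hlt ih =>
    have hna : a ∉ s := fun h => lt_irrefl _ (hlt a h)
    rw [Finset.prod_insert hna, Finset.set_biInter_insert]
    rw [← ih (fun i hi => hS i (Finset.mem_insert_of_mem hi))]
    have hind := hB.indep (t a)
    rw [ProbabilityTheory.Indep_iff] at hind
    refine hind _ _ ?_ ?_
    · -- measurable for the comap
      have hle : t a ≤ t (a + 1) := ht (Nat.le_succ a)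
      refine ⟨(fun x : ℝ≥0 → ℝ => x (t (a + 1) - t a)) ⁻¹' (sets a), ?_, ?_⟩
      · exact measurable_pi_apply _ (hS a (Finset.mem_insert_self _ _))
      · ext ω
        simp only [Set.mem_preimage]
        rw [add_tsub_cancel_of_le hle]
    · refine Finset.measurableSet_biInter s fun i hi => ?_
      have hi' : i + 1 ≤ a := hlt i hi
      have h1 : Measurable[F (t a)] (B (t (i + 1))) :=
        (hB.adapted _).mono (F.mono (ht hi')) le_rfl
      have h2 : Measurable[F (t a)] (B (t i)) :=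
        (hB.adapted _).mono (F.mono (ht ((Nat.le_succ i).trans hi'))) le_rfl
      exact (h1.sub h2) (hS i (Finset.mem_insert_of_mem hi))

lemma pre (hB : IsBM F B P) : IsPreBrownianReal B P := by
  have := isProb hB
  refine HasIndepIncrements.isPreBrownianReal_of_hasLaw (fun t => ?_) (hasIndepIncrements hB)
  refine ⟨(meas hB t).aemeasurable, ?_⟩
  have h := hB.law 0 t
  rw [← h]
  congr 1
  funext ω
  simp [hB.zero ω]

/-- the law of a Brownian motion on the product space -/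
lemma law_pi_eq {Ω' : Type*} {m' : MeasurableSpace Ω'} {P' : Measure Ω'}
    {X : ℝ≥0 → Ω → ℝ} {X' : ℝ≥0 → Ω' → ℝ} (hB : IsPreBrownianReal X P)
    (hB' : IsPreBrownianReal X' P') (hm : ∀ t, Measurable (X t)) (hm' : ∀ t, Measurable (X' t)) :
    P.map (fun ω t => X t ω) = P'.map (fun ω t => X' t ω) := by
  have h1 : IsProjectiveLimit (P.map (fun ω t => X t ω))
      (fun I ↦ P.map (fun ω ↦ I.restrict (X · ω))) :=
    isProjectiveLimit_map (measurable_pi_lambda _ hm).aemeasurable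
  have h2 : IsProjectiveLimit (P'.map (fun ω t => X' t ω))
      (fun I ↦ P'.map (fun ω ↦ I.restrict (X' · ω))) :=
    isProjectiveLimit_map (measurable_pi_lambda _ hm').aemeasurable
  have e : (fun I : Finset ℝ≥0 ↦ P.map (fun ω ↦ I.restrict (X · ω)))
      = (fun I ↦ P'.map (fun ω ↦ I.restrict (X' · ω))) := by
    funext I
    rw [(hB.hasLaw I).map_eq, (hB'.hasLaw I).map_eq]
  rw [e] at h1
  have : ∀ I : Finset ℝ≥0, IsFiniteMeasure (P'.map (fun ω ↦ I.restrict (X' · ω))) := by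
    intro I
    rw [(hB'.hasLaw I).map_eq]
    infer_instance
  exact h1.unique h2

/-- post-`s` process -/
def post (B : ℝ≥0 → Ω → ℝ) (s : ℝ≥0) (ω : Ω) : ℝ≥0 → ℝ := fun u => B (s + u) ω - B s ω

lemma measurable_post (hB : IsBM F B P) (s : ℝ≥0) : Measurable (post B s) :=
  measurable_pi_lambda _ fun _ => (meas hB _).sub (meas hB _)

lemma post_law {Ω' : Type*} {m' : MeasurableSpace Ω'} {P' : Measure Ω'}
    {F' : Filtration ℝ≥0 m'} {B' : ℝ≥0 → Ω' → ℝ} (hB : IsBM F B P) (hB' : IsBM F' B' P')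
    (s : ℝ≥0) : P.map (post B s) = P'.map (fun ω t => B' t ω) :=
  law_pi_eq (X := fun u ω => B (s + u) ω - B s ω) ((pre hB).shift s) (pre hB')
    (fun _ => (meas hB _).sub (meas hB _)) (meas hB')


/-- concatenation of a path before `s` with a fresh path after `s` -/
def cat (b : ℝ≥0 → ℝ) (s : ℝ≥0) (w : ℝ≥0 → ℝ) : ℝ≥0 → ℝ := fun t => b (min t s) + w (t - s)

lemma cat_post (B : ℝ≥0 → Ω → ℝ) (s : ℝ≥0) (ω : Ω) :
    cat (fun t => B t ω) s (post B s ω) = fun t => B t ω := by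
  funext t
  unfold cat post
  rcases le_total t s with h | h
  · rw [min_eq_left h, tsub_eq_zero_of_le h, add_zero, sub_self, add_zero]
  · rw [min_eq_right h, add_tsub_cancel_of_le h]; ring

lemma cat_of_le {b w : ℝ≥0 → ℝ} (hw : w 0 = 0) {s t : ℝ≥0} (h : t ≤ s) : cat b s w t = b t := by
  unfold cat
  rw [min_eq_left h, tsub_eq_zero_of_le h, hw, add_zero]

lemma cat_add {b w : ℝ≥0 → ℝ} (s u : ℝ≥0) : cat b s w (s + u) = b s + w u := by
  unfold cat
  rw [min_eq_right le_self_add, add_tsub_cancel_left]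

lemma continuous_cat {b w : ℝ≥0 → ℝ} (hb : Continuous b) (hw : Continuous w) (s : ℝ≥0) :
    Continuous (cat b s w) := by
  unfold cat
  have h1 : Continuous fun t : ℝ≥0 => t - s := continuous_id.sub continuous_const
  exact (hb.comp (continuous_id.min continuous_const)).add (hw.comp h1)

/-- the pair (time, path) as a function on `Option ℝ≥0` -/
def full (s : ℝ≥0) (b : ℝ≥0 → ℝ) : Option ℝ≥0 → ℝ := fun o => o.elim (s : ℝ) b

variable {Ω' : Type*} {m' : MeasurableSpace Ω'} {P' : Measure Ω'}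
    {F' : Filtration ℝ≥0 m'} {B' : ℝ≥0 → Ω' → ℝ}

lemma fixed (hB : IsBM F B P) (hB' : IsBM F' B' P') (s : ℝ≥0) {A : Set Ω}
    (hA : MeasurableSet[F s] A) (g : (ℝ≥0 → ℝ) × (ℝ≥0 → ℝ) → ℝ≥0∞) (hg : Measurable g) :
    ∫⁻ ω in A, g (fun t => B (min t s) ω, post B s ω) ∂P =
      ∫⁻ ω in A, ∫⁻ ω', g (fun t => B (min t s) ω, fun t => B' t ω') ∂P' ∂P := by
  have := isProb hB
  have := isProb hB'
  have hAm : MeasurableSet A := F.le s _ hA
  let W : Ω → ℝ≥0∞ × (ℝ≥0 → ℝ) := fun ω => (A.indicator (fun _ => 1) ω, fun t => B (min t s) ω)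
  have hWF : Measurable[F s] W := by
    have h1 : Measurable[F s] (A.indicator fun _ => (1 : ℝ≥0∞)) :=
      Measurable.indicator (@measurable_const _ _ _ (F s) (1 : ℝ≥0∞)) hA
    have h2 : Measurable[F s] (fun ω (t : ℝ≥0) => B (min t s) ω) :=
      @measurable_pi_lambda _ _ _ (F s) _ _ fun t =>
        (hB.adapted _).mono (F.mono (min_le_right t s)) le_rfl
    exact h1.prodMk h2
  have hW : Measurable W := hWF.mono (F.le s) le_rfl
  have hV : Measurable (post B s) := measurable_post hB s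
  have hind : IndepFun W (post B s) P := by
    have h1 : Indep (F s) (MeasurableSpace.comap (post B s) MeasurableSpace.pi) P :=
      (hB.indep s).symm
    exact indep_of_indep_of_le_left h1 hWF.comap_le
  have hmap : P.map (fun ω => (W ω, post B s ω)) = (P.map W).prod (P.map (post B s)) :=
    (indepFun_iff_map_prod_eq_prod_map_map hW.aemeasurable hV.aemeasurable).1 hind
  let G : (ℝ≥0∞ × (ℝ≥0 → ℝ)) × (ℝ≥0 → ℝ) → ℝ≥0∞ := fun p => p.1.1 * g (p.1.2, p.2)
  have hG : Measurable G := by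
    refine (measurable_fst.comp measurable_fst).mul (hg.comp ?_)
    exact (measurable_snd.comp measurable_fst).prodMk measurable_snd
  have hB'm : Measurable (fun ω' (t : ℝ≥0) => B' t ω') := measurable_pi_lambda _ (meas hB')
  have e1 : ∫⁻ ω in A, g (fun t => B (min t s) ω, post B s ω) ∂P
      = ∫⁻ p, G p ∂(P.map (fun ω => (W ω, post B s ω))) := by
    rw [lintegral_map hG (hW.prodMk hV), ← lintegral_indicator hAm]
    refine lintegral_congr fun ω => ?_
    by_cases h : ω ∈ A <;> simp [G, W, h]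
  rw [e1, hmap, lintegral_prod _ hG.aemeasurable, lintegral_map (hG.lintegral_prod_right') hW,
    ← lintegral_indicator hAm]
  refine lintegral_congr fun ω => ?_
  rw [post_law hB hB' s, lintegral_map (f := fun y => G (W ω, y))
    (hG.comp measurable_prodMk_left) hB'm]
  by_cases h : ω ∈ A <;> simp [G, W, h]

lemma fixed' (hB : IsBM F B P) (hB' : IsBM F' B' P') (s : ℝ≥0) {A : Set Ω}
    (hA : MeasurableSet[F s] A) (f : (Option ℝ≥0 → ℝ) → ℝ≥0∞) (hf : Measurable f) :
    ∫⁻ ω in A, f (full s (fun t => B t ω)) ∂P =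
      ∫⁻ ω in A, ∫⁻ ω', f (full s (cat (fun t => B t ω) s (fun t => B' t ω'))) ∂P' ∂P := by
  let g : (ℝ≥0 → ℝ) × (ℝ≥0 → ℝ) → ℝ≥0∞ := fun p => f (full s (fun t => p.1 t + p.2 (t - s)))
  have hg : Measurable g := by
    refine hf.comp (measurable_pi_lambda _ fun o => ?_)
    cases o with
    | none => exact measurable_const
    | some t =>
      exact ((measurable_pi_apply t).comp measurable_fst).add
        ((measurable_pi_apply (t - s)).comp measurable_snd)
  have h := fixed hB hB' s hA g hg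
  have e1 : ∀ ω, g (fun t => B (min t s) ω, post B s ω) = f (full s (fun t => B t ω)) := by
    intro ω
    have := cat_post B s ω
    simp only [g]
    congr 2
  have e2 : ∀ ω ω', g (fun t => B (min t s) ω, fun t => B' t ω')
      = f (full s (cat (fun t => B t ω) s (fun t => B' t ω'))) := fun ω ω' => rfl
  simp only [e1, e2] at h
  exact h

lemma measurableSet_of_EvST {σ : Ω → ℝ≥0} {A : Set Ω} (hA : EvST F σ A) : MeasurableSet A := by
  have : A = ⋃ n : ℕ, A ∩ {ω | σ ω ≤ (n : ℝ≥0)} := by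
    ext ω
    simp only [mem_iUnion, mem_inter_iff, mem_ofPred_eq]
    constructor
    · intro h
      obtain ⟨n, hn⟩ := exists_nat_ge (σ ω)
      exact ⟨n, h, hn⟩
    · rintro ⟨n, h, -⟩; exact h
  rw [this]
  exact MeasurableSet.iUnion fun n => F.le _ _ (hA n)

lemma measurable_of_IsST {σ : Ω → ℝ≥0} (hσ : IsST F σ) : Measurable σ :=
  measurable_of_Iic fun t => F.le t _ (hσ t)

/-- dyadic approximation from above -/
def dn (n : ℕ) (x : ℝ≥0) : ℝ≥0 := (⌈2 ^ n * x⌉₊ : ℝ≥0) / 2 ^ n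

lemma le_dn (n : ℕ) (x : ℝ≥0) : x ≤ dn n x := by
  unfold dn
  rw [le_div_iff₀ (by positivity), mul_comm]
  exact Nat.le_ceil _

lemma dn_le (n : ℕ) (x : ℝ≥0) : dn n x ≤ x + 1 / 2 ^ n := by
  unfold dn
  rw [div_le_iff₀ (by positivity), add_mul, one_div, inv_mul_cancel₀ (by positivity), mul_comm x]
  exact (Nat.ceil_lt_add_one (by positivity)).le

lemma tendsto_dn (x : ℝ≥0) : Tendsto (fun n => dn n x) atTop (𝓝 x) := by
  have h : Tendsto (fun n : ℕ => x + 1 / 2 ^ n) atTop (𝓝 (x + 0)) := by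
    refine tendsto_const_nhds.add ?_
    have := NNReal.tendsto_pow_atTop_nhds_zero_of_lt_one (r := (1 / 2 : ℝ≥0)) (by
      rw [← NNReal.coe_lt_coe]; norm_num)
    refine this.congr fun n => ?_
    rw [one_div_pow]
  rw [add_zero] at h
  exact tendsto_of_tendsto_of_tendsto_of_le_of_le tendsto_const_nhds h (fun n => le_dn n x)
    fun n => dn_le n x

lemma dn_level {σ : Ω → ℝ≥0} {A : Set Ω} (hA : EvST F σ A) (n k : ℕ) :
    MeasurableSet[F ((k : ℝ≥0) / 2 ^ n)] (A ∩ {ω | ⌈2 ^ n * σ ω⌉₊ = k}) := by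
  cases k with
  | zero =>
    have : A ∩ {ω | ⌈2 ^ n * σ ω⌉₊ = 0} = A ∩ {ω | σ ω ≤ ((0 : ℕ) : ℝ≥0) / 2 ^ n} := by
      ext ω
      simp
    rw [this]
    exact hA _
  | succ k =>
    have hle : ((k : ℝ≥0) / 2 ^ n) ≤ ((k + 1 : ℕ) : ℝ≥0) / 2 ^ n := by
      gcongr; simp
    have : A ∩ {ω | ⌈2 ^ n * σ ω⌉₊ = k + 1} =
        (A ∩ {ω | σ ω ≤ ((k + 1 : ℕ) : ℝ≥0) / 2 ^ n}) \ (A ∩ {ω | σ ω ≤ (k : ℝ≥0) / 2 ^ n}) := by
      ext ω
      simp only [mem_inter_iff, mem_ofPred_eq, Set.mem_sdiff, not_and, not_le]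
      have e1 : σ ω ≤ ((k + 1 : ℕ) : ℝ≥0) / 2 ^ n ↔ ⌈2 ^ n * σ ω⌉₊ ≤ k + 1 := by
        rw [le_div_iff₀ (by positivity), mul_comm, Nat.ceil_le]
      have e2 : (k : ℝ≥0) / 2 ^ n < σ ω ↔ k < ⌈2 ^ n * σ ω⌉₊ := by
        rw [div_lt_iff₀ (by positivity), mul_comm, Nat.lt_ceil]
      rw [e1, e2]
      constructor
      · rintro ⟨h1, h2⟩
        exact ⟨⟨h1, h2.le⟩, fun _ => by omega⟩
      · rintro ⟨⟨h1, h2⟩, h3⟩
        exact ⟨h1, by have := h3 h1; omega⟩
    rw [this]
    exact (hA _).diff (F.mono hle _ (hA _))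

lemma dyadic (hB : IsBM F B P) (hB' : IsBM F' B' P') {σ : Ω → ℝ≥0}
    {A : Set Ω} (hA : EvST F σ A) (n : ℕ) (f : (Option ℝ≥0 → ℝ) → ℝ≥0∞) (hf : Measurable f) :
    ∫⁻ ω in A, f (full (dn n (σ ω)) (fun t => B t ω)) ∂P =
      ∫⁻ ω in A, ∫⁻ ω', f (full (dn n (σ ω))
        (cat (fun t => B t ω) (dn n (σ ω)) (fun t => B' t ω'))) ∂P' ∂P := by
  have hAU : A = ⋃ k : ℕ, A ∩ {ω | ⌈2 ^ n * σ ω⌉₊ = k} := by
    ext ω; simp
  have hmk : ∀ k : ℕ, MeasurableSet (A ∩ {ω | ⌈2 ^ n * σ ω⌉₊ = k}) := fun k =>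
    F.le _ _ (dn_level hA n k)
  have hdisj : Pairwise (Function.onFun Disjoint fun k : ℕ => A ∩ {ω | ⌈2 ^ n * σ ω⌉₊ = k}) := by
    intro i j hij
    rw [Function.onFun, Set.disjoint_left]
    rintro ω ⟨-, h1⟩ ⟨-, h2⟩
    exact hij (h1.symm.trans h2)
  rw [hAU, lintegral_iUnion hmk hdisj, lintegral_iUnion hmk hdisj]
  refine tsum_congr fun k => ?_
  have h := fixed' hB hB' ((k : ℝ≥0) / 2 ^ n) (dn_level hA n k) f hf
  rw [setLIntegral_congr_fun (hmk k) (g := fun ω => f (full ((k : ℝ≥0) / 2 ^ n) (fun t => B t ω)))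
    (by rintro ω ⟨-, hω⟩; simp only [mem_ofPred_eq] at hω; simp only [dn, hω]), h]
  refine setLIntegral_congr_fun (hmk k) ?_
  rintro ω ⟨-, hω⟩
  simp only [mem_ofPred_eq] at hω
  simp only [dn, hω]


lemma measurable_eval (hB : IsBM F B P) {α : Type*} {mα : MeasurableSpace α} {τ : α → ℝ≥0}
    {φ : α → Ω} (hτ : Measurable τ) (hφ : Measurable φ) : Measurable fun a => B (τ a) (φ a) := by
  have h : Measurable (Function.uncurry B) :=
    measurable_uncurry_of_continuous_of_measurable hB.cont (meas hB)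
  exact h.comp (hτ.prodMk hφ)

lemma measurable_cat (hB : IsBM F B P) (hB' : IsBM F' B' P') {σ : Ω → ℝ≥0} (hσ : Measurable σ) :
    Measurable fun p : Ω × Ω' => cat (fun t => B t p.1) (σ p.1) (fun t => B' t p.2) := by
  refine measurable_pi_lambda _ fun t => ?_
  unfold cat
  refine (measurable_eval hB (measurable_const.min (hσ.comp measurable_fst)) measurable_fst).add ?_
  exact measurable_eval hB' (measurable_const.sub (hσ.comp measurable_fst)) measurable_snd

lemma measurable_full {α : Type*} {mα : MeasurableSpace α} {τ : α → ℝ≥0} {X : α → ℝ≥0 → ℝ}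
    (hτ : Measurable τ) (hX : Measurable X) : Measurable fun a => full (τ a) (X a) := by
  refine measurable_pi_lambda _ fun o => ?_
  cases o with
  | none => exact hτ.coe_nnreal_real
  | some t => exact (measurable_pi_apply t).comp hX

lemma measurable_path (hB : IsBM F B P) : Measurable fun ω (t : ℝ≥0) => B t ω :=
  measurable_pi_lambda _ (meas hB)

open BoundedContinuousFunction in
lemma marginal (hB : IsBM F B P) (hB' : IsBM F' B' P') {σ : Ω → ℝ≥0} (hσ : Measurable σ)
    {A : Set Ω} (hA : EvST F σ A) (I : Finset (Option ℝ≥0)) (f : (I → ℝ) →ᵇ ℝ≥0) :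
    ∫⁻ ω in A, f (I.restrict (full (σ ω) (fun t => B t ω))) ∂P =
      ∫⁻ p, f (I.restrict (full (σ p.1) (cat (fun t => B t p.1) (σ p.1) (fun t => B' t p.2))))
        ∂((P.restrict A).prod P') := by
  have := isProb hB
  have := isProb hB'
  have hdn : ∀ n, Measurable fun ω => dn n (σ ω) := by
    intro n
    unfold dn
    refine Measurable.div_const ?_ _
    exact (measurable_from_nat (f := fun k : ℕ => (k : ℝ≥0))).comp
      (Nat.measurable_ceil.comp (hσ.const_mul _))
  have hrest : Measurable (I.restrict (π := fun _ : Option ℝ≥0 => ℝ)) :=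
    measurable_pi_lambda _ fun i => measurable_pi_apply _
  have hf : Measurable fun x : I → ℝ => (f x : ℝ≥0∞) :=
    measurable_coe_nnreal_ennreal.comp f.continuous.measurable
  have hbd : ∀ x : I → ℝ, (f x : ℝ≥0∞) ≤ ((nndist f 0 : ℝ≥0) : ℝ≥0∞) := fun x =>
    ENNReal.coe_le_coe.2 (BoundedContinuousFunction.NNReal.upper_bound f x)
  have hmcat : ∀ τ : Ω → ℝ≥0, Measurable τ → Measurable fun p : Ω × Ω' =>
      (f (I.restrict (full (τ p.1) (cat (fun t => B t p.1) (τ p.1) (fun t => B' t p.2)))) : ℝ≥0∞) :=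
    fun τ hτ => hf.comp (hrest.comp
      (measurable_full (hτ.comp measurable_fst) (measurable_cat hB hB' hτ)))
  have hmB : ∀ τ : Ω → ℝ≥0, Measurable τ → Measurable fun ω =>
      (f (I.restrict (full (τ ω) (fun t => B t ω))) : ℝ≥0∞) :=
    fun τ hτ => hf.comp (hrest.comp (measurable_full hτ (measurable_path hB)))
  -- the identity at level n
  have hn : ∀ n, ∫⁻ ω in A, f (I.restrict (full (dn n (σ ω)) (fun t => B t ω))) ∂P =
      ∫⁻ p, f (I.restrict (full (dn n (σ p.1))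
        (cat (fun t => B t p.1) (dn n (σ p.1)) (fun t => B' t p.2)))) ∂((P.restrict A).prod P') := by
    intro n
    rw [lintegral_prod _ (hmcat _ (hdn n)).aemeasurable]
    exact dyadic hB hB' hA n (fun x => (f (I.restrict x) : ℝ≥0∞)) (hf.comp hrest)
  -- limits
  have hL : Tendsto (fun n => ∫⁻ ω in A, f (I.restrict (full (dn n (σ ω)) (fun t => B t ω))) ∂P)
      atTop (𝓝 (∫⁻ ω in A, f (I.restrict (full (σ ω) (fun t => B t ω))) ∂P)) := by
    refine tendsto_lintegral_of_dominated_convergence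
      (fun _ => ((nndist f 0 : ℝ≥0) : ℝ≥0∞)) (fun n => hmB _ (hdn n))
      (fun n => ae_of_all _ fun ω => hbd _) ?_ (ae_of_all _ fun ω => ?_)
    · rw [lintegral_const]
      exact ENNReal.mul_ne_top ENNReal.coe_ne_top (measure_ne_top _ _)
    · refine (ENNReal.continuous_coe.tendsto _).comp ((f.continuous.tendsto _).comp ?_)
      rw [tendsto_pi_nhds]
      rintro ⟨o, ho⟩
      cases o with
      | none => exact (NNReal.tendsto_coe.2 (tendsto_dn (σ ω)))
      | some t => exact tendsto_const_nhds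
  have hR : Tendsto (fun n => ∫⁻ p, f (I.restrict (full (dn n (σ p.1))
        (cat (fun t => B t p.1) (dn n (σ p.1)) (fun t => B' t p.2)))) ∂((P.restrict A).prod P'))
      atTop (𝓝 (∫⁻ p, f (I.restrict (full (σ p.1)
        (cat (fun t => B t p.1) (σ p.1) (fun t => B' t p.2)))) ∂((P.restrict A).prod P'))) := by
    refine tendsto_lintegral_of_dominated_convergence
      (fun _ => ((nndist f 0 : ℝ≥0) : ℝ≥0∞)) (fun n => hmcat _ (hdn n))
      (fun n => ae_of_all _ fun p => hbd _) ?_ (ae_of_all _ fun p => ?_)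
    · rw [lintegral_const]
      exact ENNReal.mul_ne_top ENNReal.coe_ne_top (measure_ne_top _ _)
    · refine (ENNReal.continuous_coe.tendsto _).comp ((f.continuous.tendsto _).comp ?_)
      rw [tendsto_pi_nhds]
      rintro ⟨o, ho⟩
      have hd := tendsto_dn (σ p.1)
      cases o with
      | none => exact (NNReal.tendsto_coe.2 hd)
      | some t =>
        refine Tendsto.add ?_ ?_
        · exact ((hB.cont p.1).tendsto _).comp (tendsto_const_nhds.min hd)
        · exact ((hB'.cont p.2).tendsto _).comp (tendsto_const_nhds.sub hd)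
  simp only [hn] at hL
  exact tendsto_nhds_unique hL hR

lemma lint_map_map (I : Finset (Option ℝ≥0)) (g : (I → ℝ) → ℝ≥0∞) (hg : Measurable g)
    {α : Type*} {mα : MeasurableSpace α} (μ : Measure α) {X : α → Option ℝ≥0 → ℝ}
    (hX : Measurable X) :
    ∫⁻ x, g x ∂((μ.map X).map (I.restrict (π := fun _ : Option ℝ≥0 => ℝ))) =
      ∫⁻ a, g (I.restrict (X a)) ∂μ := by
  have hr : Measurable (I.restrict (π := fun _ : Option ℝ≥0 => ℝ)) :=
    measurable_pi_lambda _ fun i => measurable_pi_apply _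
  rw [Measure.map_map hr hX]
  exact lintegral_map (f := g) hg (hr.comp hX)

lemma law_full (hB : IsBM F B P) (hB' : IsBM F' B' P') {σ : Ω → ℝ≥0} (hσ : Measurable σ)
    {A : Set Ω} (hA : EvST F σ A) :
    (P.restrict A).map (fun ω => full (σ ω) (fun t => B t ω)) =
      ((P.restrict A).prod P').map (fun p => full (σ p.1)
        (cat (fun t => B t p.1) (σ p.1) (fun t => B' t p.2))) := by
  have := isProb hB
  have := isProb hB'
  have hrest : ∀ I : Finset (Option ℝ≥0), Measurable (I.restrict (π := fun _ : Option ℝ≥0 => ℝ)) :=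
    fun I => measurable_pi_lambda _ fun i => measurable_pi_apply _
  have h1 : Measurable fun ω => full (σ ω) (fun t => B t ω) :=
    measurable_full hσ (measurable_path hB)
  have h2 : Measurable fun p : Ω × Ω' => full (σ p.1)
        (cat (fun t => B t p.1) (σ p.1) (fun t => B' t p.2)) :=
    measurable_full (hσ.comp measurable_fst) (measurable_cat hB hB' hσ)
  refine IsProjectiveLimit.unique (P := fun I : Finset (Option ℝ≥0) =>
    ((P.restrict A).map (fun ω => full (σ ω) (fun t => B t ω))).map I.restrict)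
    (fun I => rfl) (fun I => ?_)
  symm
  refine ext_of_forall_lintegral_eq_of_IsFiniteMeasure fun f => ?_
  have hf : Measurable fun x : I → ℝ => (f x : ℝ≥0∞) :=
    measurable_coe_nnreal_ennreal.comp f.continuous.measurable
  have a1 := lint_map_map I (fun x : I → ℝ => (f x : ℝ≥0∞)) hf (P.restrict A) h1
  have a2 := lint_map_map I (fun x : I → ℝ => (f x : ℝ≥0∞)) hf ((P.restrict A).prod P') h2
  exact a1.trans ((marginal hB hB' hσ hA I f).trans a2.symm)

/-- **Resampling after a stopping time**, on an event of the past. -/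
theorem resample_set (hB : IsBM F B P) (hB' : IsBM F' B' P') {σ : Ω → ℝ≥0} (hσ : IsST F σ)
    {A : Set Ω} (hA : EvST F σ A) (Φ : (ℝ≥0 → ℝ) × ℝ≥0 → ℝ≥0∞) (hΦ : Measurable Φ) :
    ∫⁻ ω in A, Φ (fun t => B t ω, σ ω) ∂P =
      ∫⁻ ω in A, ∫⁻ ω', Φ (cat (fun t => B t ω) (σ ω) (fun t => B' t ω'), σ ω) ∂P' ∂P := by
  have := isProb hB
  have := isProb hB'
  have hσm := measurable_of_IsST hσ
  have h1 : Measurable fun ω => full (σ ω) (fun t => B t ω) :=
    measurable_full hσm (measurable_path hB)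
  have h2 : Measurable fun p : Ω × Ω' => full (σ p.1)
        (cat (fun t => B t p.1) (σ p.1) (fun t => B' t p.2)) :=
    measurable_full (hσm.comp measurable_fst) (measurable_cat hB hB' hσm)
  let G : (Option ℝ≥0 → ℝ) → ℝ≥0∞ := fun x => Φ (fun t => x (some t), Real.toNNReal (x none))
  have hG : Measurable G := by
    refine hΦ.comp (Measurable.prodMk (measurable_pi_lambda _ fun t => measurable_pi_apply _) ?_)
    exact (measurable_pi_apply none).real_toNNReal
  have e : ∀ (s : ℝ≥0) (b : ℝ≥0 → ℝ), G (full s b) = Φ (b, s) := by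
    intro s b
    have : G (full s b) = Φ (b, Real.toNNReal s) := rfl
    rw [this, Real.toNNReal_coe]
  have hl := law_full hB hB' hσm hA
  have hl2 : ∫⁻ x, G x ∂((P.restrict A).map (fun ω => full (σ ω) (fun t => B t ω))) =
      ∫⁻ x, G x ∂(((P.restrict A).prod P').map (fun p => full (σ p.1)
        (cat (fun t => B t p.1) (σ p.1) (fun t => B' t p.2)))) := by rw [hl]
  rw [lintegral_map hG h1, lintegral_map hG h2] at hl2
  simp only [e] at hl2
  have hm2 : Measurable fun p : Ω × Ω' =>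
      Φ (cat (fun t => B t p.1) (σ p.1) (fun t => B' t p.2), σ p.1) :=
    hΦ.comp ((measurable_cat hB hB' hσm).prodMk (hσm.comp measurable_fst))
  rw [lintegral_prod _ hm2.aemeasurable] at hl2
  exact hl2

/-- **Resampling after a stopping time**, with a random element of the past. -/
theorem resample (hB : IsBM F B P) (hB' : IsBM F' B' P') {σ : Ω → ℝ≥0} (hσ : IsST F σ)
    {E : Type*} {mE : MeasurableSpace E} (Y : Ω → E)
    (hY : ∀ D, MeasurableSet D → EvST F σ (Y ⁻¹' D))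
    (Φ : (ℝ≥0 → ℝ) × ℝ≥0 × E → ℝ≥0∞) (hΦ : Measurable Φ) :
    ∫⁻ ω, Φ (fun t => B t ω, σ ω, Y ω) ∂P =
      ∫⁻ ω, ∫⁻ ω', Φ (cat (fun t => B t ω) (σ ω) (fun t => B' t ω'), σ ω, Y ω) ∂P' ∂P := by
  have := isProb hB
  have := isProb hB'
  have hσm := measurable_of_IsST hσ
  have hYm : Measurable Y := fun D hD => measurableSet_of_EvST (hY D hD)
  let X1 : Ω → ((ℝ≥0 → ℝ) × ℝ≥0) × E := fun ω => ((fun t => B t ω, σ ω), Y ω)
  let X2 : Ω × Ω' → ((ℝ≥0 → ℝ) × ℝ≥0) × E := fun p =>
    ((cat (fun t => B t p.1) (σ p.1) (fun t => B' t p.2), σ p.1), Y p.1)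
  have h1 : Measurable X1 := ((measurable_path hB).prodMk hσm).prodMk hYm
  have h2 : Measurable X2 := ((measurable_cat hB hB' hσm).prodMk (hσm.comp measurable_fst)).prodMk
    (hYm.comp measurable_fst)
  have key : P.map X1 = (P.prod P').map X2 := by
    have : IsProbabilityMeasure (P.map X1) := Measure.isProbabilityMeasure_map h1.aemeasurable
    refine ext_of_generate_finite _ generateFrom_prod.symm isPiSystem_prod ?_ ?_
    · rintro _ ⟨C, hC, D, hD, rfl⟩
      simp only [mem_ofPred_eq] at hC hD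
      have hCD : MeasurableSet (C ×ˢ D) := hC.prod hD
      have hYD : MeasurableSet (Y ⁻¹' D) := hYm hD
      rw [Measure.map_apply h1 hCD, Measure.map_apply h2 hCD]
      have hr := resample_set hB hB' hσ (hY D hD) (C.indicator fun _ => 1)
        (measurable_const.indicator hC)
      have hm2 : Measurable fun p : Ω × Ω' =>
          (C.indicator (fun _ => (1 : ℝ≥0∞)))
            (cat (fun t => B t p.1) (σ p.1) (fun t => B' t p.2), σ p.1) :=
        (measurable_const.indicator hC).comp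
          ((measurable_cat hB hB' hσm).prodMk (hσm.comp measurable_fst))
      rw [← lintegral_prod (μ := P.restrict (Y ⁻¹' D)) (ν := P') _ hm2.aemeasurable] at hr
      have e1 : ∫⁻ ω in Y ⁻¹' D, (C.indicator (fun _ => (1 : ℝ≥0∞))) (fun t => B t ω, σ ω) ∂P
          = P (X1 ⁻¹' (C ×ˢ D)) := by
        rw [← lintegral_indicator hYD, ← lintegral_indicator_one (h1 hCD)]
        refine lintegral_congr fun ω => ?_
        by_cases a : Y ω ∈ D <;> by_cases b : ((fun t => B t ω), σ ω) ∈ C <;>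
          simp [X1, a, b, Set.indicator]
      have e2 : ∫⁻ p, (C.indicator (fun _ => (1 : ℝ≥0∞)))
            (cat (fun t => B t p.1) (σ p.1) (fun t => B' t p.2), σ p.1)
            ∂((P.restrict (Y ⁻¹' D)).prod P') = (P.prod P') (X2 ⁻¹' (C ×ˢ D)) := by
        have hpr : (P.restrict (Y ⁻¹' D)).prod P' = (P.prod P').restrict ((Y ⁻¹' D) ×ˢ univ) := by
          rw [← Measure.prod_restrict, Measure.restrict_univ]
        rw [hpr, ← lintegral_indicator (hYD.prod MeasurableSet.univ),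
          ← lintegral_indicator_one (h2 hCD)]
        refine lintegral_congr fun p => ?_
        by_cases a : Y p.1 ∈ D <;>
          by_cases b : (cat (fun t => B t p.1) (σ p.1) (fun t => B' t p.2), σ p.1) ∈ C <;>
          simp [X2, a, b, Set.indicator]
      rw [← e1, ← e2]
      exact hr
    · rw [Measure.map_apply h1 MeasurableSet.univ, Measure.map_apply h2 MeasurableSet.univ]
      simp
  let G : ((ℝ≥0 → ℝ) × ℝ≥0) × E → ℝ≥0∞ := fun q => Φ (q.1.1, q.1.2, q.2)
  have hG : Measurable G := hΦ.comp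
    ((measurable_fst.comp measurable_fst).prodMk
      ((measurable_snd.comp measurable_fst).prodMk measurable_snd))
  have e1 : ∫⁻ ω, Φ (fun t => B t ω, σ ω, Y ω) ∂P = ∫⁻ q, G q ∂(P.map X1) :=
    (lintegral_map hG h1).symm
  have hm : Measurable fun p => G (X2 p) := hG.comp h2
  rw [e1, key, lintegral_map hG h2, lintegral_prod _ hm.aemeasurable]

/-! ### Path versions -/

/-- continuous paths with the σ-algebra of the coordinates (= 969's `PathSp`) -/
abbrev PS := {f : ℝ≥0 → ℝ // Continuous f}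

/-- the path of a Brownian set-up -/
def toP (hB : IsBM F B P) (ω : Ω) : PS := ⟨fun t => B t ω, hB.cont ω⟩

lemma measurable_toP (hB : IsBM F B P) : Measurable (toP hB) :=
  (measurable_path hB).subtype_mk

/-- concatenation of continuous paths -/
def catP (b : PS) (s : ℝ≥0) (w : PS) : PS := ⟨cat b.1 s w.1, continuous_cat b.2 w.2 s⟩

/-- the path after time `s`, recentred -/
def shiftP (b : PS) (s : ℝ≥0) : PS :=
  ⟨fun u => b.1 (s + u) - b.1 s,
    (b.2.comp (continuous_const.add continuous_id)).sub continuous_const⟩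

lemma measurable_evalP : Measurable fun p : PS × ℝ≥0 => p.1.1 p.2 := by
  have h : Measurable (Function.uncurry fun (t : ℝ≥0) (b : PS) => b.1 t) :=
    measurable_uncurry_of_continuous_of_measurable (fun b => b.2)
      (fun t => (measurable_pi_apply t).comp measurable_subtype_coe)
  exact h.comp (measurable_snd.prodMk measurable_fst)

lemma measurable_shiftP : Measurable fun p : PS × ℝ≥0 => shiftP p.1 p.2 := by
  refine Measurable.subtype_mk (measurable_pi_lambda _ fun u => ?_)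
  exact (measurable_evalP.comp (measurable_fst.prodMk (measurable_snd.add measurable_const))).sub
    measurable_evalP

lemma measurable_catP : Measurable fun p : PS × ℝ≥0 × PS => catP p.1 p.2.1 p.2.2 := by
  refine Measurable.subtype_mk (measurable_pi_lambda _ fun u => ?_)
  refine Measurable.add ?_ ?_
  · exact measurable_evalP.comp (measurable_fst.prodMk
      (measurable_const.min (measurable_fst.comp measurable_snd)))
  · exact measurable_evalP.comp ((measurable_snd.comp measurable_snd).prodMk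
      (measurable_const.sub (measurable_fst.comp measurable_snd)))

lemma shiftP_catP (b w : PS) (s : ℝ≥0) (hw : w.1 0 = 0) : shiftP (catP b s w) s = w := by
  apply Subtype.ext
  funext u
  have h1 : cat b.1 s w.1 (s + u) = b.1 s + w.1 u := cat_add s u
  have h2 : cat b.1 s w.1 s = b.1 s := cat_of_le hw le_rfl
  change cat b.1 s w.1 (s + u) - cat b.1 s w.1 s = w.1 u
  rw [h1, h2]
  ring



/-- **Resampling after a stopping time**, continuous paths. -/
theorem resample_path (hB : IsBM F B P) (hB' : IsBM F' B' P') {σ : Ω → ℝ≥0} (hσ : IsST F σ)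
    {E : Type*} {mE : MeasurableSpace E} (Y : Ω → E)
    (hY : ∀ D, MeasurableSet D → EvST F σ (Y ⁻¹' D))
    (Φ : PS × ℝ≥0 × E → ℝ≥0∞) (hΦ : Measurable Φ) :
    ∫⁻ ω, Φ (toP hB ω, σ ω, Y ω) ∂P =
      ∫⁻ ω, ∫⁻ ω', Φ (catP (toP hB ω) (σ ω) (toP hB' ω'), σ ω, Y ω) ∂P' ∂P := by
  have := isProb hB
  have := isProb hB'
  have hσm := measurable_of_IsST hσ
  have hYm : Measurable Y := fun D hD => measurableSet_of_EvST (hY D hD)
  let X1 : Ω → PS × ℝ≥0 × E := fun ω => (toP hB ω, σ ω, Y ω)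
  let X2 : Ω × Ω' → PS × ℝ≥0 × E := fun p =>
    (catP (toP hB p.1) (σ p.1) (toP hB' p.2), σ p.1, Y p.1)
  have h1 : Measurable X1 := (measurable_toP hB).prodMk (hσm.prodMk hYm)
  have h2 : Measurable X2 := by
    refine Measurable.prodMk ?_ ((hσm.comp measurable_fst).prodMk (hYm.comp measurable_fst))
    exact measurable_catP.comp (((measurable_toP hB).comp measurable_fst).prodMk
      ((hσm.comp measurable_fst).prodMk ((measurable_toP hB').comp measurable_snd)))
  have key : P.map X1 = (P.prod P').map X2 := by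
    have : IsProbabilityMeasure (P.map X1) := Measure.isProbabilityMeasure_map h1.aemeasurable
    refine ext_of_generate_finite _ generateFrom_prod.symm isPiSystem_prod ?_ ?_
    · rintro _ ⟨C, hC, D, hD, rfl⟩
      simp only [mem_ofPred_eq] at hC hD
      obtain ⟨C', hC', rfl⟩ := hC
      have hCm : MeasurableSet (Subtype.val ⁻¹' C' : Set PS) := ⟨C', hC', rfl⟩
      have hCD : MeasurableSet ((Subtype.val ⁻¹' C' : Set PS) ×ˢ D) := hCm.prod hD
      rw [Measure.map_apply h1 hCD, Measure.map_apply h2 hCD]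
      have hCD' : MeasurableSet (C' ×ˢ D) := hC'.prod hD
      have hr := resample hB hB' hσ Y hY ((C' ×ˢ D).indicator fun _ => 1)
        (measurable_const.indicator hCD')
      have hm2 : Measurable fun p : Ω × Ω' =>
          ((C' ×ˢ D).indicator (fun _ => (1 : ℝ≥0∞)))
            (cat (fun t => B t p.1) (σ p.1) (fun t => B' t p.2), σ p.1, Y p.1) :=
        (measurable_const.indicator hCD').comp
          ((measurable_cat hB hB' hσm).prodMk
            ((hσm.comp measurable_fst).prodMk (hYm.comp measurable_fst)))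
      rw [← lintegral_prod (μ := P) (ν := P') _ hm2.aemeasurable] at hr
      rw [← lintegral_indicator_one (h1 hCD), ← lintegral_indicator_one (h2 hCD)]
      exact hr
    · rw [Measure.map_apply h1 MeasurableSet.univ, Measure.map_apply h2 MeasurableSet.univ]
      simp
  have e1 : ∫⁻ ω, Φ (toP hB ω, σ ω, Y ω) ∂P = ∫⁻ q, Φ q ∂(P.map X1) :=
    (lintegral_map hΦ h1).symm
  have hm : Measurable fun p => Φ (X2 p) := hΦ.comp h2
  rw [e1, key, lintegral_map hΦ h2, lintegral_prod _ hm.aemeasurable]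

/-- **Strong Markov property**, continuous paths: the recentred path after `σ` is a fresh Brownian
path, independent of the past. -/
theorem strong_markov (hB : IsBM F B P) (hB' : IsBM F' B' P') {σ : Ω → ℝ≥0} (hσ : IsST F σ)
    {E : Type*} {mE : MeasurableSpace E} (Y : Ω → E)
    (hY : ∀ D, MeasurableSet D → EvST F σ (Y ⁻¹' D))
    (Ψ : PS × E → ℝ≥0∞) (hΨ : Measurable Ψ) :
    ∫⁻ ω, Ψ (shiftP (toP hB ω) (σ ω), Y ω) ∂P =
      ∫⁻ ω, ∫⁻ ω', Ψ (toP hB' ω', Y ω) ∂P' ∂P := by
  have hm : Measurable fun q : PS × ℝ≥0 × E => Ψ (shiftP q.1 q.2.1, q.2.2) :=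
    hΨ.comp ((measurable_shiftP.comp (measurable_fst.prodMk
      (measurable_fst.comp measurable_snd))).prodMk (measurable_snd.comp measurable_snd))
  have h := resample_path hB hB' hσ Y hY (fun q => Ψ (shiftP q.1 q.2.1, q.2.2)) hm
  refine h.trans (lintegral_congr fun ω => lintegral_congr fun ω' => ?_)
  simp only
  rw [shiftP_catP _ _ _ (hB'.zero ω')]

/-- the σ-algebra of the past of a stopping time -/
@[instance_reducible]
def past (F : Filtration ℝ≥0 m) (σ : Ω → ℝ≥0) (hσ : IsST F σ) : MeasurableSpace Ω where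
  MeasurableSet' A := EvST F σ A
  measurableSet_empty := fun t => by simp
  measurableSet_compl := fun A hA t => by
    have : Aᶜ ∩ {ω | σ ω ≤ t} = {ω | σ ω ≤ t} \ (A ∩ {ω | σ ω ≤ t}) := by
      ext ω; simp only [mem_inter_iff, mem_compl_iff, mem_ofPred_eq, Set.mem_sdiff]; tauto
    rw [this]
    exact (hσ t).diff (hA t)
  measurableSet_iUnion := fun A hA t => by
    rw [iUnion_inter]
    exact MeasurableSet.iUnion fun i => hA i t



/-- **Strong Markov property** on an event of the past, for `Y` measurable with respect to the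
past. -/
theorem strong_markov_set (hB : IsBM F B P) (hB' : IsBM F' B' P') {σ : Ω → ℝ≥0} (hσ : IsST F σ)
    {E : Type*} {mE : MeasurableSpace E} (Y : Ω → E) (hY : Measurable[past F σ hσ] Y)
    {A : Set Ω} (hA : EvST F σ A) (Ψ : PS × E → ℝ≥0∞) (hΨ : Measurable Ψ) :
    ∫⁻ ω in A, Ψ (shiftP (toP hB ω) (σ ω), Y ω) ∂P =
      ∫⁻ ω in A, ∫⁻ ω', Ψ (toP hB' ω', Y ω) ∂P' ∂P := by
  have hAm : MeasurableSet A := measurableSet_of_EvST hA
  have hA' : MeasurableSet[past F σ hσ] A := hA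
  let Y' : Ω → ℝ≥0∞ × E := fun ω => (A.indicator (fun _ => 1) ω, Y ω)
  have hY' : Measurable[past F σ hσ] Y' :=
    (Measurable.indicator (@measurable_const _ _ _ (past F σ hσ) (1 : ℝ≥0∞)) hA').prodMk hY
  have hm : Measurable fun q : PS × ℝ≥0∞ × E => q.2.1 * Ψ (q.1, q.2.2) :=
    (measurable_fst.comp measurable_snd).mul
      (hΨ.comp (measurable_fst.prodMk (measurable_snd.comp measurable_snd)))
  have h := strong_markov hB hB' hσ Y' (fun D hD => hY' hD) (fun q => q.2.1 * Ψ (q.1, q.2.2)) hm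
  rw [← lintegral_indicator hAm, ← lintegral_indicator hAm]
  have e1 : ∀ ω, A.indicator (fun ω => Ψ (shiftP (toP hB ω) (σ ω), Y ω)) ω =
      (Y' ω).1 * Ψ (shiftP (toP hB ω) (σ ω), (Y' ω).2) := by
    intro ω
    by_cases hω : ω ∈ A <;> simp [Y', hω]
  have e2 : ∀ ω, A.indicator (fun ω => ∫⁻ ω', Ψ (toP hB' ω', Y ω) ∂P') ω =
      ∫⁻ ω', (Y' ω).1 * Ψ (toP hB' ω', (Y' ω).2) ∂P' := by
    intro ω
    by_cases hω : ω ∈ A <;> simp [Y', hω]
  simp only [e1, e2]
  exact h

end Crest.Agent.R162.SMK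
end
end

-- ▼ part R162/LBExp

/-!
Row 162 (S0243), node LB-EXP (helper384): the exponential bound
`E[exp (c₀ content (σ,t]) ; A] ≤ E[exp (c Λ_σ + A_σ) ; A]` from the step theorem, by iteration.
-/

set_option autoImplicit false

open MeasureTheory ProbabilityTheory Set Filter Topology
open scoped NNReal ENNReal

namespace Crest.Agent.R162.LBExp

open Crest.Agent.R162.FL Crest.Agent.R162.OS Crest.Agent.R162.LBDrv Crest.Agent.R162.LBStop
open Crest.Agent.R162.LBI Crest.Agent.R162.LBS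
open Crest.ProbabilityR.Loewner

universe u

/-! ### the exponential on `[0,∞]` -/

lemma expE_top : expE ⊤ = ⊤ := by simp [expE]

lemma expE_of_ne {x : ℝ≥0∞} (h : x ≠ ⊤) : expE x = ENNReal.ofReal (Real.exp x.toReal) := by
  simp [expE, h]

lemma expE_ne_top_iff {x : ℝ≥0∞} : expE x ≠ ⊤ ↔ x ≠ ⊤ := by
  constructor
  · intro h hx
    exact h (by rw [hx, expE_top])
  · intro h
    rw [expE_of_ne h]
    exact ENNReal.ofReal_ne_top

lemma expE_mono : Monotone expE := by
  intro x y h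
  by_cases hy : y = ⊤
  · rw [hy, expE_top]; exact le_top
  · have hx : x ≠ ⊤ := ne_top_of_le_ne_top hy h
    rw [expE_of_ne hx, expE_of_ne hy]
    exact ENNReal.ofReal_le_ofReal (Real.exp_le_exp.2 (ENNReal.toReal_mono hy h))

lemma measurable_expE : Measurable expE := expE_mono.measurable

lemma expE_ne_zero (x : ℝ≥0∞) : expE x ≠ 0 := by
  by_cases hx : x = ⊤
  · rw [hx, expE_top]; exact ENNReal.top_ne_zero
  · rw [expE_of_ne hx]
    exact (ENNReal.ofReal_pos.2 (Real.exp_pos _)).ne'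

/-! ### the step functional on `EE × PathSp` -/

/-- start data of a step: stopped path and time -/
abbrev EE := LBStop.PathSp × ℝ≥0

/-- the state map of the start data -/
noncomputable def fE (κ : ℝ) (e : EE) : ℂ → ℂ := ffl (drv κ e.1.1) e.2

/-- time of the step -/
noncomputable def tau (p : LB.Par) (x : EE × LBStop.PathSp) : ℝ≥0 :=
  (p.T (fE p.κ x.1) (drv p.κ x.2.1)).toNNReal

/-- content of the step -/
noncomputable def Cs (p : LB.Par) (x : EE × LBStop.PathSp) : ℝ≥0∞ :=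
  p.cont (fE p.κ x.1) (drv p.κ x.2.1) (Ioc 0 (p.T (fE p.κ x.1) (drv p.κ x.2.1)))

/-- potential after the step -/
noncomputable def Ls (p : LB.Par) (x : EE × LBStop.PathSp) : ℝ≥0∞ :=
  p.Λ (LB.Par.st (fE p.κ x.1) (drv p.κ x.2.1) (p.T (fE p.κ x.1) (drv p.κ x.2.1)))

/-- area after the step -/
noncomputable def As (p : LB.Par) (x : EE × LBStop.PathSp) : ℝ≥0∞ :=
  p.A (LB.Par.st (fE p.κ x.1) (drv p.κ x.2.1) (p.T (fE p.κ x.1) (drv p.κ x.2.1)))

/-- content of `B` collected at times in `E` -/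
noncomputable def tot (p : LB.Par) (W : ℝ → ℝ) (E : Set ℝ) : ℝ≥0∞ :=
  ∫⁻ w in p.B, LB.cz p.κ p.ε p.c1 1 W E w

/-- measurability input (412, 772, 332) -/
structure Meas (p : LB.Par) : Prop where
  tau : IsST (LBST.EF EE).rightCont (tau p)
  C : Measurable (Cs p)
  L : Measurable (Ls p)
  A : Measurable (As p)
  L0 : Measurable fun e : EE => p.Λ (fE p.κ e)
  A0 : Measurable fun e : EE => p.A (fE p.κ e)
  u0 : Measurable fun e : EE => p.u0 (p.x (fE p.κ e))
  tot : Measurable fun e : EE => tot p (drv p.κ e.1.1) (Ioc 0 e.2)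

/-- deterministic input: cocycle (888, 351, 275), finiteness (8, 499, 126), start (74, 797),
bound of `x` (564) -/
structure Coc (p : LB.Par) : Prop where
  c1 : ∀ W, ContinuousOn W (Ici 0) → ∀ s t, 0 ≤ s → 0 ≤ t →
    tot p W (Ioc s (s + t)) = p.cont (ffl W s) (shift W s) (Ioc 0 t)
  c2 : ∀ W, ContinuousOn W (Ici 0) → ∀ s t, 0 ≤ s → 0 ≤ t →
    tot p W (Ioc 0 (s + t)) = tot p W (Ioc 0 s) + tot p W (Ioc s (s + t))
  c4 : ∀ W, ContinuousOn W (Ici 0) → ∀ t, tot p W (Ioc 0 t) ≠ ⊤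
  c5 : ∀ f : ℂ → ℂ, Univ f → p.A f ≠ ⊤
  c6 : ∀ W, Drive W → ∀ t, 0 ≤ t → p.Λ (ffl W t) ≠ ⊤ → Start p (ffl W t)
  c7 : ∀ W, Drive W → ∀ S : ℝ, 0 ≤ S → ∃ M : ℝ, ∀ t ∈ Icc 0 S, Start p (ffl W t) →
    p.u0 (p.x (ffl W t)) ≤ M

/-! ### congruences -/

lemma cd_congr {κ ε c1 lam : ℝ} {W W' : ℝ → ℝ} {t : ℝ} (h : EqOn W W' (Icc 0 t)) {s : ℝ}
    (hs : s ∈ Icc 0 t) (z : ℂ) : LB.cd κ ε c1 lam W s z = LB.cd κ ε c1 lam W' s z := by
  unfold LB.cd
  rw [LBDrv.ups_congr h hs, LBDrv.sfl_congr h hs, LBDrv.Zfl_congr h hs]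

lemma cz_congr {κ ε c1 lam : ℝ} {W W' : ℝ → ℝ} {t : ℝ} (h : EqOn W W' (Icc 0 t)) (z : ℂ) :
    LB.cz κ ε c1 lam W (Ioc 0 t) z = LB.cz κ ε c1 lam W' (Ioc 0 t) z := by
  refine setLIntegral_congr_fun measurableSet_Ioc fun s hs => ?_
  rw [cd_congr h ⟨hs.1.le, hs.2⟩]

lemma cont_congr {p : LB.Par} {f : ℂ → ℂ} {W W' : ℝ → ℝ} {t : ℝ} (h : EqOn W W' (Icc 0 t)) :
    p.cont f W (Ioc 0 t) = p.cont f W' (Ioc 0 t) := by
  unfold LB.Par.cont LB.content
  refine lintegral_congr fun z => ?_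
  rw [cz_congr h]

lemma tot_congr {p : LB.Par} {W W' : ℝ → ℝ} {t : ℝ} (h : EqOn W W' (Icc 0 t)) :
    tot p W (Ioc 0 t) = tot p W' (Ioc 0 t) := by
  unfold tot
  refine lintegral_congr fun z => ?_
  rw [cz_congr h]

lemma ffl_add' {W : ℝ → ℝ} (hW : ContinuousOn W (Ici 0)) {s t : ℝ} (hs : 0 ≤ s) (ht : 0 ≤ t) :
    ffl W s ∘ ffl (shift W s) t = ffl W (s + t) := by
  funext z
  by_cases hz : 0 < z.im
  · exact (FLC.ffl_add hW hs ht hz).symm
  · push Not at hz
    simp only [Function.comp_apply]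
    rw [LBST.ffl_of_im_nonpos _ _ hz, LBST.ffl_of_im_nonpos _ _ hz, LBST.ffl_of_im_nonpos _ _ hz]

variable {Ω : Type u} [mΩ : MeasurableSpace Ω] {P : Measure Ω}
  {F : Filtration ℝ≥0 (inferInstance : MeasurableSpace Ω)} {B : ℝ≥0 → Ω → ℝ}

lemma eqOn_drv_stp (κ : ℝ) (b : ℝ≥0 → ℝ) (s : ℝ≥0) :
    EqOn (drv κ (stp b s)) (drv κ b) (Icc 0 s) := by
  intro t ht
  have h1 : t.toNNReal ≤ s := Real.toNNReal_le_iff_le_coe.2 ht.2
  simp only [drv, stp, min_eq_left h1]

lemma fE_Y (κ : ℝ) (hB : IsBM F B P) (σ : Ω → ℝ≥0) (ω : Ω) :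
    fE κ (Y hB σ ω) = ffl (driving κ B ω) (σ ω) := by
  have h := LBDrv.ffl_congr (eqOn_drv_stp κ (fun t => B t ω) (σ ω))
    (s := ((σ ω : ℝ≥0) : ℝ)) ⟨(σ ω).2, le_rfl⟩
  exact h

lemma drive_driving (κ : ℝ) (hB : IsBM F B P) (ω : Ω) : Drive (driving κ B ω) :=
  ⟨(continuous_drv κ (hB.cont ω)).continuousOn,
    drv_zero κ (p := fun t => B t ω) (hB.zero ω)⟩

lemma eqOn_shift (κ : ℝ) (hB : IsBM F B P) (ω : Ω) (s : ℝ≥0) :
    EqOn (drv κ (SMK.shiftP (SMK.toP hB ω) s).1) (shift (driving κ B ω) s) (Ici 0) := by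
  intro t ht
  have ht0 : (0 : ℝ) ≤ t := ht
  have h1 : ((s : ℝ) + t).toNNReal = s + t.toNNReal := by
    rw [Real.toNNReal_add (NNReal.coe_nonneg s) ht0, Real.toNNReal_coe]
  simp only [drv, SMK.shiftP, SMK.toP, shift, driving, h1, Real.toNNReal_coe]
  ring

/-! ### the iterates -/

/-- the stopping times of the iteration -/
noncomputable def Tn (p : LB.Par) (hB : IsBM F B P) (σ : Ω → ℝ≥0) : ℕ → Ω → ℝ≥0
  | 0 => σ
  | n + 1 => fun ω => Tn p hB σ n ω +
      tau p (Y hB (Tn p hB σ n) ω, SMK.shiftP (SMK.toP hB ω) (Tn p hB σ n ω))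

lemma Tn_succ (p : LB.Par) (hB : IsBM F B P) (σ : Ω → ℝ≥0) (n : ℕ) (ω : Ω) :
    Tn p hB σ (n + 1) ω = Tn p hB σ n ω +
      tau p (Y hB (Tn p hB σ n) ω, SMK.shiftP (SMK.toP hB ω) (Tn p hB σ n ω)) := rfl

lemma Tn_mono (p : LB.Par) (hB : IsBM F B P) (σ : Ω → ℝ≥0) (ω : Ω) :
    Monotone fun n => Tn p hB σ n ω :=
  monotone_nat_of_le_succ fun n => by rw [Tn_succ]; exact le_self_add

theorem isST_Tn [F.IsRightContinuous] {p : LB.Par} (hM : Meas p) (hB : IsBM F B P)
    {σ : Ω → ℝ≥0} (hσ : IsST F σ) (n : ℕ) : IsST F (Tn p hB σ n) := by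
  induction n with
  | zero => exact hσ
  | succ n ih =>
    have h := LBST.mor_shift (F := F) (E := EE) (B := B) hB.adapted hB.cont ih
      (e := Y hB (Tn p hB σ n)) (fun D hD => (measurable_Y hB ih) hD)
    exact h.isST hM.tau

/-! ### identification of the data along the iteration -/

lemma T_coe (p : LB.Par) (f : ℂ → ℂ) (W : ℝ → ℝ) : (((p.T f W).toNNReal : ℝ≥0) : ℝ) = p.T f W :=
  Real.coe_toNNReal _ (LB.T_nonneg p f W)

/-- abbreviation: start data and fresh path after the `n`-th stopping time -/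
noncomputable def dat (hB : IsBM F B P) (τ : Ω → ℝ≥0) (ω : Ω) : EE × LBStop.PathSp :=
  (Y hB τ ω, SMK.shiftP (SMK.toP hB ω) (τ ω))

lemma st_dat {p : LB.Par} (hB : IsBM F B P) (τ : Ω → ℝ≥0) (ω : Ω) :
    LB.Par.st (fE p.κ (Y hB τ ω)) (drv p.κ (SMK.shiftP (SMK.toP hB ω) (τ ω)).1)
        (p.T (fE p.κ (Y hB τ ω)) (drv p.κ (SMK.shiftP (SMK.toP hB ω) (τ ω)).1)) =
      ffl (driving p.κ B ω) (τ ω + tau p (dat hB τ ω) : ℝ≥0) := by
  have hW := (drive_driving p.κ hB ω).cont
  have ht := LB.T_nonneg p (fE p.κ (Y hB τ ω)) (drv p.κ (SMK.shiftP (SMK.toP hB ω) (τ ω)).1)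
  have h1 : ffl (drv p.κ (SMK.shiftP (SMK.toP hB ω) (τ ω)).1)
      (p.T (fE p.κ (Y hB τ ω)) (drv p.κ (SMK.shiftP (SMK.toP hB ω) (τ ω)).1)) =
      ffl (shift (driving p.κ B ω) (τ ω))
      (p.T (fE p.κ (Y hB τ ω)) (drv p.κ (SMK.shiftP (SMK.toP hB ω) (τ ω)).1)) :=
    LBDrv.ffl_congr ((eqOn_shift p.κ hB ω (τ ω)).mono Icc_subset_Ici_self) ⟨ht, le_rfl⟩
  unfold LB.Par.st
  rw [h1]
  have h2 := ffl_add' hW (s := ((τ ω : ℝ≥0) : ℝ)) (τ ω).2 ht
  rw [fE_Y]
  rw [fE_Y] at h2 ht
  rw [h2]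
  congr 1
  have h3 : ((tau p (dat hB τ ω) : ℝ≥0) : ℝ) = p.T (ffl (driving p.κ B ω) (τ ω))
      (drv p.κ (SMK.shiftP (SMK.toP hB ω) (τ ω)).1) := by
    unfold tau dat
    rw [T_coe, fE_Y]
  rw [NNReal.coe_add, h3]

lemma Ls_dat {p : LB.Par} (hB : IsBM F B P) (τ : Ω → ℝ≥0) (ω : Ω) :
    Ls p (dat hB τ ω) = p.Λ (ffl (driving p.κ B ω) (τ ω + tau p (dat hB τ ω) : ℝ≥0)) := by
  rw [← st_dat]
  rfl

lemma As_dat {p : LB.Par} (hB : IsBM F B P) (τ : Ω → ℝ≥0) (ω : Ω) :
    As p (dat hB τ ω) = p.A (ffl (driving p.κ B ω) (τ ω + tau p (dat hB τ ω) : ℝ≥0)) := by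
  rw [← st_dat]
  rfl

lemma Cs_dat {p : LB.Par} (hC : Coc p) (hB : IsBM F B P) (τ : Ω → ℝ≥0) (ω : Ω) :
    tot p (driving p.κ B ω) (Ioc 0 (τ ω + tau p (dat hB τ ω) : ℝ≥0)) =
      tot p (driving p.κ B ω) (Ioc 0 (τ ω)) + Cs p (dat hB τ ω) := by
  have hW := (drive_driving p.κ hB ω).cont
  have h3 : ((tau p (dat hB τ ω) : ℝ≥0) : ℝ) = p.T (ffl (driving p.κ B ω) (τ ω))
      (drv p.κ (SMK.shiftP (SMK.toP hB ω) (τ ω)).1) := by
    unfold tau dat
    rw [T_coe, fE_Y]
  have h4 : Cs p (dat hB τ ω) = p.cont (ffl (driving p.κ B ω) (τ ω))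
      (drv p.κ (SMK.shiftP (SMK.toP hB ω) (τ ω)).1) (Ioc 0 (tau p (dat hB τ ω) : ℝ≥0)) := by
    rw [h3]
    unfold Cs dat
    rw [fE_Y]
  rw [NNReal.coe_add, hC.c2 _ hW _ _ (NNReal.coe_nonneg (τ ω))
      (NNReal.coe_nonneg (tau p (dat hB τ ω))),
    hC.c1 _ hW _ _ (NNReal.coe_nonneg (τ ω)) (NNReal.coe_nonneg (tau p (dat hB τ ω))), h4]
  congr 1
  exact (cont_congr ((eqOn_shift p.κ hB ω (τ ω)).mono Icc_subset_Ici_self)).symm

/-! ### one step -/

/-- the integrand of the step -/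
noncomputable def Phi (p : LB.Par) (c0 c : ℝ) (x : EE × LBStop.PathSp) : ℝ≥0∞ :=
  expE (ENNReal.ofReal c0 * Cs p x + ENNReal.ofReal c * Ls p x + As p x)

/-- the exponent before the step -/
noncomputable def V0 (p : LB.Par) (c : ℝ) (e : EE) : ℝ≥0∞ :=
  ENNReal.ofReal c * p.Λ (fE p.κ e) + p.A (fE p.κ e)

lemma measurable_Phi {p : LB.Par} (hM : Meas p) (c0 c : ℝ) : Measurable (Phi p c0 c) :=
  measurable_expE.comp (((hM.C.const_mul _).add (hM.L.const_mul _)).add hM.A)

lemma measurable_V0 {p : LB.Par} (hM : Meas p) (c : ℝ) : Measurable (V0 p c) :=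
  (hM.L0.const_mul _).add hM.A0

lemma measurable_varpi {p : LB.Par} (hM : Meas p) :
    Measurable fun e : EE => p.varpi (fE p.κ e) := hM.u0.pow_const _

/-- resampling + step theorem -/
theorem step_int [IsProbabilityMeasure P] {p : LB.Par} {c0 c δ : ℝ} (hc : 0 < c) (hδ1 : δ < 1)
    (hS : StepS.{u} c0 c δ p) (hM : Meas p) (hC : Coc p)
    (hB : IsBM F B P) {τ : Ω → ℝ≥0} (hτ : IsST F τ) {A : Set Ω} (hA : EvST F τ A) :
    ∫⁻ ω in A, Phi p c0 c (dat hB τ ω) ∂P ≤
      ∫⁻ ω in A, ENNReal.ofReal ((1 - δ) ^ p.varpi (fE p.κ (Y hB τ ω))) *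
        expE (V0 p c (Y hB τ ω)) ∂P := by
  have hY : Measurable[SMK.past F τ hτ] (Y hB τ) := measurable_Y hB hτ
  have h := SMK.strong_markov_set hB hB hτ (Y hB τ) hY hA
    (fun q : SMK.PS × EE => Phi p c0 c (q.2, q.1))
    ((measurable_Phi hM c0 c).comp (measurable_snd.prodMk measurable_fst))
  change ∫⁻ ω in A, Phi p c0 c (Y hB τ ω, SMK.shiftP (SMK.toP hB ω) (τ ω)) ∂P ≤ _
  rw [h]
  refine lintegral_mono fun ω => ?_
  have hD := drive_driving p.κ hB ω
  have hδ : 0 < 1 - δ := by linarith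
  by_cases hL : p.Λ (fE p.κ (Y hB τ ω)) = ⊤
  · have h1 : V0 p c (Y hB τ ω) = ⊤ := by
      unfold V0
      rw [hL, ENNReal.mul_top (ENNReal.ofReal_pos.2 hc).ne', top_add]
    rw [h1, expE_top, ENNReal.mul_top]
    · exact le_top
    · exact (ENNReal.ofReal_pos.2 (Real.rpow_pos_of_pos hδ _)).ne'
  · have hst : Start p (fE p.κ (Y hB τ ω)) := by
      rw [fE_Y] at hL ⊢
      exact hC.c6 _ hD _ (τ ω).2 hL
    have h5 := hS Ω P F B hB (fE p.κ (Y hB τ ω)) hst
    refine le_trans (le_of_eq ?_) h5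
    refine lintegral_congr fun ω' => ?_
    rfl

lemma measurable_dat {p : LB.Par} (hB : IsBM F B P) {τ : Ω → ℝ≥0} (hτ : IsST F τ) :
    Measurable (dat hB τ) := by
  refine Measurable.prodMk ((measurable_Y hB hτ).mono (stSigma_le hτ) le_rfl) ?_
  refine SMK.measurable_shiftP.comp ((SMK.measurable_toP hB).prodMk ?_)
  exact (measurable_self hτ).mono (stSigma_le hτ) le_rfl

lemma univ_ffl {W : ℝ → ℝ} (hW : ContinuousOn W (Ici 0)) {t : ℝ} (ht : 0 ≤ t) :
    Univ (ffl W t) := ⟨FLC.differentiableOn_ffl hW ht, FLC.injOn_ffl hW ht⟩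

lemma Phi_ne_top_iff {p : LB.Par} {c0 c : ℝ} {x : EE × LBStop.PathSp} (hc : 0 < c)
    (h : Phi p c0 c x ≠ ⊤) : Ls p x ≠ ⊤ := by
  intro hL
  apply h
  unfold Phi
  rw [hL, ENNReal.mul_top (ENNReal.ofReal_pos.2 hc).ne', add_top, top_add, expE_top]

/-- the potential stays finite -/
theorem fin_step [IsProbabilityMeasure P] {p : LB.Par} {c0 c δ : ℝ} (hc : 0 < c) (hδ0 : 0 < δ)
    (hδ1 : δ < 1) (hη : 0 ≤ p.η) (hu : ∀ z, 1 ≤ p.u0 z)
    (hS : StepS.{u} c0 c δ p) (hM : Meas p) (hC : Coc p)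
    (hB : IsBM F B P) {τ : Ω → ℝ≥0} (hτ : IsST F τ) :
    ∀ᵐ ω ∂P, p.Λ (ffl (driving p.κ B ω) (τ ω)) ≠ ⊤ → Ls p (dat hB τ ω) ≠ ⊤ := by
  have key : ∀ k : ℕ, ∀ᵐ ω ∂P, V0 p c (Y hB τ ω) ≤ k → Ls p (dat hB τ ω) ≠ ⊤ := by
    intro k
    set D : Set Ω := {ω | V0 p c (Y hB τ ω) ≤ k} with hDdef
    have hD : EvST F τ D := by
      have h1 : Measurable[stSigma F τ hτ] fun ω => V0 p c (Y hB τ ω) :=
        (measurable_V0 hM c).comp (measurable_Y hB hτ)
      exact h1 measurableSet_Iic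
    have hD0 : MeasurableSet D := stSigma_le hτ _ hD
    have h1 := step_int hc hδ1 hS hM hC hB hτ hD
    have h2 : ∫⁻ ω in D, ENNReal.ofReal ((1 - δ) ^ p.varpi (fE p.κ (Y hB τ ω))) *
        expE (V0 p c (Y hB τ ω)) ∂P ≤ expE k := by
      calc ∫⁻ ω in D, ENNReal.ofReal ((1 - δ) ^ p.varpi (fE p.κ (Y hB τ ω))) *
            expE (V0 p c (Y hB τ ω)) ∂P
          ≤ ∫⁻ _ in D, expE k ∂P := by
            refine setLIntegral_mono' hD0 fun ω hω => ?_
            have h3 : (1 - δ) ^ p.varpi (fE p.κ (Y hB τ ω)) ≤ 1 := by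
              refine Real.rpow_le_one (by linarith) (by linarith) ?_
              exact Real.rpow_nonneg (zero_le_one.trans (hu _)) _
            calc ENNReal.ofReal ((1 - δ) ^ p.varpi (fE p.κ (Y hB τ ω))) *
                  expE (V0 p c (Y hB τ ω)) ≤ 1 * expE k := by
                  refine mul_le_mul' ?_ (expE_mono hω)
                  rw [← ENNReal.ofReal_one]
                  exact ENNReal.ofReal_le_ofReal h3
              _ = expE k := one_mul _
        _ = expE k * P D := by rw [setLIntegral_const]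
        _ ≤ expE k * 1 := by gcongr; exact prob_le_one
        _ = expE k := mul_one _
    have hk : expE (k : ℝ≥0∞) ≠ ⊤ := expE_ne_top_iff.2 (ENNReal.natCast_ne_top k)
    have h3 : ∀ᵐ ω ∂(P.restrict D), Phi p c0 c (dat hB τ ω) < ⊤ :=
      ae_lt_top ((measurable_Phi hM c0 c).comp (measurable_dat (p := p) hB hτ))
        (ne_top_of_le_ne_top hk (h1.trans h2))
    rw [ae_restrict_iff' hD0] at h3
    filter_upwards [h3] with ω h hω
    exact Phi_ne_top_iff hc (h hω).ne
  filter_upwards [ae_all_iff.2 key] with ω hω hne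
  have hA : p.A (ffl (driving p.κ B ω) (τ ω)) ≠ ⊤ :=
    hC.c5 _ (univ_ffl (drive_driving p.κ hB ω).cont (τ ω).2)
  have hV : V0 p c (Y hB τ ω) ≠ ⊤ := by
    unfold V0
    rw [fE_Y]
    exact ENNReal.add_ne_top.2 ⟨ENNReal.mul_ne_top ENNReal.ofReal_ne_top hne, hA⟩
  obtain ⟨k, hk⟩ := ENNReal.exists_nat_gt hV
  exact hω k hk.le

lemma toReal_lin {a b c : ℝ≥0∞} {x y : ℝ} (hx : 0 ≤ x) (hy : 0 ≤ y) (ha : a ≠ ⊤) (hb : b ≠ ⊤)
    (hc : c ≠ ⊤) :
    (ENNReal.ofReal x * a + ENNReal.ofReal y * b + c).toReal =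
      x * a.toReal + y * b.toReal + c.toReal := by
  have h1 : ENNReal.ofReal x * a ≠ ⊤ := ENNReal.mul_ne_top ENNReal.ofReal_ne_top ha
  have h2 : ENNReal.ofReal y * b ≠ ⊤ := ENNReal.mul_ne_top ENNReal.ofReal_ne_top hb
  rw [ENNReal.toReal_add (ENNReal.add_ne_top.2 ⟨h1, h2⟩) hc, ENNReal.toReal_add h1 h2,
    ENNReal.toReal_mul, ENNReal.toReal_mul, ENNReal.toReal_ofReal hx, ENNReal.toReal_ofReal hy]

/-- the step inequality in quotient form -/
theorem quot_step [IsProbabilityMeasure P] {p : LB.Par} {c0 c δ : ℝ} (hc0 : 0 < c0) (hc : 0 < c)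
    (hδ1 : δ < 1) (hS : StepS.{u} c0 c δ p) (hM : Meas p) (hC : Coc p)
    (hB : IsBM F B P) {τ : Ω → ℝ≥0} (hτ : IsST F τ) {D : Set Ω} (hD : EvST F τ D)
    (hDL : ∀ ω ∈ D, p.Λ (ffl (driving p.κ B ω) (τ ω)) ≠ ⊤) :
    ∫⁻ ω in D, ENNReal.ofReal (Real.exp (
        c0 * ((tot p (driving p.κ B ω) (Ioc 0 (τ ω + tau p (dat hB τ ω) : ℝ≥0))).toReal -
          (tot p (driving p.κ B ω) (Ioc 0 (τ ω))).toReal) +
        c * ((p.Λ (ffl (driving p.κ B ω) (τ ω + tau p (dat hB τ ω) : ℝ≥0))).toReal -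
          (p.Λ (ffl (driving p.κ B ω) (τ ω))).toReal) +
        ((p.A (ffl (driving p.κ B ω) (τ ω + tau p (dat hB τ ω) : ℝ≥0))).toReal -
          (p.A (ffl (driving p.κ B ω) (τ ω))).toReal))) ∂P ≤
      ∫⁻ ω in D, ENNReal.ofReal ((1 - δ) ^
        (p.u0 (p.x (ffl (driving p.κ B ω) (τ ω))) ^ (-p.η))) ∂P := by
  have hD0 : MeasurableSet D := stSigma_le hτ _ hD
  have hYm := measurable_Y hB hτ
  have hVm : Measurable[stSigma F τ hτ] fun ω => V0 p c (Y hB τ ω) :=
    (measurable_V0 hM c).comp hYm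
  have hwm : Measurable[stSigma F τ hτ]
      fun ω => D.indicator (fun ω => (expE (V0 p c (Y hB τ ω)))⁻¹) ω := by
    have h1 : Measurable[stSigma F τ hτ] fun ω => (expE (V0 p c (Y hB τ ω)))⁻¹ :=
      (measurable_expE.comp hVm).inv
    exact h1.indicator hD
  have hfm : Measurable fun ω => Phi p c0 c (dat hB τ ω) :=
    (measurable_Phi hM c0 c).comp (measurable_dat (p := p) hB hτ)
  have hgm : Measurable fun ω => ENNReal.ofReal ((1 - δ) ^ p.varpi (fE p.κ (Y hB τ ω))) *
      expE (V0 p c (Y hB τ ω)) := by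
    have h1 : Measurable fun ω => p.varpi (fE p.κ (Y hB τ ω)) :=
      ((measurable_varpi hM).comp hYm).mono (stSigma_le hτ) le_rfl
    exact (measurable_const.pow h1).ennreal_ofReal.mul
      (measurable_expE.comp (hVm.mono (stSigma_le hτ) le_rfl))
  have key := LB6.weight_transfer (μ := P) (stSigma_le hτ) hfm hgm
    (fun A hA => step_int hc hδ1 hS hM hC hB hτ hA) hwm
  have hfin : ∀ ω ∈ D, V0 p c (Y hB τ ω) ≠ ⊤ ∧
      (V0 p c (Y hB τ ω)).toReal = c * (p.Λ (ffl (driving p.κ B ω) (τ ω))).toReal +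
        (p.A (ffl (driving p.κ B ω) (τ ω))).toReal := by
    intro ω hω
    have hA : p.A (ffl (driving p.κ B ω) (τ ω)) ≠ ⊤ :=
      hC.c5 _ (univ_ffl (drive_driving p.κ hB ω).cont (τ ω).2)
    have h1 : ENNReal.ofReal c * p.Λ (ffl (driving p.κ B ω) (τ ω)) ≠ ⊤ :=
      ENNReal.mul_ne_top ENNReal.ofReal_ne_top (hDL ω hω)
    unfold V0
    rw [fE_Y]
    refine ⟨ENNReal.add_ne_top.2 ⟨h1, hA⟩, ?_⟩
    rw [ENNReal.toReal_add h1 hA, ENNReal.toReal_mul, ENNReal.toReal_ofReal hc.le]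
  calc _ ≤ ∫⁻ ω, D.indicator (fun ω => (expE (V0 p c (Y hB τ ω)))⁻¹) ω *
        Phi p c0 c (dat hB τ ω) ∂P := by
        rw [← lintegral_indicator hD0]
        refine lintegral_mono fun ω => ?_
        by_cases hω : ω ∈ D
        · simp only [indicator_of_mem hω]
          obtain ⟨hV, hVr⟩ := hfin ω hω
          have hVi : (expE (V0 p c (Y hB τ ω)))⁻¹ =
              ENNReal.ofReal (Real.exp (-(V0 p c (Y hB τ ω)).toReal)) := by
            rw [expE_of_ne hV, ← ENNReal.ofReal_inv_of_pos (Real.exp_pos _), Real.exp_neg]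
          by_cases hL : Ls p (dat hB τ ω) = ⊤
          · have h1 : Phi p c0 c (dat hB τ ω) = ⊤ := by
              unfold Phi
              rw [hL, ENNReal.mul_top (ENNReal.ofReal_pos.2 hc).ne', add_top, top_add, expE_top]
            rw [h1, ENNReal.mul_top]
            · exact le_top
            · exact ENNReal.inv_ne_zero.2 (expE_ne_top_iff.2 hV)
          · have hW := (drive_driving p.κ hB ω).cont
            have hcs := Cs_dat hC hB τ ω
            have ht1 := hC.c4 _ hW ((τ ω + tau p (dat hB τ ω) : ℝ≥0) : ℝ)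
            have ht0 := hC.c4 _ hW ((τ ω : ℝ≥0) : ℝ)
            have hCs : Cs p (dat hB τ ω) ≠ ⊤ := by
              intro h
              rw [h, add_top] at hcs
              exact ht1 hcs
            have hAs : As p (dat hB τ ω) ≠ ⊤ := by
              rw [As_dat]
              exact hC.c5 _ (univ_ffl hW (NNReal.coe_nonneg _))
            have hex : ENNReal.ofReal c0 * Cs p (dat hB τ ω) +
                ENNReal.ofReal c * Ls p (dat hB τ ω) + As p (dat hB τ ω) ≠ ⊤ :=
              ENNReal.add_ne_top.2 ⟨ENNReal.add_ne_top.2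
                ⟨ENNReal.mul_ne_top ENNReal.ofReal_ne_top hCs,
                  ENNReal.mul_ne_top ENNReal.ofReal_ne_top hL⟩, hAs⟩
            have hPhi : Phi p c0 c (dat hB τ ω) = ENNReal.ofReal (Real.exp
                (c0 * (Cs p (dat hB τ ω)).toReal + c * (Ls p (dat hB τ ω)).toReal +
                  (As p (dat hB τ ω)).toReal)) := by
              unfold Phi
              rw [expE_of_ne hex, toReal_lin hc0.le hc.le hCs hL hAs]
            rw [hVi, hPhi, ← ENNReal.ofReal_mul (Real.exp_pos _).le, ← Real.exp_add, hVr]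
            refine ENNReal.ofReal_le_ofReal (Real.exp_le_exp.2 (le_of_eq ?_))
            rw [hcs, ENNReal.toReal_add ht0 hCs, Ls_dat, As_dat]
            ring
        · simp only [indicator_of_notMem hω]
          exact bot_le
    _ ≤ ∫⁻ ω, D.indicator (fun ω => (expE (V0 p c (Y hB τ ω)))⁻¹) ω *
        (ENNReal.ofReal ((1 - δ) ^ p.varpi (fE p.κ (Y hB τ ω))) *
          expE (V0 p c (Y hB τ ω))) ∂P := key
    _ = _ := by
        rw [← lintegral_indicator hD0]
        refine lintegral_congr fun ω => ?_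
        by_cases hω : ω ∈ D
        · simp only [indicator_of_mem hω]
          obtain ⟨hV, -⟩ := hfin ω hω
          have h1 := ENNReal.inv_mul_cancel (expE_ne_zero (V0 p c (Y hB τ ω)))
            (expE_ne_top_iff.2 hV)
          rw [mul_comm (ENNReal.ofReal _) (expE _), ← mul_assoc, h1, one_mul]
          rw [fE_Y]
          rfl
        · simp only [indicator_of_notMem hω, zero_mul]

/-! ### the exponential bound -/

lemma tot_mono {p : LB.Par} (W : ℝ → ℝ) {E E' : Set ℝ} (h : E ⊆ E') : tot p W E ≤ tot p W E' :=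
  lintegral_mono fun z => LB.cz_mono h z

/-- **the exponential bound**, right-continuous filtration. -/
theorem exp_core [IsProbabilityMeasure P] [F.IsRightContinuous] {p : LB.Par} {c0 c δ : ℝ}
    (hc0 : 0 < c0) (hc : 0 < c) (hδ0 : 0 < δ) (hδ1 : δ < 1) (hη : 0 < p.η)
    (hu : ∀ z, 1 ≤ p.u0 z) (hS : StepS.{u} c0 c δ p) (hM : Meas p) (hC : Coc p)
    (hB : IsBM F B P) {σ : Ω → ℝ≥0} (hσ : IsST F σ) {A : Set Ω} (hA : EvST F σ A) (t : ℝ≥0) :
    ∫⁻ ω in A, expE (ENNReal.ofReal c0 * tot p (driving p.κ B ω) (Ioc (σ ω) t)) ∂P ≤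
      ∫⁻ ω in A, expE (ENNReal.ofReal c * p.Λ (ffl (driving p.κ B ω) (σ ω)) +
        p.A (ffl (driving p.κ B ω) (σ ω))) ∂P := by
  have hA0 : MeasurableSet A := stSigma_le hσ _ hA
  by_cases hR : ∫⁻ ω in A, expE (ENNReal.ofReal c * p.Λ (ffl (driving p.κ B ω) (σ ω)) +
        p.A (ffl (driving p.κ B ω) (σ ω))) ∂P = ⊤
  · rw [hR]; exact le_top
  -- the potential is finite at the start
  have hV0 : ∀ ω, V0 p c (Y hB σ ω) = ENNReal.ofReal c * p.Λ (ffl (driving p.κ B ω) (σ ω)) +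
        p.A (ffl (driving p.κ B ω) (σ ω)) := by
    intro ω
    unfold V0
    rw [fE_Y]
  have hstart : ∀ᵐ ω ∂P, ω ∈ A → p.Λ (ffl (driving p.κ B ω) (σ ω)) ≠ ⊤ := by
    have hm : Measurable fun ω => expE (V0 p c (Y hB σ ω)) :=
      (measurable_expE.comp ((measurable_V0 hM c).comp (measurable_Y hB hσ))).mono
        (stSigma_le hσ) le_rfl
    have h1 : ∀ᵐ ω ∂(P.restrict A), expE (V0 p c (Y hB σ ω)) < ⊤ := by
      refine ae_lt_top hm ?_
      simp only [hV0]
      exact hR
    rw [ae_restrict_iff' hA0] at h1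
    filter_upwards [h1] with ω h hω
    have h2 := expE_ne_top_iff.1 (h hω).ne
    rw [hV0] at h2
    intro hL
    rw [hL, ENNReal.mul_top (ENNReal.ofReal_pos.2 hc).ne', top_add] at h2
    exact h2 rfl
  -- the iteration
  have hT : ∀ n, IsST F (Tn p hB σ n) := isST_Tn hM hB hσ
  have hYm : ∀ n, Measurable[stSigma F (Tn p hB σ n) (hT n)] (Y hB (Tn p hB σ n)) :=
    fun n => measurable_Y hB (hT n)
  have hCmono : ∀ ω, Monotone fun t : ℝ≥0 => (tot p (driving p.κ B ω) (Ioc 0 t)).toReal := by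
    intro ω a b hab
    refine ENNReal.toReal_mono (hC.c4 _ (drive_driving p.κ hB ω).cont b) (tot_mono _ ?_)
    exact Ioc_subset_Ioc_right (by exact_mod_cast hab)
  obtain ⟨hfin, hTt, hlim, hmain⟩ := LB6.main_top (μ := P)
    (F := fun n => stSigma F (Tn p hB σ n) (hT n)) (fun n => stSigma_le (hT n))
    (monotone_nat_of_le_succ fun n => stSigma_mono (hT n) (hT (n + 1))
      (fun ω => Tn_mono p hB σ ω (Nat.le_succ n)))
    (T := Tn p hB σ) (Tn_mono p hB σ)
    (Ct := fun t ω => (tot p (driving p.κ B ω) (Ioc 0 t)).toReal) hCmono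
    (by
      intro n
      have h1 : Measurable[stSigma F (Tn p hB σ n) (hT n)]
          fun ω => (tot p (drv p.κ (Y hB (Tn p hB σ n) ω).1.1)
            (Ioc 0 (Y hB (Tn p hB σ n) ω).2)).toReal := (hM.tot.comp (hYm n)).ennreal_toReal
      refine (congrArg (Measurable[stSigma F (Tn p hB σ n) (hT n)]) ?_).mp h1
      funext ω
      congr 1
      exact tot_congr (eqOn_drv_stp p.κ (fun t => B t ω) (Tn p hB σ n ω)))
    (Λ := fun n ω => p.Λ (ffl (driving p.κ B ω) (Tn p hB σ n ω)))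
    (A := fun n ω => (p.A (ffl (driving p.κ B ω) (Tn p hB σ n ω))).toReal)
    (by
      intro n
      have h1 : Measurable[stSigma F (Tn p hB σ n) (hT n)]
          fun ω => p.Λ (fE p.κ (Y hB (Tn p hB σ n) ω)) := hM.L0.comp (hYm n)
      simpa only [fE_Y] using h1)
    (by
      intro n
      have h1 : Measurable[stSigma F (Tn p hB σ n) (hT n)]
          fun ω => (p.A (fE p.κ (Y hB (Tn p hB σ n) ω))).toReal :=
        (hM.A0.comp (hYm n)).ennreal_toReal
      simpa only [fE_Y] using h1)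
    (fun n ω => ENNReal.toReal_nonneg)
    (u := fun n ω => p.u0 (p.x (ffl (driving p.κ B ω) (Tn p hB σ n ω))))
    (fun n ω => hu _)
    (by
      intro n
      have h1 : Measurable[stSigma F (Tn p hB σ n) (hT n)]
          fun ω => p.u0 (p.x (fE p.κ (Y hB (Tn p hB σ n) ω))) := hM.u0.comp (hYm n)
      simpa only [fE_Y] using h1)
    hη hc0 hc.le hδ0 hδ1
    (by
      intro n
      filter_upwards [fin_step hc hδ0 hδ1 hη.le hu hS hM hC hB (hT n)] with ω h hne
      have h2 := h hne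
      rw [Ls_dat] at h2
      exact h2)
    (fun n D hD hDL => quot_step hc0 hc hδ1 hS hM hC hB (hT n) hD hDL)
    (B := A) hA hstart
    (by
      refine Eventually.of_forall fun ω _ hall S => ?_
      have hD := drive_driving p.κ hB ω
      obtain ⟨M, hM'⟩ := hC.c7 _ hD S (NNReal.coe_nonneg S)
      refine ⟨M, fun n hn => hM' _ ⟨NNReal.coe_nonneg _, by exact_mod_cast hn⟩ ?_⟩
      exact hC.c6 _ hD _ (NNReal.coe_nonneg _) (hall n))
  classical
  -- the limit
  set X : Ω → ℝ := fun ω =>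
    if h : ∃ L, Tendsto (fun t : ℝ≥0 => (tot p (driving p.κ B ω) (Ioc 0 t)).toReal) atTop (𝓝 L)
    then h.choose else 0 with hX
  have hXl : ∀ᵐ ω ∂P, ω ∈ A → Tendsto (fun t : ℝ≥0 =>
      (tot p (driving p.κ B ω) (Ioc 0 t)).toReal) atTop (𝓝 (X ω)) := by
    filter_upwards [hlim] with ω h hω
    have h1 := h hω
    simp only [hX, dif_pos h1]
    exact h1.choose_spec
  have hfinal := hmain X hXl
  calc ∫⁻ ω in A, expE (ENNReal.ofReal c0 * tot p (driving p.κ B ω) (Ioc (σ ω) t)) ∂P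
      ≤ ∫⁻ ω in A, ENNReal.ofReal (Real.exp (c0 * (X ω -
          (tot p (driving p.κ B ω) (Ioc 0 (Tn p hB σ 0 ω))).toReal))) ∂P := by
        refine lintegral_mono_ae ?_
        rw [ae_restrict_iff' hA0]
        filter_upwards [hXl] with ω h hω
        have h1 := h hω
        have hW := (drive_driving p.κ hB ω).cont
        have hle : ∀ s : ℝ≥0, (tot p (driving p.κ B ω) (Ioc 0 s)).toReal ≤ X ω := fun s =>
          (hCmono ω).ge_of_tendsto h1 s
        change expE (ENNReal.ofReal c0 * tot p (driving p.κ B ω) (Ioc (σ ω) t)) ≤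
          ENNReal.ofReal (Real.exp (c0 * (X ω -
            (tot p (driving p.κ B ω) (Ioc 0 (σ ω))).toReal)))
        have hf0 := hC.c4 _ hW ((σ ω : ℝ≥0) : ℝ)
        have hft := hC.c4 _ hW ((t : ℝ≥0) : ℝ)
        rcases le_total t (σ ω) with hts | hst
        · have h2 : Ioc ((σ ω : ℝ≥0) : ℝ) (t : ℝ) = ∅ := Ioc_eq_empty (by
            rw [not_lt]; exact_mod_cast hts)
          have h3 : tot p (driving p.κ B ω) (Ioc ((σ ω : ℝ≥0) : ℝ) (t : ℝ)) = 0 := by
            rw [h2]
            simp [tot, LB.cz]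
          rw [h3, mul_zero, expE_of_ne ENNReal.zero_ne_top]
          refine ENNReal.ofReal_le_ofReal (Real.exp_le_exp.2 ?_)
          rw [ENNReal.toReal_zero]
          exact mul_nonneg hc0.le (sub_nonneg.2 (hle _))
        · have h2 : (t : ℝ) = (σ ω : ℝ) + ((t - σ ω : ℝ≥0) : ℝ) := by
            rw [NNReal.coe_sub hst]; ring
          have h3 := hC.c2 _ hW _ _ (NNReal.coe_nonneg (σ ω)) (NNReal.coe_nonneg (t - σ ω))
          rw [← h2] at h3
          have h4 : tot p (driving p.κ B ω) (Ioc ((σ ω : ℝ≥0) : ℝ) (t : ℝ)) ≠ ⊤ := by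
            intro h
            rw [h, add_top] at h3
            exact hft h3
          have h5 : ENNReal.ofReal c0 * tot p (driving p.κ B ω) (Ioc ((σ ω : ℝ≥0) : ℝ) (t : ℝ))
              ≠ ⊤ := ENNReal.mul_ne_top ENNReal.ofReal_ne_top h4
          rw [expE_of_ne h5]
          refine ENNReal.ofReal_le_ofReal (Real.exp_le_exp.2 ?_)
          rw [ENNReal.toReal_mul, ENNReal.toReal_ofReal hc0.le]
          refine mul_le_mul_of_nonneg_left ?_ hc0.le
          have h6 := hle t
          rw [h3, ENNReal.toReal_add hf0 h4] at h6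
          linarith
    _ ≤ ∫⁻ ω in A, ENNReal.ofReal (Real.exp (c * (p.Λ (ffl (driving p.κ B ω)
          (Tn p hB σ 0 ω))).toReal + (p.A (ffl (driving p.κ B ω) (Tn p hB σ 0 ω))).toReal)) ∂P :=
        hfinal
    _ = _ := by
        refine lintegral_congr_ae ?_
        rw [EventuallyEq, ae_restrict_iff' hA0]
        filter_upwards [hstart] with ω h hω
        have hA1 : p.A (ffl (driving p.κ B ω) (σ ω)) ≠ ⊤ :=
          hC.c5 _ (univ_ffl (drive_driving p.κ hB ω).cont (NNReal.coe_nonneg _))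
        have h1 : ENNReal.ofReal c * p.Λ (ffl (driving p.κ B ω) (σ ω)) ≠ ⊤ :=
          ENNReal.mul_ne_top ENNReal.ofReal_ne_top (h hω)
        rw [expE_of_ne (ENNReal.add_ne_top.2 ⟨h1, hA1⟩), ENNReal.toReal_add h1 hA1,
          ENNReal.toReal_mul, ENNReal.toReal_ofReal hc.le]
        rfl

end Crest.Agent.R162.LBExp
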