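import Mathlib
import Crest.Agent.R162.LBST1
import Crest.Agent.R162.LBDefs
import Crest.Agent.R162.LBST2
import Crest.Agent.R162.LBSTf

-- ▼ part R162/LBST_lsc
section

/-!
Row 162, node LB-ST, lower semicontinuous conditions (helper882, on helper332's LBST1).

* `not_deb_of_isOpen` : an OPEN condition which fails at `σ` fails at the debut.
* `deb_lsc_le`, `deb_lsc_le'`: value `≤ c` at the debut of `{c < φ}` for `φ` lower semicontinuous.
* `exists_Ioc_iff` : `∃ y ∈ (0, R], c < g y` iff it happens for a rational `q ∈ (0, R)`.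
* `measurableSet_exists_Ioc`, `isOpen_exists_Ioc`, `isST_deb_exists_Ioc`, `forall_Ioc_le_deb`.
* `iSup_Ioc_eq`, `measurable_iSup_Ioc`, `lowerSemicontinuous_iSup_Ioc`.
-/

set_option autoImplicit false

open MeasureTheory ProbabilityTheory Filter Topology
open scoped NNReal ENNReal

namespace Crest.Agent.R162.LBST

open Crest.Agent.R162.OS

variable {Ω : Type*} {m : MeasurableSpace Ω} {F : Filtration ℝ≥0 m} {P : Measure Ω}

/-! ### (a) values at the debut -/

section deb
variable {O : ℝ≥0 → Ω → Prop} {σ : Ω → ℝ≥0} {T : ℝ≥0} {ω : Ω}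




variable {E : Type*} [LinearOrder E] {φ : ℝ≥0 → Ω → E} {c : E}




end deb


/-! ### (b), (c) suprema over `y ∈ (0, R]` -/

section sup

variable {E : Type*} [LinearOrder E] {g : ℝ → E} {c : E} {R : ℝ}

/-- Only lower semicontinuity in `y` on `(0, ∞)` is needed. -/
lemma exists_Ioc_iff' (hg : ∀ y, 0 < y → LowerSemicontinuousWithinAt g (Set.Ioi 0) y) :
    (∃ y ∈ Set.Ioc 0 R, c < g y) ↔ ∃ q : ℚ, (0 : ℝ) < q ∧ (q : ℝ) < R ∧ c < g q := by
  constructor
  · rintro ⟨y, ⟨hy0, hyR⟩, hy⟩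
    have hev : ∀ᶠ z in 𝓝[Set.Ioi 0] y, c < g z := hg y hy0 c hy
    have hev' : ∀ᶠ z in 𝓝 y, c < g z := by
      rwa [IsOpen.nhdsWithin_eq isOpen_Ioi hy0] at hev
    obtain ⟨ε, hε, hball⟩ := Metric.eventually_nhds_iff.1 hev'
    obtain ⟨q, hq1, hq2⟩ := exists_rat_btwn (show max (y - ε) 0 < y from max_lt (by linarith) hy0)
    refine ⟨q, (le_max_right _ _).trans_lt hq1, hq2.trans_le hyR, hball ?_⟩
    have h1 : y - ε < q := (le_max_left _ _).trans_lt hq1
    rw [Real.dist_eq, abs_lt]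
    constructor <;> linarith
  · rintro ⟨q, h0, h1, h2⟩
    exact ⟨q, ⟨h0, h1.le⟩, h2⟩

lemma exists_Ioc_iff [TopologicalSpace E] [OrderTopology E] (hg : ContinuousOn g (Set.Ioi 0)) :
    (∃ y ∈ Set.Ioc 0 R, c < g y) ↔ ∃ q : ℚ, (0 : ℝ) < q ∧ (q : ℝ) < R ∧ c < g q :=
  exists_Ioc_iff' fun y hy => (hg y hy).lowerSemicontinuousWithinAt

end sup

section measurable

variable {E : Type*} [LinearOrder E] [TopologicalSpace E] [OrderTopology E] [MeasurableSpace E]
  [OpensMeasurableSpace E]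

/-- (c) measurability of `{∃ y ∈ (0, R ω], c < G y ω}` w.r.t. any sigma-algebra `m'`. -/
theorem measurableSet_exists_Ioc {m' : MeasurableSpace Ω} {G : ℝ → Ω → E} {R : Ω → ℝ} {c : E}
    (hG : ∀ y, 0 < y → Measurable[m'] (G y)) (hR : Measurable[m'] R)
    (hc : ∀ ω, ContinuousOn (fun y => G y ω) (Set.Ioi 0)) :
    MeasurableSet[m'] {ω | ∃ y ∈ Set.Ioc 0 (R ω), c < G y ω} := by
  have : {ω | ∃ y ∈ Set.Ioc 0 (R ω), c < G y ω} =
      ⋃ q : {q : ℚ // (0 : ℝ) < q}, ({ω | ((q : ℚ) : ℝ) < R ω} ∩ {ω | c < G ((q : ℚ) : ℝ) ω}) := by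
    ext ω
    simp only [Set.mem_ofPred_eq, Set.mem_iUnion, Set.mem_inter_iff]
    rw [exists_Ioc_iff (hc ω)]
    constructor
    · rintro ⟨q, h0, h1, h2⟩
      exact ⟨⟨q, h0⟩, h1, h2⟩
    · rintro ⟨⟨q, h0⟩, h1, h2⟩
      exact ⟨q, h0, h1, h2⟩
  rw [this]
  refine MeasurableSet.iUnion fun q => ?_
  exact (hR measurableSet_Ioi).inter (hG _ q.2 measurableSet_Ioi)

end measurable

section isOpen

variable {X : Type*} [TopologicalSpace X] {E : Type*} [LinearOrder E] [TopologicalSpace E]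
  [OrderTopology E]


/-- the same when `R`, `G` are only continuous on an open/any set `S` (relative openness). -/
theorem eventually_exists_Ioc {G : X → ℝ → E} {R : X → ℝ} {c : E} {S : Set X} {t : X}
    (ht : t ∈ S) (hR : ContinuousOn R S) (hG : ∀ y, 0 < y → ContinuousOn (fun t => G t y) S)
    (hc : ContinuousOn (G t) (Set.Ioi 0)) (h : ∃ y ∈ Set.Ioc 0 (R t), c < G t y) :
    ∀ᶠ s in 𝓝[S] t, ∃ y ∈ Set.Ioc 0 (R s), c < G s y := by
  rw [exists_Ioc_iff hc] at h
  obtain ⟨q, h0, h1, h2⟩ := h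
  have e1 : ∀ᶠ s in 𝓝[S] t, (q : ℝ) < R s := (hR t ht).eventually (lt_mem_nhds h1)
  have e2 : ∀ᶠ s in 𝓝[S] t, c < G s q := (hG _ h0 t ht).eventually (lt_mem_nhds h2)
  filter_upwards [e1, e2] with s h3 h4
  exact ⟨q, ⟨h0, h3.le⟩, h4⟩

end isOpen



/-! ### suprema in a complete linear order -/

section iSup

variable {E : Type*} [CompleteLinearOrder E] [TopologicalSpace E] [OrderTopology E]




end iSup

end Crest.Agent.R162.LBST
end

-- ▼ part R162/LBST3

set_option autoImplicit false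

/-!
Row 162, node LB-ST, part 3 (helper332): the step time `T` of `LBDefs` is a stopping time of the
right-continuous filtration, for a family `f ω` of maps known at time `0`.
-/

open MeasureTheory ProbabilityTheory Filter Topology
open scoped NNReal ENNReal

namespace Crest.Agent.R162.LBST

open Crest.Agent.R162.OS Crest.Agent.R162.LBbc Crest.Agent.R162.FL

variable {Ω : Type*}

/-! ### measurable families of maps on the half-plane -/

/-- `f ω z` measurable in `ω` for every `z` of the half-plane, continuous there. -/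
structure CFam {Ω : Type*} (m' : MeasurableSpace Ω) (f : Ω → ℂ → ℂ) : Prop where
  meas : ∀ z, 0 < z.im → Measurable[m'] fun ω => f ω z
  cont : ∀ ω, ContinuousOn (f ω) {z | 0 < z.im}

lemma CFam.mono {m₁ m₂ : MeasurableSpace Ω} (hle : m₁ ≤ m₂) {f : Ω → ℂ → ℂ} (h : CFam m₁ f) :
    CFam m₂ f := ⟨fun z hz => (h.meas z hz).mono hle le_rfl, h.cont⟩

/-- Carathéodory: joint measurability (value `0` outside the half-plane). -/
theorem CFam.joint {m' : MeasurableSpace Ω} {f : Ω → ℂ → ℂ} (h : CFam m' f) :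
    Measurable fun x : Ω × ℂ => if 0 < x.2.im then f x.1 x.2 else 0 := by
  classical
  set H : Set ℂ := {z : ℂ | 0 < z.im} with hH
  have hHm : MeasurableSet H := measurableSet_lt measurable_const Complex.measurable_im
  have h1 : Measurable (Function.uncurry (fun (z : H) (ω : Ω) => f ω z.1)) := by
    refine measurable_uncurry_of_continuous_of_measurable (u := fun (z : H) (ω : Ω) => f ω z.1)
      ?_ ?_
    · intro ω
      exact continuousOn_iff_continuous_domRestrict.1 (h.cont ω)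
    · intro z
      exact h.meas z.1 z.2
  have hs : MeasurableSet {x : Ω × ℂ | 0 < x.2.im} := measurable_snd hHm
  refine measurable_of_restrict_of_restrict_compl hs ?_ ?_
  · have h2 : Measurable (fun x : {x : Ω × ℂ | 0 < x.2.im} =>
        (((⟨x.1.2, x.2⟩ : H), x.1.1) : H × Ω)) :=
      ((measurable_snd.comp measurable_subtype_coe).subtype_mk).prodMk
        (measurable_fst.comp measurable_subtype_coe)
    have h3 := h1.comp h2
    have e : Set.domRestrict {x : Ω × ℂ | 0 < x.2.im}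
        (fun x : Ω × ℂ => if 0 < x.2.im then f x.1 x.2 else 0) =
        Function.uncurry (fun (z : H) (ω : Ω) => f ω z.1) ∘ fun x : {x : Ω × ℂ | 0 < x.2.im} =>
        (((⟨x.1.2, x.2⟩ : H), x.1.1) : H × Ω) := by
      funext x
      simp only [Function.comp_apply, Function.uncurry, Set.domRestrict_apply]
      exact if_pos x.2
    rw [e]
    exact h3
  · have e : Set.domRestrict {x : Ω × ℂ | 0 < x.2.im}ᶜ
        (fun x : Ω × ℂ => if 0 < x.2.im then f x.1 x.2 else 0) = fun _ => 0 := by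
      funext x
      simp only [Set.domRestrict_apply]
      exact if_neg x.2
    rw [e]
    exact measurable_const

/-- evaluation at a measurable point of the half-plane -/
theorem CFam.eval {m' : MeasurableSpace Ω} {f : Ω → ℂ → ℂ} (h : CFam m' f) {g : Ω → ℂ}
    (hg : Measurable[m'] g) (hg0 : ∀ ω, 0 < (g ω).im) : Measurable[m'] fun ω => f ω (g ω) := by
  have h1 := h.joint.comp (measurable_id.prodMk hg)
  refine (show (fun ω => f ω (g ω)) = _ from ?_) ▸ h1
  funext ω
  simp only [Function.comp_apply, id]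
  exact (if_pos (hg0 ω)).symm

/-- composition with the inverse flow -/
theorem CFam.comp_ffl {m' : MeasurableSpace Ω} {f : Ω → ℂ → ℂ} (h : CFam m' f) {W : Ω → ℝ → ℝ}
    {t : ℝ} (ht : 0 ≤ t) (hc : ∀ ω, ContinuousOn (W ω) (Set.Icc 0 t))
    (hm : ∀ s ∈ Set.Icc 0 t, Measurable[m'] (fun ω => W ω s)) :
    CFam m' (fun ω z => f ω (ffl (W ω) t z)) := by
  refine ⟨fun z hz => ?_, fun ω => ?_⟩
  · refine h.eval (measurable_ffl ⟨ht, le_rfl⟩ z hc hm) fun ω => ffl_im_pos' (hc ω) ht hz
  · have h1 : ContinuousOn (ffl (W ω) t) {z | 0 < z.im} := by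
      set U := FLD.ofI t (FLD.toI t ht (W ω) (hc ω)) with hU
      have hUc : ContinuousOn U (Set.Ici 0) := (FLD.continuous_ofI t _).continuousOn
      have e : ffl (W ω) t = ffl U t := funext fun w => ffl_congr ht (ofI_toI' ht _ (hc ω)) w
      rw [e]
      exact (FLC.differentiableOn_ffl hUc ht).continuousOn
    exact (h.cont ω).comp h1 fun z hz => ffl_im_pos' (hc ω) ht hz

/-! ### the radius -/

lemma rad_pos {W : ℝ → ℝ} {t : ℝ} (ht : 0 < t) : 0 < LB.rad W t :=
  (Real.sqrt_pos.2 ht).trans_le (LB.sqrt_le_rad W t)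

lemma image_abs_eq (W : ℝ → ℝ) {t : ℝ} (ht : 0 ≤ t) :
    (fun s => |W s|) '' Set.Icc 0 t = (fun r => |W (max 0 (r * t))|) '' Set.Icc 0 1 := by
  ext x
  constructor
  · rintro ⟨s, hs, rfl⟩
    rcases ht.eq_or_lt with h0 | h0
    · subst h0
      refine ⟨0, ⟨le_rfl, zero_le_one⟩, ?_⟩
      have : s = 0 := le_antisymm hs.2 hs.1
      simp [this]
    · refine ⟨s / t, ⟨div_nonneg hs.1 h0.le, (div_le_one h0).2 hs.2⟩, ?_⟩
      have : s / t * t = s := div_mul_cancel₀ s h0.ne'
      simp only [this, max_eq_right hs.1]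
  · rintro ⟨r, hr, rfl⟩
    refine ⟨r * t, ⟨mul_nonneg hr.1 ht, mul_le_of_le_one_left ht hr.2⟩, ?_⟩
    simp only [max_eq_right (mul_nonneg hr.1 ht)]

theorem continuousOn_rad {W : ℝ → ℝ} (hW : ContinuousOn W (Set.Ici 0)) :
    ContinuousOn (LB.rad W) (Set.Ici 0) := by
  have hWc : Continuous (fun t : ℝ => W (max 0 t)) := by
    refine hW.comp_continuous (continuous_const.max continuous_id) fun t => ?_
    exact (le_max_left 0 t : (0 : ℝ) ≤ max 0 t)
  have h1 : Continuous fun t : ℝ => sSup ((fun r => |W (max 0 (r * t))|) '' Set.Icc 0 1) := by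
    refine isCompact_Icc.continuous_sSup (f := fun (t : ℝ) (r : ℝ) => |W (max 0 (r * t))|) ?_
    exact (hWc.comp (continuous_snd.mul continuous_fst)).abs
  have h2 : Continuous fun t : ℝ => max (Real.sqrt t)
      (sSup ((fun r => |W (max 0 (r * t))|) '' Set.Icc 0 1)) :=
    Real.continuous_sqrt.max h1
  refine h2.continuousOn.congr fun t ht => ?_
  simp only [LB.rad]
  rw [image_abs_eq W ht]

theorem measurable_rad {m' : MeasurableSpace Ω} {W : Ω → ℝ → ℝ} {t : ℝ} (ht : 0 ≤ t)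
    (hc : ∀ ω, ContinuousOn (W ω) (Set.Icc 0 t))
    (hm : ∀ s ∈ Set.Icc 0 t, Measurable[m'] (fun ω => W ω s)) :
    Measurable[m'] (fun ω => LB.rad (W ω) t) := by
  have key : Measurable[m'] (fun ω => sSup ((fun s => |W ω s|) '' Set.Icc 0 t)) := by
    let u : ℕ → Set.Icc (0 : ℝ) t :=
      haveI : Nonempty (Set.Icc (0 : ℝ) t) := ⟨⟨0, le_rfl, ht⟩⟩
      TopologicalSpace.denseSeq (Set.Icc (0 : ℝ) t)
    have hu : DenseRange u :=
      haveI : Nonempty (Set.Icc (0 : ℝ) t) := ⟨⟨0, le_rfl, ht⟩⟩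
      TopologicalSpace.denseRange_denseSeq _
    refine measurable_of_Iic fun a => ?_
    have e : (fun ω => sSup ((fun s => |W ω s|) '' Set.Icc 0 t)) ⁻¹' Set.Iic a =
        ⋂ n, {ω | |W ω (u n)| ≤ a} := by
      ext ω
      simp only [Set.mem_preimage, Set.mem_Iic, Set.mem_iInter, Set.mem_ofPred_eq]
      have hbdd : BddAbove ((fun s => |W ω s|) '' Set.Icc 0 t) :=
        (isCompact_Icc.image_of_continuousOn (hc ω).abs).bddAbove
      constructor
      · intro h n
        exact (le_csSup hbdd ⟨u n, (u n).2, rfl⟩).trans h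
      · intro h
        refine csSup_le ⟨_, 0, ⟨le_rfl, ht⟩, rfl⟩ ?_
        rintro _ ⟨s, hs, rfl⟩
        have hcl : IsClosed {x : Set.Icc (0 : ℝ) t | |W ω x| ≤ a} :=
          isClosed_le (continuousOn_iff_continuous_domRestrict.1 (hc ω)).abs continuous_const
        have hsub : Set.range u ⊆ {x : Set.Icc (0 : ℝ) t | |W ω x| ≤ a} := by
          rintro _ ⟨n, rfl⟩
          exact h n
        have := hcl.closure_subset_iff.2 hsub
        rw [hu.closure_range] at this
        exact this (Set.mem_univ (⟨s, hs⟩ : Set.Icc (0 : ℝ) t))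
    rw [e]
    exact MeasurableSet.iInter fun n =>
      measurableSet_le ((hm _ (u n).2).abs) measurable_const
  exact measurable_const.max key

/-! ### the three conditions -/

section bad

variable {m' : MeasurableSpace Ω} {f : Ω → ℂ → ℂ} {W : Ω → ℝ → ℝ} {t : ℝ} {p : LB.Par}

theorem measurableSet_bad1 (ht : 0 ≤ t) (hρ : Measurable[m'] fun ω => p.rho1 (f ω))
    (hc : ∀ ω, ContinuousOn (W ω) (Set.Icc 0 t))
    (hm : ∀ s ∈ Set.Icc 0 t, Measurable[m'] (fun ω => W ω s)) :
    MeasurableSet[m'] {ω | p.Bad1 (f ω) (W ω) t} :=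
  measurableSet_lt hρ (measurable_rad ht hc hm)

theorem measurableSet_bad2 (ht : 0 < t) (hf : CFam m' f) (hu0 : Continuous p.u0)
    (hx : Measurable[m'] fun ω => p.x (f ω))
    (hc : ∀ ω, ContinuousOn (W ω) (Set.Icc 0 t))
    (hm : ∀ s ∈ Set.Icc 0 t, Measurable[m'] (fun ω => W ω s)) :
    MeasurableSet[m'] {ω | p.Bad2 (f ω) (W ω) t} := by
  have hrad := measurable_rad ht.le hc hm
  have him : ∀ y : ℝ, ((y : ℂ) * Complex.I).im = y := by intro y; simp
  have hc2 := hf.comp_ffl ht.le hc hm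
  have e : {ω | p.Bad2 (f ω) (W ω) t} = {ω | ∃ y ∈ Set.Ioc 0 (10 * LB.rad (W ω) t),
      (0 : ℝ) < ‖f ω (ffl (W ω) t (y * Complex.I)) -
        f ω ((10 * LB.rad (W ω) t : ℝ) * Complex.I)‖ - p.u0 (p.x (f ω)) / 16} := by
    ext ω
    simp only [LB.Par.Bad2, Set.mem_ofPred_eq, Set.mem_Ioc, sub_pos, and_assoc]
  rw [e]
  refine measurableSet_exists_Ioc (G := fun (y : ℝ) ω => ‖f ω (ffl (W ω) t (y * Complex.I)) -
        f ω ((10 * LB.rad (W ω) t : ℝ) * Complex.I)‖ - p.u0 (p.x (f ω)) / 16)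
    (R := fun ω => 10 * LB.rad (W ω) t) ?_ (measurable_const.mul hrad) ?_
  · intro y hy
    have h1 : Measurable[m'] fun ω => f ω (ffl (W ω) t (y * Complex.I)) :=
      hc2.meas _ (by rw [him]; exact hy)
    have h2 : Measurable[m'] fun ω => f ω ((10 * LB.rad (W ω) t : ℝ) * Complex.I) := by
      refine hf.eval ?_ fun ω => ?_
      · exact (Complex.measurable_ofReal.comp (measurable_const.mul hrad)).mul measurable_const
      · rw [him]
        exact mul_pos (by norm_num) (rad_pos ht)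
    exact ((h1.sub h2).norm).sub ((hu0.measurable.comp hx).div_const 16)
  · intro ω
    refine ContinuousOn.sub (ContinuousOn.norm (ContinuousOn.sub ?_ continuousOn_const))
      continuousOn_const
    refine (hc2.cont ω).comp (Continuous.continuousOn (by fun_prop)) ?_
    intro y hy
    show 0 < ((y : ℂ) * Complex.I).im
    rw [him]
    exact hy

variable {g : ℂ → ℂ} {V : ℝ → ℝ}

theorem bad1_mono (hV : ContinuousOn V (Set.Ici 0)) (ht : 0 ≤ t) (h : p.Bad1 g V t) {s : ℝ}
    (hs : t ≤ s) : p.Bad1 g V s :=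
  lt_of_lt_of_le h (LB.rad_mono hV ht hs)

theorem bad2_right (hg : ContinuousOn g {z | 0 < z.im}) (hV : ContinuousOn V (Set.Ici 0))
    (ht : 0 < t) (h : p.Bad2 g V t) : ∀ᶠ s in 𝓝 t, p.Bad2 g V s := by
  have him : ∀ y : ℝ, ((y : ℂ) * Complex.I).im = y := by intro y; simp
  have hcr : ContinuousOn (fun s => 10 * LB.rad V s) (Set.Ioi 0) :=
    (continuousOn_const.mul (continuousOn_rad hV)).mono fun s hs => (le_of_lt hs : (0:ℝ) ≤ s)
  have hG := eventually_exists_Ioc (X := ℝ) (S := Set.Ioi (0 : ℝ)) (t := t)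
    (G := fun s (y : ℝ) => ‖g (ffl V s (y * Complex.I)) - g ((10 * LB.rad V s : ℝ) * Complex.I)‖)
    (R := fun s => 10 * LB.rad V s) (c := p.u0 (p.x g) / 16) ht hcr ?_ ?_ ?_
  · rw [IsOpen.nhdsWithin_eq isOpen_Ioi ht] at hG
    filter_upwards [hG] with s hs
    obtain ⟨y, hy, h1⟩ := hs
    exact ⟨y, hy.1, hy.2, h1⟩
  · intro y hy
    have hff : ContinuousOn (fun s : ℝ => g (ffl V s (y * Complex.I))) (Set.Ioi 0) := by
      have h1 := continuousOn_comp_ffl hg hV
      have h2 : ContinuousOn (fun s : ℝ => ((s, (y : ℂ) * Complex.I) : ℝ × ℂ)) (Set.Ioi 0) :=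
        Continuous.continuousOn (by fun_prop)
      refine h1.comp h2 fun s hs => ?_
      exact ⟨(le_of_lt hs : (0:ℝ) ≤ s), by
        show 0 < ((y : ℂ) * Complex.I).im
        rw [him]; exact hy⟩
    refine ContinuousOn.norm (hff.sub ?_)
    refine hg.comp ?_ fun s hs => ?_
    · exact (Complex.continuous_ofReal.comp_continuousOn hcr).mul continuousOn_const
    · show 0 < (((10 * LB.rad V s : ℝ) : ℂ) * Complex.I).im
      rw [him]
      exact mul_pos (by norm_num) (rad_pos hs)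
  · refine ContinuousOn.norm (ContinuousOn.sub ?_ continuousOn_const)
    have h1 := (FLC.differentiableOn_ffl hV ht.le).continuousOn
    refine (hg.comp h1 fun z hz => FLC.ffl_im_pos hV ht.le hz).comp
      (Continuous.continuousOn (by fun_prop)) ?_
    intro y hy
    show 0 < ((y : ℂ) * Complex.I).im
    rw [him]
    exact hy
  · obtain ⟨y, h0, h1, h2⟩ := h
    exact ⟨y, ⟨h0, h1⟩, h2⟩

theorem win_mono (V : ℝ → ℝ) {s : ℝ} (hs : t ≤ s) (k : ℤ) : LB.win V t k ⊆ LB.win V s k :=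
  fun _ hr => ⟨hr.1, hr.2.1.trans hs, hr.2.2⟩

theorem bad3_mono {k : ℤ} (h : p.Bad3 g V t k) {s : ℝ} (hs : t ≤ s) : p.Bad3 g V s k :=
  lt_of_lt_of_le h (LB.content_mono (win_mono V hs k) subset_rfl)

/-- the bad condition is right-open in time -/
theorem bad_right (hg : ContinuousOn g {z | 0 < z.im}) (hV : ContinuousOn V (Set.Ici 0))
    (ht : 0 < t) (h : p.Bad g V t) : ∀ᶠ s in 𝓝[>] t, p.Bad g V s := by
  rcases h with h | h | ⟨k, h⟩
  · filter_upwards [self_mem_nhdsWithin] with s hs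
    exact Or.inl (bad1_mono hV ht.le h (le_of_lt hs))
  · filter_upwards [(bad2_right hg hV ht h).filter_mono nhdsWithin_le_nhds] with s hs
    exact Or.inr (Or.inl hs)
  · filter_upwards [self_mem_nhdsWithin] with s hs
    exact Or.inr (Or.inr ⟨k, bad3_mono h (le_of_lt hs)⟩)

end bad

end Crest.Agent.R162.LBST
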