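import Mathlib
import Crest.Agent.R162.OSDefs
import Crest.Agent.R162.OS
import Crest.Agent.R162.OPGen
import Crest.Agent.R162.OPTr
import Crest.Agent.R162.FL1b
import Crest.Agent.R162.OPTr2
import Crest.Agent.R162.OP3

-- ▼ part R162/OPa
section

/-! Row 162, node OP (helper149): abstract tail bounds from the maximal inequality, cell partition,
and the abstract recursion of U4. -/

set_option autoImplicit false

open MeasureTheory ProbabilityTheory Set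
open scoped NNReal ENNReal

namespace Crest.Agent.R162.OP

variable {Ω : Type*} {m : MeasurableSpace Ω} {P : Measure Ω}


/-- Conditional maximal inequality from the unconditional one: `M ≥ 0`, `P (A ∩ {∃ t, M_t ≥ μ M_σ}) ≤ (e/μ) P A`.
`Ms` is the value `M_σ`, `Ev` the predicate "event in `F_σ`", `Hit c` the event `{∃ t ∈ [σ,T], c ≤ M t}`. -/
theorem cond_maximal [IsFiniteMeasure P] {Ev : Set Ω → Prop} {Ms : Ω → ℝ} {Hit : ℝ → Set Ω}
    (hEvm : ∀ A, Ev A → MeasurableSet A)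
    (hcell : ∀ A, Ev A → ∀ a b : ℝ, Ev (A ∩ {ω | Ms ω ∈ Set.Ico a b}))
    (hmax : ∀ A, Ev A → ∀ c : ℝ, 0 < c → ∀ C : ℝ, (∀ ω ∈ A, Ms ω ≤ C) →
      P (A ∩ Hit c) ≤ ENNReal.ofReal (C / c) * P A)
    (A : Set Ω) (hA : Ev A) (hpos : ∀ ω ∈ A, 0 < Ms ω) {μ : ℝ} (hμ : 0 < μ) (E : Set Ω)
    (hE : ∀ ω ∈ E, ∀ c : ℝ, c ≤ μ * Ms ω → ω ∈ Hit c) :
    P (A ∩ E) ≤ ENNReal.ofReal (Real.exp 1 / μ) * P A := by
  classical
  set Ak : ℤ → Set Ω := fun k => A ∩ {ω | Ms ω ∈ Set.Ico (Real.exp k) (Real.exp (k + 1))} with hAk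
  have hcov : A ∩ E ⊆ ⋃ k : ℤ, (Ak k ∩ Hit (μ * Real.exp k)) := by
    rintro ω ⟨hω, hωE⟩
    have hM := hpos ω hω
    refine mem_iUnion.2 ⟨⌊Real.log (Ms ω)⌋, ?_, ?_⟩
    · refine ⟨hω, ?_, ?_⟩
      · rw [← Real.le_log_iff_exp_le hM]; exact Int.floor_le _
      · rw [← Real.log_lt_iff_lt_exp hM]; exact Int.lt_floor_add_one _
    · apply hE ω hωE
      have : Real.exp ((⌊Real.log (Ms ω)⌋ : ℤ) : ℝ) ≤ Ms ω := by
        rw [← Real.le_log_iff_exp_le hM]; exact Int.floor_le _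
      gcongr
  have hdisj : Pairwise (Function.onFun Disjoint Ak) := by
    intro i j hij
    rw [Function.onFun, Set.disjoint_left]
    rintro ω ⟨_, h1, h2⟩ ⟨_, h3, h4⟩
    have h5 : Real.exp (i : ℝ) < Real.exp (j + 1) := lt_of_le_of_lt h1 h4
    have h6 : Real.exp (j : ℝ) < Real.exp (i + 1) := lt_of_le_of_lt h3 h2
    rw [Real.exp_lt_exp] at h5 h6
    have h5' : i < j + 1 := by exact_mod_cast h5
    have h6' : j < i + 1 := by exact_mod_cast h6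
    omega
  have hEvk : ∀ k, Ev (Ak k) := fun k => hcell A hA _ _
  calc P (A ∩ E) ≤ P (⋃ k : ℤ, (Ak k ∩ Hit (μ * Real.exp k))) := measure_mono hcov
    _ ≤ ∑' k : ℤ, P (Ak k ∩ Hit (μ * Real.exp k)) := measure_iUnion_le _
    _ ≤ ∑' k : ℤ, ENNReal.ofReal (Real.exp 1 / μ) * P (Ak k) := by
        refine ENNReal.tsum_le_tsum fun k => ?_
        have h := hmax (Ak k) (hEvk k) (μ * Real.exp k) (by positivity) (Real.exp (k + 1))
          (fun ω hω => hω.2.2.le)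
        refine h.trans (le_of_eq ?_)
        congr 2
        rw [Real.exp_add]
        field_simp
    _ = ENNReal.ofReal (Real.exp 1 / μ) * ∑' k : ℤ, P (Ak k) := ENNReal.tsum_mul_left
    _ = ENNReal.ofReal (Real.exp 1 / μ) * P (⋃ k, Ak k) := by
        rw [measure_iUnion hdisj (fun k => hEvm _ (hEvk k))]
    _ ≤ ENNReal.ofReal (Real.exp 1 / μ) * P A := by
        gcongr
        exact iUnion_subset fun k => inter_subset_left

end Crest.Agent.R162.OP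
end

-- ▼ part R162/OPb
section

/-! Row 162, node OP (helper149): the local maximal inequality for functions `F ≥ 0` of the state
with nonpositive generator, abstractly (structure `OneP` = the consequences of OPM / exit times). -/

set_option autoImplicit false

open MeasureTheory ProbabilityTheory Set Filter Topology
open scoped NNReal ENNReal

namespace Crest.Agent.R162.OP

open Crest.Agent.R162.OS

/-- state space `(X, Y, L, a)` -/
abbrev S4 : Type := ℝ × ℝ × ℝ × ℝ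

variable {Ω : Type*} {m : MeasurableSpace Ω}

/-- the open box `|X| < n`, `1/n < Y < n`, `|L| < n`, `|a| < n` -/
def box (n : ℕ) : Set S4 :=
  {v | |v.1| < n ∧ (1 : ℝ) / n < v.2.1 ∧ v.2.1 < n ∧ |v.2.2.1| < n ∧ |v.2.2.2| < n}

/-- the closed box -/
def cbox (n : ℕ) : Set S4 :=
  {v | |v.1| ≤ n ∧ (1 : ℝ) / n ≤ v.2.1 ∧ v.2.1 ≤ n ∧ |v.2.2.1| ≤ n ∧ |v.2.2.2| ≤ n}

theorem isOpen_box (n : ℕ) : IsOpen (box n) := by
  have h1 : IsOpen {v : S4 | |v.1| < n} := isOpen_lt (by fun_prop) continuous_const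
  have h2 : IsOpen {v : S4 | (1 : ℝ) / n < v.2.1} := isOpen_lt continuous_const (by fun_prop)
  have h3 : IsOpen {v : S4 | v.2.1 < n} := isOpen_lt (by fun_prop) continuous_const
  have h4 : IsOpen {v : S4 | |v.2.2.1| < n} := isOpen_lt (by fun_prop) continuous_const
  have h5 : IsOpen {v : S4 | |v.2.2.2| < n} := isOpen_lt (by fun_prop) continuous_const
  exact h1.inter (h2.inter (h3.inter (h4.inter h5)))

theorem isClosed_cbox (n : ℕ) : IsClosed (cbox n) := by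
  have h1 : IsClosed {v : S4 | |v.1| ≤ n} := isClosed_le (by fun_prop) continuous_const
  have h2 : IsClosed {v : S4 | (1 : ℝ) / n ≤ v.2.1} := isClosed_le continuous_const (by fun_prop)
  have h3 : IsClosed {v : S4 | v.2.1 ≤ n} := isClosed_le (by fun_prop) continuous_const
  have h4 : IsClosed {v : S4 | |v.2.2.1| ≤ n} := isClosed_le (by fun_prop) continuous_const
  have h5 : IsClosed {v : S4 | |v.2.2.2| ≤ n} := isClosed_le (by fun_prop) continuous_const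
  exact h1.inter (h2.inter (h3.inter (h4.inter h5)))

theorem box_subset_cbox (n : ℕ) : box n ⊆ cbox n :=
  fun _ h => ⟨h.1.le, h.2.1.le, h.2.2.1.le, h.2.2.2.1.le, h.2.2.2.2.le⟩

theorem closure_box_subset (n : ℕ) : closure (box n) ⊆ cbox n :=
  closure_minimal (box_subset_cbox n) (isClosed_cbox n)

theorem isCompact_cbox (n : ℕ) : IsCompact (cbox n) := by
  have h : cbox n ⊆ Set.Icc (-(n : ℝ)) n ×ˢ (Set.Icc (-(n : ℝ)) n ×ˢ
      (Set.Icc (-(n : ℝ)) n ×ˢ Set.Icc (-(n : ℝ)) n)) := by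
    rintro v ⟨h1, h2, h3, h4, h5⟩
    have h0 : (0 : ℝ) ≤ 1 / n := by positivity
    have hn : (0 : ℝ) ≤ n := Nat.cast_nonneg n
    exact ⟨abs_le.1 h1, ⟨by linarith, h3⟩, abs_le.1 h4, abs_le.1 h5⟩
  exact (isCompact_Icc.prod (isCompact_Icc.prod (isCompact_Icc.prod isCompact_Icc))).of_isClosed_subset
    (isClosed_cbox n) h

theorem cbox_pos {n : ℕ} (hn : 0 < n) : cbox n ⊆ {v : S4 | 0 < v.2.1} := by
  rintro v ⟨_, h2, _⟩
  have : (0 : ℝ) < 1 / n := by positivity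
  exact lt_of_lt_of_le this h2

theorem box_mono {n k : ℕ} (hn : 0 < n) (hnk : n ≤ k) : box n ⊆ box k := by
  rintro v ⟨h1, h2, h3, h4, h5⟩
  have hnk' : (n : ℝ) ≤ k := by exact_mod_cast hnk
  have hn' : (0 : ℝ) < n := by exact_mod_cast hn
  refine ⟨h1.trans_le hnk', lt_of_le_of_lt ?_ h2, h3.trans_le hnk', h4.trans_le hnk',
    h5.trans_le hnk'⟩
  exact one_div_le_one_div_of_le hn' hnk'

theorem exists_box {v : S4} (hv : 0 < v.2.1) : ∃ n : ℕ, v ∈ box (n + 1) := by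
  obtain ⟨n, hn⟩ := exists_nat_gt (max (max |v.1| v.2.1) (max (1 / v.2.1) (max |v.2.2.1| |v.2.2.2|)))
  have h1 := (max_lt_iff.1 hn).1
  have h2 := (max_lt_iff.1 hn).2
  have h3 := (max_lt_iff.1 h1).1
  have h4 := (max_lt_iff.1 h1).2
  have h5 := (max_lt_iff.1 h2).1
  have h6 := (max_lt_iff.1 (max_lt_iff.1 h2).2).1
  have h7 := (max_lt_iff.1 (max_lt_iff.1 h2).2).2
  refine ⟨n, ?_, ?_, ?_, ?_, ?_⟩
  · push_cast; linarith
  · push_cast
    rw [div_lt_iff₀ (by positivity)]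
    rw [div_lt_iff₀ hv] at h5
    nlinarith
  · push_cast; linarith
  · push_cast; linarith
  · push_cast; linarith

/-- a compact subset of `{Y > 0}` lies in the big boxes -/
theorem compact_box {K : Set S4} (hK : IsCompact K) (hKp : ∀ v ∈ K, 0 < v.2.1) :
    ∃ n₀ : ℕ, ∀ n, n₀ ≤ n → K ⊆ box (n + 1) := by
  have h := hK.elim_directed_cover (fun n : ℕ => box (n + 1)) (fun n => isOpen_box _)
    (fun v hv => by
      obtain ⟨n, hn⟩ := exists_box (hKp v hv)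
      exact mem_iUnion.2 ⟨n, hn⟩)
    (by
      intro i j
      exact ⟨max i j, box_mono (Nat.succ_pos _) (by simp), box_mono (Nat.succ_pos _) (by simp)⟩)
  obtain ⟨n, hn⟩ := h
  exact ⟨n, fun k hk => hn.trans (box_mono (Nat.succ_pos _) (by omega))⟩

/-- Abstract one-point state process: consequences of the exit time lemma. -/
structure OneP (𝓕 : Filtration ℝ≥0 m) (al : ℝ≥0 → Ω → Prop) (st : ℝ≥0 → Ω → S4) : Prop where
  al_mono : ∀ ω s t, s ≤ t → al t ω → al s ω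
  cont : ∀ ω t, al t ω → ContinuousOn (fun s => st s ω) (Set.Iic t)
  Y_pos : ∀ ω t, al t ω → 0 < (st t ω).2.1
  exit : ∀ (O : Set S4) (δ : ℝ), IsOpen O → 0 < δ → O ⊆ {v | δ ≤ v.2.1} →
    ∀ (σ : Ω → ℝ≥0) (T : ℝ≥0),
    IsST 𝓕 σ → ∃ τ : Ω → ℝ≥0, IsST 𝓕 τ ∧ (∀ ω, σ ω ≤ τ ω ∧ τ ω ≤ max T (σ ω)) ∧
      ∀ ω, al (σ ω) ω → st (σ ω) ω ∈ O →
        (∀ t, σ ω ≤ t → t ≤ τ ω → al t ω ∧ st t ω ∈ closure O) ∧
        (∀ t, σ ω ≤ t → t < τ ω → st t ω ∈ O) ∧ (τ ω = max T (σ ω) ∨ st (τ ω) ω ∉ O)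
  evState : ∀ (B : Set S4), MeasurableSet B → ∀ σ : Ω → ℝ≥0, IsST 𝓕 σ →
    EvST 𝓕 σ {ω | al (σ ω) ω ∧ st (σ ω) ω ∈ B}

/-- Dynkin inequality for one function `F` on the set `K`. -/
def DynLE (𝓕 : Filtration ℝ≥0 m) (P : Measure Ω) (al : ℝ≥0 → Ω → Prop)
    (st : ℝ≥0 → Ω → S4) (F : S4 → ℝ) (K : Set S4) : Prop :=
  ∀ (σ τ : Ω → ℝ≥0) (T : ℝ≥0) (A : Set Ω), IsST 𝓕 σ → IsST 𝓕 τ → (∀ ω, τ ω ≤ T) → EvST 𝓕 σ A →
    (∀ ω ∈ A, σ ω ≤ τ ω ∧ ∀ t, σ ω ≤ t → t ≤ τ ω → al t ω ∧ st t ω ∈ K) →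
    ∫ ω in A, F (st (τ ω) ω) ∂P ≤ ∫ ω in A, F (st (σ ω) ω) ∂P

section abs

variable {𝓕 : Filtration ℝ≥0 m} {al : ℝ≥0 → Ω → Prop} {st : ℝ≥0 → Ω → S4} {P : Measure Ω}

theorem EvST.le_const {σ : Ω → ℝ≥0} (hσ : IsST 𝓕 σ) (T : ℝ≥0) : EvST 𝓕 σ {ω | σ ω ≤ T} := by
  intro t
  have : {ω | σ ω ≤ T} ∩ {ω | σ ω ≤ t} = {ω | σ ω ≤ min T t} := by
    ext ω; simp
  rw [this]
  exact 𝓕.mono (min_le_right _ _) _ (hσ _)

theorem aesm (h : OneP 𝓕 al st) {F : S4 → ℝ} (hFc : ContinuousOn F {v | 0 < v.2.1})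
    {τ : Ω → ℝ≥0} (hτ : IsST 𝓕 τ) {A : Set Ω} (hA : MeasurableSet A)
    (hal : ∀ ω ∈ A, al (τ ω) ω) :
    AEStronglyMeasurable (fun ω => F (st (τ ω) ω)) (P.restrict A) := by
  classical
  set L : Set Ω := {ω | al (τ ω) ω} with hL
  have hB : ∀ B : Set S4, MeasurableSet B → MeasurableSet {ω | al (τ ω) ω ∧ st (τ ω) ω ∈ B} :=
    fun B hB => (h.evState B hB τ hτ).measurableSet
  have hLm : MeasurableSet L := by
    have e : L = {ω | al (τ ω) ω ∧ st (τ ω) ω ∈ (univ : Set S4)} := by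
      ext ω; simp [hL]
    rw [e]
    exact hB univ MeasurableSet.univ
  set g : Ω → S4 := fun ω => if ω ∈ L then st (τ ω) ω else 0 with hg
  have hgm : Measurable g := by
    intro B hBm
    have : g ⁻¹' B = {ω | al (τ ω) ω ∧ st (τ ω) ω ∈ B} ∪ (Lᶜ ∩ {_ω | (0 : S4) ∈ B}) := by
      ext ω
      by_cases hω : ω ∈ L
      · have : al (τ ω) ω := hω
        simp [hg, hω, this]
      · have : ¬ al (τ ω) ω := hω
        simp [hg, hω, this]
    rw [this]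
    refine (hB B hBm).union (hLm.compl.inter ?_)
    exact MeasurableSet.const _
  have hS : MeasurableSet {v : S4 | 0 < v.2.1} :=
    (isOpen_lt continuous_const (by fun_prop)).measurableSet
  have hF' : Measurable (({v : S4 | 0 < v.2.1}).piecewise F (fun _ => (0 : ℝ))) :=
    hFc.measurable_piecewise continuousOn_const hS
  refine ⟨fun ω => ({v : S4 | 0 < v.2.1}).piecewise F (fun _ => (0 : ℝ)) (g ω),
    (hF'.comp hgm).stronglyMeasurable, ?_⟩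
  refine (ae_restrict_iff' hA).2 (Eventually.of_forall fun ω hω => ?_)
  have h1 : ω ∈ L := hal ω hω
  have h2 : 0 < (st (τ ω) ω).2.1 := h.Y_pos ω _ (hal ω hω)
  have h3 : g ω = st (τ ω) ω := if_pos h1
  show F (st (τ ω) ω) = ({v : S4 | 0 < v.2.1}).piecewise F (fun _ => (0 : ℝ)) (g ω)
  rw [h3, Set.piecewise_eq_of_mem ({v : S4 | 0 < v.2.1}) F (fun _ => (0 : ℝ))
    (show st (τ ω) ω ∈ {v : S4 | 0 < v.2.1} from h2)]

/-- LOCAL MAXIMAL INEQUALITY -/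
theorem lmi (h : OneP 𝓕 al st) [IsFiniteMeasure P] {F : S4 → ℝ}
    (hF0 : ∀ v : S4, 0 < v.2.1 → 0 ≤ F v) (hFc : ContinuousOn F {v | 0 < v.2.1})
    (hD : ∀ n : ℕ, 0 < n → DynLE 𝓕 P al st F (cbox n)) {σ : Ω → ℝ≥0} (hσ : IsST 𝓕 σ)
    {A : Set Ω} (hA : EvST 𝓕 σ A) (hal : ∀ ω ∈ A, al (σ ω) ω) {C c : ℝ} (hc : 0 < c)
    (hC : ∀ ω ∈ A, F (st (σ ω) ω) ≤ C) :
    P (A ∩ {ω | ∃ t, σ ω ≤ t ∧ al t ω ∧ c ≤ F (st t ω)}) ≤ ENNReal.ofReal (C / c) * P A := by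
  classical
  rcases le_or_gt c C with hcC | hcC
  · have h1 : (1 : ℝ≥0∞) ≤ ENNReal.ofReal (C / c) := by
      rw [← ENNReal.ofReal_one]
      exact ENNReal.ofReal_le_ofReal ((one_le_div hc).2 hcC)
    calc P (A ∩ {ω | ∃ t, σ ω ≤ t ∧ al t ω ∧ c ≤ F (st t ω)}) ≤ P A :=
          measure_mono inter_subset_left
      _ = 1 * P A := (one_mul _).symm
      _ ≤ _ := by gcongr
  have hpo : IsOpen {v : S4 | 0 < v.2.1} := isOpen_lt continuous_const (by fun_prop)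
  set O : ℕ → Set S4 := fun n => box (n + 1) ∩ ({v | 0 < v.2.1} ∩ F ⁻¹' (Iio c)) with hO
  have hOo : ∀ n, IsOpen (O n) := fun n =>
    (isOpen_box _).inter (hFc.isOpen_inter_preimage hpo isOpen_Iio)
  have hOδ : ∀ n, O n ⊆ {v | (1 : ℝ) / ((n + 1 : ℕ) : ℝ) ≤ v.2.1} := fun n v hv => hv.1.2.1.le
  have hex := fun n : ℕ => h.exit (O n) ((1 : ℝ) / ((n + 1 : ℕ) : ℝ)) (hOo n) (by positivity)
    (hOδ n) σ ((n + 1 : ℕ) : ℝ≥0) hσ
  choose τ hτ hτb hτO using hex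
  set τ' : ℕ → Ω → ℝ≥0 := fun n ω => min (τ n ω) ((n + 1 : ℕ) : ℝ≥0) with hτ'
  have hτ's : ∀ n, IsST 𝓕 (τ' n) := fun n => (hτ n).min (IsST.const _)
  set An : ℕ → Set Ω := fun n =>
    (A ∩ {ω | al (σ ω) ω ∧ st (σ ω) ω ∈ O n}) ∩ {ω | σ ω ≤ ((n + 1 : ℕ) : ℝ≥0)} with hAn
  have hAnE : ∀ n, EvST 𝓕 σ (An n) := fun n =>
    (hA.inter (h.evState _ (hOo n).measurableSet σ hσ)).inter (EvST.le_const hσ _)
  have hAnm : ∀ n, MeasurableSet (An n) := fun n => (hAnE n).measurableSet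
  have hAA : ∀ n, An n ⊆ A := fun n ω hω => hω.1.1
  have hτeq : ∀ n, ∀ ω ∈ An n, τ' n ω = τ n ω := by
    intro n ω hω
    have h1 : σ ω ≤ ((n + 1 : ℕ) : ℝ≥0) := hω.2
    have h2 := (hτb n ω).2
    rw [max_eq_left h1] at h2
    exact min_eq_left h2
  have hstay : ∀ n, ∀ ω ∈ An n, σ ω ≤ τ' n ω ∧ ∀ t, σ ω ≤ t → t ≤ τ' n ω →
      al t ω ∧ st t ω ∈ cbox (n + 1) := by
    intro n ω hω
    rw [hτeq n ω hω]
    refine ⟨(hτb n ω).1, fun t h1 h2 => ?_⟩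
    have h3 := (hτO n ω hω.1.2.1 hω.1.2.2).1 t h1 h2
    refine ⟨h3.1, ?_⟩
    exact closure_box_subset _ (closure_mono inter_subset_left h3.2)
  have hdyn : ∀ n, ∫ ω in An n, F (st (τ' n ω) ω) ∂P ≤ ∫ ω in An n, F (st (σ ω) ω) ∂P := fun n =>
    hD (n + 1) (Nat.succ_pos n) σ (τ' n) ((n + 1 : ℕ) : ℝ≥0) (An n) hσ (hτ's n)
      (fun ω => min_le_right _ _) (hAnE n) (hstay n)
  set Bn : ℕ → Set Ω := fun n => {ω | c ≤ F (st (τ' n ω) ω)} ∩ An n with hBn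
  have hBb : ∀ n, P (Bn n) ≤ ENNReal.ofReal (C / c) * P A := by
    intro n
    have halτ : ∀ ω ∈ An n, al (τ' n ω) ω := fun ω hω =>
      ((hstay n ω hω).2 _ (hstay n ω hω).1 le_rfl).1
    obtain ⟨M, hM⟩ : ∃ M : ℝ, ∀ v ∈ cbox (n + 1), ‖F v‖ ≤ M :=
      (isCompact_cbox (n + 1)).exists_bound_of_continuousOn
        (hFc.mono (cbox_pos (Nat.succ_pos n)))
    have hint : IntegrableOn (fun ω => F (st (τ' n ω) ω)) (An n) P := by
      refine Integrable.of_bound (aesm h hFc (hτ's n) (hAnm n) halτ) M ?_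
      refine (ae_restrict_iff' (hAnm n)).2 (Eventually.of_forall fun ω hω => ?_)
      exact hM _ ((hstay n ω hω).2 _ (hstay n ω hω).1 le_rfl).2
    have hnn : 0 ≤ᵐ[P.restrict (An n)] fun ω => F (st (τ' n ω) ω) := by
      refine (ae_restrict_iff' (hAnm n)).2 (Eventually.of_forall fun ω hω => ?_)
      exact hF0 _ (h.Y_pos ω _ (halτ ω hω))
    have h1 := mul_meas_ge_le_integral_of_nonneg hnn hint c
    have h2 : ‖∫ ω in An n, F (st (σ ω) ω) ∂P‖ ≤ C * P.real (An n) := by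
      refine norm_setIntegral_le_of_norm_le_const (measure_lt_top _ _) fun ω hω => ?_
      have h3 : 0 ≤ F (st (σ ω) ω) := hF0 _ (h.Y_pos ω _ hω.1.2.1)
      rw [Real.norm_eq_abs, abs_of_nonneg h3]
      exact hC ω (hAA n hω)
    have h3 : c * (P.restrict (An n)).real {ω | c ≤ F (st (τ' n ω) ω)} ≤ C * P.real (An n) :=
      h1.trans ((hdyn n).trans ((le_abs_self _).trans h2))
    have h4 : (P.restrict (An n)).real {ω | c ≤ F (st (τ' n ω) ω)} = P.real (Bn n) := by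
      rw [Measure.real, Measure.restrict_apply' (hAnm n), Measure.real]
    rw [h4] at h3
    rcases (An n).eq_empty_or_nonempty with he | ⟨ω₀, hω₀⟩
    · have : Bn n = ∅ := by rw [hBn]; simp only [he, inter_empty]
      rw [this]; simp
    have hC0 : 0 ≤ C := (hF0 _ (h.Y_pos ω₀ _ hω₀.1.2.1)).trans (hC ω₀ (hAA n hω₀))
    have h5 : P.real (Bn n) ≤ C / c * P.real (An n) := by
      rw [div_mul_eq_mul_div, le_div_iff₀ hc]
      linarith
    calc P (Bn n) = ENNReal.ofReal (P.real (Bn n)) := (ofReal_measureReal).symm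
      _ ≤ ENNReal.ofReal (C / c * P.real (An n)) := ENNReal.ofReal_le_ofReal h5
      _ = ENNReal.ofReal (C / c) * P (An n) := by
          rw [ENNReal.ofReal_mul (by positivity), ofReal_measureReal]
      _ ≤ _ := by gcongr; exact hAA n
  have hcov : A ∩ {ω | ∃ t, σ ω ≤ t ∧ al t ω ∧ c ≤ F (st t ω)} ⊆
      ⋃ N : ℕ, ⋂ n : ℕ, ⋂ _ : N ≤ n, Bn n := by
    rintro ω ⟨hω, t₀, ht₀, hal₀, hF₀⟩
    have hK : IsCompact ((fun s => st s ω) '' Icc (σ ω) t₀) :=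
      isCompact_Icc.image_of_continuousOn ((h.cont ω t₀ hal₀).mono fun s hs => hs.2)
    obtain ⟨n₀, hn₀⟩ := compact_box hK (by
      rintro v ⟨s, hs, rfl⟩
      exact h.Y_pos ω s (h.al_mono ω s t₀ hs.2 hal₀))
    obtain ⟨n₁, hn₁⟩ := exists_nat_gt t₀
    refine mem_iUnion.2 ⟨max n₀ n₁, mem_iInter.2 fun n => mem_iInter.2 fun hn => ?_⟩
    have hnn₀ : n₀ ≤ n := (le_max_left _ _).trans hn
    have hnn₁ : n₁ ≤ n := (le_max_right _ _).trans hn
    have ht₀n : t₀ < ((n + 1 : ℕ) : ℝ≥0) := by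
      refine hn₁.trans_le ?_
      exact_mod_cast (by omega : n₁ ≤ n + 1)
    have hbox : ∀ s, σ ω ≤ s → s ≤ t₀ → st s ω ∈ box (n + 1) := fun s h1 h2 =>
      hn₀ n hnn₀ ⟨s, ⟨h1, h2⟩, rfl⟩
    have hpos : ∀ s, s ≤ t₀ → 0 < (st s ω).2.1 := fun s h2 =>
      h.Y_pos ω s (h.al_mono ω s t₀ h2 hal₀)
    have hσO : st (σ ω) ω ∈ O n :=
      ⟨hbox _ le_rfl ht₀, hpos _ ht₀, lt_of_le_of_lt (hC ω hω) hcC⟩
    have hωAn : ω ∈ An n :=
      ⟨⟨hω, hal ω hω, hσO⟩, ht₀.trans ht₀n.le⟩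
    refine ⟨?_, hωAn⟩
    show c ≤ F (st (τ' n ω) ω)
    rw [hτeq n ω hωAn]
    obtain ⟨h1, h2, h3⟩ := hτO n ω (hal ω hω) hσO
    have h4 : τ n ω ≤ t₀ := by
      by_contra h5
      push Not at h5
      have := (h2 t₀ ht₀ h5).2.2
      exact absurd hF₀ (not_le.2 this)
    have h5 : τ n ω ≠ max ((n + 1 : ℕ) : ℝ≥0) (σ ω) := by
      intro h6
      rw [h6] at h4
      exact absurd ((le_max_left _ _).trans h4) (not_le.2 ht₀n)
    have h6 := h3.resolve_left h5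
    by_contra h7
    push Not at h7
    exact h6 ⟨hbox _ (hτb n ω).1 h4, hpos _ h4, h7⟩
  calc P (A ∩ {ω | ∃ t, σ ω ≤ t ∧ al t ω ∧ c ≤ F (st t ω)})
      ≤ P (⋃ N : ℕ, ⋂ n : ℕ, ⋂ _ : N ≤ n, Bn n) := measure_mono hcov
    _ = ⨆ N, P (⋂ n : ℕ, ⋂ _ : N ≤ n, Bn n) := by
        refine Monotone.measure_iUnion ?_
        intro N N' hNN' ω hω
        simp only [mem_iInter] at hω ⊢
        exact fun n hn => hω n (hNN'.trans hn)
    _ ≤ ENNReal.ofReal (C / c) * P A := by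
        refine iSup_le fun N => (measure_mono ?_).trans (hBb N)
        intro ω hω
        simp only [mem_iInter] at hω
        exact hω N le_rfl

/-- CONDITIONAL MAXIMAL INEQUALITY -/
theorem cmi (h : OneP 𝓕 al st) [IsFiniteMeasure P] {F : S4 → ℝ}
    (hF0 : ∀ v : S4, 0 < v.2.1 → 0 < F v) (hFc : ContinuousOn F {v | 0 < v.2.1})
    (hD : ∀ n : ℕ, 0 < n → DynLE 𝓕 P al st F (cbox n)) {σ : Ω → ℝ≥0} (hσ : IsST 𝓕 σ)
    {A : Set Ω} (hA : EvST 𝓕 σ A) {μ : ℝ} (hμ : 0 < μ) :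
    P (A ∩ {ω | ∃ t, σ ω ≤ t ∧ al t ω ∧ μ * F (st (σ ω) ω) ≤ F (st t ω)}) ≤
      ENNReal.ofReal (Real.exp 1 / μ) * P A := by
  have hpo : IsOpen {v : S4 | 0 < v.2.1} := isOpen_lt continuous_const (by fun_prop)
  set L : Set Ω := {ω | al (σ ω) ω ∧ st (σ ω) ω ∈ (univ : Set S4)} with hL
  have hLE : EvST 𝓕 σ L := h.evState univ MeasurableSet.univ σ hσ
  have key := cond_maximal (P := P) (Ev := fun A' => EvST 𝓕 σ A' ∧ A' ⊆ L)
    (Ms := fun ω => F (st (σ ω) ω))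
    (Hit := fun c => {ω | ∃ t, σ ω ≤ t ∧ al t ω ∧ c ≤ F (st t ω)})
    (fun A' hA' => hA'.1.measurableSet)
    (fun A' hA' a b => by
      refine ⟨?_, inter_subset_left.trans hA'.2⟩
      have hm : MeasurableSet ({v : S4 | 0 < v.2.1} ∩ F ⁻¹' (Ico a b)) := by
        have e : {v : S4 | 0 < v.2.1} ∩ F ⁻¹' (Ico a b) = ({v : S4 | 0 < v.2.1} ∩ F ⁻¹' (Iio b)) \
            ({v : S4 | 0 < v.2.1} ∩ F ⁻¹' (Iio a)) := by
          ext v
          simp only [mem_inter_iff, mem_preimage, mem_Ico, Set.mem_sdiff, mem_Iio, not_and, not_lt,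
            mem_ofPred_eq]
          tauto
        rw [e]
        exact (hFc.isOpen_inter_preimage hpo isOpen_Iio).measurableSet.diff
          (hFc.isOpen_inter_preimage hpo isOpen_Iio).measurableSet
      have e2 : A' ∩ {ω | F (st (σ ω) ω) ∈ Ico a b} =
          A' ∩ {ω | al (σ ω) ω ∧ st (σ ω) ω ∈ {v : S4 | 0 < v.2.1} ∩ F ⁻¹' (Ico a b)} := by
        ext ω
        constructor
        · rintro ⟨h1, h2⟩
          have h3 := (hA'.2 h1).1
          exact ⟨h1, h3, h.Y_pos ω _ h3, h2⟩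
        · rintro ⟨h1, _, _, h2⟩
          exact ⟨h1, h2⟩
      rw [e2]
      exact hA'.1.inter (h.evState _ hm σ hσ))
    (fun A' hA' c hc C hC => lmi h (fun v hv => (hF0 v hv).le) hFc hD hσ hA'.1
      (fun ω hω => (hA'.2 hω).1) hc hC)
    (A ∩ L) ⟨hA.inter hLE, inter_subset_right⟩
    (fun ω hω => hF0 _ (h.Y_pos ω _ hω.2.1)) hμ
    {ω | ∃ t, σ ω ≤ t ∧ al t ω ∧ μ * F (st (σ ω) ω) ≤ F (st t ω)}
    (fun ω hω c hc => by
      obtain ⟨t, h1, h2, h3⟩ := hω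
      exact ⟨t, h1, h2, hc.trans h3⟩)
  calc P (A ∩ {ω | ∃ t, σ ω ≤ t ∧ al t ω ∧ μ * F (st (σ ω) ω) ≤ F (st t ω)})
      ≤ P ((A ∩ L) ∩ {ω | ∃ t, σ ω ≤ t ∧ al t ω ∧ μ * F (st (σ ω) ω) ≤ F (st t ω)}) := by
        refine measure_mono ?_
        rintro ω ⟨h1, t, h2, h3, h4⟩
        exact ⟨⟨h1, h.al_mono ω _ _ h2 h3, mem_univ _⟩, t, h2, h3, h4⟩
    _ ≤ ENNReal.ofReal (Real.exp 1 / μ) * P (A ∩ L) := key
    _ ≤ _ := by gcongr; exact inter_subset_left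

end abs

end Crest.Agent.R162.OP
end

-- ▼ part R162/OPc
section

/-! Row 162, node OP (helper149): the estimates OP1, OP2 from the conditional maximal inequality. -/

set_option autoImplicit false

open MeasureTheory ProbabilityTheory Set Filter Topology
open scoped NNReal ENNReal

namespace Crest.Agent.R162.OP

open Crest.Agent.R162.OS Crest.Agent.R162.FL Crest.Agent.R162.GEN Crest.Agent.R162.OPGen
open Crest.ProbabilityR.Loewner

universe u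

variable {Ω : Type u} {m : MeasurableSpace Ω} {P : Measure Ω} {Fl : Filtration ℝ≥0 m}
  {B : ℝ≥0 → Ω → ℝ} {κ : ℝ} {w : ℂ}

theorem isOpen_pos : IsOpen {q : S4 | 0 < q.2.1} := isOpen_lt continuous_const (by fun_prop)

/-- Dynkin inequality from the sign of the generator. -/
theorem dynLE_of_gen (hM : OPM.{u}) [IsProbabilityMeasure P] (hB : IsBM Fl B P) (hκ : 0 < κ)
    (hw : 0 < w.im) {F : S4 → ℝ} (hF : ContDiffOn ℝ 3 F {q | 0 < q.2.1})
    {n : ℕ} (hn : 0 < n) (hg : ∀ q ∈ cbox n, gen κ F q ≤ 0) :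
    DynLE Fl P (AliveP κ B w) (stP κ B w) F (cbox n) := by
  intro σ τ T A hσ hτ hT hA hst
  rw [hM hB hκ hw isOpen_pos (fun q hq => hq) hF (isCompact_cbox n) (cbox_pos hn) hσ hτ hT hA
    (fun ω hω => (hst ω hω).1) (fun ω hω t h1 h2 => (hst ω hω).2 t h1 h2)]
  have h1 : ∫ ω in A, (∫ s in (σ ω : ℝ)..(τ ω : ℝ), gen κ F (stW (driving κ B ω) s w)) ∂P ≤ 0 := by
    refine setIntegral_nonpos hA.measurableSet fun ω hω => ?_
    have hle : (σ ω : ℝ) ≤ τ ω := by exact_mod_cast (hst ω hω).1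
    rw [← neg_nonneg, ← intervalIntegral.integral_neg]
    refine intervalIntegral.integral_nonneg hle fun s hs => ?_
    have hs0 : 0 ≤ s := (σ ω).2.trans hs.1
    have h2 := ((hst ω hω).2 ⟨s, hs0⟩ (by exact_mod_cast hs.1) (by exact_mod_cast hs.2)).2
    have h3 : gen κ F (stW (driving κ B ω) s w) ≤ 0 := hg _ h2
    linarith
  linarith


/-- the function `e^{μ a} (cosh x)^r` -/
noncomputable def Vop (μ r : ℝ) : ℝ → ℝ → ℝ → ℝ := fun _ a x => Real.exp (μ * a) * cp r x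

theorem jet_Vop (μ r : ℝ) : Jet (Vop μ r) (fun _ _ _ => 0)
    (fun _ a x => (μ * Real.exp (μ * a)) * cp r x)
    (fun _ a x => Real.exp (μ * a) * (r * Real.tanh x * cp r x))
    (fun _ a x => Real.exp (μ * a) * (r * cp r x * ((r - 1) * Real.tanh x ^ 2 + 1))) :=
  Jet.acp (fun s => hasDerivAt_expc μ s) (contDiff_expc μ) r

/-- the function on the state space -/
noncomputable def Fop (μ r : ℝ) : S4 → ℝ := pq (Vop μ r) 0 0

theorem Fop_eq (μ r : ℝ) (q : S4) : Fop μ r q = Real.exp (μ * q.2.2.2) * cp r (xc q.1 q.2.1) := by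
  simp [Fop, pq, Vop]

theorem Fop_pos (μ r : ℝ) (q : S4) : 0 < Fop μ r q := by
  rw [Fop_eq]; exact mul_pos (Real.exp_pos _) (cp_pos _ _)

theorem contDiffOn_Fop (μ r : ℝ) : ContDiffOn ℝ 3 (Fop μ r) {q | 0 < q.2.1} :=
  contDiffOn_pq3 (jet_Vop μ r) 0 0

theorem gen_Fop (hκ : 0 < κ) {μ r : ℝ} (h : ∀ s : ℝ, 0 ≤ s → s ≤ 1 →
    r * (κ / 2) * ((1 - s) + (bb κ + r) * s) + μ ≤ 0) {q : S4} (hq : 0 < q.2.1) :
    gen κ (Fop μ r) q ≤ 0 := by
  refine gen_pq_nonpos (jet_Vop μ r) κ 0 0 hq ?_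
  have e : (0 : ℝ) = 0 * cp r (xc q.1 q.2.1) := by ring
  have key := LVal_cp hκ (Real.exp (μ * (q.2.2.2 - 0))) 0 (μ * Real.exp (μ * (q.2.2.2 - 0))) r
    (Real.tanh (xc q.1 q.2.1)) (cp r (xc q.1 q.2.1))
  rw [← e] at key
  rw [key]
  have h1 : Ar κ r (Real.tanh (xc q.1 q.2.1)) + μ ≤ 0 :=
    h _ (sq_nonneg _) (tanh_sq_lt_one _).le
  have h2 : 0 < cp r (xc q.1 q.2.1) := cp_pos _ _
  have h3 : 0 < Real.exp (μ * (q.2.2.2 - 0)) := Real.exp_pos _
  have h4 : (Real.exp (μ * (q.2.2.2 - 0)) * Ar κ r (Real.tanh (xc q.1 q.2.1)) +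
      4 * (1 - Real.tanh (xc q.1 q.2.1) ^ 2) * 0 + μ * Real.exp (μ * (q.2.2.2 - 0))) =
      Real.exp (μ * (q.2.2.2 - 0)) * (Ar κ r (Real.tanh (xc q.1 q.2.1)) + μ) := by ring
  rw [h4]
  exact mul_nonpos_of_nonpos_of_nonneg (mul_nonpos_of_nonneg_of_nonpos h3.le h1) h2.le

/-- conditional maximal inequality for `Fop` -/
theorem cmi_Fop (hM : OPM.{u}) [IsProbabilityMeasure P] (hB : IsBM Fl B P) (hκ : 0 < κ)
    (hw : 0 < w.im) (h1 : OneP Fl (AliveP κ B w) (stP κ B w)) {μ r : ℝ}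
    (h : ∀ s : ℝ, 0 ≤ s → s ≤ 1 → r * (κ / 2) * ((1 - s) + (bb κ + r) * s) + μ ≤ 0)
    {σ : Ω → ℝ≥0} (hσ : IsST Fl σ) {A : Set Ω} (hA : EvST Fl σ A) {M : ℝ} (hM0 : 0 < M) :
    P (A ∩ {ω | ∃ t, σ ω ≤ t ∧ AliveP κ B w t ω ∧
      M * Fop μ r (stP κ B w (σ ω) ω) ≤ Fop μ r (stP κ B w t ω)}) ≤
      ENNReal.ofReal (Real.exp 1 / M) * P A :=
  cmi h1 (fun v _ => Fop_pos μ r v) (contDiffOn_Fop μ r).continuousOn
    (fun _ hn => dynLE_of_gen hM hB hκ hw (contDiffOn_Fop μ r) hn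
      (fun _ hq => gen_Fop hκ h (cbox_pos hn hq))) hσ hA hM0

/-! ### translation to `sfl`, `‖Zfl‖` -/

theorem norm_Zfl_eq (W : ℝ → ℝ) (t : ℝ) (z : ℂ) :
    Real.sqrt ((Zfl W t z).re ^ 2 + (Zfl W t z).im ^ 2) = ‖Zfl W t z‖ := by
  rw [Complex.norm_def, Complex.normSq_apply]; congr 1; ring

theorem cp_state {W : ℝ → ℝ} {t : ℝ} {z : ℂ} (h : Alive W z t) (p : ℝ) :
    cp (-p) (xc (stW W t z).1 (stW W t z).2.1) = sfl W t z ^ p := by
  have h1 : 0 < (stW W t z).2.1 := Zfl_im_pos h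
  rw [cp_neg_eq h1]
  congr 1
  show (Zfl W t z).im / Real.sqrt ((Zfl W t z).re ^ 2 + (Zfl W t z).im ^ 2) = sfl W t z
  rw [norm_Zfl_eq]; rfl

theorem sfl_pos {W : ℝ → ℝ} {t : ℝ} {z : ℂ} (h : Alive W z t) : 0 < sfl W t z :=
  div_pos (Zfl_im_pos h) (norm_pos_iff.2 (Zfl_ne_zero h))

theorem sfl_le_one {W : ℝ → ℝ} {t : ℝ} {z : ℂ} (h : Alive W z t) : sfl W t z ≤ 1 := by
  rw [sfl, div_le_one (norm_pos_iff.2 (Zfl_ne_zero h))]
  exact (le_abs_self _).trans (Complex.abs_im_le_norm _)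

theorem Fop_state {W : ℝ → ℝ} {t : ℝ} {z : ℂ} (h : Alive W z t) (μ p : ℝ) :
    Fop μ (-p) (stW W t z) = Real.exp (μ * ath W t z) * sfl W t z ^ p := by
  rw [Fop_eq, cp_state h]; rfl

/-- `Y_t = Im z · e^{-2 a_t}` -/
theorem im_eq {W : ℝ → ℝ} (hW : Continuous W) {t : ℝ} {z : ℂ} (h : Alive W z t) :
    (Zfl W t z).im = z.im * Real.exp (-2 * ath W t z) := by
  have h1 := OPTr.log_im_eq h hW
  have hz : 0 < z.im := h.im_pos
  have h2 : (∫ s in (0:ℝ)..t, -(2 / ‖Zfl W s z‖ ^ 2)) = -2 * ath W t z := by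
    unfold ath
    rw [← intervalIntegral.integral_const_mul]
    refine intervalIntegral.integral_congr fun s _ => ?_
    ring
  rw [h2] at h1
  rw [Zfl_im]
  calc (gfl W t z).im = Real.exp (Real.log (gfl W t z).im) := (Real.exp_log (gfl_im_pos h)).symm
    _ = _ := by rw [h1, Real.exp_add, Real.exp_log hz]

theorem norm_eq {W : ℝ → ℝ} (hW : Continuous W) {t : ℝ} {z : ℂ} (h : Alive W z t) :
    ‖Zfl W t z‖ = z.im * Real.exp (-2 * ath W t z) / sfl W t z := by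
  rw [← im_eq hW h, sfl]
  have h1 := (Zfl_im_pos h).ne'
  have h2 := norm_ne_zero_iff.2 (Zfl_ne_zero h)
  field_simp

/-! ### OP1 -/

theorem OP1_cond {κ : ℝ} (hκ : 0 < κ) (hκ8 : κ < 8) :
    ∀ s : ℝ, 0 ≤ s → s ≤ 1 → (-(bb κ / 2)) * (κ / 2) * ((1 - s) + (bb κ + -(bb κ / 2)) * s)
      + κ * bb κ / 4 * min (bb κ / 2) 1 ≤ 0 := by
  intro s hs0 hs1
  have hb : 0 < bb κ := by
    unfold bb
    have : 1 < 8 / κ := by rw [lt_div_iff₀ hκ]; linarith
    linarith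
  set b := bb κ with hbdef
  set mn := min (b / 2) 1 with hmn
  have h1 : mn ≤ (1 - s) + (b + -(b / 2)) * s := by
    have h2 : mn ≤ b / 2 := min_le_left _ _
    have h3 : mn ≤ 1 := min_le_right _ _
    nlinarith
  have h4 : 0 < κ * b / 4 := by positivity
  nlinarith [mul_le_mul_of_nonneg_left h1 h4.le]

/-- OP1, `ENNReal` form. -/
theorem op1 (hM : OPM.{u}) [IsProbabilityMeasure P] (hB : IsBM Fl B P) (hκ : 0 < κ) (hκ8 : κ < 8)
    (hw : 0 < w.im) (h1 : OneP Fl (AliveP κ B w) (stP κ B w)) {σ : Ω → ℝ≥0} (hσ : IsST Fl σ)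
    {A : Set Ω} (hA : EvST Fl σ A) {c₀ : ℝ} (hc₀ : 0 < c₀) (a : ℝ) :
    P (A ∩ {ω | ∃ t : ℝ≥0, σ ω ≤ t ∧ AliveP κ B w t ω ∧ c₀ ≤ sfl (driving κ B ω) t w ∧
      a ≤ ath (driving κ B ω) t w - ath (driving κ B ω) (σ ω) w}) ≤
      ENNReal.ofReal (Real.exp 1 * c₀ ^ (-(bb κ / 2)) *
        Real.exp (-(κ * bb κ / 4 * min (bb κ / 2) 1) * a)) * P A := by
  have hb : 0 < bb κ := by
    unfold bb
    have : 1 < 8 / κ := by rw [lt_div_iff₀ hκ]; linarith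
    linarith
  set lam := κ * bb κ / 4 * min (bb κ / 2) 1 with hlam
  have hlam0 : 0 < lam := by
    have : 0 < min (bb κ / 2) 1 := lt_min (by positivity) one_pos
    positivity
  have key := cmi_Fop hM hB hκ hw h1 (OP1_cond hκ hκ8) hσ hA
    (M := Real.exp (lam * a) * c₀ ^ (bb κ / 2)) (by positivity)
  refine (measure_mono ?_).trans (key.trans (le_of_eq ?_))
  · rintro ω ⟨hω, t, ht, hal, hS, ha⟩
    refine ⟨hω, t, ht, hal, ?_⟩
    have halσ : Alive (driving κ B ω) w (σ ω) := Alive.mono hal (σ ω).2 (by exact_mod_cast ht)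
    have e1 : Fop lam (-(bb κ / 2)) (stP κ B w (σ ω) ω) =
        Real.exp (lam * ath (driving κ B ω) (σ ω) w) * sfl (driving κ B ω) (σ ω) w ^ (bb κ / 2) :=
      Fop_state halσ _ _
    have e2 : Fop lam (-(bb κ / 2)) (stP κ B w t ω) =
        Real.exp (lam * ath (driving κ B ω) t w) * sfl (driving κ B ω) t w ^ (bb κ / 2) :=
      Fop_state hal _ _
    rw [e1, e2]
    have h3 : sfl (driving κ B ω) (σ ω) w ^ (bb κ / 2) ≤ 1 :=
      Real.rpow_le_one (sfl_pos halσ).le (sfl_le_one halσ) (by positivity)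
    have h4 : c₀ ^ (bb κ / 2) ≤ sfl (driving κ B ω) t w ^ (bb κ / 2) :=
      Real.rpow_le_rpow hc₀.le hS (by positivity)
    have h5 : Real.exp (lam * a) * Real.exp (lam * ath (driving κ B ω) (σ ω) w) ≤
        Real.exp (lam * ath (driving κ B ω) t w) := by
      rw [← Real.exp_add, Real.exp_le_exp]
      nlinarith
    calc Real.exp (lam * a) * c₀ ^ (bb κ / 2) * (Real.exp (lam * ath (driving κ B ω) (σ ω) w) *
          sfl (driving κ B ω) (σ ω) w ^ (bb κ / 2))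
        = (Real.exp (lam * a) * Real.exp (lam * ath (driving κ B ω) (σ ω) w)) *
          (c₀ ^ (bb κ / 2) * sfl (driving κ B ω) (σ ω) w ^ (bb κ / 2)) := by ring
      _ ≤ Real.exp (lam * ath (driving κ B ω) t w) *
          (sfl (driving κ B ω) t w ^ (bb κ / 2) * 1) := by
          have h6 := (sfl_pos halσ).le
          have h7 : 0 ≤ sfl (driving κ B ω) t w ^ (bb κ / 2) :=
            Real.rpow_nonneg (sfl_pos hal).le _
          gcongr
      _ = _ := by ring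
  · congr 2
    rw [Real.rpow_neg hc₀.le, neg_mul, Real.exp_neg]
    have : 0 < c₀ ^ (bb κ / 2) := by positivity
    field_simp

/-! ### OP2 -/

/-- OP2 upwards: `‖Z‖` grows by `e^b` within `K`-time `a`. -/
theorem op2_up (hM : OPM.{u}) [IsProbabilityMeasure P] (hB : IsBM Fl B P) (hκ : 0 < κ)
    (hw : 0 < w.im) (h1 : OneP Fl (AliveP κ B w) (stP κ B w)) {σ : Ω → ℝ≥0} (hσ : IsST Fl σ)
    {A : Set Ω} (hA : EvST Fl σ A) (a b : ℝ) :
    P (A ∩ {ω | ∃ t : ℝ≥0, σ ω ≤ t ∧ AliveP κ B w t ω ∧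
      ath (driving κ B ω) t w - ath (driving κ B ω) (σ ω) w ≤ a ∧
      Real.exp b * ‖Zfl (driving κ B ω) (σ ω) w‖ ≤ ‖Zfl (driving κ B ω) t w‖}) ≤
      ENNReal.ofReal (Real.exp 1 * Real.exp ((κ + 6) * a - b)) * P A := by
  have hcond : ∀ s : ℝ, 0 ≤ s → s ≤ 1 → (1 : ℝ) * (κ / 2) * ((1 - s) + (bb κ + 1) * s) +
      (-(κ + 8)) ≤ 0 := by
    intro s hs0 hs1
    have h2 : κ * bb κ = 8 - κ := by unfold bb; field_simp
    nlinarith [mul_nonneg hs0 hκ.le]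
  have key := cmi_Fop hM hB hκ hw h1 hcond hσ hA (M := Real.exp (b - (κ + 6) * a)) (by positivity)
  refine (measure_mono ?_).trans (key.trans (le_of_eq ?_))
  · rintro ω ⟨hω, t, ht, hal, ha, hZ⟩
    refine ⟨hω, t, ht, hal, ?_⟩
    have hW : Continuous (driving κ B ω) :=
      continuous_const.mul ((hB.cont ω).comp continuous_real_toNNReal)
    have halσ : Alive (driving κ B ω) w (σ ω) := Alive.mono hal (σ ω).2 (by exact_mod_cast ht)
    have e0 : ∀ s : ℝ≥0, Alive (driving κ B ω) w s → Fop (-(κ + 8)) 1 (stP κ B w s ω) =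
        Real.exp (-(κ + 6) * ath (driving κ B ω) s w) * ‖Zfl (driving κ B ω) s w‖ / w.im := by
      intro s hs
      have := Fop_state hs (-(κ + 8)) (-1)
      rw [neg_neg] at this
      rw [show stP κ B w s ω = stW (driving κ B ω) s w from rfl, this, norm_eq hW hs,
        Real.rpow_neg_one]
      have h5 := (sfl_pos hs).ne'
      field_simp
      rw [← Real.exp_add]
      congr 1; ring
    rw [e0 _ halσ, e0 _ hal]
    have h5 : Real.exp (b - (κ + 6) * a) * Real.exp (-(κ + 6) * ath (driving κ B ω) (σ ω) w) ≤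
        Real.exp (-(κ + 6) * ath (driving κ B ω) t w) * Real.exp b := by
      rw [← Real.exp_add, ← Real.exp_add, Real.exp_le_exp]
      nlinarith
    calc Real.exp (b - (κ + 6) * a) * (Real.exp (-(κ + 6) * ath (driving κ B ω) (σ ω) w) *
          ‖Zfl (driving κ B ω) (σ ω) w‖ / w.im)
        = (Real.exp (b - (κ + 6) * a) * Real.exp (-(κ + 6) * ath (driving κ B ω) (σ ω) w)) *
          ‖Zfl (driving κ B ω) (σ ω) w‖ / w.im := by ring
      _ ≤ (Real.exp (-(κ + 6) * ath (driving κ B ω) t w) * Real.exp b) *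
          ‖Zfl (driving κ B ω) (σ ω) w‖ / w.im := by gcongr
      _ = Real.exp (-(κ + 6) * ath (driving κ B ω) t w) * (Real.exp b *
          ‖Zfl (driving κ B ω) (σ ω) w‖) / w.im := by ring
      _ ≤ _ := by gcongr
  · congr 2
    rw [← Real.exp_sub, ← Real.exp_add]
    congr 1; ring

/-- OP2 downwards: `‖Z‖` decreases by `e^{-b}` within `K`-time `a`. -/
theorem op2_down (hM : OPM.{u}) [IsProbabilityMeasure P] (hB : IsBM Fl B P) (hκ : 0 < κ)
    (hw : 0 < w.im) (h1 : OneP Fl (AliveP κ B w) (stP κ B w)) {σ : Ω → ℝ≥0} (hσ : IsST Fl σ)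
    {A : Set Ω} (hA : EvST Fl σ A) (a b : ℝ) :
    P (A ∩ {ω | ∃ t : ℝ≥0, σ ω ≤ t ∧ AliveP κ B w t ω ∧
      ath (driving κ B ω) t w - ath (driving κ B ω) (σ ω) w ≤ a ∧
      ‖Zfl (driving κ B ω) t w‖ ≤ Real.exp (-b) * ‖Zfl (driving κ B ω) (σ ω) w‖}) ≤
      ENNReal.ofReal (Real.exp 1 * Real.exp ((κ + 6) * a - b)) * P A := by
  have hcond : ∀ s : ℝ, 0 ≤ s → s ≤ 1 → (-1 : ℝ) * (κ / 2) * ((1 - s) + (bb κ + -1) * s) +
      (-(κ + 4)) ≤ 0 := by
    intro s hs0 hs1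
    have h2 : κ * bb κ = 8 - κ := by unfold bb; field_simp
    nlinarith [mul_nonneg hs0 hκ.le]
  have key := cmi_Fop hM hB hκ hw h1 hcond hσ hA (M := Real.exp (b - (κ + 6) * a)) (by positivity)
  refine (measure_mono ?_).trans (key.trans (le_of_eq ?_))
  · rintro ω ⟨hω, t, ht, hal, ha, hZ⟩
    refine ⟨hω, t, ht, hal, ?_⟩
    have hW : Continuous (driving κ B ω) :=
      continuous_const.mul ((hB.cont ω).comp continuous_real_toNNReal)
    have halσ : Alive (driving κ B ω) w (σ ω) := Alive.mono hal (σ ω).2 (by exact_mod_cast ht)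
    have e0 : ∀ s : ℝ≥0, Alive (driving κ B ω) w s → Fop (-(κ + 4)) (-1) (stP κ B w s ω) =
        Real.exp (-(κ + 6) * ath (driving κ B ω) s w) * w.im / ‖Zfl (driving κ B ω) s w‖ := by
      intro s hs
      have := Fop_state hs (-(κ + 4)) 1
      rw [show stP κ B w s ω = stW (driving κ B ω) s w from rfl, this, norm_eq hW hs,
        Real.rpow_one]
      have h5 := (sfl_pos hs).ne'
      have h6 := hw.ne'
      field_simp
      rw [← Real.exp_add]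
      congr 1; ring
    rw [e0 _ halσ, e0 _ hal]
    have hn1 : 0 < ‖Zfl (driving κ B ω) (σ ω) w‖ := norm_pos_iff.2 (Zfl_ne_zero halσ)
    have hn2 : 0 < ‖Zfl (driving κ B ω) t w‖ := norm_pos_iff.2 (Zfl_ne_zero hal)
    have h5 : Real.exp (b - (κ + 6) * a) * Real.exp (-(κ + 6) * ath (driving κ B ω) (σ ω) w) *
        Real.exp (-b) ≤ Real.exp (-(κ + 6) * ath (driving κ B ω) t w) := by
      rw [← Real.exp_add, ← Real.exp_add, Real.exp_le_exp]
      nlinarith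
    rw [← mul_div_assoc, div_le_div_iff₀ hn1 hn2]
    calc Real.exp (b - (κ + 6) * a) * (Real.exp (-(κ + 6) * ath (driving κ B ω) (σ ω) w) * w.im) *
          ‖Zfl (driving κ B ω) t w‖
        ≤ Real.exp (b - (κ + 6) * a) * (Real.exp (-(κ + 6) * ath (driving κ B ω) (σ ω) w) * w.im) *
          (Real.exp (-b) * ‖Zfl (driving κ B ω) (σ ω) w‖) := by gcongr
      _ = (Real.exp (b - (κ + 6) * a) * Real.exp (-(κ + 6) * ath (driving κ B ω) (σ ω) w) *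
        Real.exp (-b)) * w.im * ‖Zfl (driving κ B ω) (σ ω) w‖ := by ring
      _ ≤ _ := by gcongr
  · congr 2
    rw [← Real.exp_sub, ← Real.exp_add]
    congr 1; ring

end Crest.Agent.R162.OP
end

-- ▼ part R162/OPd

/-! Row 162, node OP (helper149): OP1, OP2, OP3 for the Loewner flow driven by `√κ B`. -/

set_option autoImplicit false

open MeasureTheory ProbabilityTheory Set Filter Topology
open scoped NNReal ENNReal

namespace Crest.Agent.R162.OP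

open Crest.Agent.R162.OS Crest.Agent.R162.FL Crest.Agent.R162.GEN Crest.Agent.R162.OPGen
open Crest.ProbabilityR.Loewner

universe u

variable {Ω : Type u} {m : MeasurableSpace Ω} {P : Measure Ω} {Fl : Filtration ℝ≥0 m}
  {B : ℝ≥0 → Ω → ℝ} {κ : ℝ} {w : ℂ}

/-- the abstract one-point structure holds for the Loewner flow -/
theorem oneP (hB : IsBM Fl B P) : OneP Fl (AliveP κ B w) (stP κ B w) where
  al_mono := fun ω s t hst h => Alive.mono h s.2 (by exact_mod_cast hst)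
  cont := fun ω t h => by
    have h1 := OPTr.contOn_stW (W := driving κ B ω) (z := w) h (OPTr.driving_cont hB κ ω)
    have h2 : ContinuousOn (fun s : ℝ≥0 => (s : ℝ)) (Set.Iic t) :=
      NNReal.continuous_coe.continuousOn
    exact h1.comp h2 (fun s hs => ⟨s.2, by exact_mod_cast hs⟩)
  Y_pos := fun ω t h => Zfl_im_pos h
  exit := fun O δ hO hδ hOδ σ T hσ => by
    refine ⟨hit (stP κ B w) Oᶜ σ T, OPTr.hit_open_isST hB hδ hO (fun q hq => hOδ hq) hσ T,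
      fun ω => ⟨le_hit, hit_le_max⟩, fun ω _ hin => ?_⟩
    exact OPTr.hit_open_spec hB hδ hO (fun q hq => hOδ hq) σ T hin
  evState := fun S hS σ hσ => OPTr.evST_alive_mem hB hS hσ

theorem real_of_ennreal [IsFiniteMeasure P] {S A : Set Ω} {C : ℝ} (hC : 0 ≤ C)
    (h : P S ≤ ENNReal.ofReal C * P A) : P.real S ≤ C * P.real A := by
  have h1 := ENNReal.toReal_mono (ENNReal.mul_ne_top ENNReal.ofReal_ne_top (measure_ne_top _ _)) h
  rw [ENNReal.toReal_mul, ENNReal.toReal_ofReal hC] at h1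
  exact h1

/-- the exponent of OP1 -/
noncomputable def lam1 (κ : ℝ) : ℝ := κ * bb κ / 4 * min (bb κ / 2) 1

/-- the constant of OP1 -/
noncomputable def C1 (κ c₀ : ℝ) : ℝ := Real.exp 1 * c₀ ^ (-(bb κ / 2))

theorem bb_pos (hκ : 0 < κ) (hκ8 : κ < 8) : 0 < bb κ := by
  unfold bb
  have : 1 < 8 / κ := by rw [lt_div_iff₀ hκ]; linarith
  linarith

theorem lam1_pos (hκ : 0 < κ) (hκ8 : κ < 8) : 0 < lam1 κ := by
  have hb := bb_pos hκ hκ8
  have : 0 < min (bb κ / 2) 1 := lt_min (by positivity) one_pos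
  unfold lam1; positivity

theorem C1_pos {c₀ : ℝ} (hc₀ : 0 < c₀) : 0 < C1 κ c₀ := by unfold C1; positivity

section main

variable [IsProbabilityMeasure P]

/-- **OP1** -/
theorem OP1 (hM : OPM.{u}) (hB : IsBM Fl B P) (hκ : 0 < κ) (hκ8 : κ < 8)
    (hw : 0 < w.im) {σ : Ω → ℝ≥0} (hσ : IsST Fl σ)
    {A : Set Ω} (hA : EvST Fl σ A) {c₀ : ℝ} (hc₀ : 0 < c₀) (a : ℝ) :
    P.real {ω ∈ A | ∃ t : ℝ≥0, σ ω ≤ t ∧ AliveP κ B w t ω ∧ c₀ ≤ sfl (driving κ B ω) t w ∧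
      a ≤ ath (driving κ B ω) t w - ath (driving κ B ω) (σ ω) w} ≤
      C1 κ c₀ * Real.exp (-(lam1 κ * a)) * P.real A := by
  have h := op1 hM hB hκ hκ8 hw (oneP hB) hσ hA hc₀ a
  refine real_of_ennreal (by have := C1_pos (κ := κ) hc₀; positivity) (h.trans (le_of_eq ?_))
  unfold C1 lam1
  rw [neg_mul]

/-- **OP2** upwards -/
theorem OP2_up (hM : OPM.{u}) (hB : IsBM Fl B P) (hκ : 0 < κ)
    (hw : 0 < w.im) {σ : Ω → ℝ≥0} (hσ : IsST Fl σ)
    {A : Set Ω} (hA : EvST Fl σ A) (a b : ℝ) :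
    P.real {ω ∈ A | ∃ t : ℝ≥0, σ ω ≤ t ∧ AliveP κ B w t ω ∧
      ath (driving κ B ω) t w - ath (driving κ B ω) (σ ω) w ≤ a ∧
      Real.exp b * ‖Zfl (driving κ B ω) (σ ω) w‖ ≤ ‖Zfl (driving κ B ω) t w‖} ≤
      Real.exp 1 * Real.exp ((κ + 6) * a - b) * P.real A :=
  real_of_ennreal (by positivity) (op2_up hM hB hκ hw (oneP hB) hσ hA a b)

/-- **OP2** downwards -/
theorem OP2_down (hM : OPM.{u}) (hB : IsBM Fl B P) (hκ : 0 < κ)
    (hw : 0 < w.im) {σ : Ω → ℝ≥0} (hσ : IsST Fl σ)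
    {A : Set Ω} (hA : EvST Fl σ A) (a b : ℝ) :
    P.real {ω ∈ A | ∃ t : ℝ≥0, σ ω ≤ t ∧ AliveP κ B w t ω ∧
      ath (driving κ B ω) t w - ath (driving κ B ω) (σ ω) w ≤ a ∧
      ‖Zfl (driving κ B ω) t w‖ ≤ Real.exp (-b) * ‖Zfl (driving κ B ω) (σ ω) w‖} ≤
      Real.exp 1 * Real.exp ((κ + 6) * a - b) * P.real A :=
  real_of_ennreal (by positivity) (op2_down hM hB hκ hw (oneP hB) hσ hA a b)







end main

end Crest.Agent.R162.OP
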