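import Crest.Agent.R162.OPGen
import Crest.Agent.R162.GexGen
import Crest.Agent.R162.OPTr
import Crest.Agent.R162.FL1b
import Crest.Agent.R162.OPd
import Crest.Agent.R162.OPM
import Crest.Agent.R162.LB2br
import Crest.Agent.R162.LB2h
import Crest.Agent.R162.LB7bI
import Crest.Agent.R162.LBStepIn
import Mathlib
import Crest.Prelude.Def_Loewner
import Crest.Agent.R162.LB4
import Crest.Agent.R162.OPDefs
import Crest.Agent.R162.LBDefs
import Crest.Agent.R162.LB0D
import Crest.Agent.R162.LBSkel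
import Crest.Agent.R162.U3b
import Crest.Agent.R162.U3d
import Crest.Agent.R162.U3FF
import Crest.Agent.R162.LBStepIn2
import Crest.Agent.R162.FLE2
import Crest.Agent.R162.LBMeas
import Crest.Agent.R162.LBbc
import Crest.Agent.R162.LBMeas2
import Crest.Agent.R162.FLE
import Crest.Agent.R162.FLC3
import Crest.Agent.R162.FLB
import Crest.Agent.R162.LBST3
import Crest.Agent.R162.LBSTf
import Crest.Agent.R162.LBST2
import Crest.Agent.R162.LBNorm
import Crest.Agent.R162.LB6b
import Crest.Agent.R162.KB2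
import Crest.Agent.R162.LBInD
import Crest.Agent.R162.LB6c
import Crest.Agent.R162.LBExp
import Crest.Agent.R162.LBSkel2
import Crest.Agent.R162.LB0

-- ▼ part R162/OPf
section

/-! Row 162, node OP (helper149): OP1-OP4 in the exact forms used by the lower bound. -/

set_option autoImplicit false

open MeasureTheory ProbabilityTheory Set Filter Topology
open scoped NNReal ENNReal

namespace Crest.Agent.R162.OPf

open Crest.Agent.R162.OS Crest.Agent.R162.FL Crest.Agent.R162.OP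
open Crest.ProbabilityR.Loewner

universe u

variable {κ : ℝ}


theorem op1S (hκ : 0 < κ) (hκ8 : κ < 8) : LB2br.OP1S.{u} κ := by
  intro c0 hc0
  refine ⟨C1 κ c0, lam1 κ, C1_pos hc0, lam1_pos hκ hκ8, ?_⟩
  intro Ω m P _ Fl B hB w hw σ hσ A hA a _
  exact OP1 OPM.opm hB hκ hκ8 hw hσ hA hc0 a

theorem op2S (hκ : 0 < κ) : LB2br.OP2S.{u} κ := by
  refine ⟨Real.exp 1, κ + 6, Real.exp_pos 1, by linarith, ?_⟩
  intro Ω m P _ Fl B hB w hw σ hσ A hA a b _ _
  exact ⟨OP2_up OPM.opm hB hκ hw hσ hA a b, OP2_down OPM.opm hB hκ hw hσ hA a b⟩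

theorem hop3 (hκ : 0 < κ) (hκ8 : κ < 8) : LB2br.HOP3.{u} κ :=
  LB2br.hOP3_of (op1S hκ hκ8) (op2S hκ)

theorem op3K (hκ : 0 < κ) (hκ8 : κ < 8) : LB2h.OP3K.{u} κ := by
  obtain ⟨C, c', hC, hc', h⟩ := hop3.{u} hκ hκ8
  refine ⟨C, c', hC.le, hc', ?_⟩
  intro Ω m P _ F B hB z hz lam hlam
  exact h hB z hz lam hlam

theorem in2 (hκ : 0 < κ) (hκ8 : κ < 8) : LBStep.In2.{u} κ := LB2h.in2 (op3K hκ hκ8)

theorem inZ (hκ : 0 < κ) (hκ8 : κ < 8) : LBStep.InZ.{u} κ := LB2h.inZ (op3K hκ hκ8)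


end Crest.Agent.R162.OPf
end

-- ▼ part R162/LB4P
section

/-!
Row 162 (S0243), node LB4 (consumption), probabilistic half.
-/

set_option autoImplicit false

open Set MeasureTheory Metric
open scoped NNReal ENNReal

namespace Crest.Agent.R162.LB4

open Crest.Agent.R162 Crest.Agent.R162.FL Crest.Agent.R162.OP Crest.Agent.R162.OS
open Crest.ProbabilityR.Loewner

variable {Ω : Type*} {m : MeasurableSpace Ω}

/-- the driving function of a Brownian motion with continuous paths is continuous. -/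
theorem continuousOn_driving {Fl : Filtration ℝ≥0 m} {P : Measure Ω} {B : ℝ≥0 → Ω → ℝ}
    (hB : IsBM Fl B P) (κ : ℝ) (ω : Ω) : ContinuousOn (driving κ B ω) (Ici 0) := by
  have h : Continuous fun t : ℝ => B (Real.toNNReal t) ω :=
    (hB.cont ω).comp continuous_real_toNNReal
  exact (continuous_const.mul h).continuousOn




end Crest.Agent.R162.LB4
end

-- ▼ part R162/LB4S
section

/-!
Row 162 (S0243), node LB4 (consumption), in the frozen vocabulary `LBDefs` (helper888).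
-/

set_option autoImplicit false

open Set MeasureTheory Metric
open scoped NNReal ENNReal

namespace Crest.Agent.R162.LB4

open Crest.Agent.R162 Crest.Agent.R162.FL Crest.Agent.R162.OP Crest.Agent.R162.OS
open Crest.ProbabilityR.Loewner

variable {Ω : Type*} {m : MeasurableSpace Ω}


theorem rad_le_of {W : ℝ → ℝ} {t b : ℝ} (ht : 0 ≤ t) (h1 : Real.sqrt t ≤ b)
    (h2 : ∀ s ∈ Icc 0 t, |W s| ≤ b) : LB.rad W t ≤ b := by
  refine max_le h1 (csSup_le ⟨_, 0, ⟨le_rfl, ht⟩, rfl⟩ ?_)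
  rintro _ ⟨s, hs, rfl⟩
  exact h2 s hs

theorem Tube.pos {W : ℝ → ℝ} {z : ℂ} {t : ℝ} (h : Tube W z t) : 0 < t := by
  rcases h.alive.1.lt_or_eq with h1 | h1
  · exact h1
  · have h2 := h.fin
    rw [← h1, ath_zero] at h2
    norm_num at h2

/-- `ρ_{t1} ≤ 16 y` at the end of the tube. -/
theorem Tube.rad_le {W : ℝ → ℝ} (hW : ContinuousOn W (Ici 0)) {y t1 : ℝ}
    (h : Tube W (y * Complex.I) t1) : LB.rad W t1 ≤ 16 * y := by
  obtain ⟨h1, h2⟩ := h.rho_le hW
  exact rad_le_of h.alive.1 h1 h2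


theorem abs_u0_sub_le (p : LB.Par) (hp : p.Adm) (a b : ℂ) : |p.u0 a - p.u0 b| ≤ ‖a - b‖ := by
  have h := hp.lip.dist_le_mul a b
  rw [Real.dist_eq, dist_eq_norm] at h
  simpa using h

/-- **LB4, deterministic**: tube at `i y_x` finished before `T` ⟹ the area drops by
`3·10⁻⁴ θ² ϖ`. -/
theorem consume_par (p : LB.Par) (hp : p.Adm) {f : ℂ → ℂ} (hf : DifferentiableOn ℂ f KB1.Hs)
    (hfi : InjOn f KB1.Hs) (hθ : 0 < p.θ) (hθ1 : p.θ ≤ 1) (hη : 0 ≤ p.η) (hη1 : p.η ≤ 1)
    (hy : 0 < p.y f) (hv : LB.vv p.u0 f (p.y f) = p.θ) {W : ℝ → ℝ}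
    (hW : ContinuousOn W (Ici 0)) {t1 t : ℝ} (h1 : Tube W (p.y f * Complex.I) t1)
    (ht : t1 ≤ t) :
    p.A (LB.Par.st f W t) + ENNReal.ofReal (3e-4 * p.θ ^ 2 * p.varpi f) ≤ p.A f := by
  have hu := hp.one_le (f (p.y f * Complex.I))
  have heq : KB1.ups f (p.y f * Complex.I) = p.θ * p.u0 (f (p.y f * Complex.I)) := by
    have h1 : KB1.ups f (p.y f * Complex.I) / p.u0 (f (p.y f * Complex.I)) = p.θ := hv
    have h2 : 0 < p.u0 (f (p.y f * Complex.I)) := by linarith
    rwa [div_eq_iff h2.ne'] at h1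
  have him : 0 < ((p.y f : ℂ) * Complex.I).im := by simpa using hy
  exact consume hW hf hfi hp.one_le (abs_u0_sub_le p hp) hθ hθ1 hη hη1 him heq h1 ht

/-- area never increases. -/
theorem A_le (p : LB.Par) {f : ℂ → ℂ} (hf : DifferentiableOn ℂ f KB1.Hs) {W : ℝ → ℝ}
    (hW : ContinuousOn W (Ici 0)) {t : ℝ} (ht : 0 ≤ t) : p.A (LB.Par.st f W t) ≤ p.A f :=
  area_mono hW ht hf



end Crest.Agent.R162.LB4
end

-- ▼ part R162/LB4Z
section

/-!
Row 162 (S0243), node LB4 (consumption): the final form `LBS.LB4S` of helper310's skeleton.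
-/

set_option autoImplicit false

open Set MeasureTheory Metric Filter Topology
open scoped NNReal ENNReal

namespace Crest.Agent.R162.LB4

open Crest.Agent.R162 Crest.Agent.R162.FL Crest.Agent.R162.OP Crest.Agent.R162.OS
open Crest.ProbabilityR.Loewner

universe u

variable {p : LB.Par} {f : ℂ → ℂ}

/-- `v → 1 > θ` gives a level with `v ≥ θ`. -/
theorem exists_vv (hv : Tendsto (LB.vv p.u0 f) atTop (𝓝 1)) (hθ : p.θ < 1) :
    ∃ y : ℝ, 0 < y ∧ p.θ ≤ LB.vv p.u0 f y := by
  obtain ⟨y, h1, h2⟩ :=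
    ((hv.eventually (lt_mem_nhds hθ)).and (eventually_gt_atTop (0 : ℝ))).exists
  exact ⟨y, h2, h1.le⟩

/-- `y_x > 0`. -/
theorem y_pos (hp : p.Adm) (hf : DifferentiableOn ℂ f KB1.Hs) (hfi : InjOn f KB1.Hs)
    (hv : Tendsto (LB.vv p.u0 f) atTop (𝓝 1)) (hJ : ∀ y, LB.Jv p.u0 p.q f y ≠ ⊤)
    (hq : 0 < p.q) (hθ : 0 < p.θ) (hθ1 : p.θ < 1) (hK3 : 0 < p.K3) : 0 < p.y f := by
  obtain ⟨y, hy, hvy⟩ := exists_vv hv hθ1
  exact LB0.yx_pos hf hfi hp.lip hp.one_le hq hθ hθ1.le hK3 ⟨1, one_pos, (hJ 1).lt_top⟩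
    ⟨y, hy, Or.inl hvy⟩

/-- `v(y_x) = θ` in case A. -/
theorem vv_y_eq (hp : p.Adm) (hf : DifferentiableOn ℂ f KB1.Hs) (hy : 0 < p.y f)
    (hA : p.CaseA f) : LB.vv p.u0 f (p.y f) = p.θ :=
  le_antisymm (LB0.vv_yx_le hf hp.lip hp.one_le hy) hA

/-- **deterministic LB4 at the end of the step**: tube at `i y_x` and the step ends by `T₁`. -/
theorem drop_at_T (hp : p.Adm) (hf : DifferentiableOn ℂ f KB1.Hs) (hfi : InjOn f KB1.Hs)
    (hy : 0 < p.y f) (hA : p.CaseA f) (hθ : 0 < p.θ) (hθ1 : p.θ ≤ 1) (hη : 0 ≤ p.η)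
    (hη1 : p.η ≤ 1) (hK4 : 16 < p.K4) {W : ℝ → ℝ} (hW : ContinuousOn W (Ici 0)) {t : ℝ}
    (h : Tube W (p.y f * Complex.I) t) (hT : LB.rad W (p.T f W) = p.rho1 f) :
    p.A (LB.Par.st f W (p.T f W)) + ENNReal.ofReal (3e-4 * p.θ ^ 2 * p.varpi f) ≤ p.A f := by
  have ht : t ≤ p.T f W := by
    by_contra hcon
    push Not at hcon
    have h1 := LB.rad_mono hW (LB.T_nonneg p f W) hcon.le
    have h2 := h.rad_le hW
    rw [hT, LB.Par.rho1, if_pos hA] at h1
    nlinarith
  exact consume_par p hp hf hfi hθ hθ1 hη hη1 hy (vv_y_eq hp hf hy hA) hW h ht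



/-- the measurable tube event (input from the node LB4T). -/
def TubeSet (κ pr : ℝ) : Prop :=
  ∀ (Ω : Type u) [MeasurableSpace Ω] (P : Measure Ω) [IsProbabilityMeasure P]
    (F : Filtration ℝ≥0 (inferInstance : MeasurableSpace Ω)) (B : ℝ≥0 → Ω → ℝ)
    (_ : IsBM F B P) (y : ℝ), 0 < y → ∃ E : Set Ω, MeasurableSet E ∧
      E ⊆ {ω | ∃ t : ℝ, Tube (driving κ B ω) (y * Complex.I) t} ∧ ENNReal.ofReal pr ≤ P E

/-- `LB4S` with a MEASURABLE event (remark (M2) of helper301). -/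
def LB4M (p0 cθ : ℝ) (p : LB.Par) : Prop :=
  LBS.ForBM.{u} p fun f _ _ P B => p.CaseA f → ∃ E, MeasurableSet E ∧ ENNReal.ofReal p0 ≤ P E ∧
    ∀ ω ∈ E, LB.rad (driving p.κ B ω) (p.T f (driving p.κ B ω)) = p.rho1 f →
      p.A (LB.Par.st f (driving p.κ B ω) (p.T f (driving p.κ B ω))) +
        ENNReal.ofReal (cθ * p.varpi f) ≤ p.A f

/-- **LB4 with a measurable event.** -/
theorem lb4M_of {pr : ℝ} (ok : LBS.Ok p) (hK4 : 16 < p.K4) (hE : TubeSet.{u} p.κ pr) :
    LB4M.{u} pr (3e-4 * p.θ ^ 2) p := by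
  intro Ω _ P _ F B hB f hs hA
  have hq1 := ok.qη
  have hq0 := ok.q0
  have hη0 := ok.η0
  have hθ1 := ok.θ1
  have hf : DifferentiableOn ℂ f KB1.Hs := hs.univ.diff
  have hfi : InjOn f KB1.Hs := hs.univ.inj
  have hy : 0 < p.y f := y_pos ok.adm hf hfi hs.v_tendsto hs.J_ne_top ok.q0 ok.θ0 (by linarith)
    (by linarith [ok.K3])
  obtain ⟨E, hEm, hEs, hEp⟩ := hE Ω P F B hB (p.y f) hy
  refine ⟨E, hEm, hEp, ?_⟩
  intro ω hω hT
  obtain ⟨t, ht⟩ := hEs hω
  exact drop_at_T ok.adm hf hfi hy hA ok.θ0 (by linarith) ok.η0.le (by linarith) hK4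
    (continuousOn_driving hB p.κ ω) ht hT


theorem clause4M {κ c1 q η cs K4 K3 pr : ℝ} (hK4 : 16 < K4) (hE : TubeSet.{u} κ pr) :
    ∃ θ₀ > 0, ∀ θ, 0 < θ → θ ≤ θ₀ → ∃ cθ > 0, ∃ ε₀ > 0, ∀ ε, 0 < ε → ε ≤ ε₀ → ∀ B u0,
        LBS.Ok (LBS.mkP κ c1 q η cs K4 K3 θ ε B u0) →
        LB4M.{u} pr cθ (LBS.mkP κ c1 q η cs K4 K3 θ ε B u0) :=
  ⟨1, one_pos, fun θ hθ _ => ⟨3e-4 * θ ^ 2, by positivity, 1, one_pos, fun ε _ _ B u0 ok =>
    lb4M_of ok hK4 hE⟩⟩

end Crest.Agent.R162.LB4
end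

-- ▼ part R162/LB4T
section

/-!
Row 162 (S0243), node LB4: probability of the tube event (OP4 with `σ = 0`, `a = 4`, `ψ = 0`),
from helper641's linear piece `U3.piece`.
-/

set_option autoImplicit false

open MeasureTheory ProbabilityTheory Set
open scoped NNReal ENNReal Topology
open Crest.ProbabilityR.Loewner
open Crest.Agent.R162.FL Crest.Agent.R162.OP Crest.Agent.R162.OS

namespace Crest.Agent.R162.LB4

universe u

/-- the tube probability -/
noncomputable def pT (κ : ℝ) : ℝ := Real.exp (-(4 * U3.lam κ 1))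

theorem pT_pos (κ : ℝ) : 0 < pT κ := Real.exp_pos _

theorem pT_le_one {κ : ℝ} (hκ : 0 < κ) : pT κ ≤ 1 := by
  unfold pT
  apply Real.exp_le_one_iff.2
  have := U3.lam_pos hκ (one_pos)
  linarith

variable {Ω : Type u} {m : MeasurableSpace Ω} {P : Measure Ω} {Fl : Filtration ℝ≥0 m}
  {B : ℝ≥0 → Ω → ℝ} {κ : ℝ}

/-- **OP4 with `σ = 0`, `a = 4`**: the tube of a point on the imaginary axis has probability
at least `pT κ`. -/
theorem tube_set (hM : OPM.{u}) (hD : U3.DStmt) [IsProbabilityMeasure P] (hB : IsBM Fl B P)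
    (hκ : 0 < κ) (hκ8 : κ < 8) {y : ℝ} (hy : 0 < y)
    (h1 : U3.E1 Fl B κ (y * Complex.I)) (h3 : U3.E3 Fl B κ (y * Complex.I)) :
    ∃ A : Set Ω, MeasurableSet A ∧ A ⊆ {ω | ∃ t, Tube (driving κ B ω) (y * Complex.I) t} ∧
      ENNReal.ofReal (pT κ) ≤ P A := by
  have him : 0 < ((y : ℂ) * Complex.I).im := by simpa using hy
  have hst0 : ∀ ω, stP κ B (y * Complex.I) 0 ω = (0, y, Real.log y, 0) := by
    intro ω
    have hW := U3.continuousOn_driving (κ := κ) hB ω
    have h0 : gfl (driving κ B ω) 0 (y * Complex.I) = y * Complex.I :=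
      FLC.gfl_zero_of_im_pos hW (alive_zero him)
    have hd0 : driving κ B ω 0 = 0 := by
      unfold driving
      rw [Real.toNNReal_zero, hB.zero ω, mul_zero]
    have hu : OP.ups (driving κ B ω) 0 (y * Complex.I) = y := by
      rw [ups_zero hW him]; simp
    unfold stP stW Zfl
    rw [NNReal.coe_zero, h0, hd0, hu, ath_zero]
    simp
  have hxq : OP.xq ((0 : ℝ), y, Real.log y, (0 : ℝ)) = 0 := by
    unfold OP.xq; simp
  have hσ : IsST Fl (fun _ : Ω => (0 : ℝ≥0)) := by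
    intro t
    have : {ω : Ω | (0 : ℝ≥0) ≤ t} = Set.univ := by ext; simp
    rw [this]; exact MeasurableSet.univ
  have hA : EvST Fl (fun _ : Ω => (0 : ℝ≥0)) Set.univ := by
    intro t
    have : Set.univ ∩ {ω : Ω | (0 : ℝ≥0) ≤ t} = Set.univ := by ext; simp
    rw [this]; exact MeasurableSet.univ
  obtain ⟨τ, A', T1, hP⟩ := U3.piece (w := y * Complex.I) (r2 := 1) (c := 0) (s := 0) (b' := 4)
    hM hD hB hκ hκ8 him h1 h3 one_pos le_rfl (by simp) (by norm_num) hσ (T0 := 0)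
    (fun _ => le_rfl) hA (by
      intro ω _
      refine ⟨?_, ?_, ?_⟩
      · exact alive_zero him
      · rw [hst0 ω, hxq]; norm_num
      · rw [hst0 ω]; norm_num)
  have hsub : A' ⊆ {ω | ∃ t, Tube (driving κ B ω) (y * Complex.I) t} := by
    intro ω hω
    refine ⟨(τ ω : ℝ), ?_, ?_, ?_⟩
    · exact (hP.path ω hω (τ ω) (hP.le ω) le_rfl).1
    · exact (hP.fin ω hω).1
    · intro s hs
      have h4 := (hP.path ω hω ⟨s, hs.1⟩ (by exact_mod_cast hs.1) (by exact_mod_cast hs.2)).2.1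
      have h5 : (OP.xq (stP κ B (y * Complex.I) ⟨s, hs.1⟩ ω)) ^ 2 ≤ 1 := by
        simpa using h4
      have h6 := (sq_le_one_iff_abs_le_one _).1 h5
      exact h6
  have hAm : MeasurableSet A' := U3.measurableSet_of_evST (fun ω => hP.leT ω) hP.ev
  have hl := U3.lam_pos hκ (one_pos)
  have hleft : ∫ ω in (Set.univ : Set Ω), U3.ft 1 (U3.lam κ 1) 0 0
      (stP κ B (y * Complex.I) 0 ω) ∂P = 1 := by
    have : ∀ ω, U3.ft 1 (U3.lam κ 1) 0 0 (stP κ B (y * Complex.I) 0 ω) = 1 := by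
      intro ω
      rw [hst0 ω]
      unfold U3.ft
      rw [hxq]; norm_num
    simp [this]
  have hright : ∫ ω in A', U3.ft 1 (U3.lam κ 1) 0 0 (stP κ B (y * Complex.I) (τ ω) ω) ∂P ≤
      Real.exp (4 * U3.lam κ 1) * P.real A' := by
    have hb : ∀ ω ∈ A', U3.ft 1 (U3.lam κ 1) 0 0 (stP κ B (y * Complex.I) (τ ω) ω) ≤
        Real.exp (4 * U3.lam κ 1) := by
      intro ω hω
      obtain ⟨h4, h5⟩ := hP.fin ω hω
      unfold U3.ft
      rw [h4]
      have h6 : (1 - (OP.xq (stP κ B (y * Complex.I) (τ ω) ω) - (0 + 0 * 4)) ^ 2) ^ 2 ≤ 1 := by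
        have h7 : 0 ≤ (OP.xq (stP κ B (y * Complex.I) (τ ω) ω) - (0 + 0 * 4)) ^ 2 := sq_nonneg _
        nlinarith
      calc Real.exp (U3.lam κ 1 * 4) *
            (1 - (OP.xq (stP κ B (y * Complex.I) (τ ω) ω) - (0 + 0 * 4)) ^ 2) ^ 2
          ≤ Real.exp (U3.lam κ 1 * 4) * 1 := by gcongr
        _ = Real.exp (4 * U3.lam κ 1) := by rw [mul_one, mul_comm]
    have h8 : ∫ ω in A', U3.ft 1 (U3.lam κ 1) 0 0 (stP κ B (y * Complex.I) (τ ω) ω) ∂P ≤
        ∫ ω in A', Real.exp (4 * U3.lam κ 1) ∂P := by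
      by_cases hi : IntegrableOn (fun ω => U3.ft 1 (U3.lam κ 1) 0 0
          (stP κ B (y * Complex.I) (τ ω) ω)) A' P
      · exact setIntegral_mono_on hi (integrableOn_const (by finiteness)) hAm hb
      · rw [integral_undef hi]
        exact integral_nonneg fun ω => (Real.exp_pos _).le
    rw [setIntegral_const, smul_eq_mul, mul_comm (P.real A')] at h8
    exact h8
  have hineq := hP.ineq
  rw [hleft] at hineq
  have hreal : pT κ ≤ P.real A' := by
    have h9 : 1 ≤ Real.exp (4 * U3.lam κ 1) * P.real A' := hineq.trans hright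
    unfold pT
    rw [Real.exp_neg]
    rw [inv_le_iff_one_le_mul₀ (Real.exp_pos _)]
    linarith [mul_comm (Real.exp (4 * U3.lam κ 1)) (P.real A')]
  refine ⟨A', hAm, hsub, ?_⟩
  calc ENNReal.ofReal (pT κ) ≤ ENNReal.ofReal (P.real A') := ENNReal.ofReal_le_ofReal hreal
    _ = P A' := by rw [Measure.real, ENNReal.ofReal_toReal (measure_ne_top P A')]


end Crest.Agent.R162.LB4
end

-- ▼ part R162/LB4U
section

/-!
Row 162 (S0243), node LB4: the tube probability, unconditional form.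
-/

set_option autoImplicit false

open MeasureTheory ProbabilityTheory Set
open scoped NNReal ENNReal Topology
open Crest.ProbabilityR.Loewner
open Crest.Agent.R162.FL Crest.Agent.R162.OP Crest.Agent.R162.OS

namespace Crest.Agent.R162.LB4

universe u

variable {Ω : Type u} {m : MeasurableSpace Ω} {P : Measure Ω} {Fl : Filtration ℝ≥0 m}
  {B : ℝ≥0 → Ω → ℝ} {κ : ℝ}

/-- the tube of a point on the imaginary axis contains a measurable event of probability
at least `pT κ`. -/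
theorem tubeU [IsProbabilityMeasure P] (hB : IsBM Fl B P) (hκ : 0 < κ) (hκ8 : κ < 8) {y : ℝ}
    (hy : 0 < y) :
    ∃ A : Set Ω, MeasurableSet A ∧ A ⊆ {ω | ∃ t, Tube (driving κ B ω) (y * Complex.I) t} ∧
      ENNReal.ofReal (pT κ) ≤ P A :=
  tube_set OPM.opm U3.flowFacts hB hκ hκ8 hy (U3.e1 hB) (U3.e3 hB)


end Crest.Agent.R162.LB4
end

-- ▼ part R162/LB4V
section

/-!
Row 162 (S0243), node LB4: `TubeSet κ (pT κ)` and `In4 κ`, for `0 < κ < 8`.
-/

set_option autoImplicit false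

open MeasureTheory ProbabilityTheory Set
open scoped NNReal ENNReal Topology
open Crest.ProbabilityR.Loewner
open Crest.Agent.R162.FL Crest.Agent.R162.OP Crest.Agent.R162.OS

namespace Crest.Agent.R162.LB4

universe u

/-- `TubeSet` (frozen by helper771) with `p = pT κ`. -/
theorem tubeSet {κ : ℝ} (hκ : 0 < κ) (hκ8 : κ < 8) : TubeSet.{u} κ (pT κ) := by
  intro Ω _ P _ F B hB y hy
  exact tubeU hB hκ hκ8 hy


end Crest.Agent.R162.LB4
end

-- ▼ part R162/LB4W
section

/-!
Row 162 (S0243), node LB4W (helper263): wiring of LB4 (consumption, case A) into the frozen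
vocabulary `LBDefs` / `LBStepIn`: the tube event is measurable, the event `E` of
`LBI.step_det.hAB` (case A).
-/

set_option autoImplicit false

open Set MeasureTheory Filter Topology
open scoped NNReal ENNReal

namespace Crest.Agent.R162.LB4W

universe u

open Crest.Agent.R162 Crest.Agent.R162.FL Crest.Agent.R162.OP Crest.Agent.R162.OS
open Crest.ProbabilityR.Loewner

/-! ### measurability of the tube event -/




section brownian

variable {Ω : Type*} {m : MeasurableSpace Ω} {F : Filtration ℝ≥0 m} {P : Measure Ω}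
  {B : ℝ≥0 → Ω → ℝ}


end brownian

/-! ### the event of case A -/








/-! ### the frozen forms of `LBStepIn2` -/

section frozen

open Crest.Agent.R162.LBS





/-- `AmonoS` of `LBStepIn2` -/
theorem amonoS (p : LB.Par) : LBStep.AmonoS p := fun _ hs _ hW =>
  LB4.A_le p hs.univ.diff hW.cont (LB.T_nonneg p _ _)




theorem clauseA {κ c1 q η cs K4 K3 : ℝ} : ForSmall κ c1 q η cs K4 K3 LBStep.AmonoS :=
  ⟨1, one_pos, fun _ _ _ => ⟨1, one_pos, fun _ _ _ _ _ _ => amonoS _⟩⟩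


end frozen

end Crest.Agent.R162.LB4W
end

-- ▼ part R162/LBMx
section

/-!
Row 162 (S0243), node LB-MEAS / LB-ST (helper319): measurability of `y_x`, `x`, `u₀(x)`, `ϖ`,
case A and `ρ₁` along a measurable family `F : α → ℂ → ℂ` of state maps (`LBM.MFam`).
-/

set_option autoImplicit false

open Set MeasureTheory Filter Topology
open scoped NNReal ENNReal

namespace Crest.Agent.R162.LBMx

open Crest.Agent.R162.FL Crest.Agent.R162.FLC Crest.Agent.R162.LB Crest.Agent.R162.LBM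

variable {α : Type*} [MeasurableSpace α]

/-! ### an infimum over a closed condition -/

/-- `∃ y ∈ [b,c], θ ≤ v(y)` is measurable for `v` continuous in `y` -/
lemma measurableSet_exists_Icc {v : α → ℝ → ℝ} {θ b c : ℝ}
    (hv : ∀ y ∈ Icc b c, Measurable (fun a => v a y)) (hvc : ∀ a, ContinuousOn (v a) (Icc b c)) :
    MeasurableSet {a | ∃ y ∈ Icc b c, θ ≤ v a y} := by
  rcases (Icc b c).eq_empty_or_nonempty with he | hne
  · have : {a | ∃ y ∈ Icc b c, θ ≤ v a y} = ∅ := by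
      ext a
      simp [he]
    rw [this]
    exact MeasurableSet.empty
  have : Nonempty (Icc b c) := hne.to_subtype
  set d : ℕ → Icc b c := TopologicalSpace.denseSeq (Icc b c) with hd
  have hdense : DenseRange d := TopologicalSpace.denseRange_denseSeq _
  have e : {a | ∃ y ∈ Icc b c, θ ≤ v a y} =
      ⋂ k : ℕ, ⋃ n : ℕ, {a | θ - 1 / ((k : ℝ) + 1) < v a (d n)} := by
    ext a
    simp only [mem_iInter, mem_iUnion, mem_ofPred_eq]
    have hc : Continuous (fun y : Icc b c => v a y) := (hvc a).domRestrict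
    constructor
    · rintro ⟨y, hy, hy2⟩ k
      have ho : IsOpen {z : Icc b c | θ - 1 / ((k : ℝ) + 1) < v a z} := isOpen_lt continuous_const hc
      have hk : (0:ℝ) < 1 / ((k : ℝ) + 1) := by positivity
      obtain ⟨n, hn⟩ := hdense.exists_mem_open ho ⟨⟨y, hy⟩, by
        simp only [mem_ofPred_eq]; linarith⟩
      exact ⟨n, hn⟩
    · intro h
      obtain ⟨y0, hy0, hmax⟩ := isCompact_Icc.exists_isMaxOn hne (hvc a)
      refine ⟨y0, hy0, ?_⟩
      refine le_of_forall_pos_lt_add fun ε hε => ?_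
      obtain ⟨k, hk⟩ := exists_nat_one_div_lt hε
      obtain ⟨n, hn⟩ := h k
      have h2 : v a (d n) ≤ v a y0 := hmax (d n).2
      linarith
  rw [e]
  refine MeasurableSet.iInter fun k => MeasurableSet.iUnion fun n => ?_
  exact measurableSet_lt measurable_const (hv _ (d n).2)

/-- `inf {y > 0 : θ ≤ v(y) or K ≤ J(y)}` is measurable for `v` continuous, `J` monotone in `y` -/
theorem measurable_sInf_or {v : α → ℝ → ℝ} {J : α → ℝ → ℝ≥0∞} {θ : ℝ} {K : ℝ≥0∞}
    (hv : ∀ y, 0 < y → Measurable (fun a => v a y)) (hvc : ∀ a, ContinuousOn (v a) (Ioi 0))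
    (hJ : ∀ y, 0 < y → Measurable (fun a => J a y))
    (hJm : ∀ a y y', 0 < y → y ≤ y' → J a y ≤ J a y') :
    Measurable (fun a => sInf {y | 0 < y ∧ (θ ≤ v a y ∨ K ≤ J a y)}) := by
  have hE : ∀ c : ℝ, MeasurableSet {a | ∃ y, 0 < y ∧ y < c ∧ (θ ≤ v a y ∨ K ≤ J a y)} := by
    intro c
    rcases le_or_gt c 0 with hc | hc
    · have : {a | ∃ y, 0 < y ∧ y < c ∧ (θ ≤ v a y ∨ K ≤ J a y)} = ∅ := by
        ext a
        simp only [mem_ofPred_eq, mem_empty_iff_false, iff_false, not_exists]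
        intro y hy
        linarith [hy.1, hy.2.1]
      rw [this]
      exact MeasurableSet.empty
    have e : {a | ∃ y, 0 < y ∧ y < c ∧ (θ ≤ v a y ∨ K ≤ J a y)} =
        (⋃ n : ℕ, {a | ∃ y ∈ Icc (1 / ((n : ℝ) + 1)) (c - 1 / ((n : ℝ) + 1)), θ ≤ v a y}) ∪
        (⋃ n : ℕ, {a | K ≤ J a (c - c / ((n : ℝ) + 2))}) := by
      ext a
      simp only [mem_ofPred_eq, mem_union, mem_iUnion]
      constructor
      · rintro ⟨y, h1, h2, h3 | h3⟩
        · left
          obtain ⟨n, hn⟩ := exists_nat_one_div_lt (lt_min h1 (sub_pos.2 h2))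
          refine ⟨n, y, ⟨?_, ?_⟩, h3⟩
          · exact (hn.trans_le (min_le_left _ _)).le
          · have := hn.trans_le (min_le_right _ _)
            linarith
        · right
          have h4 : 0 < (c - y) / c := div_pos (sub_pos.2 h2) hc
          obtain ⟨n, hn⟩ := exists_nat_one_div_lt h4
          refine ⟨n, h3.trans (hJm a _ _ h1 ?_)⟩
          have h5 : (1:ℝ) / ((n : ℝ) + 2) ≤ 1 / ((n : ℝ) + 1) :=
            one_div_le_one_div_of_le (by positivity) (by linarith)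
          have h6 : 1 / ((n : ℝ) + 2) * c ≤ (c - y) / c * c :=
            mul_le_mul_of_nonneg_right (h5.trans hn.le) hc.le
          rw [div_mul_cancel₀ _ hc.ne'] at h6
          have h7 : c / ((n : ℝ) + 2) = 1 / ((n : ℝ) + 2) * c := by ring
          rw [h7]
          linarith
      · rintro (⟨n, y, h1, h2⟩ | ⟨n, hn⟩)
        · have h3 : (0:ℝ) < 1 / ((n : ℝ) + 1) := by positivity
          exact ⟨y, h3.trans_le h1.1, by linarith [h1.2], Or.inl h2⟩
        · have h3 : (0:ℝ) < c / ((n : ℝ) + 2) := by positivity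
          have h4 : c / ((n : ℝ) + 2) < c := by
            rw [div_lt_iff₀ (by positivity)]
            have : (0:ℝ) ≤ (n : ℝ) := Nat.cast_nonneg n
            nlinarith
          exact ⟨c - c / ((n : ℝ) + 2), by linarith, by linarith, Or.inr hn⟩
    rw [e]
    refine (MeasurableSet.iUnion fun n => ?_).union (MeasurableSet.iUnion fun n => ?_)
    · have h3 : (0:ℝ) < 1 / ((n : ℝ) + 1) := by positivity
      exact measurableSet_exists_Icc (fun y hy => hv y (h3.trans_le hy.1))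
        (fun a => (hvc a).mono fun y hy => h3.trans_le hy.1)
    · have h4 : c / ((n : ℝ) + 2) < c := by
        rw [div_lt_iff₀ (by positivity)]
        have : (0:ℝ) ≤ (n : ℝ) := Nat.cast_nonneg n
        nlinarith
      exact measurableSet_le measurable_const (hJ _ (by linarith))
  refine measurable_of_Iio fun c => ?_
  rcases le_or_gt c 0 with hc | hc
  · have : (fun a => sInf {y | 0 < y ∧ (θ ≤ v a y ∨ K ≤ J a y)}) ⁻¹' Iio c = ∅ := by
      ext a
      simp only [mem_preimage, mem_Iio, mem_empty_iff_false, iff_false, not_lt]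
      exact hc.trans (Real.sInf_nonneg fun y hy => hy.1.le)
    rw [this]
    exact MeasurableSet.empty
  have e : (fun a => sInf {y | 0 < y ∧ (θ ≤ v a y ∨ K ≤ J a y)}) ⁻¹' Iio c =
      {a | ∃ y, 0 < y ∧ y < c ∧ (θ ≤ v a y ∨ K ≤ J a y)} ∪
        ⋂ n : ℕ, {a | ∃ y, 0 < y ∧ y < (n : ℝ) ∧ (θ ≤ v a y ∨ K ≤ J a y)}ᶜ := by
    ext a
    simp only [mem_preimage, mem_Iio, mem_union, mem_ofPred_eq, mem_iInter, mem_compl_iff]
    have hbdd : BddBelow {y | 0 < y ∧ (θ ≤ v a y ∨ K ≤ J a y)} := ⟨0, fun y hy => hy.1.le⟩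
    constructor
    · intro h
      rcases Set.eq_empty_or_nonempty {y | 0 < y ∧ (θ ≤ v a y ∨ K ≤ J a y)} with h1 | h1
      · right
        rintro n ⟨y, hy1, -, hy2⟩
        have : y ∈ (∅ : Set ℝ) := h1 ▸ (⟨hy1, hy2⟩ : y ∈ {y | 0 < y ∧ (θ ≤ v a y ∨ K ≤ J a y)})
        exact this
      · left
        obtain ⟨y, hy, hyc⟩ := exists_lt_of_csInf_lt h1 h
        exact ⟨y, hy.1, hyc, hy.2⟩
    · rintro (⟨y, h1, h2, h3⟩ | h)
      · exact (csInf_le hbdd ⟨h1, h3⟩).trans_lt h2
      · have h1 : {y | 0 < y ∧ (θ ≤ v a y ∨ K ≤ J a y)} = ∅ := by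
          ext y
          simp only [mem_ofPred_eq, mem_empty_iff_false, iff_false]
          intro hy
          obtain ⟨n, hn⟩ := exists_nat_gt y
          exact h n ⟨y, hy.1, hn, hy.2⟩
        rw [h1, Real.sInf_empty]
        exact hc
  rw [e]
  exact (hE c).union (MeasurableSet.iInter fun n => (hE _).compl)

/-! ### the state functionals -/

variable {F : α → ℂ → ℂ} {u0 : ℂ → ℝ}

lemma mI_im (y : ℝ) : ((y : ℂ) * Complex.I).im = y := by simp

lemma measurable_mI : Measurable (fun y : ℝ => (y : ℂ) * Complex.I) := by fun_prop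

/-- `vv` at a measurable positive height -/
lemma measurable_vv_at (hF : MFam F) (hu : Measurable u0) {y : α → ℝ} (hy : Measurable y)
    (h0 : ∀ a, 0 < y a) : Measurable (fun a => vv u0 (F a) (y a)) := by
  have hζ : Measurable (fun a => ((y a : ℂ) * Complex.I)) := measurable_mI.comp hy
  have h1 : ∀ a, 0 < ((y a : ℂ) * Complex.I).im := fun a => by rw [mI_im]; exact h0 a
  have h2 := hF.deriv_at hζ h1
  have h3 := hF.at hζ h1
  unfold vv KB1.ups
  exact ((Complex.measurable_im.comp hζ).mul h2.norm).div (hu.comp h3)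

lemma vv_zero (f : ℂ → ℂ) : vv u0 f 0 = 0 := by
  unfold vv KB1.ups
  simp

/-- `vv` at a measurable nonnegative height -/
lemma measurable_vv_at' (hF : MFam F) (hu : Measurable u0) {y : α → ℝ} (hy : Measurable y)
    (h0 : ∀ a, 0 ≤ y a) : Measurable (fun a => vv u0 (F a) (y a)) := by
  classical
  have h1 : Measurable (fun a => if 0 < y a then y a else 1) :=
    Measurable.ite (measurableSet_lt measurable_const hy) hy measurable_const
  have h2 := measurable_vv_at hF hu h1 (fun a => by split_ifs with h <;> linarith)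
  have h3 : Measurable (fun a => if 0 < y a then vv u0 (F a) (if 0 < y a then y a else 1) else 0) :=
    Measurable.ite (measurableSet_lt measurable_const hy) h2 measurable_const
  convert h3 using 1
  funext a
  by_cases h : 0 < y a
  · rw [if_pos h, if_pos h]
  · rw [if_neg h]
    have : y a = 0 := le_antisymm (not_lt.1 h) (h0 a)
    rw [this, vv_zero]

/-- joint measurability of `vv` -/
lemma measurable_vv_joint (hF : MFam F) (hu : Measurable u0) :
    Measurable (fun x : α × ℝ => (Ioi (0:ℝ)).indicator (vv u0 (F x.1)) x.2) := by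
  classical
  have hF2 : MFam (fun x : α × ℝ => F x.1) := hF.comp_param measurable_fst
  have h1 := measurable_vv_at' hF2 hu (y := fun x => max x.2 0) (by fun_prop)
    (fun x => le_max_right _ _)
  have h3 := h1.indicator (measurable_snd (measurableSet_Ioi (a := (0:ℝ))))
  convert h3 using 1
  funext x
  by_cases hx : x.2 ∈ Ioi (0:ℝ)
  · rw [indicator_of_mem hx, indicator_of_mem (show x ∈ Prod.snd ⁻¹' (Ioi (0:ℝ)) from hx),
      max_eq_left (le_of_lt hx)]
  · rw [indicator_of_notMem hx, indicator_of_notMem (show x ∉ Prod.snd ⁻¹' (Ioi (0:ℝ)) from hx)]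

lemma continuousOn_vv {f : ℂ → ℂ} (hf : DifferentiableOn ℂ f {z : ℂ | 0 < z.im})
    (hu : Continuous u0) (hu1 : ∀ z, 1 ≤ u0 z) : ContinuousOn (vv u0 f) (Ioi 0) := by
  have hmap : MapsTo (fun y : ℝ => (y : ℂ) * Complex.I) (Ioi 0) {z : ℂ | 0 < z.im} := by
    intro y hy
    simpa using hy
  have hmI : ContinuousOn (fun y : ℝ => (y : ℂ) * Complex.I) (Ioi 0) := by fun_prop
  have h1 : ContinuousOn (fun y : ℝ => deriv f ((y : ℂ) * Complex.I)) (Ioi 0) :=
    ((hf.deriv isOpen_H).continuousOn).comp hmI hmap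
  have h2 : ContinuousOn (fun y : ℝ => f ((y : ℂ) * Complex.I)) (Ioi 0) :=
    hf.continuousOn.comp hmI hmap
  unfold vv KB1.ups
  refine ContinuousOn.div ?_ (hu.comp_continuousOn h2) (fun y _ => by linarith [hu1 (f (y * Complex.I))])
  refine ContinuousOn.mul ?_ h1.norm
  exact Complex.continuous_im.comp_continuousOn hmI

/-- `Jv` at a measurable height -/
lemma measurable_Jv_at (hF : MFam F) (hu : Measurable u0) (q : ℝ) {y : α → ℝ}
    (hy : Measurable y) : Measurable (fun a => Jv u0 q (F a) (y a)) := by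
  have h1 := measurable_vv_joint hF hu
  have h2 : Measurable (fun x : α × ℝ => {x : α × ℝ | 0 < x.2 ∧ x.2 ≤ y x.1}.indicator
      (fun x => ENNReal.ofReal ((min ((Ioi (0:ℝ)).indicator (vv u0 (F x.1)) x.2) 1) ^ q / x.2)) x) := by
    refine Measurable.indicator ?_ ?_
    · exact (((h1.min measurable_const).pow_const q).div measurable_snd).ennreal_ofReal
    · exact (measurableSet_lt measurable_const measurable_snd).inter
        (measurableSet_le measurable_snd (hy.comp measurable_fst))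
  have h3 := h2.lintegral_prod_right' (ν := (volume : Measure ℝ))
  convert h3 using 1
  funext a
  unfold Jv
  rw [← lintegral_indicator measurableSet_Ioc]
  refine lintegral_congr fun s => ?_
  by_cases hs : s ∈ Ioc (0:ℝ) (y a)
  · rw [indicator_of_mem hs, indicator_of_mem (show (a, s) ∈ {x : α × ℝ | 0 < x.2 ∧ x.2 ≤ y x.1} from
      ⟨hs.1, hs.2⟩)]
    simp only
    rw [indicator_of_mem (show s ∈ Ioi (0:ℝ) from hs.1)]
  · rw [indicator_of_notMem hs, indicator_of_notMem
      (show (a, s) ∉ {x : α × ℝ | 0 < x.2 ∧ x.2 ≤ y x.1} from fun h => hs ⟨h.1, h.2⟩)]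

lemma Jv_mono (q : ℝ) (f : ℂ → ℂ) {y y' : ℝ} (h : y ≤ y') : Jv u0 q f y ≤ Jv u0 q f y' :=
  lintegral_mono_set (Ioc_subset_Ioc_right h)

/-- **`y_x` is measurable** -/
theorem measurable_yx (hF : MFam F) (hu : Continuous u0) (hu1 : ∀ z, 1 ≤ u0 z) (q θ K3 : ℝ) :
    Measurable (fun a => yx u0 q (F a) θ K3) := by
  unfold yx
  refine measurable_sInf_or (v := fun a y => vv u0 (F a) y) (J := fun a y => Jv u0 q (F a) y)
    (fun y hy => ?_) (fun a => continuousOn_vv (hF.diff a) hu hu1) (fun y _ => ?_)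
    (fun a y y' _ h => Jv_mono q (F a) h)
  · exact measurable_vv_at hF hu.measurable measurable_const (fun _ => hy)
  · exact measurable_Jv_at hF hu.measurable q measurable_const

lemma yx_nonneg (u0 : ℂ → ℝ) (q : ℝ) (f : ℂ → ℂ) (θ K3 : ℝ) : 0 ≤ yx u0 q f θ K3 :=
  Real.sInf_nonneg fun _ hy => hy.1.le

/-- evaluation of a family at `i y(a)`, `y ≥ 0` -/
lemma measurable_at_axis (hF : MFam F) (h00 : Measurable (fun a => F a 0)) {y : α → ℝ}
    (hy : Measurable y) (h0 : ∀ a, 0 ≤ y a) : Measurable (fun a => F a ((y a : ℂ) * Complex.I)) := by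
  classical
  have hm : Measurable (fun a => (if 0 < y a then y a else 1 : ℝ)) :=
    Measurable.ite (measurableSet_lt measurable_const hy) hy measurable_const
  have h2 := hF.at (ζ := fun a => (((if 0 < y a then y a else 1 : ℝ) : ℂ) * Complex.I))
    (measurable_mI.comp hm) (fun a => by
      rw [mI_im]
      split_ifs with h <;> linarith)
  have h3 : Measurable (fun a => if 0 < y a then
      F a (((if 0 < y a then y a else 1 : ℝ) : ℂ) * Complex.I) else F a 0) :=
    Measurable.ite (measurableSet_lt measurable_const hy) h2 h00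
  convert h3 using 1
  funext a
  by_cases h : 0 < y a
  · simp only [if_pos h]
  · simp only [if_neg h]
    have : y a = 0 := le_antisymm (not_lt.1 h) (h0 a)
    rw [this]
    simp

section par

variable {p : Par}

lemma Adm.cont (hp : p.Adm) : Continuous p.u0 := hp.lip.continuous

theorem measurable_y (hF : MFam F) (hp : p.Adm) : Measurable (fun a => p.y (F a)) :=
  measurable_yx hF (Adm.cont hp) hp.one_le _ _ _

theorem y_nonneg (p : Par) (f : ℂ → ℂ) : 0 ≤ p.y f := yx_nonneg _ _ _ _ _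

/-- **`x` is measurable** -/
theorem measurable_x (hF : MFam F) (hp : p.Adm) (h00 : Measurable (fun a => F a 0)) :
    Measurable (fun a => p.x (F a)) := by
  unfold Par.x
  exact measurable_at_axis hF h00 (measurable_y hF hp) (fun a => y_nonneg p (F a))


theorem measurable_u0x (hF : MFam F) (hp : p.Adm) (h00 : Measurable (fun a => F a 0)) :
    Measurable (fun a => p.u0 (p.x (F a))) :=
  (Adm.cont hp).measurable.comp (measurable_x hF hp h00)


theorem measurable_vy (hF : MFam F) (hp : p.Adm) :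
    Measurable (fun a => vv p.u0 (F a) (p.y (F a))) :=
  measurable_vv_at' hF (Adm.cont hp).measurable (measurable_y hF hp) (fun a => y_nonneg p (F a))

theorem measurableSet_caseA (hF : MFam F) (hp : p.Adm) : MeasurableSet {a | p.CaseA (F a)} :=
  measurableSet_le measurable_const (measurable_vy hF hp)

/-- **`ρ₁` is measurable** -/
theorem measurable_rho1 (hF : MFam F) (hp : p.Adm) : Measurable (fun a => p.rho1 (F a)) := by
  have h1 := ((measurable_y hF hp).const_mul p.K4).indicator (measurableSet_caseA hF hp)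
  have h2 := ((measurable_y hF hp).div_const 10).indicator (measurableSet_caseA hF hp).compl
  convert h1.add h2 using 1
  funext a
  unfold Par.rho1
  by_cases hc : p.CaseA (F a)
  · rw [if_pos hc]
    simp only [Pi.add_apply]
    rw [indicator_of_mem (show a ∈ {a | p.CaseA (F a)} from hc),
      indicator_of_notMem (show a ∉ {a | p.CaseA (F a)}ᶜ from fun h => h hc), add_zero]
  · rw [if_neg hc]
    simp only [Pi.add_apply]
    rw [indicator_of_notMem (show a ∉ {a | p.CaseA (F a)} from hc),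
      indicator_of_mem (show a ∈ {a | p.CaseA (F a)}ᶜ from hc), zero_add]


end par

end Crest.Agent.R162.LBMx
end

-- ▼ part R162/LBMe
section

/-!
Row 162 (S0243), node LB-MEAS (helper319): the concrete instances needed by LB-EXP (384, note 15144).
`EE = PathSp × ℝ≥0` (path, time), `fE κ e = ffl (drv κ e.1.1) e.2`, `drv κ p t = √κ p(t)`;
on `EE × PathSp`: the state map `st (fE e) (drv w) τ` after a fresh path `w` up to a measurable
time `τ`. More generally everything over an arbitrary parameter space with measurable maps into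
`PathSp` and `ℝ`.
-/

set_option autoImplicit false

open Set MeasureTheory Filter Topology
open scoped NNReal ENNReal

namespace Crest.Agent.R162.LBMe

open Crest.Agent.R162.FL Crest.Agent.R162.FLC Crest.Agent.R162.LB Crest.Agent.R162.LBM
open Crest.Agent.R162.LBMx Crest.Agent.R162.LBbc

variable {α : Type*} [MeasurableSpace α]

/-- driving function of the path `p` -/
noncomputable def drv (κ : ℝ) (p : ℝ≥0 → ℝ) : ℝ → ℝ := fun t => Real.sqrt κ * p t.toNNReal

lemma continuous_drv (κ : ℝ) {p : ℝ≥0 → ℝ} (hp : Continuous p) : Continuous (drv κ p) :=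
  continuous_const.mul (hp.comp continuous_real_toNNReal)

lemma measurable_eval (t : ℝ≥0) : Measurable (fun w : PathSp => w.1 t) :=
  (measurable_pi_apply t).comp measurable_subtype_coe

/-- the driving functions form a measurable family -/
lemma pfam_drv (κ : ℝ) {π : α → PathSp} (hπ : Measurable π) :
    PFam (fun a => drv κ (π a).1) := by
  refine ⟨fun a => (continuous_drv κ (π a).2).continuousOn, fun s _ => ?_⟩
  exact ((measurable_eval s.toNNReal).comp hπ).const_mul _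

/-! ### state families -/

/-- everything the measurability of the step needs from a family of state maps -/
structure SFam (F : α → ℂ → ℂ) : Prop where
  mf : MFam F
  inj : ∀ a, InjOn (F a) {z : ℂ | 0 < z.im}
  zero : Measurable (fun a => F a 0)

lemma SFam.comp_param {β : Type*} [MeasurableSpace β] {F : α → ℂ → ℂ} (hF : SFam F) {φ : β → α}
    (hφ : Measurable φ) : SFam (fun b => F (φ b)) :=
  ⟨hF.mf.comp_param hφ, fun _ => hF.inj _, hF.zero.comp hφ⟩

lemma ffl_zero' (W : ℝ → ℝ) (t : ℝ) : ffl W t 0 = 0 := LBST.ffl_of_im_nonpos W t (by simp)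


/-- the inverse flow at a measurable time -/
lemma sfam_ffl {W : α → ℝ → ℝ} (hW : PFam W) {τ : α → ℝ} (hτ : Measurable τ)
    (h0 : ∀ a, 0 ≤ τ a) : SFam (fun a => ffl (W a) (τ a)) := by
  refine ⟨hW.mfam hτ h0, fun a => injOn_ffl (hW.cont a) (h0 a), ?_⟩
  have : (fun a => ffl (W a) (τ a) 0) = fun _ => (0 : ℂ) := funext fun a => ffl_zero' _ _
  rw [this]
  exact measurable_const

/-- the state after a fresh path -/
lemma SFam.st {F : α → ℂ → ℂ} (hF : SFam F) {W : α → ℝ → ℝ} (hW : PFam W) {τ : α → ℝ}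
    (hτ : Measurable τ) (h0 : ∀ a, 0 ≤ τ a) :
    SFam (fun a => Par.st (F a) (W a) (τ a)) := by
  have hG := sfam_ffl hW hτ h0
  have hmaps : ∀ a z, 0 < z.im → 0 < (ffl (W a) (τ a) z).im := fun a z hz =>
    ffl_im_pos (hW.cont a) (h0 a) hz
  refine ⟨hF.mf.comp hG.mf hmaps, fun a z hz w hw h => ?_, ?_⟩
  · exact hG.inj a hz hw (hF.inj a (hmaps a z hz) (hmaps a w hw) h)
  · have : (fun a => Par.st (F a) (W a) (τ a) 0) = fun a => F a 0 := funext fun a => by
      show F a (ffl (W a) (τ a) 0) = F a 0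
      rw [ffl_zero']
    rw [this]
    exact hF.zero

section par

variable {p : Par} {F : α → ℂ → ℂ}

theorem SFam.lam (hF : SFam F) (hp : p.Adm) : Measurable (fun a => p.Λ (F a)) :=
  hF.mf.Lam hp.lip.continuous

theorem SFam.area (hF : SFam F) (hp : p.Adm) : Measurable (fun a => p.A (F a)) :=
  hF.mf.area hF.inj hp.lip.continuous _

lemma SFam.meas_zero (hF : SFam F) : Measurable (fun a => F a 0) := hF.zero

theorem SFam.y (hF : SFam F) (hp : p.Adm) : Measurable (fun a => p.y (F a)) :=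
  measurable_y hF.mf hp

theorem SFam.x (hF : SFam F) (hp : p.Adm) : Measurable (fun a => p.x (F a)) :=
  measurable_x hF.mf hp hF.meas_zero

theorem SFam.u0x (hF : SFam F) (hp : p.Adm) : Measurable (fun a => p.u0 (p.x (F a))) :=
  measurable_u0x hF.mf hp hF.meas_zero


theorem SFam.rho1 (hF : SFam F) (hp : p.Adm) : Measurable (fun a => p.rho1 (F a)) :=
  measurable_rho1 hF.mf hp



end par

/-! ### the space `EE` of 384 -/

/-- (path, time) -/
abbrev EE := PathSp × ℝ≥0

/-- state map of `e = (path, time)` -/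
noncomputable def fE (κ : ℝ) (e : EE) : ℂ → ℂ := ffl (drv κ e.1.1) e.2

lemma sfam_fE (κ : ℝ) : SFam (fun e : EE => fE κ e) :=
  sfam_ffl (pfam_drv κ measurable_fst) (measurable_coe_nnreal_real.comp measurable_snd)
    (fun e => e.2.2)

lemma sfam_fE' (κ : ℝ) : SFam (fun x : EE × PathSp => fE κ x.1) :=
  (sfam_fE κ).comp_param measurable_fst

lemma pfam_snd (κ : ℝ) : PFam (fun x : EE × PathSp => drv κ x.2.1) := pfam_drv κ measurable_snd



end Crest.Agent.R162.LBMe
end

-- ▼ part R162/LBMeasC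
section

/-!
Row 162 (S0243), node LB-MEAS, content half (helper772): measurability of the radius `rad`, of the
content density `cd`, of `cz`, of `content` and of `Par.cont`, `Par.nearC`, `Par.farC`, `Par.Bad3`
along measurable families (`MFam`, `PFam` of helper412).
-/

set_option autoImplicit false

open Set MeasureTheory Filter Topology
open scoped NNReal ENNReal

namespace Crest.Agent.R162.LBM

open Crest.Agent.R162.FL Crest.Agent.R162.FLC Crest.Agent.R162.FLD Crest.Agent.R162.LB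
open Crest.Agent.R162.OP (sfl gr)

/-! ### the radius -/

/-- a countable dense set of `[0,1]` -/
abbrev Q01 : Type := {q : ℚ // 0 ≤ q ∧ q ≤ 1}

instance : Nonempty Q01 := ⟨⟨0, le_rfl, zero_le_one⟩⟩

lemma sSup_abs_eq {W : ℝ → ℝ} (hW : ContinuousOn W (Ici 0)) {t : ℝ} (ht : 0 ≤ t) :
    sSup ((fun s => |W s|) '' Icc 0 t) = ⨆ q : Q01, |W ((q.1 : ℝ) * t)| := by
  have hq0 : ∀ q : Q01, (0:ℝ) ≤ (q.1 : ℝ) := fun q => by exact_mod_cast q.2.1
  have hq1 : ∀ q : Q01, (q.1 : ℝ) ≤ 1 := fun q => by exact_mod_cast q.2.2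
  have hmem : ∀ q : Q01, (q.1 : ℝ) * t ∈ Icc 0 t := fun q =>
    ⟨mul_nonneg (hq0 q) ht, by nlinarith [hq0 q, hq1 q]⟩
  have hbd := bddAbove_abs (t := t) hW
  have hbd2 : BddAbove (range fun q : Q01 => |W ((q.1 : ℝ) * t)|) := by
    obtain ⟨M, hM⟩ := hbd
    exact ⟨M, by rintro _ ⟨q, rfl⟩; exact hM ⟨_, hmem q, rfl⟩⟩
  apply le_antisymm
  · refine csSup_le ⟨_, 0, ⟨le_rfl, ht⟩, rfl⟩ ?_
    rintro _ ⟨s, hs, rfl⟩
    rcases ht.lt_or_eq with htp | rfl
    · set M := ⨆ q : Q01, |W ((q.1 : ℝ) * t)| with hM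
      have hφ : Continuous (fun r : ℝ => |W (max 0 (min r 1) * t)|) := by
        refine continuous_abs.comp ?_
        refine hW.comp_continuous (f := fun r : ℝ => max 0 (min r 1) * t) (by fun_prop)
          (fun r => mem_Ici.2 (mul_nonneg (le_max_left _ _) ht))
      have h1 : ∀ r : ℝ, |W (max 0 (min r 1) * t)| ≤ M := by
        intro r
        refine Rat.denseRange_cast.induction_on (p := fun r : ℝ => |W (max 0 (min r 1) * t)| ≤ M) r
          (isClosed_le hφ continuous_const) (fun a => ?_)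
        have h2 : (max 0 (min (a : ℝ) 1)) = ((⟨max 0 (min a 1), le_max_left _ _,
            max_le zero_le_one (min_le_right _ _)⟩ : Q01).1 : ℝ) := by
          push_cast; rfl
        rw [h2]
        exact le_ciSup hbd2 _
      have h3 := h1 (s / t)
      have h4 : 0 ≤ s / t := div_nonneg hs.1 ht
      have h5 : s / t ≤ 1 := (div_le_one htp).2 hs.2
      rw [min_eq_left h5, max_eq_right h4, div_mul_cancel₀ _ htp.ne'] at h3
      exact h3
    · have : s = 0 := le_antisymm hs.2 hs.1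
      subst this
      have := le_ciSup hbd2 ⟨0, le_rfl, zero_le_one⟩
      simpa using this
  · exact ciSup_le fun q => le_csSup hbd ⟨_, hmem q, rfl⟩

section

variable {α : Type*} [MeasurableSpace α] {W : α → ℝ → ℝ} {F : α → ℂ → ℂ}

/-- evaluation at a measurable parameter and time -/
lemma PFam.at' (hW : PFam W) {β : Type*} [MeasurableSpace β] {φ : β → α} (hφ : Measurable φ)
    {τ : β → ℝ} (hτ : Measurable τ) (h0 : ∀ b, 0 ≤ τ b) : Measurable (fun b => W (φ b) (τ b)) :=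
  (hW.comp_param hφ).at hτ h0

/-- the radius at a measurable time -/
theorem PFam.rad_at (hW : PFam W) {β : Type*} [MeasurableSpace β] {φ : β → α}
    (hφ : Measurable φ) {τ : β → ℝ} (hτ : Measurable τ) (h0 : ∀ b, 0 ≤ τ b) :
    Measurable (fun b => rad (W (φ b)) (τ b)) := by
  unfold rad
  refine Measurable.max (by fun_prop) ?_
  have : (fun b => sSup ((fun s => |W (φ b) s|) '' Icc 0 (τ b)))
      = fun b => ⨆ q : Q01, |W (φ b) ((q.1 : ℝ) * τ b)| := by
    funext b
    exact sSup_abs_eq (hW.cont _) (h0 b)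
  rw [this]
  refine Measurable.iSup fun q => ?_
  refine Measurable.abs ?_
  exact hW.at' hφ (hτ.const_mul _)
    (fun b => mul_nonneg (by exact_mod_cast q.2.1) (h0 b))

/-- joint measurability of the radius on `[0,∞)` -/
theorem PFam.rad_joint (hW : PFam W) :
    Measurable (fun x : α × ℝ => (Ici (0:ℝ)).indicator (rad (W x.1)) x.2) := by
  have h1 := (hW.rad_at (β := α × ℝ) (φ := Prod.fst) measurable_fst
    (τ := fun x : α × ℝ => max x.2 0) (by fun_prop) (fun x => le_max_right _ _)).indicator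
    (measurable_snd (measurableSet_Ici (a := (0:ℝ))))
  convert h1 using 1
  funext x
  by_cases hx : x.2 ∈ Ici (0:ℝ)
  · rw [indicator_of_mem hx, indicator_of_mem (show x ∈ Prod.snd ⁻¹' (Ici (0:ℝ)) from hx),
      max_eq_left hx]
  · rw [indicator_of_notMem hx, indicator_of_notMem (show x ∉ Prod.snd ⁻¹' (Ici (0:ℝ)) from hx)]

/-- measurability of the time window `win` in `(parameter, time)` -/
theorem PFam.measurableSet_win (hW : PFam W) {τ : α → ℝ} (hτ : Measurable τ) (k : ℤ) :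
    MeasurableSet {x : α × ℝ | x.2 ∈ win (W x.1) (τ x.1) k} := by
  have h1 := hW.rad_joint
  have h2 : {x : α × ℝ | x.2 ∈ win (W x.1) (τ x.1) k} =
      {x : α × ℝ | 0 < x.2} ∩ {x : α × ℝ | x.2 ≤ τ x.1} ∩
      ({x : α × ℝ | (2 : ℝ) ^ k ≤ (Ici (0:ℝ)).indicator (rad (W x.1)) x.2} ∩
       {x : α × ℝ | (Ici (0:ℝ)).indicator (rad (W x.1)) x.2 < (2 : ℝ) ^ (k + 1)}) := by
    ext x
    simp only [win, mem_ofPred_eq, mem_inter_iff]
    constructor
    · rintro ⟨a, b, c, d⟩
      rw [indicator_of_mem (show x.2 ∈ Ici (0:ℝ) from a.le)]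
      exact ⟨⟨a, b⟩, c, d⟩
    · rintro ⟨⟨a, b⟩, c, d⟩
      rw [indicator_of_mem (show x.2 ∈ Ici (0:ℝ) from a.le)] at c d
      exact ⟨a, b, c, d⟩
  rw [h2]
  exact ((measurableSet_lt measurable_const measurable_snd).inter
    (measurableSet_le measurable_snd (hτ.comp measurable_fst))).inter
    ((measurableSet_le measurable_const h1).inter (measurableSet_lt h1 measurable_const))

/-! ### the density of the content -/

/-- passage from `[0,n]` for all `n` to `[0,∞)` -/
lemma joint_Ici {f : α × ℂ → ℝ → ℝ} (h : ∀ n : ℕ, JM (m := ‹MeasurableSpace α›) (n : ℝ) f) :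
    Measurable (fun x : (α × ℂ) × ℝ => (Ici (0:ℝ)).indicator (f x.1) x.2) := by
  refine measurable_of_tendsto_metrizable
    (f := fun (n : ℕ) (x : (α × ℂ) × ℝ) => (Icc (0:ℝ) n).indicator (f x.1) x.2)
    (fun n => h n) ?_
  rw [tendsto_pi_nhds]
  intro x
  refine tendsto_const_nhds.congr' ?_
  filter_upwards [eventually_ge_atTop ⌈x.2⌉₊] with n hn
  have hn' : x.2 ≤ n := (Nat.le_ceil _).trans (by exact_mod_cast hn)
  by_cases hx : x.2 ∈ Ici (0:ℝ)
  · rw [indicator_of_mem hx, indicator_of_mem (show x.2 ∈ Icc (0:ℝ) n from ⟨hx, hn'⟩)]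
  · rw [indicator_of_notMem hx,
      indicator_of_notMem (show x.2 ∉ Icc (0:ℝ) n from fun h => hx h.1)]

/-- joint measurability of the content density, `L (a, z) ≥ 0` a measurable weight -/
theorem cd_joint (κ ε c1 : ℝ) (hW : PFam W) {L : α × ℂ → ℝ} (hL : Measurable L) :
    Measurable (fun x : (α × ℂ) × ℝ =>
      (Ici (0:ℝ)).indicator (fun s => cd κ ε c1 (L x.1) (W x.1.1) s x.1.2) x.2) := by
  have hc : ∀ (n : ℕ) (a : α), ContinuousOn (W a) (Icc 0 (n:ℝ)) := fun n a =>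
    (hW.cont a).mono fun s hs => hs.1
  have hm : ∀ n : ℕ, ∀ s ∈ Icc (0:ℝ) n, Measurable (fun a => W a s) := fun n s hs =>
    hW.meas s hs.1
  have hu := joint_Ici (f := fun (p : α × ℂ) s => OP.ups (W p.1) s p.2)
    (fun n => jm_ups (hc n) (hm n))
  have hs := joint_Ici (f := fun (p : α × ℂ) s => sfl (W p.1) s p.2)
    (fun n => jm_sfl (hc n) (hm n))
  have hφ : Measurable (fun z : ℂ => ‖z‖) := by fun_prop
  have hz := joint_Ici (f := fun (p : α × ℂ) s => ‖Zfl (W p.1) s p.2‖)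
    (fun n => (jm_Zfl (hc n) (hm n)).comp hφ)
  have hΦ : Measurable (fun q : ((ℝ × ℝ) × ℝ) × ℝ =>
      chi (q.1.1.1 * q.1.1.2 / ε) * (q.1.1.1 * q.1.1.2) ^ (κ / 8 - 1) * q.1.2 ^ (8 / κ - 1) *
        (if c1 ≤ q.1.2 then 1 else 0) * (4 * q.1.2 ^ 2 / q.2 ^ 2)) := by
    have h1 : Measurable (fun q : ((ℝ × ℝ) × ℝ) × ℝ => chi (q.1.1.1 * q.1.1.2 / ε)) :=
      measurable_chi.comp (by fun_prop)
    have h2 : Measurable (fun q : ((ℝ × ℝ) × ℝ) × ℝ => (if c1 ≤ q.1.2 then (1:ℝ) else 0)) :=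
      Measurable.ite (measurableSet_le measurable_const (by fun_prop)) measurable_const
        measurable_const
    exact (((h1.mul (by fun_prop)).mul (by fun_prop)).mul h2).mul (by fun_prop)
  have h5 := (hΦ.comp ((((hL.comp measurable_fst).prodMk hu).prodMk hs).prodMk hz)).indicator
    (measurable_snd (measurableSet_Ici (a := (0:ℝ))))
  convert h5 using 1
  funext x
  by_cases hx : x.2 ∈ Ici (0:ℝ)
  · rw [indicator_of_mem hx, indicator_of_mem (show x ∈ Prod.snd ⁻¹' (Ici (0:ℝ)) from hx)]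
    simp only [Function.comp, indicator_of_mem hx, cd]
  · rw [indicator_of_notMem hx, indicator_of_notMem (show x ∉ Prod.snd ⁻¹' (Ici (0:ℝ)) from hx)]

/-- joint measurability of `cz` in `(parameter, point)` -/
theorem cz_joint (κ ε c1 : ℝ) (hW : PFam W) {L : α × ℂ → ℝ} (hL : Measurable L)
    {E : α → Set ℝ} (hE0 : ∀ a, E a ⊆ Ici 0) (hE : MeasurableSet {x : α × ℝ | x.2 ∈ E x.1}) :
    Measurable (fun p : α × ℂ => cz κ ε c1 (L p) (W p.1) (E p.1) p.2) := by
  have h1 := (cd_joint κ ε c1 hW hL).ennreal_ofReal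
  have hS : MeasurableSet {x : (α × ℂ) × ℝ | x.2 ∈ E x.1.1} := by
    have : Measurable (fun x : (α × ℂ) × ℝ => (x.1.1, x.2)) :=
      (measurable_fst.comp measurable_fst).prodMk measurable_snd
    exact this hE
  have h2 := (h1.indicator hS).lintegral_prod_right' (ν := volume)
  convert h2 using 1
  funext p
  have hEm : MeasurableSet (E p.1) := by
    have : Measurable (fun s : ℝ => (p.1, s)) := by fun_prop
    exact this hE
  unfold cz
  rw [← lintegral_indicator hEm]
  congr 1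
  funext s
  by_cases hs : s ∈ E p.1
  · rw [indicator_of_mem hs,
      indicator_of_mem (show (p, s) ∈ {x : (α × ℂ) × ℝ | x.2 ∈ E x.1.1} from hs)]
    simp only
    rw [indicator_of_mem (hE0 _ hs)]
  · rw [indicator_of_notMem hs,
      indicator_of_notMem (show (p, s) ∉ {x : (α × ℂ) × ℝ | x.2 ∈ E x.1.1} from hs)]

/-! ### the content -/

/-- CONTENT: measurability along families; `S a` = physical set, `E a` = time set. -/
theorem measurable_content (κ ε c1 : ℝ) (hF : MFam F) (hW : PFam W)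
    {E : α → Set ℝ} (hE0 : ∀ a, E a ⊆ Ici 0) (hE : MeasurableSet {x : α × ℝ | x.2 ∈ E x.1})
    {S : α → Set ℂ} (hS : MeasurableSet {x : α × ℂ | x.2 ∈ S x.1}) :
    Measurable (fun a => content κ ε c1 (F a) (W a) (E a) (S a)) := by
  set L : α × ℂ → ℝ := fun x => ‖{z : ℂ | 0 < z.im}.indicator (deriv (F x.1)) x.2‖ with hLd
  have hL : Measurable L := hF.deriv_meas.norm
  have h1 := cz_joint κ ε c1 hW hL hE0 hE
  have h2 : Measurable (fun p : α × ℂ =>
      ENNReal.ofReal (L p ^ 2) * cz κ ε c1 (L p) (W p.1) (E p.1) p.2) :=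
    (hL.pow_const 2).ennreal_ofReal.mul h1
  have hD : MeasurableSet {p : α × ℂ | 0 < p.2.im ∧ F p.1 p.2 ∈ S p.1} := by
    have h3 : {p : α × ℂ | 0 < p.2.im ∧ F p.1 p.2 ∈ S p.1} = {p : α × ℂ | 0 < p.2.im} ∩
        (fun p : α × ℂ => (p.1, {z : ℂ | 0 < z.im}.indicator (F p.1) p.2)) ⁻¹'
          {x : α × ℂ | x.2 ∈ S x.1} := by
      ext p
      simp only [mem_ofPred_eq, mem_inter_iff, mem_preimage]
      constructor
      · rintro ⟨a, b⟩
        rw [indicator_of_mem (show p.2 ∈ {z : ℂ | 0 < z.im} from a)]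
        exact ⟨a, b⟩
      · rintro ⟨a, b⟩
        rw [indicator_of_mem (show p.2 ∈ {z : ℂ | 0 < z.im} from a)] at b
        exact ⟨a, b⟩
    rw [h3]
    exact (measurableSet_lt measurable_const (Complex.measurable_im.comp measurable_snd)).inter
      ((measurable_fst.prodMk hF.meas) hS)
  have h4 := (h2.indicator hD).lintegral_prod_right' (ν := volume)
  convert h4 using 1
  funext a
  have hDa : MeasurableSet {z : ℂ | 0 < z.im ∧ F a z ∈ S a} := by
    have : Measurable (fun z : ℂ => (a, z)) := by fun_prop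
    exact this hD
  unfold content
  rw [← lintegral_indicator hDa]
  congr 1
  funext z
  by_cases hz : z ∈ {z : ℂ | 0 < z.im ∧ F a z ∈ S a}
  · rw [indicator_of_mem hz,
      indicator_of_mem (show (a, z) ∈ {p : α × ℂ | 0 < p.2.im ∧ F p.1 p.2 ∈ S p.1} from hz)]
    simp only [hLd]
    rw [indicator_of_mem (show z ∈ {z : ℂ | 0 < z.im} from hz.1)]
  · rw [indicator_of_notMem hz,
      indicator_of_notMem (show (a, z) ∉ {p : α × ℂ | 0 < p.2.im ∧ F p.1 p.2 ∈ S p.1} from hz)]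

lemma measurableSet_Ioc_fam {τ : α → ℝ} (hτ : Measurable τ) :
    MeasurableSet {x : α × ℝ | x.2 ∈ Ioc 0 (τ x.1)} :=
  (measurableSet_lt measurable_const measurable_snd).inter
    (measurableSet_le measurable_snd (hτ.comp measurable_fst))


/-- `∫⁻ w in S a, cz κ ε c1 1 (W a) (E a) w` is measurable -/
theorem measurable_cz_setLIntegral (κ ε c1 : ℝ) (hW : PFam W)
    {E : α → Set ℝ} (hE0 : ∀ a, E a ⊆ Ici 0) (hE : MeasurableSet {x : α × ℝ | x.2 ∈ E x.1})
    {S : α → Set ℂ} (hS : MeasurableSet {x : α × ℂ | x.2 ∈ S x.1}) :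
    Measurable (fun a => ∫⁻ w in S a, cz κ ε c1 1 (W a) (E a) w) := by
  have h1 := cz_joint κ ε c1 hW (L := fun _ => (1:ℝ)) measurable_const hE0 hE
  have h4 := (h1.indicator hS).lintegral_prod_right' (ν := volume)
  convert h4 using 1
  funext a
  have hSa : MeasurableSet (S a) := by
    have : Measurable (fun z : ℂ => (a, z)) := by fun_prop
    exact this hS
  rw [← lintegral_indicator hSa]
  congr 1

variable (p : Par)

theorem measurable_cont (hp : MeasurableSet p.B) (hF : MFam F) (hW : PFam W) {τ : α → ℝ}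
    (hτ : Measurable τ) : Measurable (fun a => p.cont (F a) (W a) (Ioc 0 (τ a))) :=
  measurable_content p.κ p.ε p.c1 hF hW (fun _ _ hs => hs.1.le) (measurableSet_Ioc_fam hτ)
    (S := fun _ => p.B) (measurable_snd hp)

lemma measurableSet_near (hp : p.Adm) (hx : Measurable (fun a => p.x (F a))) :
    MeasurableSet {y : α × ℂ | y.2 ∈ p.near (F y.1)} := by
  have hu : Measurable p.u0 := hp.lip.continuous.measurable
  have h1 : Measurable (fun y : α × ℂ => dist y.2 (p.x (F y.1))) :=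
    measurable_snd.dist (hx.comp measurable_fst)
  have h2 : Measurable (fun y : α × ℂ => p.u0 (p.x (F y.1)) / 4) :=
    (hu.comp (hx.comp measurable_fst)).div_const 4
  exact (measurable_snd hp.meas).inter (measurableSet_lt h1 h2)

theorem measurable_nearC (hp : p.Adm) (hF : MFam F) (hW : PFam W)
    (hx : Measurable (fun a => p.x (F a)))
    {E : α → Set ℝ} (hE0 : ∀ a, E a ⊆ Ici 0) (hE : MeasurableSet {x : α × ℝ | x.2 ∈ E x.1}) :
    Measurable (fun a => p.nearC (F a) (W a) (E a)) :=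
  measurable_content p.κ p.ε p.c1 hF hW hE0 hE (S := fun a => p.near (F a))
    (measurableSet_near p hp hx)


theorem measurable_nearC_win (hp : p.Adm) (hF : MFam F) (hW : PFam W)
    (hx : Measurable (fun a => p.x (F a))) {τ : α → ℝ} (hτ : Measurable τ) (k : ℤ) :
    Measurable (fun a => p.nearC (F a) (W a) (win (W a) (τ a) k)) :=
  measurable_nearC p hp hF hW hx (fun _ _ hs => hs.1.le) (hW.measurableSet_win hτ k)

/-- `vv` at a fixed `y > 0` -/
lemma measurable_vv_pt (hp : p.Adm) (hF : MFam F) {y : ℝ} (hy : 0 < y) :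
    Measurable (fun a => vv p.u0 (F a) y) := by
  have hu : Measurable p.u0 := hp.lip.continuous.measurable
  have h0 : ∀ _ : α, 0 < ((y : ℂ) * Complex.I).im := fun _ => by simpa using hy
  unfold vv KB1.ups
  exact ((hF.deriv_at measurable_const h0).norm.const_mul _).div
    (hu.comp (hF.at measurable_const h0))

/-- the set `{a | Bad3 at time τ a, scale 2^k}` -/
theorem measurableSet_Bad3 (hp : p.Adm) (hF : MFam F) (hW : PFam W)
    (hx : Measurable (fun a => p.x (F a))) {τ : α → ℝ} (hτ : Measurable τ) (k : ℤ) :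
    MeasurableSet {a | p.Bad3 (F a) (W a) (τ a) k} := by
  have h1 := measurable_nearC_win p hp hF hW hx hτ k
  have h2 := measurable_vv_pt p hp hF (y := (2:ℝ) ^ k) (by positivity)
  exact measurableSet_lt (h2.pow_const _).ennreal_ofReal h1

end

end Crest.Agent.R162.LBM
end

-- ▼ part R162/LBBr
section

/-!
Row 162 (S0243): LOWER BOUND, bridge between the format (fixed univalent map `f`, fresh driver
`W`) of `LBDefs` and the global flow / later times (helper888).
-/

set_option autoImplicit false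

open Set MeasureTheory Complex
open scoped ENNReal

namespace Crest.Agent.R162.LB

open Crest.Agent.R162.FL Crest.Agent.R162.FLC

variable {W : ℝ → ℝ} {s t : ℝ} {z : ℂ}

/-! ### the state map -/



lemma differentiableOn_comp (hW : ContinuousOn W (Ici 0)) (ht : 0 ≤ t) {f : ℂ → ℂ}
    (hf : DifferentiableOn ℂ f {z | 0 < z.im}) :
    DifferentiableOn ℂ (f ∘ ffl W t) {z | 0 < z.im} :=
  hf.comp (differentiableOn_ffl hW ht) fun _ hz => ffl_im_pos hW ht hz



/-! ### the functionals only depend on `f` on `ℍ` -/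

lemma deriv_congr {f g : ℂ → ℂ} (h : EqOn f g {z | 0 < z.im}) (hz : 0 < z.im) :
    deriv f z = deriv g z :=
  Filter.EventuallyEq.deriv_eq (h.eventuallyEq_of_mem (isOpen_H.mem_nhds hz))

lemma ups_congr {f g : ℂ → ℂ} (h : EqOn f g {z | 0 < z.im}) (hz : 0 < z.im) :
    KB1.ups f z = KB1.ups g z := by
  rw [KB1.ups, KB1.ups, deriv_congr h hz]









lemma measurableSet_pre {f : ℂ → ℂ} {B : Set ℂ} (hf : ContinuousOn f {z | 0 < z.im})
    (hB : MeasurableSet B) : MeasurableSet {z : ℂ | 0 < z.im ∧ f z ∈ B} := by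
  have h1 : Measurable (Set.restrict {z : ℂ | 0 < z.im} f) :=
    (continuousOn_iff_continuous_restrict.1 hf).measurable
  have h2 := (MeasurableEmbedding.subtype_coe isOpen_H.measurableSet).measurableSet_image.2
    (h1 hB)
  convert h2 using 1
  ext z
  constructor
  · rintro ⟨hz, hw⟩
    exact ⟨⟨z, hz⟩, hw, rfl⟩
  · rintro ⟨⟨z', hz⟩, hw, rfl⟩
    exact ⟨hz, hw⟩


/-! ### the density -/

lemma norm_deriv_ffl (hW : ContinuousOn W (Ici 0)) (ht : 0 ≤ t) (hz : 0 < z.im) :
    ‖deriv (ffl W t) z‖ = ‖dgfl W t (ffl W t z)‖⁻¹ := by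
  have h1 := FLC.ups_ffl hW ht hz
  have h2 := FL.ups_eq hW (ffl_alive hW ht hz)
  rw [h1] at h2
  have h3 : (gfl W t (ffl W t z)).im = z.im := by rw [gfl_ffl hW ht hz]; simp
  rw [h3] at h2
  have : z.im * ‖deriv (ffl W t) z‖ = z.im * ‖dgfl W t (ffl W t z)‖⁻¹ := by
    rw [h2]; rfl
  exact mul_left_cancel₀ hz.ne' this

lemma alive_ffl_iff (hW : ContinuousOn W (Ici 0)) (ht : 0 ≤ t) (hs : 0 ≤ s) (hz : 0 < z.im) :
    Alive W (ffl W t z) (t + s) ↔ Alive (shift W t) z s := by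
  rw [alive_shift hW ht hs, Zfl_ffl hW ht hz]
  exact ⟨fun h => h.2, fun h => ⟨ffl_alive hW ht hz, h⟩⟩

lemma ups_shift_ffl (hW : ContinuousOn W (Ici 0)) (ht : 0 ≤ t) (hs : 0 ≤ s) (hz : 0 < z.im) :
    OP.ups W (t + s) (ffl W t z) = ‖deriv (ffl W t) z‖ * OP.ups (shift W t) s z := by
  by_cases h : Alive (shift W t) z s
  · have h' := (alive_ffl_iff hW ht hs hz).2 h
    rw [ups_add hW h' ht hs, Zfl_ffl hW ht hz, norm_deriv_ffl hW ht hz]
    rw [div_eq_mul_inv, mul_comm]
  · have h' := fun h0 => h ((alive_ffl_iff hW ht hs hz).1 h0)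
    rw [ups_of_dead h, ups_of_dead h', mul_zero]

/-- **BR2** the density is a cocycle -/
theorem cd_shift {κ ε c1 lam : ℝ} (hW : ContinuousOn W (Ici 0)) (ht : 0 ≤ t) (hs : 0 ≤ s)
    (hz : 0 < z.im) :
    cd κ ε c1 lam W (t + s) (ffl W t z) =
      cd κ ε c1 (lam * ‖deriv (ffl W t) z‖) (shift W t) s z := by
  by_cases h : Alive (shift W t) z s
  · have h' := (alive_ffl_iff hW ht hs hz).2 h
    have hZ : Zfl W (t + s) (ffl W t z) = Zfl (shift W t) s z := by
      rw [Zfl_add h' ht hs, Zfl_ffl hW ht hz]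
    rw [cd, cd, OP.sfl, OP.sfl, ups_shift_ffl hW ht hs hz, hZ]
    simp only [mul_assoc]
  · have h' := fun h0 => h ((alive_ffl_iff hW ht hs hz).1 h0)
    rw [cd_of_dead h, cd_of_dead h']

lemma cd_dead_later {κ ε c1 lam : ℝ} (hs : 0 ≤ s) (ht : 0 ≤ t) {w : ℂ} (h : ¬ Alive W w t) :
    cd κ ε c1 lam W (t + s) w = 0 :=
  cd_of_dead fun h' => h (h'.mono ht (by linarith))

lemma cz_translate {κ ε c1 lam : ℝ} (W : ℝ → ℝ) (t : ℝ) (E : Set ℝ) (w : ℂ) :
    cz κ ε c1 lam W ((fun s => t + s) '' E) w =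
      ∫⁻ s in E, ENNReal.ofReal (cd κ ε c1 lam W (t + s) w) := by
  have hmp : MeasurePreserving (fun s : ℝ => t + s) volume volume :=
    measurePreserving_add_left volume t
  have he : MeasurableEmbedding (fun s : ℝ => t + s) := measurableEmbedding_addLeft t
  rw [cz]
  exact hmp.setLIntegral_comp_emb he _ _ |>.symm

/-- **BR2'** -/
theorem cz_shift {κ ε c1 lam : ℝ} (hW : ContinuousOn W (Ici 0)) (ht : 0 ≤ t) {E : Set ℝ}
    (hE : MeasurableSet E) (hE0 : E ⊆ Ici 0) (hz : 0 < z.im) :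
    cz κ ε c1 lam W ((fun s => t + s) '' E) (ffl W t z) =
      cz κ ε c1 (lam * ‖deriv (ffl W t) z‖) (shift W t) E z := by
  rw [cz_translate, cz]
  refine setLIntegral_congr_fun hE fun s hs => ?_
  simp only [cd_shift hW ht (hE0 hs) hz]

lemma cz_dead {κ ε c1 lam : ℝ} (ht : 0 ≤ t) {E : Set ℝ} (hE : MeasurableSet E)
    (hE0 : E ⊆ Ici 0) {w : ℂ} (h : ¬ Alive W w t) :
    cz κ ε c1 lam W ((fun s => t + s) '' E) w = 0 := by
  rw [cz_translate, setLIntegral_congr_fun (g := fun _ => 0) hE fun s hs => by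
    simp only [cd_dead_later (hE0 hs) ht h, ENNReal.ofReal_zero]]
  simp

/-! ### change of variables -/

/-- change of variables for an injective holomorphic map -/
theorem lintegral_image_H {f : ℂ → ℂ} (hf : DifferentiableOn ℂ f {z | 0 < z.im})
    (hfi : InjOn f {z | 0 < z.im}) {E : Set ℂ} (hE : MeasurableSet E)
    (hEH : E ⊆ {z | 0 < z.im}) (F : ℂ → ℝ≥0∞) :
    ∫⁻ w in f '' E, F w = ∫⁻ z in E, ENNReal.ofReal (‖deriv f z‖ ^ 2) * F (f z) := by
  rw [lintegral_image_eq_lintegral_abs_det_fderiv_mul volume hE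
    (fun z hz => (((hf.differentiableAt (isOpen_H.mem_nhds (hEH hz))).hasDerivAt
      ).hasFDerivAt.restrictScalars ℝ).hasFDerivWithinAt) (hfi.mono hEH) F]
  apply setLIntegral_congr_fun hE
  intro z _
  simp only
  congr 2
  simp [ContinuousLinearMap.det, LinearMap.det_restrictScalars, Algebra.norm_complex_eq,
    Complex.normSq_eq_norm_sq]

/-- **BR3** content collected after time `t` = content of the new state and the shifted path -/
theorem content_shift {κ ε c1 : ℝ} (hW : ContinuousOn W (Ici 0)) (ht : 0 ≤ t) {f : ℂ → ℂ}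
    (hf : DifferentiableOn ℂ f {z | 0 < z.im}) {E : Set ℝ} (hE : MeasurableSet E)
    (hE0 : E ⊆ Ici 0) {B : Set ℂ} (hB : MeasurableSet B) :
    content κ ε c1 f W ((fun s => t + s) '' E) B =
      content κ ε c1 (f ∘ ffl W t) (shift W t) E B := by
  set G : ℂ → ℝ≥0∞ := fun z => ENNReal.ofReal (‖deriv f z‖ ^ 2) *
    cz κ ε c1 ‖deriv f z‖ W ((fun s => t + s) '' E) z with hG
  have hD : MeasurableSet (Dom W t) := (isOpen_Dom hW t).measurableSet
  have hG0 : G = (Dom W t).indicator G := by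
    ext z
    by_cases hz : z ∈ Dom W t
    · rw [indicator_of_mem hz]
    · rw [indicator_of_notMem hz]
      simp only [hG, cz_dead ht hE hE0 (fun h => hz h), mul_zero]
  set A : Set ℂ := {z : ℂ | 0 < z.im ∧ f z ∈ B}
  set A' : Set ℂ := {z : ℂ | 0 < z.im ∧ (f ∘ ffl W t) z ∈ B}
  have hAA : Dom W t ∩ A = ffl W t '' A' := by
    ext w
    constructor
    · rintro ⟨hw, hw2⟩
      refine ⟨Zfl W t w, ⟨Zfl_im_pos hW hw, ?_⟩, ffl_Zfl hW hw⟩
      simp only [Function.comp_apply]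
      rw [ffl_Zfl hW hw]
      exact hw2.2
    · rintro ⟨z, hz, rfl⟩
      exact ⟨ffl_alive hW ht hz.1, ffl_im_pos hW ht hz.1, hz.2⟩
  have hA' : MeasurableSet A' :=
    measurableSet_pre (differentiableOn_comp hW ht hf).continuousOn hB
  calc content κ ε c1 f W ((fun s => t + s) '' E) B = ∫⁻ z in A, G z := rfl
    _ = ∫⁻ z in A, (Dom W t).indicator G z := by rw [← hG0]
    _ = ∫⁻ z in Dom W t ∩ A, G z := setLIntegral_indicator hD _
    _ = ∫⁻ z in ffl W t '' A', G z := by rw [hAA]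
    _ = ∫⁻ z in A', ENNReal.ofReal (‖deriv (ffl W t) z‖ ^ 2) * G (ffl W t z) :=
        lintegral_image_H (differentiableOn_ffl hW ht) (injOn_ffl hW ht) hA'
          (fun z hz => hz.1) G
    _ = ∫⁻ z in A', ENNReal.ofReal (‖deriv (f ∘ ffl W t) z‖ ^ 2) *
          cz κ ε c1 ‖deriv (f ∘ ffl W t) z‖ (shift W t) E z := by
        refine setLIntegral_congr_fun hA' fun z hz => ?_
        have hz0 : 0 < z.im := hz.1
        have h0 : 0 < (ffl W t z).im := ffl_im_pos hW ht hz0
        have h2 : DifferentiableAt ℂ f (ffl W t z) :=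
          (hf _ h0).differentiableAt ((isOpen_H).mem_nhds h0)
        have h3 : deriv (f ∘ ffl W t) z = deriv f (ffl W t z) * deriv (ffl W t) z :=
          deriv_comp z h2 (hasDerivAt_ffl hW ht hz0).differentiableAt
        simp only [hG, h3, norm_mul]
        rw [cz_shift hW ht hE hE0 hz0, ← mul_assoc, ← ENNReal.ofReal_mul (by positivity)]
        congr 2
        ring
    _ = _ := rfl

/-- **BR3'** global form: the content of `B` collected at the times `t + E` under the whole flow -/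
theorem content_global {κ ε c1 : ℝ} (hW : ContinuousOn W (Ici 0)) (ht : 0 ≤ t)
    {E : Set ℝ} (hE : MeasurableSet E) (hE0 : E ⊆ Ici 0) {B : Set ℂ} (hB : MeasurableSet B)
    (hBH : B ⊆ {z | 0 < z.im}) :
    ∫⁻ w in B, cz κ ε c1 1 W ((fun s => t + s) '' E) w =
      content κ ε c1 (ffl W t) (shift W t) E B := by
  have h := content_shift (κ := κ) (ε := ε) (c1 := c1) hW ht (f := id)
    differentiable_id.differentiableOn hE hE0 hB
  rw [Function.id_comp] at h
  rw [← h, content]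
  have hs : {z : ℂ | 0 < z.im ∧ id z ∈ B} = B := by
    ext z
    simp only [id, mem_setOf_eq]
    exact ⟨fun h => h.2, fun h => ⟨hBH h, h⟩⟩
  rw [hs]
  refine setLIntegral_congr_fun hB fun z _ => ?_
  simp





end Crest.Agent.R162.LB
namespace Crest.Agent.R162.LB.Par
end Crest.Agent.R162.LB.Par
end

-- ▼ part R162/LBST5
section

set_option autoImplicit false

/-!
Row 162, node LB-ST, part 4 (helper332): the step time `T` of `LBDefs`: `T < t` iff a bad condition
holds at a rational time `< t`; dependence of everything on the driver before `t` only;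
`T` is a stopping time of the right-continuous filtration and is measurable.
-/

open MeasureTheory ProbabilityTheory Filter Topology
open scoped NNReal ENNReal

namespace Crest.Agent.R162.LBST

open Crest.Agent.R162.OS Crest.Agent.R162.LBbc Crest.Agent.R162.FL

variable {Ω : Type*} {p : LB.Par} {g g' : ℂ → ℂ} {V V' : ℝ → ℝ} {t : ℝ}

/-! ### the step time -/

/-- the step time as a nonnegative real -/
noncomputable def Tn (p : LB.Par) (g : ℂ → ℂ) (V : ℝ → ℝ) : ℝ≥0 := (p.T g V).toNNReal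

lemma coe_Tn (p : LB.Par) (g : ℂ → ℂ) (V : ℝ → ℝ) : ((Tn p g V : ℝ≥0) : ℝ) = p.T g V :=
  Real.coe_toNNReal _ (LB.T_nonneg p g V)

lemma bad_nonempty (p : LB.Par) (g : ℂ → ℂ) (V : ℝ → ℝ) :
    {t | 0 < t ∧ p.Bad g V t}.Nonempty := by
  refine ⟨(max (p.rho1 g) 0) ^ 2 + 1, by positivity, Or.inl ?_⟩
  unfold LB.Par.Bad1
  refine lt_of_lt_of_le ?_ (LB.sqrt_le_rad V _)
  calc p.rho1 g ≤ max (p.rho1 g) 0 := le_max_left _ _
    _ = Real.sqrt ((max (p.rho1 g) 0) ^ 2) := (Real.sqrt_sq (le_max_right _ _)).symm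
    _ < _ := Real.sqrt_lt_sqrt (by positivity) (by linarith)

theorem T_lt_iff (hg : ContinuousOn g {z | 0 < z.im}) (hV : ContinuousOn V (Set.Ici 0)) :
    p.T g V < t ↔ ∃ q : ℚ, (0 : ℝ) < q ∧ (q : ℝ) < t ∧ p.Bad g V q := by
  unfold LB.Par.T
  rw [csInf_lt_iff (LB.T_bdd p g V) (bad_nonempty p g V)]
  constructor
  · rintro ⟨s, ⟨hs0, hs⟩, hst⟩
    have h1 := bad_right hg hV hs0 hs
    have h2 : ∀ᶠ r in 𝓝[>] s, r < t := eventually_nhdsWithin_of_eventually_nhds (Iio_mem_nhds hst)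
    obtain ⟨u, hu, hus⟩ := mem_nhdsGT_iff_exists_Ioo_subset.1 (h1.and h2)
    obtain ⟨q, hq1, hq2⟩ := exists_rat_btwn (show s < u from hu)
    have h3 := hus ⟨hq1, hq2⟩
    exact ⟨q, hs0.trans hq1, h3.2, h3.1⟩
  · rintro ⟨q, h0, h1, h2⟩
    exact ⟨q, ⟨h0, h2⟩, h1⟩


/-! ### measurability -/

section meas

variable {f : Ω → ℂ → ℂ} {W : Ω → ℝ → ℝ}

theorem measurableSet_bad {m' : MeasurableSpace Ω} (ht : 0 < t) (hf : CFam m' f)
    (hu0 : Continuous p.u0)
    (hρ : Measurable[m'] fun ω => p.rho1 (f ω)) (hx : Measurable[m'] fun ω => p.x (f ω))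
    (hc : ∀ ω, ContinuousOn (W ω) (Set.Icc 0 t))
    (hm : ∀ s ∈ Set.Icc 0 t, Measurable[m'] (fun ω => W ω s))
    (h3 : ∀ k : ℤ, MeasurableSet[m'] {ω | p.Bad3 (f ω) (W ω) t k}) :
    MeasurableSet[m'] {ω | p.Bad (f ω) (W ω) t} := by
  have e : {ω | p.Bad (f ω) (W ω) t} = {ω | p.Bad1 (f ω) (W ω) t} ∪
      ({ω | p.Bad2 (f ω) (W ω) t} ∪ ⋃ k : ℤ, {ω | p.Bad3 (f ω) (W ω) t k}) := by
    ext ω
    simp only [LB.Par.Bad, Set.mem_ofPred_eq, Set.mem_union, Set.mem_iUnion]
  rw [e]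
  exact (measurableSet_bad1 ht.le hρ hc hm).union
    ((measurableSet_bad2 ht hf hu0 hx hc hm).union (MeasurableSet.iUnion h3))

/-- **`T` is a stopping time** of the right-continuous filtration; `f ω` known at time `0`. -/
theorem isST_T {m : MeasurableSpace Ω} {F : Filtration ℝ≥0 m} (hf : CFam (F 0) f)
    (hu0 : Continuous p.u0)
    (hρ : Measurable[F 0] fun ω => p.rho1 (f ω)) (hx : Measurable[F 0] fun ω => p.x (f ω))
    (hc : ∀ ω, ContinuousOn (W ω) (Set.Ici 0))
    (hm : ∀ t : ℝ≥0, ∀ s ∈ Set.Icc 0 (t : ℝ), Measurable[F t] (fun ω => W ω s))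
    (h3 : ∀ t : ℝ≥0, ∀ q : ℝ, 0 < q → q ≤ t → ∀ k : ℤ,
      MeasurableSet[F t] {ω | p.Bad3 (f ω) (W ω) q k}) :
    IsST F.rightCont (fun ω => Tn p (f ω) (W ω)) := by
  refine isST_rc_of_lt fun t => ?_
  have e : {ω | Tn p (f ω) (W ω) < t} =
      ⋃ q : {q : ℚ // (0 : ℝ) < q ∧ (q : ℝ) < t}, {ω | p.Bad (f ω) (W ω) ((q.1 : ℚ) : ℝ)} := by
    ext ω
    simp only [Set.mem_ofPred_eq, Set.mem_iUnion, Subtype.exists, exists_prop]
    rw [← NNReal.coe_lt_coe, coe_Tn, T_lt_iff (hf.cont ω) (hc ω)]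
    simp only [and_assoc]
  rw [e]
  refine MeasurableSet.iUnion fun q => ?_
  have h0t : F 0 ≤ F t := F.mono zero_le
  refine measurableSet_bad q.2.1 (hf.mono h0t) hu0 (hρ.mono h0t le_rfl) (hx.mono h0t le_rfl)
    (fun ω => (hc ω).mono fun s hs => hs.1) (fun s hs => ?_) (fun k => ?_)
  · exact hm t s ⟨hs.1, hs.2.trans q.2.2.le⟩
  · exact h3 t _ q.2.1 q.2.2.le k

/-- `T` is measurable -/
theorem measurable_T {m' : MeasurableSpace Ω} (hf : CFam m' f)
    (hu0 : Continuous p.u0)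
    (hρ : Measurable[m'] fun ω => p.rho1 (f ω)) (hx : Measurable[m'] fun ω => p.x (f ω))
    (hc : ∀ ω, ContinuousOn (W ω) (Set.Ici 0))
    (hm : ∀ s : ℝ, 0 ≤ s → Measurable[m'] (fun ω => W ω s))
    (h3 : ∀ q : ℝ, 0 < q → ∀ k : ℤ, MeasurableSet[m'] {ω | p.Bad3 (f ω) (W ω) q k}) :
    Measurable[m'] (fun ω => p.T (f ω) (W ω)) := by
  refine measurable_of_Iio fun t => ?_
  have e : (fun ω => p.T (f ω) (W ω)) ⁻¹' Set.Iio t =
      ⋃ q : {q : ℚ // (0 : ℝ) < q ∧ (q : ℝ) < t}, {ω | p.Bad (f ω) (W ω) ((q.1 : ℚ) : ℝ)} := by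
    ext ω
    simp only [Set.mem_preimage, Set.mem_Iio, Set.mem_ofPred_eq, Set.mem_iUnion, Subtype.exists,
      exists_prop]
    rw [T_lt_iff (hf.cont ω) (hc ω)]
    simp only [and_assoc]
  rw [e]
  refine MeasurableSet.iUnion fun q => ?_
  exact measurableSet_bad q.2.1 hf hu0 hρ hx (fun ω => (hc ω).mono fun s hs => hs.1)
    (fun s hs => hm s hs.1) (fun k => h3 _ q.2.1 k)

end meas

/-! ### dependence on the driver before `t` only, and on `g` on the half-plane only -/









end Crest.Agent.R162.LBST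
end

-- ▼ part R162/LBST27
section

/-!
Row 162, node LB-ST (helper27): joint measurability of the radius `rad`, of the windows `win`, of
the content functionals `cd`, `cz`, `content` of `LBDefs` in the driving path and in the state map,
and of the condition `Bad3`; right-openness of `Bad3` in `t`.
Everything is stated for an arbitrary σ-algebra `m` on `Ω` (use `m := F t`), an `Ω`-dependent
path `W ω` and an `Ω`-dependent state map `g ω`.
-/

set_option autoImplicit false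

open Set MeasureTheory Filter Topology
open scoped NNReal ENNReal

namespace Crest.Agent.R162.LBST27

open Crest.Agent.R162.FL Crest.Agent.R162.LB Crest.Agent.R162.FLD

section generic

variable {Ω : Type*} {m : MeasurableSpace Ω} {W : Ω → ℝ → ℝ} {T : ℝ}

/-! ### the radius -/

lemma clampT_one_mul_mem {T s q : ℝ} (hs : s ∈ Icc 0 T) : clampT 1 q * s ∈ Icc 0 T := by
  have h := clampT_mem (T := 1) zero_le_one q
  refine ⟨mul_nonneg h.1 hs.1, ?_⟩
  calc clampT 1 q * s ≤ 1 * s := mul_le_mul_of_nonneg_right h.2 hs.1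
    _ ≤ T := by rw [one_mul]; exact hs.2

lemma sSup_abs_eq {w : ℝ → ℝ} {s : ℝ} (hs : 0 ≤ s) (hw : ContinuousOn w (Icc 0 s)) :
    sSup ((fun r => |w r|) '' Icc 0 s) = ⨆ q : ℚ, |w (clampT 1 (q : ℝ) * s)| := by
  have hbdd : BddAbove ((fun r => |w r|) '' Icc 0 s) :=
    (isCompact_Icc.image_of_continuousOn hw.abs).bddAbove
  have hmem : ∀ q : ℝ, clampT 1 q * s ∈ Icc 0 s := fun q =>
    clampT_one_mul_mem (T := s) ⟨hs, le_rfl⟩
  have hbdd2 : BddAbove (range fun q : ℚ => |w (clampT 1 (q : ℝ) * s)|) := by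
    obtain ⟨M, hM⟩ := hbdd
    refine ⟨M, ?_⟩
    rintro _ ⟨q, rfl⟩
    exact hM ⟨_, hmem q, rfl⟩
  apply le_antisymm
  · refine csSup_le ⟨_, 0, ⟨le_rfl, hs⟩, rfl⟩ ?_
    rintro _ ⟨r, hr, rfl⟩
    have hg : Continuous fun u : ℝ => |w (clampT 1 u * s)| := by
      refine Continuous.abs ?_
      refine hw.comp_continuous ?_ hmem
      exact (continuous_clampT 1).mul continuous_const
    have hcl : IsClosed {u : ℝ | |w (clampT 1 u * s)| ≤ ⨆ q : ℚ, |w (clampT 1 (q : ℝ) * s)|} :=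
      isClosed_le hg continuous_const
    have hall : ∀ u : ℝ, |w (clampT 1 u * s)| ≤ ⨆ q : ℚ, |w (clampT 1 (q : ℝ) * s)| := by
      intro u
      exact Rat.denseRange_cast.induction_on (p := fun u : ℝ =>
        |w (clampT 1 u * s)| ≤ ⨆ q : ℚ, |w (clampT 1 (q : ℝ) * s)|) u hcl
        (fun q => le_ciSup hbdd2 q)
    rcases hs.eq_or_lt with h0 | h0
    · subst h0
      have hr0 : r = 0 := le_antisymm hr.2 hr.1
      have h5 := hall 0
      rw [mul_zero] at h5
      rw [hr0]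
      exact h5
    · have := hall (r / s)
      rw [clampT_of_mem ⟨by have := hr.1; positivity, (div_le_one h0).2 hr.2⟩,
        div_mul_cancel₀ _ h0.ne'] at this
      exact this
  · refine ciSup_le fun q => ?_
    exact le_csSup hbdd ⟨_, hmem q, rfl⟩

/-- **joint measurability of the radius** in `(ω, s)`, `s` clamped to `[0,T]`. -/
theorem measurable_rad_joint (hT : 0 ≤ T) (hc : ∀ ω, ContinuousOn (W ω) (Icc 0 T))
    (hm : ∀ s ∈ Icc 0 T, Measurable (fun ω => W ω s)) :
    Measurable (fun x : Ω × ℝ => rad (W x.1) (clampT T x.2)) := by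
  have hJ := measurable_drive_joint (W := W) hc hm
  have h1 : ∀ q : ℚ, Measurable fun x : Ω × ℝ => |W x.1 (clampT 1 (q : ℝ) * clampT T x.2)| := by
    intro q
    have h2 : Measurable fun x : Ω × ℝ => (x.1, clampT 1 (q : ℝ) * clampT T x.2) :=
      measurable_fst.prodMk (measurable_const.mul
        ((continuous_clampT T).measurable.comp measurable_snd))
    have h3 := (hJ.comp h2).abs
    convert h3 using 1
    funext x
    simp only [Function.comp]
    rw [indicator_of_mem]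
    exact clampT_one_mul_mem (clampT_mem hT x.2)
  have h4 : (fun x : Ω × ℝ => rad (W x.1) (clampT T x.2)) = fun x : Ω × ℝ =>
      max (Real.sqrt (clampT T x.2)) (⨆ q : ℚ, |W x.1 (clampT 1 (q : ℝ) * clampT T x.2)|) := by
    funext x
    unfold rad
    have hmem := clampT_mem hT x.2
    rw [sSup_abs_eq hmem.1 ((hc x.1).mono (Icc_subset_Icc_right hmem.2))]
  rw [h4]
  refine Measurable.max ?_ (Measurable.iSup h1)
  exact (Real.continuous_sqrt.comp (continuous_clampT T)).measurable.comp measurable_snd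


/-- the windows are jointly measurable -/
theorem measurableSet_win {t : ℝ} (ht : t ≤ T) (hc : ∀ ω, ContinuousOn (W ω) (Icc 0 T))
    (hm : ∀ s ∈ Icc 0 T, Measurable (fun ω => W ω s)) (k : ℤ) :
    MeasurableSet {x : Ω × ℝ | x.2 ∈ win (W x.1) t k} := by
  rcases lt_or_ge T 0 with hT | hT
  · have : {x : Ω × ℝ | x.2 ∈ win (W x.1) t k} = ∅ := by
      ext x
      simp only [win, mem_ofPred_eq, mem_empty_iff_false, iff_false, not_and]
      intro h1 h2
      linarith
    rw [this]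
    exact MeasurableSet.empty
  have hr := measurable_rad_joint hT hc hm
  have ha : MeasurableSet {x : Ω × ℝ | (0:ℝ) < x.2} :=
    measurableSet_lt measurable_const measurable_snd
  have hb : MeasurableSet {x : Ω × ℝ | x.2 ≤ t} :=
    measurableSet_le measurable_snd measurable_const
  have h := (ha.inter hb).inter
    ((measurableSet_le (measurable_const (a := (2:ℝ) ^ k)) hr).inter
      (measurableSet_lt hr (measurable_const (a := (2:ℝ) ^ (k + 1)))))
  convert h using 1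
  ext x
  simp only [win, mem_ofPred_eq, mem_inter_iff]
  constructor
  · rintro ⟨h1, h2, h3, h4⟩
    rw [clampT_of_mem ⟨h1.le, h2.trans ht⟩]
    exact ⟨⟨h1, h2⟩, h3, h4⟩
  · rintro ⟨⟨h1, h2⟩, h3, h4⟩
    rw [clampT_of_mem ⟨h1.le, h2.trans ht⟩] at h3 h4
    exact ⟨h1, h2, h3, h4⟩

/-! ### content -/

lemma JM.const' {E : Type*} [MeasurableSpace E] [Zero E] {f : Ω × ℂ → E} (hf : Measurable f) :
    JM (m := m) T (fun p _ => f p) :=
  JM.of_eq (F := fun x => f x.1) (hf.comp measurable_fst) (fun _ _ => rfl)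

/-- joint measurability of the content density -/
theorem jm_cd (κ ε c1 : ℝ) {lam : Ω × ℂ → ℝ} (hl : Measurable lam)
    (hc : ∀ ω, ContinuousOn (W ω) (Icc 0 T))
    (hm : ∀ s ∈ Icc 0 T, Measurable (fun ω => W ω s)) :
    JM (m := m) T (fun p s => cd κ ε c1 (lam p) (W p.1) s p.2) := by
  have hu : JM (m := m) T (fun p s => lam p * OP.ups (W p.1) s p.2) := by
    have hφ : Measurable (fun x : ℝ × ℝ => x.1 * x.2) := by fun_prop
    exact (JM.const' hl).comp₂ (jm_ups hc hm) hφ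
  have h1 : JM (m := m) T (fun p s =>
      chi (lam p * OP.ups (W p.1) s p.2 / ε) * (lam p * OP.ups (W p.1) s p.2) ^ (κ / 8 - 1)) := by
    have hφ : Measurable (fun x : ℝ => chi (x / ε) * x ^ (κ / 8 - 1)) :=
      (measurable_chi.comp (measurable_id.div_const ε)).mul (by fun_prop)
    exact hu.comp hφ
  have h2 : JM (m := m) T (fun p s => OP.sfl (W p.1) s p.2 ^ (8 / κ - 1) *
      (if c1 ≤ OP.sfl (W p.1) s p.2 then 1 else 0) * (4 * OP.sfl (W p.1) s p.2 ^ 2 /
        ‖Zfl (W p.1) s p.2‖ ^ 2)) := by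
    have hφ : Measurable (fun x : ℝ × ℂ => x.1 ^ (8 / κ - 1) * (if c1 ≤ x.1 then (1:ℝ) else 0) *
        (4 * x.1 ^ 2 / ‖x.2‖ ^ 2)) := by
      refine Measurable.mul (Measurable.mul (by fun_prop) ?_) (by fun_prop)
      exact Measurable.ite (measurableSet_le measurable_const measurable_fst) measurable_const
        measurable_const
    exact (jm_sfl hc hm).comp₂ (jm_Zfl hc hm) hφ
  have h3 : Measurable (fun x : ℝ × ℝ => x.1 * x.2) := by fun_prop
  have h4 := h1.comp₂ h2 h3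
  convert h4 using 3
  unfold cd
  ring

/-- joint measurability of `cz` in `(ω, z)` for a jointly measurable time set -/
theorem measurable_cz (κ ε c1 : ℝ) {lam : Ω × ℂ → ℝ} (hl : Measurable lam)
    (hc : ∀ ω, ContinuousOn (W ω) (Icc 0 T))
    (hm : ∀ s ∈ Icc 0 T, Measurable (fun ω => W ω s))
    {E : Ω → Set ℝ} (hE : MeasurableSet {x : Ω × ℝ | x.2 ∈ E x.1})
    (hET : ∀ ω, E ω ⊆ Icc 0 T) :
    Measurable (fun p : Ω × ℂ => cz κ ε c1 (lam p) (W p.1) (E p.1) p.2) := by
  have h1 := (jm_cd κ ε c1 hl hc hm)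
  unfold JM at h1
  have hS : MeasurableSet {x : (Ω × ℂ) × ℝ | x.2 ∈ E x.1.1} := by
    have h2 : Measurable (fun x : (Ω × ℂ) × ℝ => (x.1.1, x.2)) :=
      (measurable_fst.comp measurable_fst).prodMk measurable_snd
    exact h2 hE
  have h2 := (h1.ennreal_ofReal.indicator hS).lintegral_prod_right' (ν := (volume : Measure ℝ))
  convert h2 using 1
  funext p
  have hsec : MeasurableSet (E p.1) := by
    have h3 : Measurable (fun s : ℝ => (p.1, s)) := measurable_const.prodMk measurable_id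
    exact h3 hE
  unfold cz
  rw [← lintegral_indicator hsec]
  refine lintegral_congr fun s => ?_
  by_cases hs : s ∈ E p.1
  · rw [indicator_of_mem hs, indicator_of_mem (show ((p, s) : (Ω × ℂ) × ℝ) ∈
      {x : (Ω × ℂ) × ℝ | x.2 ∈ E x.1.1} from hs), indicator_of_mem (hET _ hs)]
  · rw [indicator_of_notMem hs, indicator_of_notMem (show ((p, s) : (Ω × ℂ) × ℝ) ∉
      {x : (Ω × ℂ) × ℝ | x.2 ∈ E x.1.1} from hs)]

/-- **measurability of the content** in `ω`, for a state map `g ω`, path `W ω`, time set `E ω`,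
physical set `Bs ω`. -/
theorem measurable_content (κ ε c1 : ℝ) {g : Ω → ℂ → ℂ}
    (hg : Measurable (fun p : Ω × ℂ => if 0 < p.2.im then g p.1 p.2 else 0))
    (hd : Measurable (fun p : Ω × ℂ => if 0 < p.2.im then deriv (g p.1) p.2 else 0))
    (hc : ∀ ω, ContinuousOn (W ω) (Icc 0 T))
    (hm : ∀ s ∈ Icc 0 T, Measurable (fun ω => W ω s))
    {E : Ω → Set ℝ} (hE : MeasurableSet {x : Ω × ℝ | x.2 ∈ E x.1})
    (hET : ∀ ω, E ω ⊆ Icc 0 T)
    {Bs : Ω → Set ℂ} (hB : MeasurableSet {x : Ω × ℂ | x.2 ∈ Bs x.1}) :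
    Measurable (fun ω => content κ ε c1 (g ω) (W ω) (E ω) (Bs ω)) := by
  set lam : Ω × ℂ → ℝ := fun p => ‖if 0 < p.2.im then deriv (g p.1) p.2 else 0‖ with hlam
  have hl : Measurable lam := hd.norm
  have hz := measurable_cz κ ε c1 hl hc hm hE hET
  have him : MeasurableSet {p : Ω × ℂ | 0 < p.2.im} :=
    measurableSet_lt measurable_const (Complex.measurable_im.comp measurable_snd)
  have hS : MeasurableSet {p : Ω × ℂ | 0 < p.2.im ∧ g p.1 p.2 ∈ Bs p.1} := by
    have h1 : Measurable (fun p : Ω × ℂ => (p.1, if 0 < p.2.im then g p.1 p.2 else 0)) :=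
      measurable_fst.prodMk hg
    have h2 := him.inter (h1 hB)
    convert h2 using 1
    ext p
    simp only [mem_ofPred_eq, mem_inter_iff, mem_preimage]
    constructor
    · rintro ⟨h3, h4⟩
      rw [if_pos h3]; exact ⟨h3, h4⟩
    · rintro ⟨h3, h4⟩
      rw [if_pos h3] at h4; exact ⟨h3, h4⟩
  have h1 : Measurable (fun p : Ω × ℂ => ENNReal.ofReal (lam p ^ 2) *
      cz κ ε c1 (lam p) (W p.1) (E p.1) p.2) := (hl.pow_const 2).ennreal_ofReal.mul hz
  have h2 := (h1.indicator hS).lintegral_prod_right' (ν := (volume : Measure ℂ))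
  convert h2 using 1
  funext ω
  have hsec : MeasurableSet {z : ℂ | 0 < z.im ∧ g ω z ∈ Bs ω} := by
    have h3 : Measurable (fun z : ℂ => (ω, z)) := measurable_const.prodMk measurable_id
    exact h3 hS
  unfold content
  rw [← lintegral_indicator hsec]
  refine lintegral_congr fun z => ?_
  by_cases hz : z ∈ {z : ℂ | 0 < z.im ∧ g ω z ∈ Bs ω}
  · rw [indicator_of_mem hz, indicator_of_mem (show ((ω, z) : Ω × ℂ) ∈
      {p : Ω × ℂ | 0 < p.2.im ∧ g p.1 p.2 ∈ Bs p.1} from hz)]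
    simp only [hlam, if_pos hz.1]
  · rw [indicator_of_notMem hz, indicator_of_notMem (show ((ω, z) : Ω × ℂ) ∉
      {p : Ω × ℂ | 0 < p.2.im ∧ g p.1 p.2 ∈ Bs p.1} from hz)]

/-! ### `Bad3` -/

lemma I_im_pos {y : ℝ} (hy : 0 < y) : 0 < ((y : ℂ) * Complex.I).im := by simp [hy]

lemma measurable_at_pt {g : Ω → ℂ → ℂ}
    (hg : Measurable (fun p : Ω × ℂ => if 0 < p.2.im then g p.1 p.2 else 0)) {z : ℂ}
    (hz : 0 < z.im) : Measurable (fun ω => g ω z) := by
  have h := hg.comp (measurable_id.prodMk (measurable_const (a := z)))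
  simpa only [Function.comp_def, id, if_pos hz] using h

lemma measurable_deriv_at {g : Ω → ℂ → ℂ}
    (hd : Measurable (fun p : Ω × ℂ => if 0 < p.2.im then deriv (g p.1) p.2 else 0)) {z : ℂ}
    (hz : 0 < z.im) : Measurable (fun ω => deriv (g ω) z) := by
  have h := hd.comp (measurable_id.prodMk (measurable_const (a := z)))
  simpa only [Function.comp_def, id, if_pos hz] using h

/-- `v(y)` is measurable in the state -/
theorem measurable_vv {u0 : ℂ → ℝ} (hu : Measurable u0) {g : Ω → ℂ → ℂ}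
    (hg : Measurable (fun p : Ω × ℂ => if 0 < p.2.im then g p.1 p.2 else 0))
    (hd : Measurable (fun p : Ω × ℂ => if 0 < p.2.im then deriv (g p.1) p.2 else 0))
    {y : ℝ} (hy : 0 < y) : Measurable (fun ω => vv u0 (g ω) y) := by
  unfold vv KB1.ups
  refine Measurable.div ?_ (hu.comp (measurable_at_pt hg (I_im_pos hy)))
  exact measurable_const.mul (measurable_deriv_at hd (I_im_pos hy)).norm

/-- the near content in the window `win W t k` is measurable -/
theorem measurable_nearC {p : Par} (hp : p.Adm) {g : Ω → ℂ → ℂ}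
    (hg : Measurable (fun q : Ω × ℂ => if 0 < q.2.im then g q.1 q.2 else 0))
    (hd : Measurable (fun q : Ω × ℂ => if 0 < q.2.im then deriv (g q.1) q.2 else 0))
    (hx : Measurable (fun ω => p.x (g ω)))
    (hc : ∀ ω, ContinuousOn (W ω) (Icc 0 T))
    (hm : ∀ s ∈ Icc 0 T, Measurable (fun ω => W ω s))
    {E : Ω → Set ℝ} (hE : MeasurableSet {x : Ω × ℝ | x.2 ∈ E x.1})
    (hET : ∀ ω, E ω ⊆ Icc 0 T) :
    Measurable (fun ω => p.nearC (g ω) (W ω) (E ω)) := by
  have hu : Measurable p.u0 := hp.lip.continuous.measurable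
  refine measurable_content p.κ p.ε p.c1 hg hd hc hm hE hET ?_
  have h1 : MeasurableSet {q : Ω × ℂ | dist q.2 (p.x (g q.1)) < p.u0 (p.x (g q.1)) / 4} := by
    have hx' : Measurable (fun q : Ω × ℂ => p.x (g q.1)) := hx.comp measurable_fst
    exact measurableSet_lt (measurable_snd.dist hx') ((hu.comp hx').div_const 4)
  have h2 : MeasurableSet {q : Ω × ℂ | q.2 ∈ p.B} := measurable_snd hp.meas
  exact h2.inter h1

/-- `{Bad3 (g ω) (W ω) t k}` is measurable -/
theorem measurableSet_bad3 {p : Par} (hp : p.Adm) {g : Ω → ℂ → ℂ}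
    (hg : Measurable (fun q : Ω × ℂ => if 0 < q.2.im then g q.1 q.2 else 0))
    (hd : Measurable (fun q : Ω × ℂ => if 0 < q.2.im then deriv (g q.1) q.2 else 0))
    (hx : Measurable (fun ω => p.x (g ω)))
    (hc : ∀ ω, ContinuousOn (W ω) (Icc 0 T))
    (hm : ∀ s ∈ Icc 0 T, Measurable (fun ω => W ω s)) {t : ℝ} (ht : t ≤ T) (k : ℤ) :
    MeasurableSet {ω | p.Bad3 (g ω) (W ω) t k} := by
  have hu : Measurable p.u0 := hp.lip.continuous.measurable
  unfold Par.Bad3
  refine measurableSet_lt ?_ ?_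
  · have h2 : (0:ℝ) < 2 ^ k := by positivity
    exact ((measurable_vv hu hg hd h2).pow_const _).ennreal_ofReal
  · exact measurable_nearC hp hg hd hx hc hm (measurableSet_win ht hc hm k)
      (fun ω s hs => ⟨hs.1.le, hs.2.1.trans ht⟩)

end generic

/-! ### fixed state map, filtration form -/

section fixed

open Crest.ProbabilityR.Loewner Crest.Agent.R162.OS

variable {Ω : Type*} {m : MeasurableSpace Ω} {F : Filtration ℝ≥0 m} {B : ℝ≥0 → Ω → ℝ}

lemma cont_driving (hBc : ∀ ω, Continuous fun t => B t ω) (κ : ℝ) (ω : Ω) :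
    Continuous (driving κ B ω) := by
  unfold driving
  exact continuous_const.mul ((hBc ω).comp continuous_real_toNNReal)

lemma meas_driving (hBa : ∀ t, Measurable[F t] (B t)) (κ : ℝ) {t : ℝ≥0} {s : ℝ}
    (hs : s ∈ Icc 0 (t : ℝ)) : Measurable[F t] (fun ω => driving κ B ω s) := by
  have h1 : Measurable[F t] (B s.toNNReal) := by
    refine (hBa s.toNNReal).mono (F.mono ?_) le_rfl
    rw [Real.toNNReal_le_iff_le_coe]
    exact hs.2
  exact h1.const_mul _





end fixed

/-! ### parametrised form on `E × PathSp` -/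

section param

open Crest.ProbabilityR.Loewner Crest.Agent.R162.OS Crest.Agent.R162.LBbc Crest.Agent.R162.LBST

variable {E : Type*} [mE : MeasurableSpace E]

lemma measurable_EF_fst' {G : Type*} [MeasurableSpace G] {f : E × ℂ → G} (hf : Measurable f)
    (t : ℝ≥0) : Measurable[(EF E t).prod (borel ℂ)]
      (fun q : (E × PathSp) × ℂ => f (q.1.1, q.2)) := by
  have h1 : Measurable[(EF E t).prod (borel ℂ), mE.prod (borel ℂ)]
      (fun q : (E × PathSp) × ℂ => (q.1.1, q.2)) :=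
    (((measurable_fst_EF (E := E) t)).comp (@measurable_fst _ _ (EF E t) (borel ℂ))).prodMk
      (@measurable_snd _ _ (EF E t) (borel ℂ))
  exact hf.comp h1

/-- **(i), parametrised**: on `E × PathSp` with a state map `g e`, measurable in `e`. -/
theorem bad3_memE {p : Par} (hp : p.Adm) {g : E → ℂ → ℂ}
    (hg : Measurable (fun q : E × ℂ => if 0 < q.2.im then g q.1 q.2 else 0))
    (hd : Measurable (fun q : E × ℂ => if 0 < q.2.im then deriv (g q.1) q.2 else 0))
    (hx : Measurable (fun e => p.x (g e))) (κ : ℝ) (t : ℝ≥0) (k : ℤ) :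
    MeasurableSet[EF E t] {y : E × PathSp | p.Bad3 (g y.1) (driving κ (cop E) y) t k} :=
  measurableSet_bad3 (m := EF E t) (T := (t : ℝ)) hp (g := fun y => g y.1)
    (measurable_EF_fst' hg t) (measurable_EF_fst' hd t)
    (hx.comp (measurable_fst_EF t)) (fun y => (cont_driving continuous_cop κ y).continuousOn)
    (fun _ hs => meas_driving (fun s => measurable_cop le_rfl) κ hs) le_rfl k


end param

/-! ### monotonicity / right-openness -/




end Crest.Agent.R162.LBST27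
end

-- ▼ part R162/LBST27b
section

/-!
Row 162, node LB-ST (helper27): `Bad3` for the families `CFam` (helper332) and `MFam` (helper412).
-/

set_option autoImplicit false

open Set MeasureTheory Filter Topology
open scoped NNReal ENNReal

namespace Crest.Agent.R162.LBST27

open Crest.Agent.R162.FL Crest.Agent.R162.LB Crest.Agent.R162.LBM Crest.Agent.R162.LBST

variable {Ω : Type*}

lemma hg_of_mfam {m' : MeasurableSpace Ω} {g : Ω → ℂ → ℂ} (hF : MFam g) :
    Measurable (fun q : Ω × ℂ => if 0 < q.2.im then g q.1 q.2 else 0) := by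
  have h := hF.meas
  convert h using 1
  funext q
  by_cases hq : 0 < q.2.im
  · rw [if_pos hq, indicator_of_mem (show q.2 ∈ {z : ℂ | 0 < z.im} from hq)]
  · rw [if_neg hq, indicator_of_notMem (show q.2 ∉ {z : ℂ | 0 < z.im} from hq)]

lemma hd_of_mfam {m' : MeasurableSpace Ω} {g : Ω → ℂ → ℂ} (hF : MFam g) :
    Measurable (fun q : Ω × ℂ => if 0 < q.2.im then deriv (g q.1) q.2 else 0) := by
  have h := hF.deriv_meas
  convert h using 1
  funext q
  by_cases hq : 0 < q.2.im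
  · rw [if_pos hq, indicator_of_mem (show q.2 ∈ {z : ℂ | 0 < z.im} from hq)]
  · rw [if_neg hq, indicator_of_notMem (show q.2 ∉ {z : ℂ | 0 < z.im} from hq)]








end Crest.Agent.R162.LBST27
end

-- ▼ part R162/LBMe2
section

/-!
Row 162 (S0243), node LB-MEAS (helper319), part 2: the step time `T` and everything at `T`, for an
arbitrary family (`SFam`, `PFam`) and on `EE × PathSp`; `T` is a stopping time of `EF E`.
-/

set_option autoImplicit false

open Set MeasureTheory Filter Topology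
open scoped NNReal ENNReal

namespace Crest.Agent.R162.LBMe

open Crest.Agent.R162.FL Crest.Agent.R162.FLC Crest.Agent.R162.LB Crest.Agent.R162.LBM
open Crest.Agent.R162.LBMx Crest.Agent.R162.LBbc Crest.Agent.R162.LBST Crest.Agent.R162.OS
open Crest.ProbabilityR.Loewner

section gen

variable {α : Type*} [MeasurableSpace α] {p : Par} {F : α → ℂ → ℂ} {W : α → ℝ → ℝ}

lemma SFam.cfam (hF : SFam F) : CFam (inferInstance : MeasurableSpace α) F :=
  ⟨fun _ hz => hF.mf.at measurable_const (fun _ => hz), fun a => (hF.mf.diff a).continuousOn⟩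

/-- **`T` is measurable** -/
theorem SFam.T (hF : SFam F) (hp : p.Adm) (hW : PFam W) :
    Measurable (fun a => p.T (F a) (W a)) :=
  measurable_T hF.cfam hp.lip.continuous (hF.rho1 hp) (hF.x hp) hW.cont hW.meas
    (fun _ _ k => measurableSet_Bad3 p hp hF.mf hW (hF.x hp) measurable_const k)

theorem SFam.Tn (hF : SFam F) (hp : p.Adm) (hW : PFam W) :
    Measurable (fun a => LBST.Tn p (F a) (W a)) := (hF.T hp hW).real_toNNReal

/-- the new state -/
theorem SFam.st_T (hF : SFam F) (hp : p.Adm) (hW : PFam W) :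
    SFam (fun a => Par.st (F a) (W a) (p.T (F a) (W a))) :=
  hF.st hW (hF.T hp hW) (fun a => T_nonneg p (F a) (W a))

/-- content of the step -/
theorem SFam.cont_T (hF : SFam F) (hp : p.Adm) (hW : PFam W) :
    Measurable (fun a => p.cont (F a) (W a) (Ioc 0 (p.T (F a) (W a)))) :=
  measurable_cont p hp.meas hF.mf hW (hF.T hp hW)


end gen

/-! ### a fixed state map and a Brownian driving function -/

section fixed

variable {Ω : Type*} [MeasurableSpace Ω] {B : ℝ≥0 → Ω → ℝ} {f : ℂ → ℂ} {p : Par}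




end fixed

/-! ### on `E × PathSp` -/

section EP

variable {E : Type*} [MeasurableSpace E] {g : E → ℂ → ℂ} {p : Par}



/-- **`T` is a stopping time of `EF E`** (right-continuous version) -/
theorem isST_EP (hg : SFam g) (hp : p.Adm) (κ : ℝ) :
    IsST (EF E).rightCont (fun x : E × PathSp => LBST.Tn p (g x.1) (drv κ x.2.1)) := by
  refine isST_T (F := EF E) (f := fun x : E × PathSp => g x.1) (W := fun x => drv κ x.2.1)
    ⟨fun z hz => ?_, fun x => (hg.mf.diff x.1).continuousOn⟩ hp.lip.continuous ?_ ?_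
    (fun x => (continuous_drv κ x.2.2).continuousOn) (fun t s hs => ?_) (fun t q hq hqt k => ?_)
  · have h : Measurable (fun e => g e z) := hg.mf.at measurable_const (fun _ => hz)
    exact h.comp (measurable_fst_EF 0)
  · exact (hg.rho1 hp).comp (measurable_fst_EF 0)
  · exact (hg.x hp).comp (measurable_fst_EF 0)
  · have h1 : Measurable[EF E t] (cop E s.toNNReal) :=
      measurable_cop (Real.toNNReal_le_iff_le_coe.2 hs.2)
    exact h1.const_mul _
  · have h := LBST27.bad3_memE (E := E) hp (g := g) (LBST27.hg_of_mfam hg.mf)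
      (LBST27.hd_of_mfam hg.mf) (hg.x hp) κ ⟨q, hq.le⟩ k
    exact (EF E).mono (show (⟨q, hq.le⟩ : ℝ≥0) ≤ t from NNReal.coe_le_coe.1 hqt) _ h


end EP

/-! ### 384's inputs on `EE` and `EE × PathSp` -/

section EEin

variable {p : Par} (κ : ℝ)

theorem isST_EE (hp : p.Adm) :
    IsST (EF EE).rightCont (fun x => (p.T (fE κ x.1) (drv κ x.2.1)).toNNReal) :=
  isST_EP (sfam_fE κ) hp κ


theorem measurable_lam_EE (hp : p.Adm) : Measurable (fun e : EE => p.Λ (fE κ e)) :=
  (sfam_fE κ).lam hp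

theorem measurable_area_EE (hp : p.Adm) : Measurable (fun e : EE => p.A (fE κ e)) :=
  (sfam_fE κ).area hp

theorem measurable_u0x_EE (hp : p.Adm) : Measurable (fun e : EE => p.u0 (p.x (fE κ e))) :=
  (sfam_fE κ).u0x hp


/-- content collected up to time `e.2` -/
theorem measurable_cz_EE {B : Set ℂ} (hB : MeasurableSet B) (κ' ε c1 : ℝ) :
    Measurable (fun e : EE => ∫⁻ w in B, cz κ' ε c1 1 (drv κ e.1.1) (Ioc 0 (e.2 : ℝ)) w) :=
  measurable_cz_setLIntegral κ' ε c1 (pfam_drv κ measurable_fst) (fun _ _ hs => hs.1.le)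
    (measurableSet_Ioc_fam (measurable_coe_nnreal_real.comp measurable_snd)) (S := fun _ => B)
    (measurable_snd hB)

theorem measurable_cont_EE (hp : p.Adm) : Measurable (fun x : EE × PathSp =>
    p.cont (fE κ x.1) (drv κ x.2.1) (Ioc 0 (p.T (fE κ x.1) (drv κ x.2.1)))) :=
  (sfam_fE' κ).cont_T hp (pfam_snd κ)

theorem sfam_st_EE (hp : p.Adm) : SFam (fun x : EE × PathSp =>
    Par.st (fE κ x.1) (drv κ x.2.1) (p.T (fE κ x.1) (drv κ x.2.1))) :=
  (sfam_fE' κ).st_T hp (pfam_snd κ)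

theorem measurable_lam_st_EE (hp : p.Adm) : Measurable (fun x : EE × PathSp =>
    p.Λ (Par.st (fE κ x.1) (drv κ x.2.1) (p.T (fE κ x.1) (drv κ x.2.1)))) :=
  (sfam_st_EE κ hp).lam hp

theorem measurable_area_st_EE (hp : p.Adm) : Measurable (fun x : EE × PathSp =>
    p.A (Par.st (fE κ x.1) (drv κ x.2.1) (p.T (fE κ x.1) (drv κ x.2.1)))) :=
  (sfam_st_EE κ hp).area hp

end EEin

end Crest.Agent.R162.LBMe
end

-- ▼ part R162/LBNorm2
section

/-!
Row 162 (S0243), node LB-NORM, second part (helper917): from `LBNorm` to the frozen `Start` / `Ok`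
of `LBSkel` (310) for `f = ffl W t`, `u₀ = uB w₀ R`.
-/

set_option autoImplicit false

open Set MeasureTheory Complex Filter Topology
open scoped ENNReal

namespace Crest.Agent.R162.LBN

open Crest.Agent.R162.FL
open Crest.Agent.R162.LB
open Crest.Agent.R162.LBS

/-! ### `uB` -/

lemma infDist_closedBall_eq (w0 : ℂ) {R : ℝ} (hR : 0 ≤ R) (z : ℂ) :
    Metric.infDist z (Metric.closedBall w0 R) = max 0 (‖z - w0‖ - R) := by
  have hne : (Metric.closedBall w0 R).Nonempty := ⟨w0, Metric.mem_closedBall_self hR⟩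
  apply le_antisymm
  · rcases le_or_gt ‖z - w0‖ R with h | h
    · have hz : z ∈ Metric.closedBall w0 R := by rwa [mem_closedBall_iff_norm]
      rw [Metric.infDist_zero_of_mem hz]
      exact le_max_left _ _
    · refine le_trans ?_ (le_max_right _ _)
      have hpos : 0 < ‖z - w0‖ := lt_of_le_of_lt hR h
      set y : ℂ := w0 + (R / ‖z - w0‖) • (z - w0) with hy
      have hyB : y ∈ Metric.closedBall w0 R := by
        rw [mem_closedBall_iff_norm, hy, add_sub_cancel_left, norm_smul, Real.norm_eq_abs,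
          abs_of_nonneg (by positivity)]
        exact le_of_eq (by field_simp)
      refine (Metric.infDist_le_dist_of_mem hyB).trans (le_of_eq ?_)
      have e : z - y = (1 - R / ‖z - w0‖) • (z - w0) := by
        rw [hy, sub_smul, one_smul]; ring
      have h1 : 0 ≤ 1 - R / ‖z - w0‖ := by
        rw [sub_nonneg, div_le_one hpos]; exact h.le
      rw [dist_eq_norm, e, norm_smul, Real.norm_eq_abs, abs_of_nonneg h1]
      field_simp
  · rw [Metric.le_infDist hne]
    intro y hy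
    rw [Metric.mem_closedBall] at hy
    refine max_le dist_nonneg ?_
    have := dist_triangle z y w0
    rw [← dist_eq_norm]
    linarith

lemma uB_eq (w0 : ℂ) {R : ℝ} (hR : 0 ≤ R) (z : ℂ) : uB w0 R z = max 1 (‖z - w0‖ - R) := by
  rw [uB, infDist_closedBall_eq w0 hR, ← max_assoc, max_eq_left (zero_le_one' ℝ)]

lemma uB_eq' (w0 : ℂ) {R : ℝ} (hR : 0 ≤ R) : uB w0 R = fun z => max 1 (‖z - w0‖ - R) :=
  funext fun z => uB_eq w0 hR z

lemma one_le_uB (w0 : ℂ) (R : ℝ) (z : ℂ) : 1 ≤ uB w0 R z := le_max_left _ _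

lemma uB_lip (w0 : ℂ) {R : ℝ} (hR : 0 ≤ R) : LipschitzWith 1 (uB w0 R) := by
  rw [uB_eq' w0 hR]; exact u0_lip w0 R

lemma uB_le_dist (w0 : ℂ) {R : ℝ} (hR : 0 ≤ R) {w : ℂ} (hw : w ∈ Metric.closedBall w0 R) (z : ℂ) :
    uB w0 R z ≤ max 1 (dist z w) := by
  rw [uB_eq w0 hR]; exact u0_le_dist w0 hw z

lemma adm_mkP {κ c1 q η cs K4 K3 θ ε : ℝ} (w0 : ℂ) {R : ℝ} (hR : 0 ≤ R) :
    (mkP κ c1 q η cs K4 K3 θ ε (Metric.closedBall w0 R) (uB w0 R)).Adm where
  lip := uB_lip w0 hR
  one_le := one_le_uB w0 R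
  meas := measurableSet_closedBall
  le_dist := fun _ hw z => uB_le_dist w0 hR hw z

/-- `Ok` for the concrete `u₀`, `B` -/
lemma ok_mkP {κ c1 q η cs K4 K3 θ ε : ℝ} (w0 : ℂ) {R : ℝ} (hR : 0 ≤ R) (κ0 : 0 < κ) (κ8 : κ < 8)
    (ε0 : 0 < ε) (c10 : 0 < c1) (c11 : c1 < 1) (q0 : 0 < q) (η0 : 0 < η)
    (qη : 4 * q + 2 * η ≤ 1 / 2) (θ0 : 0 < θ) (θ1 : θ < 1 / 2) (h3 : 1 ≤ K3) (h4 : 1 ≤ K4)
    (hcs : 0 < cs) : Ok (mkP κ c1 q η cs K4 K3 θ ε (Metric.closedBall w0 R) (uB w0 R)) where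
  adm := adm_mkP w0 hR
  bdd := Metric.isBounded_closedBall
  κ0 := κ0
  κ8 := κ8
  ε0 := ε0
  c10 := c10
  c11 := c11
  q0 := q0
  η0 := η0
  qη := qη
  θ0 := θ0
  θ1 := θ1
  K3 := h3
  K4 := h4
  cs0 := hcs

/-! ### `Jv` and `Lam` -/







/-! ### `Start` -/






end Crest.Agent.R162.LBN
end

-- ▼ part R162/LBExpS
section

/-!
Row 162 (S0243), LB-EXP, sub-lemma START (helper797): `Λ(ffl W t) ≠ ⊤` gives a start map.
-/

set_option autoImplicit false

open Set MeasureTheory Filter Topology Complex Metric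
open scoped ENNReal

namespace Crest.Agent.R162.LBExpS

open Crest.Agent.R162.FL Crest.Agent.R162.LB Crest.Agent.R162.LBS

/-- distance to a closed ball -/
lemma infDist_closedBall {w0 : ℂ} {R : ℝ} (hR : 0 ≤ R) (z : ℂ) :
    Metric.infDist z (Metric.closedBall w0 R) = max (‖z - w0‖ - R) 0 := by
  have hne : (Metric.closedBall w0 R).Nonempty := ⟨w0, Metric.mem_closedBall_self hR⟩
  apply le_antisymm
  · rcases le_or_gt ‖z - w0‖ R with h | h
    · have hz : z ∈ Metric.closedBall w0 R := by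
        rw [Metric.mem_closedBall, dist_eq_norm]; exact h
      rw [Metric.infDist_zero_of_mem hz]
      exact le_max_right _ _
    · have hn : 0 < ‖z - w0‖ := lt_of_le_of_lt hR h
      set p : ℂ := w0 + ((R / ‖z - w0‖ : ℝ) : ℂ) * (z - w0) with hp
      have hpm : p ∈ Metric.closedBall w0 R := by
        rw [Metric.mem_closedBall, dist_eq_norm, hp, add_sub_cancel_left, norm_mul,
          Complex.norm_real, Real.norm_eq_abs, abs_of_nonneg (by positivity)]
        exact le_of_eq (div_mul_cancel₀ _ hn.ne')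
      have hd : dist z p = ‖z - w0‖ - R := by
        have e : z - p = ((1 - R / ‖z - w0‖ : ℝ) : ℂ) * (z - w0) := by
          rw [hp]; push_cast; ring
        have h1 : R / ‖z - w0‖ ≤ 1 := (div_le_one hn).2 h.le
        rw [dist_eq_norm, e, norm_mul, Complex.norm_real, Real.norm_eq_abs,
          abs_of_nonneg (by linarith)]
        field_simp
      exact (Metric.infDist_le_dist_of_mem hpm).trans (hd.le.trans (le_max_left _ _))
  · refine max_le ?_ Metric.infDist_nonneg
    rw [Metric.le_infDist hne]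
    intro y hy
    rw [Metric.mem_closedBall, dist_eq_norm] at hy
    have h1 : ‖z - w0‖ ≤ ‖z - y‖ + ‖y - w0‖ := by
      have : z - w0 = (z - y) + (y - w0) := by ring
      rw [this]; exact norm_add_le _ _
    rw [dist_eq_norm]; linarith

lemma uB_eq {w0 : ℂ} {R : ℝ} (hR : 0 ≤ R) : uB w0 R = fun p => max 1 (‖p - w0‖ - R) := by
  funext z
  rw [uB, infDist_closedBall hR]
  rcases le_total (‖z - w0‖ - R) 0 with h | h
  · rw [max_eq_right h, max_eq_left (by norm_num : (0:ℝ) ≤ 1), max_eq_left (by linarith)]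
  · rw [max_eq_left h]

/-- `vv → 1` at infinity for `u₀ = uB` -/
theorem tendsto_vv {W : ℝ → ℝ} {t : ℝ} (hW : ContinuousOn W (Ici 0)) (ht : 0 ≤ t) {w0 : ℂ} {R : ℝ}
    (hR : 0 ≤ R) : Tendsto (vv (uB w0 R) (ffl W t)) atTop (𝓝 1) := by
  rw [uB_eq hR]
  exact (LBN.normInf_ffl hW ht).tendsto_vv w0 R

/-- conformal radius of the image is at most twice the height of the image point -/
lemma ups_le_two_im {W : ℝ → ℝ} {t : ℝ} (hW : ContinuousOn W (Ici 0)) (ht : 0 ≤ t) {z : ℂ}
    (hz : 0 < z.im) : KB1.ups (ffl W t) z ≤ 2 * (ffl W t z).im := by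
  by_contra hcon
  push Not at hcon
  have hb := KB.kb2 (FLC.differentiableOn_ffl hW ht) (FLC.injOn_ffl hW ht) hz
  have hi : 0 < (ffl W t z).im := FLC.ffl_im_pos hW ht hz
  set w : ℂ := ffl W t z with hw
  have hmem : (w - ((w.im : ℝ) : ℂ) * I) ∈ ball w (z.im * ‖deriv (ffl W t) z‖ / 2) := by
    rw [mem_ball, dist_eq_norm]
    have e : w - ((w.im : ℝ) : ℂ) * I - w = -(((w.im : ℝ) : ℂ) * I) := by ring
    rw [e, norm_neg, norm_mul, Complex.norm_I, mul_one, Complex.norm_real, Real.norm_eq_abs,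
      abs_of_pos hi]
    unfold KB1.ups at hcon
    linarith
  obtain ⟨u, hu, hu'⟩ := hb hmem
  have h2 : 0 < (ffl W t u).im := FLC.ffl_im_pos hW ht hu
  rw [hu'] at h2
  simp at h2

/-- `mm` is bounded on bounded parts of the imaginary axis -/
theorem mm_bdd {W : ℝ → ℝ} {t : ℝ} (hW : ContinuousOn W (Ici 0)) (ht : 0 ≤ t) {u0 : ℂ → ℝ}
    (hu : LipschitzWith 1 u0) (Y : ℝ) :
    ∃ M : ℝ, 0 < M ∧ ∀ y : ℝ, 0 < y → y ≤ Y → mm u0 (ffl W t) (y * I) ≤ M := by
  obtain ⟨K, hK⟩ := (isCompact_Icc (a := (0:ℝ)) (b := t)).exists_bound_of_continuousOn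
    (hW.mono fun s hs => hs.1)
  have hK' : ∀ s ∈ Icc (0 : ℝ) t, |W s| ≤ K := fun s hs => by
    have := hK s hs; rwa [Real.norm_eq_abs] at this
  have hK0 : 0 ≤ K := (abs_nonneg _).trans (hK' t ⟨ht, le_rfl⟩)
  set M0 : ℝ := |Y| + 3 * K + 9 * t + 1 with hM0
  have hM0p : 0 < M0 := by positivity
  refine ⟨2 * M0 + |u0 0|, by positivity, fun y hy hyY => ?_⟩
  have hz : 0 < ((y : ℂ) * I).im := by simpa using hy
  have h1 := LB6.norm_ffl_sq_le hW ht hz hK'
  have h2 : ‖(y : ℂ) * I + W t‖ ≤ |Y| + K := by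
    refine (norm_add_le _ _).trans ?_
    rw [norm_mul, Complex.norm_I, mul_one, Complex.norm_real, Complex.norm_real, Real.norm_eq_abs,
      Real.norm_eq_abs]
    have := hK' t ⟨ht, le_rfl⟩
    have h3 : |y| ≤ |Y| := by
      rw [abs_of_pos hy]; exact hyY.trans (le_abs_self _)
    linarith
  have h4 : ‖ffl W t (y * I)‖ ≤ M0 := by
    have h5 : ‖ffl W t (y * I)‖ ^ 2 ≤ M0 ^ 2 := by
      refine h1.trans ?_
      have h6 : max (‖(y : ℂ) * I + W t‖ ^ 2) (4 * K ^ 2) ≤ (|Y| + 2 * K) ^ 2 := by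
        refine max_le ?_ ?_
        · exact pow_le_pow_left₀ (norm_nonneg _) (by linarith) 2
        · have := abs_nonneg Y; nlinarith
      have := abs_nonneg Y
      rw [hM0]
      nlinarith
    exact (abs_le_of_sq_le_sq' h5 hM0p.le).2
  have h7 := ups_le_two_im hW ht hz
  have h8 : (ffl W t (y * I)).im ≤ ‖ffl W t (y * I)‖ := (le_abs_self _).trans (Complex.abs_im_le_norm _)
  have h9 : u0 (ffl W t (y * I)) ≤ |u0 0| + M0 := by
    have h10 := hu.dist_le_mul (ffl W t (y * I)) 0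
    rw [Real.dist_eq, dist_zero_right, NNReal.coe_one, one_mul] at h10
    have h11 := le_abs_self (u0 (ffl W t (y * I)) - u0 0)
    have h12 := le_abs_self (u0 0)
    linarith
  refine max_le ?_ ?_
  · have := abs_nonneg (u0 0)
    linarith
  · linarith


/-- `min(v,1)^q = Ψ m^η` -/
lemma min_vv_rpow {u0 : ℂ → ℝ} (h1 : ∀ z, 1 ≤ u0 z) {q η : ℝ} {f : ℂ → ℂ} {y : ℝ} (hy : 0 ≤ y) :
    (min (vv u0 f y) 1) ^ q = Psi u0 q η f (y * I) * mm u0 f (y * I) ^ η := by
  have hu : 0 ≤ KB1.ups f (y * I) := LBN.ups_nonneg f hy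
  have hm : 1 ≤ mm u0 f (y * I) := LBN.mm_ge_one h1 f (y * I)
  have hm0 : 0 < mm u0 f (y * I) := by linarith
  have h2 : 0 < u0 (f (y * I)) := by linarith [h1 (f (y * I))]
  have e : min (vv u0 f y) 1 = KB1.ups f (y * I) / mm u0 f (y * I) := by
    unfold vv mm
    rcases le_total (KB1.ups f (y * I)) (u0 (f (y * I))) with h | h
    · rw [max_eq_right h, min_eq_left ((div_le_one h2).2 h)]
    · have h3 : 0 < KB1.ups f (y * I) := lt_of_lt_of_le h2 h
      rw [max_eq_left h, min_eq_right ((one_le_div h2).2 h), div_self h3.ne']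
  rw [e, Real.div_rpow hu hm0.le, Psi, mul_assoc, ← Real.rpow_add hm0]
  have e2 : -q - η + η = -q := by ring
  rw [e2, Real.rpow_neg hm0.le, div_eq_mul_inv]

/-- `J < ∞` from `Λ < ∞` -/
theorem J_ne_top {W : ℝ → ℝ} {t : ℝ} (hW : ContinuousOn W (Ici 0)) (ht : 0 ≤ t) {u0 : ℂ → ℝ}
    (hu : LipschitzWith 1 u0) (h1 : ∀ z, 1 ≤ u0 z) {q η : ℝ} (hη : 0 ≤ η)
    (hL : Lam u0 q η (ffl W t) ≠ ⊤) (Y : ℝ) : Jv u0 q (ffl W t) Y ≠ ⊤ := by
  obtain ⟨M, hM, hb⟩ := mm_bdd hW ht hu Y
  have hle : Jv u0 q (ffl W t) Y ≤ ENNReal.ofReal (M ^ η) * Lam u0 q η (ffl W t) := by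
    unfold Jv Lam
    rw [← lintegral_const_mul' _ _ ENNReal.ofReal_ne_top]
    refine (setLIntegral_mono' measurableSet_Ioc fun s hs => ?_).trans
      (lintegral_mono_set fun s hs => hs.1)
    rw [← ENNReal.ofReal_mul (by positivity)]
    refine ENNReal.ofReal_le_ofReal ?_
    rw [min_vv_rpow (η := η) h1 hs.1.le]
    have hm1 : 1 ≤ mm u0 (ffl W t) (s * I) := LBN.mm_ge_one h1 _ _
    have hP : 0 ≤ Psi u0 q η (ffl W t) (s * I) := by
      unfold Psi
      have := LBN.ups_nonneg (ffl W t) hs.1.le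
      positivity
    have hp : mm u0 (ffl W t) (s * I) ^ η ≤ M ^ η :=
      Real.rpow_le_rpow (by linarith) (hb s hs.1 hs.2) hη
    have hs0 : 0 < s := hs.1
    rw [mul_div_assoc', div_le_div_iff_of_pos_right hs0]
    nlinarith
  exact ne_top_of_le_ne_top (ENNReal.mul_ne_top ENNReal.ofReal_ne_top hL) hle

/-- **START**: the flow map is a start map as soon as `Λ < ∞` -/
theorem start_of_lam {p : LB.Par} (hp : LBS.Ok p) {w0 : ℂ} {R : ℝ} (hR : 0 ≤ R)
    (hu0 : p.u0 = uB w0 R) {W : ℝ → ℝ} (hW : LBS.Drive W) {t : ℝ} (ht : 0 ≤ t)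
    (hL : p.Λ (ffl W t) ≠ ⊤) : LBS.Start p (ffl W t) where
  univ := ⟨FLC.differentiableOn_ffl hW.cont ht, FLC.injOn_ffl hW.cont ht⟩
  v_tendsto := by rw [hu0]; exact tendsto_vv hW.cont ht hR
  lam := hL
  J_ne_top := fun y => J_ne_top hW.cont ht hp.adm.lip hp.adm.one_le hp.η0.le hL y

end Crest.Agent.R162.LBExpS
end

-- ▼ part R162/LBBr2
section

/-!
Row 162 (S0243), LOWER BOUND: bridge, second part (owner helper888).

* points with `im ≤ 0` never carry content, so `content_global`, `mu_eq_content` hold for every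
  measurable `B`;
* the content density is bounded: `∫⁻ w in B, cz ... < ⊤` for bounded `B`;
* additivity over consecutive time intervals of the integrated content.
-/

set_option autoImplicit false

open Set MeasureTheory Complex
open scoped ENNReal

namespace Crest.Agent.R162.LB

open Crest.Agent.R162.FL
open Crest.Agent.R162.FLC (isOpen_H ffl_im_pos ffl_alive)

variable {W : ℝ → ℝ} {t s : ℝ} {z : ℂ}

lemma cd_of_im_nonpos {κ ε c1 lam : ℝ} {W : ℝ → ℝ} {s : ℝ} {w : ℂ} (h : w.im ≤ 0) :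
    cd κ ε c1 lam W s w = 0 :=
  cd_of_dead fun h' => absurd h'.im_pos (not_lt.2 h)

lemma cz_of_im_nonpos {κ ε c1 lam : ℝ} {W : ℝ → ℝ} {E : Set ℝ} {w : ℂ} (h : w.im ≤ 0) :
    cz κ ε c1 lam W E w = 0 := by
  simp [cz, cd_of_im_nonpos h]

lemma setLIntegral_cz_inter {κ ε c1 lam : ℝ} {W : ℝ → ℝ} {E : Set ℝ} {B : Set ℂ}
    (_hB : MeasurableSet B) :
    ∫⁻ w in B, cz κ ε c1 lam W E w = ∫⁻ w in B ∩ {z : ℂ | 0 < z.im}, cz κ ε c1 lam W E w := by
  have hH : MeasurableSet {z : ℂ | 0 < z.im} := isOpen_H.measurableSet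
  have h : (fun w => cz κ ε c1 lam W E w) =
      ({z : ℂ | 0 < z.im}).indicator (fun w => cz κ ε c1 lam W E w) := by
    ext w
    by_cases hw : 0 < w.im
    · rw [indicator_of_mem (by exact hw)]
    · rw [indicator_of_notMem (by exact hw), cz_of_im_nonpos (not_lt.1 hw)]
  conv_lhs => rw [h]
  rw [setLIntegral_indicator hH, inter_comm]

lemma content_inter {κ ε c1 : ℝ} {f : ℂ → ℂ} {W : ℝ → ℝ} {E : Set ℝ} {B : Set ℂ}
    (hf : MapsTo f {z | 0 < z.im} {z | 0 < z.im}) :
    content κ ε c1 f W E B = content κ ε c1 f W E (B ∩ {z : ℂ | 0 < z.im}) := by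
  have : {z : ℂ | 0 < z.im ∧ f z ∈ B} = {z : ℂ | 0 < z.im ∧ f z ∈ B ∩ {z : ℂ | 0 < z.im}} := by
    ext z
    exact ⟨fun h => ⟨h.1, h.2, hf h.1⟩, fun h => ⟨h.1, h.2.1⟩⟩
  rw [content, content, this]

/-- **BR3''** `content_global` for every measurable `B` -/
theorem content_global' {κ ε c1 : ℝ} (hW : ContinuousOn W (Ici 0)) (ht : 0 ≤ t)
    {E : Set ℝ} (hE : MeasurableSet E) (hE0 : E ⊆ Ici 0) {B : Set ℂ} (hB : MeasurableSet B) :
    ∫⁻ w in B, cz κ ε c1 1 W ((fun s => t + s) '' E) w =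
      content κ ε c1 (ffl W t) (shift W t) E B := by
  rw [setLIntegral_cz_inter hB, content_inter (fun z hz => ffl_im_pos hW ht hz)]
  exact content_global hW ht hE hE0 (hB.inter isOpen_H.measurableSet) inter_subset_right

/-- interval form of `content_global'` -/
theorem content_global_Ioc {κ ε c1 : ℝ} (hW : ContinuousOn W (Ici 0)) (hs : 0 ≤ s)
    {B : Set ℂ} (hB : MeasurableSet B) (t : ℝ) :
    ∫⁻ w in B, cz κ ε c1 1 W (Ioc s (s + t)) w =
      content κ ε c1 (ffl W s) (shift W s) (Ioc 0 t) B := by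
  have h := content_global' (κ := κ) (ε := ε) (c1 := c1) hW hs
    (measurableSet_Ioc : MeasurableSet (Ioc 0 t)) (fun x hx => hx.1.le) hB
  rw [Set.image_const_add_Ioc, add_zero] at h
  exact h




/-! ### finiteness -/

/-- **(c4)** integrated density bound -/
theorem setLIntegral_cz_le {κ ε c1 lam : ℝ} (hκ : 0 < κ) (hκ8 : κ < 8) (hε : 0 < ε)
    (hl : 0 ≤ lam) (hW : ContinuousOn W (Ici 0)) (E : Set ℝ) (B : Set ℂ) :
    ∫⁻ w in B, cz κ ε c1 lam W E w ≤ ENNReal.ofReal (ε ^ (κ / 8 - 1)) * volume B :=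
  (lintegral_mono fun w => LBInD.cz_le hκ hκ8 hε hl hW E w).trans (setLIntegral_const _ _).le

/-- **(c4)** -/
theorem setLIntegral_cz_ne_top {κ ε c1 lam : ℝ} (hκ : 0 < κ) (hκ8 : κ < 8) (hε : 0 < ε)
    (hl : 0 ≤ lam) (hW : ContinuousOn W (Ici 0)) (E : Set ℝ) {B : Set ℂ}
    (hB : Bornology.IsBounded B) : ∫⁻ w in B, cz κ ε c1 lam W E w ≠ ⊤ := by
  refine ne_top_of_le_ne_top ?_ (setLIntegral_cz_le hκ hκ8 hε hl hW E B)
  exact ENNReal.mul_ne_top ENNReal.ofReal_ne_top hB.measure_lt_top.ne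



end Crest.Agent.R162.LB
end

-- ▼ part R162/LBCoc2
section

/-!
Row 162 (S0243), LB-EXP inputs (c2), (c3) and the extension of (c1) to arbitrary sets (helper275):
joint measurability of the content density, additivity of the content in time, and the fact that
the content collected during `(0,t]` depends only on the driving function on `[0,t]`.
-/

set_option autoImplicit false

open Set MeasureTheory Complex
open scoped ENNReal

namespace Crest.Agent.R162.LBCoc2

open Crest.Agent.R162.FL Crest.Agent.R162.FLC Crest.Agent.R162.LB Crest.Agent.R162.FLD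

/-! ### congruence in the driving function -/

section congr

variable {W W' : ℝ → ℝ} {s t : ℝ}

lemma Zfl_congr (h : EqOn W W' (Icc 0 t)) (hs : s ∈ Icc 0 t) (z : ℂ) :
    Zfl W s z = Zfl W' s z := by
  have h' : ∀ u ∈ Icc 0 s, W u = W' u := fun u hu => h ⟨hu.1, hu.2.trans hs.2⟩
  rw [Zfl, Zfl, gfl_congr h', h hs]

lemma ups_congr (h : EqOn W W' (Icc 0 t)) (hs : s ∈ Icc 0 t) (z : ℂ) :
    OP.ups W s z = OP.ups W' s z := by
  have h' : ∀ u ∈ Icc 0 s, W u = W' u := fun u hu => h ⟨hu.1, hu.2.trans hs.2⟩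
  rw [OP.ups, OP.ups, gfl_congr h']
  congr 2
  refine intervalIntegral.integral_congr fun u hu => ?_
  rw [uIcc_of_le hs.1] at hu
  show 2 * (((Zfl W u z) ^ 2)⁻¹).re = 2 * (((Zfl W' u z) ^ 2)⁻¹).re
  rw [Zfl_congr h ⟨hu.1, hu.2.trans hs.2⟩]

lemma sfl_congr (h : EqOn W W' (Icc 0 t)) (hs : s ∈ Icc 0 t) (z : ℂ) :
    OP.sfl W s z = OP.sfl W' s z := by
  rw [OP.sfl, OP.sfl, Zfl_congr h hs]

lemma cd_congr {κ ε c1 lam : ℝ} (h : EqOn W W' (Icc 0 t)) (hs : s ∈ Icc 0 t) (z : ℂ) :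
    cd κ ε c1 lam W s z = cd κ ε c1 lam W' s z := by
  rw [cd, cd, Zfl_congr h hs, ups_congr h hs, sfl_congr h hs]

lemma cz_congr {κ ε c1 lam : ℝ} (h : EqOn W W' (Icc 0 t)) {E : Set ℝ} (hE : MeasurableSet E)
    (hEt : E ⊆ Icc 0 t) (z : ℂ) : cz κ ε c1 lam W E z = cz κ ε c1 lam W' E z := by
  rw [cz, cz]
  refine setLIntegral_congr_fun hE fun s hs => ?_
  simp only [cd_congr h (hEt hs)]

/-- **(c3)**, for all measurable sets of times in `[0,t]` -/
theorem content_congr_drive {κ ε c1 : ℝ} {f : ℂ → ℂ} (h : EqOn W W' (Icc 0 t)) {E : Set ℝ}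
    (hE : MeasurableSet E) (hEt : E ⊆ Icc 0 t) (B : Set ℂ) :
    content κ ε c1 f W E B = content κ ε c1 f W' E B := by
  rw [content, content]
  refine lintegral_congr fun z => ?_
  rw [cz_congr h hE hEt]

/-- **(c3)** -/
theorem c3 {κ ε c1 : ℝ} {f : ℂ → ℂ} (h : EqOn W W' (Icc 0 t)) (B : Set ℂ) :
    content κ ε c1 f W (Ioc 0 t) B = content κ ε c1 f W' (Ioc 0 t) B :=
  content_congr_drive h measurableSet_Ioc Ioc_subset_Icc_self B

end congr

/-! ### measurability -/

section meas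

variable {Ω : Type*} {m : MeasurableSpace Ω} {W : Ω → ℝ → ℝ} {T : ℝ}

/-- the content density as a function of `(lam, Υ, Z)` -/
noncomputable def cdF (κ ε c1 : ℝ) (x : ℝ × ℝ × ℂ) : ℝ :=
  chi (x.1 * x.2.1 / ε) * (x.1 * x.2.1) ^ (κ / 8 - 1) * (x.2.2.im / ‖x.2.2‖) ^ (8 / κ - 1) *
    (if c1 ≤ x.2.2.im / ‖x.2.2‖ then 1 else 0) *
    (4 * (x.2.2.im / ‖x.2.2‖) ^ 2 / ‖x.2.2‖ ^ 2)

lemma measurable_cdF (κ ε c1 : ℝ) : Measurable (cdF κ ε c1) := by
  unfold cdF
  have h1 : Measurable fun x : ℝ × ℝ × ℂ => chi (x.1 * x.2.1 / ε) :=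
    measurable_chi.comp (by fun_prop)
  have h2 : Measurable fun x : ℝ × ℝ × ℂ => x.2.2.im / ‖x.2.2‖ := by fun_prop
  have h3 : Measurable fun x : ℝ × ℝ × ℂ =>
      (if c1 ≤ x.2.2.im / ‖x.2.2‖ then (1:ℝ) else 0) :=
    Measurable.ite (measurableSet_le measurable_const h2) measurable_const measurable_const
  have h4 : Measurable fun x : ℝ × ℝ × ℂ => (x.1 * x.2.1) ^ (κ / 8 - 1) := by fun_prop
  have h5 : Measurable fun x : ℝ × ℝ × ℂ => (x.2.2.im / ‖x.2.2‖) ^ (8 / κ - 1) := by fun_prop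
  have h6 : Measurable fun x : ℝ × ℝ × ℂ => 4 * (x.2.2.im / ‖x.2.2‖) ^ 2 / ‖x.2.2‖ ^ 2 := by
    fun_prop
  exact (((h1.mul h4).mul h5).mul h3).mul h6


theorem jm_cd (κ ε c1 : ℝ) {lam : Ω × ℂ → ℝ} (hl : Measurable lam)
    (hc : ∀ ω, ContinuousOn (W ω) (Icc 0 T)) (hm : ∀ s ∈ Icc 0 T, Measurable (fun ω => W ω s)) :
    JM (m := m) T (fun p s => cd κ ε c1 (lam p) (W p.1) s p.2) := by
  have h1 : JM (m := m) T (fun p (_ : ℝ) => lam p) :=
    JM.of_eq (F := fun x => lam x.1) (hl.comp measurable_fst) (fun x _ => rfl)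
  have h2 := (jm_ups (m := m) hc hm).comp₂ (jm_Zfl hc hm) (φ := fun x : ℝ × ℂ => x) measurable_id
  exact h1.comp₂ h2 (φ := fun x : ℝ × ℝ × ℂ => cdF κ ε c1 x) (measurable_cdF κ ε c1)

/-- joint measurability of the content density `cz` in `(ω, z)` -/
theorem measurable_cz (κ ε c1 : ℝ) {lam : Ω × ℂ → ℝ} (hl : Measurable lam)
    (hc : ∀ ω, ContinuousOn (W ω) (Icc 0 T)) (hm : ∀ s ∈ Icc 0 T, Measurable (fun ω => W ω s))
    {E : Set ℝ} (hE : MeasurableSet E) (hET : E ⊆ Icc 0 T) :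
    Measurable (fun p : Ω × ℂ => cz κ ε c1 (lam p) (W p.1) E p.2) := by
  have h := jm_cd (m := m) κ ε c1 hl hc hm
  unfold JM at h
  have h2 : Measurable (fun p : Ω × ℂ => ∫⁻ s, E.indicator (fun s => ENNReal.ofReal
      ((Icc 0 T).indicator (fun s => cd κ ε c1 (lam p) (W p.1) s p.2) s)) s) := by
    refine Measurable.lintegral_prod_right' (f := fun x : (Ω × ℂ) × ℝ =>
      E.indicator (fun s => ENNReal.ofReal
        ((Icc 0 T).indicator (fun s => cd κ ε c1 (lam x.1) (W x.1.1) s x.1.2) s)) x.2) ?_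
    have h3 := h.ennreal_ofReal.indicator (measurable_snd hE)
    convert h3 using 1
    funext x
    by_cases hx : x.2 ∈ E
    · rw [indicator_of_mem hx, indicator_of_mem (show x ∈ Prod.snd ⁻¹' E from hx)]
    · rw [indicator_of_notMem hx, indicator_of_notMem (show x ∉ Prod.snd ⁻¹' E from hx)]
  convert h2 using 1
  funext p
  rw [cz, ← lintegral_indicator hE]
  refine lintegral_congr fun s => ?_
  by_cases hs : s ∈ E
  · rw [indicator_of_mem hs, indicator_of_mem hs, indicator_of_mem (hET hs)]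
  · rw [indicator_of_notMem hs, indicator_of_notMem hs]

end meas

section fixed

variable {W : ℝ → ℝ} {s t : ℝ}

/-- measurability of `z ↦ cz`, one path -/
theorem measurable_cz_pt (κ ε c1 : ℝ) {lam : ℂ → ℝ} (hl : Measurable lam)
    (hW : ContinuousOn W (Ici 0)) {T : ℝ} {E : Set ℝ} (hE : MeasurableSet E)
    (hET : E ⊆ Icc 0 T) : Measurable (fun z : ℂ => cz κ ε c1 (lam z) W E z) := by
  have h := measurable_cz (Ω := Unit) (m := inferInstance) (W := fun _ => W) (T := T) κ ε c1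
    (lam := fun p => lam p.2) (hl.comp measurable_snd)
    (fun _ => hW.mono fun x hx => hx.1) (fun _ _ => measurable_const) hE hET
  have h2 : Measurable fun z : ℂ => (((), z) : Unit × ℂ) := measurable_const.prodMk measurable_id
  have h3 := Measurable.comp h h2
  simpa only [Function.comp_def] using h3

/-- **(c2)** -/
theorem c2 {κ ε c1 : ℝ} (hW : ContinuousOn W (Ici 0)) (hs : 0 ≤ s) (ht : 0 ≤ t) (B : Set ℂ) :
    ∫⁻ w in B, cz κ ε c1 1 W (Ioc 0 (s + t)) w =
      (∫⁻ w in B, cz κ ε c1 1 W (Ioc 0 s) w) +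
        ∫⁻ w in B, cz κ ε c1 1 W (Ioc s (s + t)) w := by
  have hu : Ioc 0 (s + t) = Ioc 0 s ∪ Ioc s (s + t) :=
    (Ioc_union_Ioc_eq_Ioc hs (by linarith)).symm
  have hd : Disjoint (Ioc 0 s) (Ioc s (s + t)) := by
    rw [Set.disjoint_left]
    intro x hx hx'
    exact absurd hx.2 (not_le.2 hx'.1)
  have hm : Measurable fun w : ℂ => cz κ ε c1 1 W (Ioc 0 s) w :=
    measurable_cz_pt κ ε c1 (lam := fun _ => 1) measurable_const hW
      measurableSet_Ioc (T := s) Ioc_subset_Icc_self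
  rw [← lintegral_add_left hm]
  refine lintegral_congr fun w => ?_
  rw [hu, cz_union measurableSet_Ioc hd]







end fixed

end Crest.Agent.R162.LBCoc2
end

-- ▼ part R162/LB6d
section

/-!
Row 162 (S0243), node LB6, fourth part: the pathwise input `hxb` of `main_top` for the frozen
definitions of `LBDefs`: `u0 (x_n)` stays bounded as long as `T_n` does.
-/

set_option autoImplicit false

open Set MeasureTheory Filter Topology
open scoped NNReal ENNReal

namespace Crest.Agent.R162.LB6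

open FL FLC LB

variable {p : Par} {W : ℝ → ℝ}

lemma Par.Adm.u0_le (h : p.Adm) (z : ℂ) : p.u0 z ≤ p.u0 0 + ‖z‖ := by
  have h1 := h.lip.dist_le_mul z 0
  rw [NNReal.coe_one, one_mul, dist_zero_right, Real.dist_eq] at h1
  linarith [le_abs_self (p.u0 z - p.u0 0)]

/-- On a bounded time interval `y_x (f_t) ≤ y1` and `|f_t (i y)| ≤ M` for `0 < y ≤ y1`. -/
theorem yx_le_and_bdd (h : p.Adm) (hθ0 : 0 ≤ p.θ) (hθ : p.θ < 1) (hW : ContinuousOn W (Ici 0))
    {S : ℝ} (hS : 0 ≤ S) :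
    ∃ y1 : ℝ, 0 < y1 ∧ ∃ M : ℝ, ∀ t ∈ Icc (0 : ℝ) S,
      (∀ y : ℝ, y1 ≤ y → p.θ ≤ vv p.u0 (ffl W t) y) ∧ p.y (ffl W t) ≤ y1 ∧
      (∀ y : ℝ, 0 < y → y ≤ y1 → ‖ffl W t (y * Complex.I)‖ ≤ M) := by
  have hC : 0 ≤ p.u0 0 := zero_le_one.trans (h.one_le 0)
  obtain ⟨y1, hy1, M, hM⟩ := tip_bounds hW hS hθ0 hθ hC
  refine ⟨y1, hy1, M, fun t ht => ?_⟩
  have hv : ∀ y : ℝ, y1 ≤ y → p.θ ≤ vv p.u0 (ffl W t) y := by
    intro y hy
    have hpos : 0 < p.u0 (ffl W t (y * Complex.I)) :=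
      lt_of_lt_of_le zero_lt_one (h.one_le _)
    have h1 := (hM t ht).1 y hy
    have h2 := Par.Adm.u0_le h (ffl W t (y * Complex.I))
    unfold vv
    rw [le_div_iff₀ hpos]
    have h3 : KB1.ups (ffl W t) (y * Complex.I) = y * ‖deriv (ffl W t) (y * Complex.I)‖ := by
      simp [KB1.ups]
    rw [h3]
    exact (mul_le_mul_of_nonneg_left h2 hθ0).trans h1
  refine ⟨hv, ?_, (hM t ht).2⟩
  exact csInf_le ⟨0, fun y hy => hy.1.le⟩ ⟨hy1, Or.inl (hv y1 le_rfl)⟩

/-- On a bounded time interval `u0 (x (f_t))` is bounded (wherever `y_x > 0`). -/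
theorem u0_x_bdd (h : p.Adm) (hθ0 : 0 ≤ p.θ) (hθ : p.θ < 1) (hW : ContinuousOn W (Ici 0))
    {S : ℝ} (hS : 0 ≤ S) :
    ∃ M : ℝ, ∀ t ∈ Icc (0 : ℝ) S, 0 < p.y (ffl W t) → p.u0 (p.x (ffl W t)) ≤ M := by
  obtain ⟨y1, -, M, hM⟩ := yx_le_and_bdd h hθ0 hθ hW hS
  refine ⟨p.u0 0 + M, fun t ht hpos => ?_⟩
  obtain ⟨-, h1, h2⟩ := hM t ht
  refine (Par.Adm.u0_le h _).trans ?_
  have := h2 _ hpos h1
  unfold Par.x
  linarith


end Crest.Agent.R162.LB6
end

-- ▼ part R162/LBExp2

/-!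
Row 162 (S0243), node LB-EXP (helper384), final part: `StepAll0 κ c1 → ExpAll κ c1`.
-/

set_option autoImplicit false

open MeasureTheory ProbabilityTheory Set Filter Topology
open scoped NNReal ENNReal

namespace Crest.Agent.R162.LBExp

open Crest.Agent.R162.FL Crest.Agent.R162.OS Crest.Agent.R162.LBDrv Crest.Agent.R162.LBStop
open Crest.Agent.R162.LBI Crest.Agent.R162.LBS
open Crest.ProbabilityR.Loewner

universe u

/-- all measurability inputs (helper319) -/
theorem meas_of {p : LB.Par} (hp : p.Adm) : Meas p where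
  tau := LBMe.isST_EE p.κ hp
  C := LBMe.measurable_cont_EE p.κ hp
  L := LBMe.measurable_lam_st_EE p.κ hp
  A := LBMe.measurable_area_st_EE p.κ hp
  L0 := LBMe.measurable_lam_EE p.κ hp
  A0 := LBMe.measurable_area_EE p.κ hp
  u0 := LBMe.measurable_u0x_EE p.κ hp
  tot := LBMe.measurable_cz_EE p.κ hp.meas p.κ p.ε p.c1

/-- all deterministic inputs -/
theorem coc_of {p : LB.Par} (hp : Ok p) {w0 : ℂ} {R : ℝ} (hR : 0 ≤ R)
    (hu0 : p.u0 = uB w0 R) : Coc p where
  c1 := fun W hW s t hs ht => LB.content_global_Ioc hW hs hp.adm.meas t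
  c2 := fun W hW s t hs ht => LBCoc2.c2 hW hs ht p.B
  c4 := fun W hW t => LB.setLIntegral_cz_ne_top hp.κ0 hp.κ8 hp.ε0 zero_le_one hW _ hp.bdd
  c5 := by
    intro f _
    refine ne_top_of_le_ne_top ?_ (LBN.area_le w0 (u0 := p.u0) (η := p.η) hR hp.η0.le (fun z => ?_)
      (p.θ / 10) f)
    · exact ENNReal.mul_ne_top (LBN.Carea_lt_top hp.η0).ne ENNReal.ofReal_ne_top
    · rw [hu0, LBN.uB_eq w0 hR]
  c6 := fun W hW t ht hL => LBExpS.start_of_lam hp hR hu0 hW ht hL
  c7 := by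
    intro W hW S hS
    obtain ⟨M, hM⟩ := LB6.u0_x_bdd hp.adm hp.θ0.le (by linarith [hp.θ1]) hW.cont hS
    refine ⟨M, fun t ht hst => hM t ht ?_⟩
    have hne : (LB0.bad p.u0 p.q (ffl W t) p.θ p.K3).Nonempty := by
      have h1 : ∀ᶠ y in atTop, p.θ < LB.vv p.u0 (ffl W t) y :=
        hst.v_tendsto.eventually_const_lt (by linarith [hp.θ1])
      obtain ⟨y, hy1, hy2⟩ := (h1.and (eventually_gt_atTop 0)).exists
      exact ⟨y, hy2, Or.inl hy1.le⟩
    exact LB0.yx_pos (f := ffl W t) (u0 := p.u0) (q := p.q) (θ := p.θ) (K3 := p.K3)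
      hst.univ.diff hst.univ.inj hp.adm.lip hp.adm.one_le hp.q0 hp.θ0 (by linarith [hp.θ1])
      (by linarith [hp.K3]) ⟨1, one_pos, (hst.J_ne_top 1).lt_top⟩ hne

/-- **the exponential bound**, any filtration. -/
theorem exp_bound {Ω : Type u} [MeasurableSpace Ω] (P : Measure Ω) [IsProbabilityMeasure P]
    (F : Filtration ℝ≥0 (inferInstance : MeasurableSpace Ω)) (B : ℝ≥0 → Ω → ℝ)
    (hB : IsBM F B P) {p : LB.Par} (hp : Ok p) {w0 : ℂ} {R : ℝ} (hR : 0 ≤ R)
    (hu0 : p.u0 = uB w0 R) {c0 c δ : ℝ} (hc0 : 0 < c0) (hc : 0 < c) (hδ0 : 0 < δ) (hδ1 : δ < 1)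
    (hS : StepS.{u} c0 c δ p) {σ : Ω → ℝ≥0} (hσ : IsST F σ) {A : Set Ω} (hA : EvST F σ A)
    (t : ℝ≥0) :
    ∫⁻ ω in A, expE (ENNReal.ofReal c0 * muI p.κ p.ε p.c1 (driving p.κ B ω) (σ ω) t p.B) ∂P ≤
      ∫⁻ ω in A, expE (ENNReal.ofReal c * p.Λ (ffl (driving p.κ B ω) (σ ω)) +
        p.A (ffl (driving p.κ B ω) (σ ω))) ∂P :=
  exp_core (F := F.rightCont) hc0 hc hδ0 hδ1 hp.η0 hp.adm.one_le hS (meas_of hp.adm)
    (coc_of hp hR hu0) (LBST.isBM_rightCont hB) (LBST.IsST.rc hσ) (LBST.EvST.rc hA) t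

/-- **`StepAll0 → ExpAll`** -/
theorem expAll_of {κ c1 : ℝ} (hκ : 0 < κ) (hκ8 : κ < 8) (hc1 : 0 < c1) (hc11 : c1 < 1)
    (h : StepAll0.{u} κ c1) : ExpAll.{u} κ c1 := by
  obtain ⟨q, η, θ, K3, K4, cs, c0, c, δ, ε₀, hq, hη, hqη, hθ, hθ1, hK3, hK4, hcs, hc0, hc, hδ,
    hδ1, hε₀, hall⟩ := h
  refine ⟨q, η, θ, c0, c, ε₀, hq, hη, hqη, hθ, hθ1, hc0, hc, hε₀, ?_⟩
  intro w0 R ε hR hε hεε Ω _ P _ F B hB σ hσ A hA t
  have hok := LBN.ok_mkP (κ := κ) (c1 := c1) (q := q) (η := η) (cs := cs) (K4 := K4) (K3 := K3)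
    (θ := θ) (ε := ε) w0 (R := R) (by linarith) hκ hκ8 hε hc1 hc11 hq hη hqη hθ hθ1 hK3 hK4 hcs
  exact exp_bound P F B hB hok (w0 := w0) (R := R) (by linarith) rfl hc0 hc hδ hδ1
    (hall _ _ ε hε hεε hok) hσ hA t

end Crest.Agent.R162.LBExp
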