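import Mathlib
import Crest.Agent.R162.LBDefs
import Crest.Agent.R162.LBCont
import Crest.Agent.R162.FLC3
import Crest.Agent.R162.LB3a
import Crest.Agent.R162.LB3b1
import Crest.Agent.R162.LB3bAx_Mg
import Crest.Agent.R162.LB3b3
import Crest.Agent.R162.LB3bTk
import Crest.Agent.R162.LB2h
import Crest.Agent.R162.LBC4
import Crest.Agent.R162.LBExit
import Crest.Agent.R162.OPM
import Crest.Agent.R162.FLE2
import Crest.Agent.R162.LBST3
import Crest.Agent.R162.LBST1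
import Crest.Agent.R162.LBStepIn2
import Crest.Agent.R162.LB0D
import Crest.Agent.R162.LBSkel
import Crest.Agent.R162.LBStepD
import Crest.Agent.R162.FLB
import Crest.Agent.R162.KB1H
import Crest.Agent.R162.FLC2
import Crest.Agent.R162.LBStepIn
import Crest.Agent.R162.LBStep1

-- ▼ part R162/LBCont2
section

/-!
Row 162 (S0243), node LB-CONTENT (a), part 2 (helper8): the facts of `LBCont` for the frozen
definitions `LB.cd`, `LB.cz`, `LB.content`, `LB.Ct`, `LB.mu` of `LBDefs`.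
-/

set_option autoImplicit false

open MeasureTheory Set Filter Topology
open scoped NNReal ENNReal

namespace Crest.Agent.R162.LBCont

open Crest.Agent.R162 Crest.Agent.R162.FL Crest.Agent.R162.OP


variable {W : ℝ → ℝ} {z : ℂ} {κ ε c1 lam : ℝ} {s t u : ℝ} {f : ℂ → ℂ} {B : Set ℂ} {E : Set ℝ}

theorem cd_eq (κ ε c1 lam : ℝ) (W : ℝ → ℝ) (s : ℝ) (z : ℂ) :
    LB.cd κ ε c1 lam W s z = rate κ LB.chi ε c1 lam W s z := by
  unfold LB.cd rate
  split_ifs <;> ring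










/-! ### measurability of the pull-back sets -/

theorem isOpen_H : IsOpen {z : ℂ | 0 < z.im} := isOpen_lt continuous_const Complex.continuous_im

theorem measurableSet_pre (hf : ContinuousOn f {z | 0 < z.im}) (hB : MeasurableSet B) :
    MeasurableSet {z : ℂ | 0 < z.im ∧ f z ∈ B} := by
  classical
  have h1 : Measurable (({z : ℂ | 0 < z.im}).piecewise f (fun _ => (0:ℂ))) :=
    hf.measurable_piecewise continuousOn_const isOpen_H.measurableSet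
  have h2 := isOpen_H.measurableSet.inter (h1 hB)
  convert h2 using 1
  ext z
  simp only [mem_inter_iff, mem_preimage]
  constructor
  · rintro ⟨hz, hb⟩
    refine ⟨hz, ?_⟩
    rw [piecewise_eq_of_mem _ _ _ (show z ∈ {z : ℂ | 0 < z.im} from hz)]; exact hb
  · rintro ⟨hz, hb⟩
    refine ⟨hz, ?_⟩
    rw [piecewise_eq_of_mem _ _ _ hz] at hb; exact hb

/-! ### joint measurability -/

section meas

variable {Ω : Type*} [MeasurableSpace Ω] {W : Ω → ℝ → ℝ} {T : ℝ}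

theorem measurable_cd_joint {lam : Ω × ℂ → ℝ} (hl : Measurable lam)
    (hc : ∀ ω, ContinuousOn (W ω) (Icc 0 T))
    (hm : ∀ s ∈ Icc 0 T, Measurable (fun ω => W ω s)) :
    Measurable (fun x : (Ω × ℂ) × ℝ =>
      (Icc 0 T).indicator (fun s => LB.cd κ ε c1 (lam x.1) (W x.1.1) s x.1.2) x.2) := by
  simp only [cd_eq]
  exact measurable_rate_joint LB.measurable_chi hl hc hm

/-- `(ω, z) ↦ cz … (E ω) z`, random time set `E ω ⊆ [0,T]` -/
theorem measurable_cz {lam : Ω × ℂ → ℝ} (hl : Measurable lam)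
    (hc : ∀ ω, ContinuousOn (W ω) (Icc 0 T))
    (hm : ∀ s ∈ Icc 0 T, Measurable (fun ω => W ω s)) {E : Ω → Set ℝ}
    (hE : MeasurableSet {x : Ω × ℝ | x.2 ∈ E x.1}) (hE' : ∀ ω, E ω ⊆ Icc 0 T) :
    Measurable (fun p : Ω × ℂ => LB.cz κ ε c1 (lam p) (W p.1) (E p.1) p.2) := by
  have h1 := (measurable_cd_joint (κ := κ) (ε := ε) (c1 := c1) hl hc hm).ennreal_ofReal
  have hset : MeasurableSet {x : (Ω × ℂ) × ℝ | x.2 ∈ E x.1.1} :=
    (((measurable_fst.comp measurable_fst).prodMk measurable_snd) :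
      Measurable (fun x : (Ω × ℂ) × ℝ => (x.1.1, x.2))) hE
  have h2 := (h1.indicator hset).lintegral_prod_right' (ν := volume)
  convert h2 using 1
  funext p
  unfold LB.cz
  have hEm : MeasurableSet (E p.1) := by
    have : Measurable (fun s : ℝ => ((p.1, s) : Ω × ℝ)) := measurable_const.prodMk measurable_id
    exact this hE
  rw [← lintegral_indicator hEm]
  congr 1
  funext s
  by_cases hs : s ∈ E p.1
  · rw [indicator_of_mem hs, indicator_of_mem (show (p, s) ∈ {x : (Ω × ℂ) × ℝ | x.2 ∈ E x.1.1} from hs),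
      indicator_of_mem (hE' _ hs)]
  · rw [indicator_of_notMem hs,
      indicator_of_notMem (show (p, s) ∉ {x : (Ω × ℂ) × ℝ | x.2 ∈ E x.1.1} from hs)]

/-- `ω ↦ content κ ε c1 f (W ω) (E ω) B` is measurable -/
theorem measurable_content (f : ℂ → ℂ) (B : Set ℂ)
    (hc : ∀ ω, ContinuousOn (W ω) (Icc 0 T))
    (hm : ∀ s ∈ Icc 0 T, Measurable (fun ω => W ω s)) {E : Ω → Set ℝ}
    (hE : MeasurableSet {x : Ω × ℝ | x.2 ∈ E x.1}) (hE' : ∀ ω, E ω ⊆ Icc 0 T) :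
    Measurable (fun ω => LB.content κ ε c1 f (W ω) (E ω) B) := by
  have hd : Measurable (fun z : ℂ => ‖deriv f z‖) := (measurable_deriv f).norm
  have h1 := measurable_cz (κ := κ) (ε := ε) (c1 := c1)
    (hd.comp (measurable_snd (α := Ω) (β := ℂ))) hc hm hE hE'
  have h2 : Measurable (fun p : Ω × ℂ => ENNReal.ofReal (‖deriv f p.2‖ ^ 2) *
      LB.cz κ ε c1 ‖deriv f p.2‖ (W p.1) (E p.1) p.2) :=
    ((hd.comp measurable_snd).pow_const 2).ennreal_ofReal.mul h1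
  exact h2.lintegral_prod_right' (ν := volume.restrict {z : ℂ | 0 < z.im ∧ f z ∈ B})



end meas

end Crest.Agent.R162.LBCont
end

-- ▼ part R162/LB3b4
section

/-!
Row 162 (S0243), node LB3b, fifth part (helper268): the near content of one scale window in
expectation.
-/

set_option autoImplicit false

open MeasureTheory Set
open scoped ENNReal NNReal
open Crest.ProbabilityR.Loewner

namespace Crest.Agent.R162.LB3b

open Crest.Agent.R162.FL Crest.Agent.R162.OS Crest.Agent.R162.FLD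

universe u

/-! ### one path -/

section path

variable {f : ℂ → ℂ} {W : ℝ → ℝ} {x : ℂ} {L ρ t : ℝ}

/-- the axis of the state map at time `t` stays near `x` (not `Bad2`). -/
theorem axis_near (hρ : 0 < ρ)
    (hP1 : ∀ y, 0 < y → y ≤ 10 * ρ → ‖f (y * Complex.I) - x‖ ≤ L / 32)
    (hnb : ¬ ∃ y : ℝ, 0 < y ∧ y ≤ 10 * ρ ∧
      L / 16 < ‖f (ffl W t (y * Complex.I)) - f ((10 * ρ : ℝ) * Complex.I)‖) :
    ∀ y, 0 < y → y ≤ 10 * ρ → ‖(f ∘ ffl W t) (y * Complex.I) - x‖ ≤ 3 * L / 32 := by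
  intro y hy hy10
  push Not at hnb
  have h1 := hnb y hy hy10
  have h2 := hP1 (10 * ρ) (by positivity) le_rfl
  have h3 : (f ∘ ffl W t) (y * Complex.I) - x
      = (f (ffl W t (y * Complex.I)) - f ((10 * ρ : ℝ) * Complex.I))
        + (f ((10 * ρ : ℝ) * Complex.I) - x) := by
    simp only [Function.comp_apply]
    ring
  rw [h3]
  refine (norm_add_le _ _).trans ?_
  linarith

/-- the Green mass near `x` at time `t`, pathwise -/
theorem path_mass {κ : ℝ} (hκ : 0 < κ) (hκ8 : κ < 8) :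
    ∃ C c : ℝ, 0 < C ∧ 0 < c ∧ c ≤ 1 / 2 ∧ ∀ (f : ℂ → ℂ), DifferentiableOn ℂ f KB1.Hs →
      InjOn f KB1.Hs → ∀ (W : ℝ → ℝ), ContinuousOn W (Ici 0) → ∀ (t ρ : ℝ), 0 ≤ t → 0 < ρ →
      t ≤ ρ ^ 2 → |W t| ≤ ρ → ∀ (x : ℂ) (L : ℝ), 0 < L →
      (∀ y, 0 < y → y ≤ 10 * ρ → ‖(f ∘ ffl W t) (y * Complex.I) - x‖ ≤ 3 * L / 32) →
      ∀ v : ℝ, 0 ≤ v → KB1.ups f ((ρ : ℂ) * Complex.I) ≤ 2 * v * L →
      (∀ k : ℕ, KB1.ups (f ∘ ffl W t) ((yk ρ k : ℂ) * Complex.I) / L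
        ≤ 12800 * v * Real.exp (2 * k)) ∧
      ∫⁻ ζ in {ζ : ℂ | 0 < ζ.im ∧ ‖(f ∘ ffl W t) ζ - x‖ ≤ L / 4},
        ENNReal.ofReal (gd (dimParam κ) (8 / κ - 1) (f ∘ ffl W t) ζ * min 1 ((ρ / ‖ζ‖) ^ 2))
      ≤ ENNReal.ofReal (C * L ^ dimParam κ) * (ENNReal.ofReal ((12800 * v) ^ c)
        + ∑' k : ℕ, ENNReal.ofReal ((min 1
          (KB1.ups (f ∘ ffl W t) ((yk ρ k : ℂ) * Complex.I) / L)) ^ c)) := by
  obtain ⟨C, c, hC, hc, hc2, hmb⟩ := mass_bound hκ hκ8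
  refine ⟨C, c, hC, hc, hc2, ?_⟩
  intro f hf hfi W hW t ρ ht hρ htρ hWt x L hL hax v hv hups
  have hstep : LB2a.Step (ffl W t) ρ := LB2a.step_of_ffl hW ht hρ htρ hWt
  have hg := LB2a.comp_diff hf hstep
  have hgi := LB2a.comp_inj hfi hstep
  have hle : ∀ y, 0 < y → y ≤ 20 * ρ → KB1.ups (f ∘ ffl W t) ((y : ℂ) * Complex.I)
      ≤ 1600 * (20 * ρ / y) ^ 2 * (2 * v * L) := by
    intro y hy hy20
    have h1 := LB2a.ups_comp_le hf hfi hstep hρ (by linarith : ρ ≤ 2 * ρ) hy hy20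
    exact h1.trans (mul_le_mul_of_nonneg_left hups (by positivity))
  refine ⟨?_, ?_⟩
  · intro k
    have hyk := yk_pos hρ k
    have hyk20 : yk ρ k ≤ 20 * ρ := by
      unfold yk
      have : Real.exp (-(k : ℝ)) ≤ 1 := by
        rw [Real.exp_le_one_iff]
        have : (0 : ℝ) ≤ k := Nat.cast_nonneg k
        linarith
      nlinarith
    rw [div_le_iff₀ hL]
    refine (hle _ hyk hyk20).trans (le_of_eq ?_)
    have h1 : 20 * ρ / yk ρ k = 2 * Real.exp k := by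
      unfold yk
      rw [Real.exp_neg]
      have := Real.exp_pos (k : ℝ)
      field_simp
      norm_num
    rw [h1, mul_pow, ← Real.exp_nat_mul]
    push_cast
    ring
  · refine hmb (f ∘ ffl W t) hg hgi x (L / 4) L ρ (12800 * v) hρ hL (by linarith) ?_
      (by positivity) ?_
    · intro z hz hzx
      have h1 := LB3bAx.ups_le_of_axis hg hgi (x := x) (r1 := 3 * L / 32) (y0 := 10 * ρ)
        (by positivity) (fun y hy => hax y hy.1 hy.2) (z := z) hz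
      refine h1.trans ?_
      linarith
    · refine (hle (10 * ρ) (by positivity) (by linarith)).trans (le_of_eq ?_)
      have h1 : 20 * ρ / (10 * ρ) = 2 := by
        field_simp
        norm_num
      rw [h1]
      ring

end path

end Crest.Agent.R162.LB3b
end

-- ▼ part R162/LB3bMass
section

/-!
Row 162 (S0243), node LB3b: pathwise change of variables `z = ffl W t ζ` of the Green mass at one
time (helper204 for helper268).
-/

set_option autoImplicit false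

open MeasureTheory Set
open scoped ENNReal NNReal
open Crest.ProbabilityR.Loewner

namespace Crest.Agent.R162.LB3b

open Crest.Agent.R162.FL Crest.Agent.R162.FLC

/-- the set of alive points near `x` is the image of its half-plane version -/
theorem image_near {f : ℂ → ℂ} {W : ℝ → ℝ} (hW : ContinuousOn W (Ici 0)) {t : ℝ} (ht : 0 ≤ t)
    (x : ℂ) (r0 : ℝ) :
    ffl W t '' {ζ : ℂ | 0 < ζ.im ∧ ‖(f ∘ ffl W t) ζ - x‖ ≤ r0} =
      {z : ℂ | 0 < z.im ∧ FL.Alive W z t ∧ ‖f z - x‖ ≤ r0} := by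
  ext z
  constructor
  · rintro ⟨ζ, ⟨hζ, hζx⟩, rfl⟩
    exact ⟨ffl_im_pos hW ht hζ, ffl_alive hW ht hζ, hζx⟩
  · rintro ⟨hz, ha, hx⟩
    refine ⟨Zfl W t z, ⟨Crest.Agent.R162.FLC.Zfl_im_pos hW ha, ?_⟩, ffl_Zfl hW ha⟩
    rw [Function.comp_apply, ffl_Zfl hW ha]
    exact hx

/-- **pathwise change of variables** of the Green mass -/
theorem mass_eq {κ : ℝ} {f : ℂ → ℂ} (hf : DifferentiableOn ℂ f KB1.Hs) (hfi : InjOn f KB1.Hs)
    {W : ℝ → ℝ} (hW : ContinuousOn W (Ici 0)) {t : ℝ} (ht : 0 ≤ t) (x : ℂ) (r0 ρ : ℝ)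
    (_hρ : 0 < ρ) :
    ∫⁻ z in {z : ℂ | 0 < z.im ∧ FL.Alive W z t ∧ ‖f z - x‖ ≤ r0},
      ENNReal.ofReal (‖deriv f z‖ ^ 2) * ENNReal.ofReal ((‖deriv f z‖ * OP.ups W t z) ^ (κ / 8 - 1) *
        OP.sfl W t z ^ (8 / κ - 1) * min 1 ((ρ / ‖FL.Zfl W t z‖) ^ 2))
    = ∫⁻ ζ in {ζ : ℂ | 0 < ζ.im ∧ ‖(f ∘ ffl W t) ζ - x‖ ≤ r0},
      ENNReal.ofReal (gd (dimParam κ) (8 / κ - 1) (f ∘ ffl W t) ζ * min 1 ((ρ / ‖ζ‖) ^ 2)) := by
  have hgd : DifferentiableOn ℂ (ffl W t) {z | 0 < z.im} := differentiableOn_ffl hW ht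
  have hgi : InjOn (ffl W t) {z | 0 < z.im} := injOn_ffl hW ht
  have hmaps : MapsTo (ffl W t) {z | 0 < z.im} {z | 0 < z.im} := fun z hz => ffl_im_pos hW ht hz
  have hfg : DifferentiableOn ℂ (f ∘ ffl W t) {z | 0 < z.im} := hf.comp hgd hmaps
  have hm : MeasurableSet {ζ : ℂ | 0 < ζ.im ∧ ‖(f ∘ ffl W t) ζ - x‖ ≤ r0} :=
    measurableSet_near hfg x r0
  rw [← image_near hW ht x r0, lintegral_image_H hgd hgi hm (fun ζ hζ => hζ.1)]
  refine setLIntegral_congr_fun hm ?_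
  rintro ζ ⟨hζ, -⟩
  have hζH : (0 : ℝ) < ζ.im := hζ
  have hz : 0 < (ffl W t ζ).im := ffl_im_pos hW ht hζ
  have e1 : OP.ups W t (ffl W t ζ) = ζ.im * ‖deriv (ffl W t) ζ‖ := ups_ffl hW ht hζ
  have e2 : FL.Zfl W t (ffl W t ζ) = ζ := Zfl_ffl hW ht hζ
  have e3 : OP.sfl W t (ffl W t ζ) = Sf ζ := by
    unfold OP.sfl Sf; rw [e2]
  have hfz : HasDerivAt f (deriv f (ffl W t ζ)) (ffl W t ζ) :=
    (hf.differentiableAt (isOpen_H.mem_nhds hz)).hasDerivAt
  have hgz : HasDerivAt (ffl W t) (deriv (ffl W t) ζ) ζ :=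
    (hgd.differentiableAt (isOpen_H.mem_nhds hζ)).hasDerivAt
  have e4 : deriv (f ∘ ffl W t) ζ = deriv f (ffl W t ζ) * deriv (ffl W t) ζ :=
    (hfz.comp ζ hgz).deriv
  have hf' : deriv f (ffl W t ζ) ≠ 0 :=
    Crest.Agent.Lib.deriv_ne_zero_of_injOn isOpen_H hf hfi hz
  have hg' : deriv (ffl W t) ζ ≠ 0 := deriv_ffl_ne hW ht hζ
  have hA : 0 < ‖deriv f (ffl W t ζ)‖ := norm_pos_iff.2 hf'
  have hB : 0 < ‖deriv (ffl W t) ζ‖ := norm_pos_iff.2 hg'
  set A := ‖deriv f (ffl W t ζ)‖ with hAdef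
  set Bn := ‖deriv (ffl W t) ζ‖ with hBdef
  have hS : 0 ≤ Sf ζ := Sf_nonneg hζH
  show ENNReal.ofReal (Bn ^ 2) * (ENNReal.ofReal (A ^ 2) * ENNReal.ofReal
    ((A * OP.ups W t (ffl W t ζ)) ^ (κ / 8 - 1) * OP.sfl W t (ffl W t ζ) ^ (8 / κ - 1) *
      min 1 ((ρ / ‖FL.Zfl W t (ffl W t ζ)‖) ^ 2))) = _
  rw [e1, e2, e3, ← ENNReal.ofReal_mul (by positivity), ← ENNReal.ofReal_mul (by positivity)]
  congr 1
  unfold gd uf
  rw [e4, norm_mul, ← hAdef, ← hBdef]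
  set u : ℝ := ζ.im * (A * Bn) with hu
  have hu0 : 0 < u := by positivity
  have e5 : A * (ζ.im * Bn) = u := by rw [hu]; ring
  rw [e5, ← dim_sub_two, Real.rpow_sub hu0, Real.rpow_two]
  have e6 : Bn ^ 2 * A ^ 2 = u ^ 2 / ζ.im ^ 2 := by
    rw [hu]; field_simp
  have e7 : Bn ^ 2 * (A ^ 2 * (u ^ dimParam κ / u ^ 2 * Sf ζ ^ (8 / κ - 1) *
      min 1 ((ρ / ‖ζ‖) ^ 2))) =
      (Bn ^ 2 * A ^ 2) * (u ^ dimParam κ / u ^ 2 * Sf ζ ^ (8 / κ - 1) *
      min 1 ((ρ / ‖ζ‖) ^ 2)) := by ring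
  rw [e7, e6]
  field_simp

end Crest.Agent.R162.LB3b
end

-- ▼ part R162/LB3bWin
section

/-!
Row 162 (S0243), node LB3b: the scale windows of `LBDefs` and the stopping times `tk` (helper127).
-/

set_option autoImplicit false

open MeasureTheory ProbabilityTheory Set Filter Topology
open scoped NNReal ENNReal
open Crest.ProbabilityR.Loewner

namespace Crest.Agent.R162.LB3b

open Crest.Agent.R162.OS

/-! ### null sets of times do not count -/

theorem cz_congr_ae {κ ε c1 lam : ℝ} {W : ℝ → ℝ} {E E' : Set ℝ} (h : E =ᵐ[volume] E') (z : ℂ) :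
    LB.cz κ ε c1 lam W E z = LB.cz κ ε c1 lam W E' z := setLIntegral_congr h

theorem content_congr_ae {κ ε c1 : ℝ} {f : ℂ → ℂ} {W : ℝ → ℝ} {E E' : Set ℝ}
    (h : E =ᵐ[volume] E') (B : Set ℂ) :
    LB.content κ ε c1 f W E B = LB.content κ ε c1 f W E' B := by
  unfold LB.content
  simp only [cz_congr_ae h]

theorem content_of_null {κ ε c1 : ℝ} {f : ℂ → ℂ} {W : ℝ → ℝ} {E : Set ℝ}
    (h : volume E = 0) (B : Set ℂ) : LB.content κ ε c1 f W E B = 0 := by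
  rw [content_congr_ae (E' := ∅) (ae_eq_empty.2 h)]
  simp [LB.content, LB.cz]

theorem content_Icc {κ ε c1 : ℝ} {f : ℂ → ℂ} {W : ℝ → ℝ} {a b : ℝ} (B : Set ℂ) :
    LB.content κ ε c1 f W (Icc a b) B = LB.content κ ε c1 f W (Ioc a b) B :=
  content_congr_ae Ioc_ae_eq_Icc.symm B

variable {Ω : Type*} {mΩ : MeasurableSpace Ω} {F : Filtration ℝ≥0 mΩ} {B : ℝ≥0 → Ω → ℝ}
  {P : Measure Ω}

/-- the near content of a window is collected after `t_k` and only if `t_k < T₂` -/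
theorem nearC_win_le (hB : IsBM F B P) (p : LB.Par) (f : ℂ → ℂ) (k : ℤ) (T2 : Ω → ℝ≥0) (ω : Ω) :
    p.nearC f (driving p.κ B ω) (LB.win (driving p.κ B ω) (T2 ω : ℝ) k)
      ≤ {ω | tk p.κ B k ω < T2 ω}.indicator
        (fun ω => LB.content p.κ p.ε p.c1 f (driving p.κ B ω)
          (Ioc (tk p.κ B k ω : ℝ) (tk p.κ B (k + 1) ω)) (p.near f)) ω := by
  by_cases h : tk p.κ B k ω < T2 ω
  · rw [indicator_of_mem (show ω ∈ {ω | tk p.κ B k ω < T2 ω} from h)]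
    rw [← content_Icc]
    apply LB.content_mono _ (subset_refl _)
    rw [win_eq hB]
    rintro s ⟨h1, h2, h3⟩
    exact ⟨h1, h2.le⟩
  · rw [indicator_of_notMem (show ω ∉ {ω | tk p.κ B k ω < T2 ω} from h)]
    have h0 : p.nearC f (driving p.κ B ω) (LB.win (driving p.κ B ω) (T2 ω : ℝ) k) = 0 := by
      apply content_of_null
      apply measure_mono_null (t := {(tk p.κ B k ω : ℝ)}) _ (measure_singleton _)
      rw [win_eq hB]
      rintro s ⟨h1, h2, h3⟩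
      have h4 : (T2 ω : ℝ) ≤ tk p.κ B k ω := NNReal.coe_le_coe.2 (not_lt.1 h)
      exact le_antisymm (h3.trans h4) h1
    rw [h0]


theorem measurable_tk (hB : IsBM F B P) (κ : ℝ) (k : ℤ) : Measurable (tk κ B k) :=
  (isST_tk hB κ k).measurable

theorem measurableSet_window (hB : IsBM F B P) (κ : ℝ) (k : ℤ) :
    MeasurableSet {x : Ω × ℝ | x.2 ∈ Ioc (tk κ B k x.1 : ℝ) (tk κ B (k + 1) x.1)} := by
  have h1 : Measurable fun x : Ω × ℝ => (tk κ B k x.1 : ℝ) :=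
    (measurable_tk hB κ k).coe_nnreal_real.comp measurable_fst
  have h2 : Measurable fun x : Ω × ℝ => (tk κ B (k + 1) x.1 : ℝ) :=
    (measurable_tk hB κ (k + 1)).coe_nnreal_real.comp measurable_fst
  exact (measurableSet_lt h1 measurable_snd).inter (measurableSet_le measurable_snd h2)

/-- `near` is empty away from `B` -/
theorem near_eq_empty {p : LB.Par} (hA : p.Adm) {f : ℂ → ℂ} (h : 1 < p.u0 (p.x f)) :
    p.near f = ∅ := by
  rw [LB.Par.near, eq_empty_iff_forall_notMem]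
  rintro w ⟨hwB, hw⟩
  have h1 := hA.le_dist w hwB (p.x f)
  rw [Metric.mem_ball, dist_comm] at hw
  rcases le_total (dist (p.x f) w) 1 with h2 | h2
  · rw [max_eq_left h2] at h1; linarith
  · rw [max_eq_right h2] at h1; linarith

theorem nearC_eq_zero {p : LB.Par} (hA : p.Adm) {f : ℂ → ℂ} (h : 1 < p.u0 (p.x f)) (W : ℝ → ℝ)
    (E : Set ℝ) : p.nearC f W E = 0 := by
  rw [LB.Par.nearC, near_eq_empty hA h]
  simp [LB.content]

/-- a window is contained in `[0, (2^{k+1})²]` -/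
theorem win_min {W : ℝ → ℝ} {t N : ℝ} {k : ℤ} (hN : ((2:ℝ) ^ (k + 1)) ^ 2 ≤ N) :
    LB.win W t k = LB.win W (min t N) k := by
  ext s
  simp only [LB.win, mem_ofPred_eq]
  constructor
  · rintro ⟨h0, h1, h2, h3⟩
    refine ⟨h0, le_min h1 ?_, h2, h3⟩
    have h4 : Real.sqrt s ≤ (2:ℝ) ^ (k + 1) := ((LB.sqrt_le_rad W s).trans_lt h3).le
    calc s = Real.sqrt s ^ 2 := (Real.sq_sqrt h0.le).symm
      _ ≤ ((2:ℝ) ^ (k + 1)) ^ 2 := pow_le_pow_left₀ (Real.sqrt_nonneg s) h4 2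
      _ ≤ N := hN
  · rintro ⟨h0, h1, h2, h3⟩
    exact ⟨h0, h1.trans (min_le_left _ _), h2, h3⟩

end Crest.Agent.R162.LB3b
end

-- ▼ part R162/LB3b5
section

/-!
Row 162 (S0243), node LB3b, last part (helper268): the mean near content of one scale window before
`T₂` is `≤ C v(2^k)^e`.
-/

set_option autoImplicit false

open MeasureTheory Set
open scoped ENNReal NNReal
open Crest.ProbabilityR.Loewner

namespace Crest.Agent.R162.LB3b

open Crest.Agent.R162.FL Crest.Agent.R162.OS Crest.Agent.R162.FLD Crest.Agent.R162.OP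

universe u

section meas

variable {Ω : Type u} {m : MeasurableSpace Ω} {P : Measure Ω} {F : Filtration ℝ≥0 m}
  {B : ℝ≥0 → Ω → ℝ}

/-- joint measurability of the Green weight at a random time -/
theorem measurable_Gw (hB : IsBM F B P) (κ : ℝ) (f : ℂ → ℂ) {σ : Ω → ℝ≥0} (hσ : Measurable σ)
    (ρ : ℝ) :
    Measurable (fun q : Ω × ℂ => ENNReal.ofReal (‖deriv f q.2‖ ^ 2) *
      ({q : Ω × ℂ | Alive (driving κ B q.1) q.2 (σ q.1)}.indicator
        (fun q : Ω × ℂ => ENNReal.ofReal (Gw κ ‖deriv f q.2‖ (driving κ B q.1) (σ q.1) q.2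
          * min 1 ((ρ / ‖Zfl (driving κ B q.1) (σ q.1) q.2‖) ^ 2))) q)) := by
  have hd : Measurable (fun q : Ω × ℂ => ‖deriv f q.2‖) :=
    (measurable_deriv f).norm.comp measurable_snd
  refine ((hd.pow_const 2).ennreal_ofReal).mul (Measurable.indicator ?_
    (measurableSet_alive_at hB κ hσ))
  refine Measurable.ennreal_ofReal ?_
  refine Measurable.mul ?_ ?_
  · unfold Gw
    exact ((hd.mul (measurable_ups_at hB κ hσ)).pow_const _).mul
      ((measurable_sfl_at hB κ hσ).pow_const _)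
  · exact measurable_const.min ((measurable_const.div (measurable_Zfl_at hB κ hσ).norm).pow_const 2)

/-- joint measurability of the window content -/
theorem measurable_wcz (hB : IsBM F B P) (κ ε c1 : ℝ) (f : ℂ → ℂ) (k : ℤ) :
    Measurable (fun q : Ω × ℂ => ENNReal.ofReal (‖deriv f q.2‖ ^ 2) *
      LB.cz κ ε c1 ‖deriv f q.2‖ (driving κ B q.1)
        (Ioc (tk κ B k q.1 : ℝ) (tk κ B (k + 1) q.1)) q.2) := by
  have hd : Measurable (fun q : Ω × ℂ => ‖deriv f q.2‖) :=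
    (measurable_deriv f).norm.comp measurable_snd
  refine ((hd.pow_const 2).ennreal_ofReal).mul ?_
  exact LBCont.measurable_cz (T := ((2 : ℝ) ^ (k + 1)) ^ 2)
    (E := fun ω => Ioc (tk κ B k ω : ℝ) (tk κ B (k + 1) ω)) hd
    (fun ω => (driving_cont hB κ ω).continuousOn) (fun s _ => driving_meas' hB κ s)
    (measurableSet_window hB κ k)
    (fun ω s hs => ⟨(tk κ B k ω).2.trans hs.1.le, hs.2.trans (tk_le_sq κ B (k + 1) ω)⟩)

end meas

/-- **LB3b**: the mean near content of a scale window before `T₂`. -/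
theorem window_mean {κ Cb : ℝ} (hκ : 0 < κ) (hκ8 : κ < 8) (hCb : 0 ≤ Cb)
    (hLBC : ContB.{u} κ Cb) (hOP3 : LB2h.OP3K.{u} κ) :
    ∃ C e : ℝ, 0 < C ∧ 0 < e ∧ ∀ p : LB.Par, p.κ = κ → p.Adm → 0 < p.ε → ∀ f : ℂ → ℂ,
      DifferentiableOn ℂ f KB1.Hs → InjOn f KB1.Hs → ∀ k : ℤ,
      (∀ y : ℝ, 0 < y → y ≤ 10 * (2 : ℝ) ^ k →
        ‖f (y * Complex.I) - p.x f‖ ≤ p.u0 (p.x f) / 32) →
      LB.vv p.u0 f (2 ^ k) ≤ 1 →
      ∀ (Ω : Type u) [MeasurableSpace Ω] (P : Measure Ω) [IsProbabilityMeasure P]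
        (F : Filtration ℝ≥0 (inferInstance : MeasurableSpace Ω)) (B : ℝ≥0 → Ω → ℝ)
        (_ : IsBM F B P) (T2 : Ω → ℝ≥0) (_ : IsST F T2)
        (_ : ∀ ω s, 0 < s → s < (T2 ω : ℝ) → ¬ p.Bad2 f (driving κ B ω) s),
        ∫⁻ ω, p.nearC f (driving κ B ω) (LB.win (driving κ B ω) (T2 ω) k) ∂P
          ≤ ENNReal.ofReal (C * LB.vv p.u0 f (2 ^ k) ^ e) := by
  obtain ⟨Cm, c, hCm, hc, hc2, hpm⟩ := path_mass hκ hκ8
  obtain ⟨C3, c3, hC3, hc3, hop⟩ := hOP3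
  obtain ⟨Ce, e, hCe, he, hexp⟩ := exp_sum.{u} (c := c) (c2 := c3 / 4) (c' := c3 / 2)
    (C2 := 49 * C3 / 1 ^ 2 * 20 ^ c3) (K := 12800) hc (by positivity) (by positivity)
    (by positivity) (by norm_num)
  have hlog : 0 < Real.log 2 := Real.log_pos (by norm_num)
  have hC1 : 0 < C1 κ Cb := by unfold C1; positivity
  refine ⟨C1 κ Cb * Cm * Ce, e, by positivity, he, ?_⟩
  intro p hpκ hA hε f hf hfi k hP1 hv1 Ω _ P _ F B hB T2 hT2 hnb
  subst hpκ
  rcases (hA.one_le (p.x f)).lt_or_eq with h1 | hL1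
  · simp only [nearC_eq_zero hA h1, lintegral_zero]
    exact zero_le
  set x : ℂ := p.x f with hx
  set L : ℝ := p.u0 x with hL
  have hLpos : 0 < L := by rw [← hL1]; exact one_pos
  set ρ : ℝ := (2 : ℝ) ^ k with hρdef
  have hρ : 0 < ρ := by positivity
  set σ : Ω → ℝ≥0 := tk p.κ B k with hσdef
  set τ : Ω → ℝ≥0 := tk p.κ B (k + 1) with hτdef
  have hσ : IsST F σ := isST_tk hB p.κ k
  have hτ : IsST F τ := isST_tk hB p.κ (k + 1)
  have hστ : ∀ ω, σ ω ≤ τ ω := fun ω => tk_le_succ p.κ B k ω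
  have hσm : Measurable σ := hσ.measurable
  set A : Set Ω := {ω | σ ω < T2 ω} with hAdef
  have hAE : EvST F σ A := evST_lt hσ hT2
  have hAm : MeasurableSet A := hAE.measurableSet
  set D : Set ℂ := {z : ℂ | 0 < z.im ∧ f z ∈ p.near f} with hD
  have hDm : MeasurableSet D :=
    LBCont.measurableSet_pre hf.continuousOn (hA.meas.inter measurableSet_ball)
  have hcont : ∀ ω, ContinuousOn (driving p.κ B ω) (Ici 0) := fun ω =>
    (driving_cont hB p.κ ω).continuousOn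
  -- the scale quantity
  set v : ℝ := LB.vv p.u0 f ρ with hvdef
  have hρH : ((ρ : ℂ) * Complex.I) ∈ KB1.Hs := by
    show 0 < ((ρ : ℂ) * Complex.I).im
    simpa using hρ
  have hu0pos : 0 < p.u0 (f ((ρ : ℂ) * Complex.I)) := lt_of_lt_of_le one_pos (hA.one_le _)
  have hv : 0 < v := div_pos (KB1.ups_pos hf hfi hρH) hu0pos
  have hups : KB1.ups f ((ρ : ℂ) * Complex.I) ≤ 2 * v * L := by
    have h2 : KB1.ups f ((ρ : ℂ) * Complex.I) = v * p.u0 (f ((ρ : ℂ) * Complex.I)) := by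
      rw [hvdef]
      unfold LB.vv
      rw [div_mul_cancel₀ _ hu0pos.ne']
    have h3 : p.u0 (f ((ρ : ℂ) * Complex.I)) ≤ 2 * L := by
      have h4 := hA.lip.dist_le_mul (f ((ρ : ℂ) * Complex.I)) x
      have h5 := hP1 ρ hρ (by linarith)
      rw [Real.dist_eq, dist_eq_norm, NNReal.coe_one, one_mul] at h4
      have h6 := (abs_le.1 h4).2
      linarith
    rw [h2]
    nlinarith
  -- step 1
  have s1 : ∫⁻ ω, p.nearC f (driving p.κ B ω) (LB.win (driving p.κ B ω) (T2 ω) k) ∂P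
      ≤ ∫⁻ ω in A, (∫⁻ z in D, ENNReal.ofReal (‖deriv f z‖ ^ 2) *
        LB.cz p.κ p.ε p.c1 ‖deriv f z‖ (driving p.κ B ω) (Ioc (σ ω : ℝ) (τ ω)) z) ∂P := by
    rw [← lintegral_indicator hAm]
    exact lintegral_mono fun ω => nearC_win_le hB p f k T2 ω
  -- step 2 : Fubini
  have s2 : ∫⁻ ω in A, (∫⁻ z in D, ENNReal.ofReal (‖deriv f z‖ ^ 2) *
        LB.cz p.κ p.ε p.c1 ‖deriv f z‖ (driving p.κ B ω) (Ioc (σ ω : ℝ) (τ ω)) z) ∂P
      = ∫⁻ z in D, ∫⁻ ω in A, ENNReal.ofReal (‖deriv f z‖ ^ 2) *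
        LB.cz p.κ p.ε p.c1 ‖deriv f z‖ (driving p.κ B ω) (Ioc (σ ω : ℝ) (τ ω)) z ∂P :=
    lintegral_lintegral_swap (measurable_wcz hB p.κ p.ε p.c1 f k).aemeasurable
  -- step 3 : one point
  set G : Ω → ℂ → ℝ≥0∞ := fun ω z => ENNReal.ofReal (‖deriv f z‖ ^ 2) *
      ({q : Ω × ℂ | Alive (driving p.κ B q.1) q.2 (σ q.1)}.indicator
        (fun q : Ω × ℂ => ENNReal.ofReal (Gw p.κ ‖deriv f q.2‖ (driving p.κ B q.1) (σ q.1) q.2
          * min 1 ((ρ / ‖Zfl (driving p.κ B q.1) (σ q.1) q.2‖) ^ 2))) (ω, z)) with hG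
  have s3 : ∀ z ∈ D, ∫⁻ ω in A, ENNReal.ofReal (‖deriv f z‖ ^ 2) *
        LB.cz p.κ p.ε p.c1 ‖deriv f z‖ (driving p.κ B ω) (Ioc (σ ω : ℝ) (τ ω)) z ∂P
      ≤ ENNReal.ofReal (C1 p.κ Cb) * ∫⁻ ω in A, G ω z ∂P := by
    intro z hz
    have hlam : 0 < ‖deriv f z‖ :=
      norm_pos_iff.2 (Crest.Agent.Lib.deriv_ne_zero_of_injOn KB1.isOpen_Hs hf hfi hz.1)
    have hop1 := one_point hκ hκ8 hCb hLBC hB (ε := p.ε) (c1 := p.c1) hε hlam hz.1 hρ hσ hτ hστ
      (T := ((2 : ℝ≥0) ^ (k + 1)) ^ 2)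
      (fun ω => by
        have := tk_le_sq p.κ B (k + 1) ω
        rw [← NNReal.coe_le_coe]
        push_cast
        exact this)
      (fun ω => tk_succ_sub_le p.κ B k ω) (fun ω s hs => osc_le hB p.κ k ω hs) hAE
    rw [lintegral_const_mul' _ _ ENNReal.ofReal_ne_top]
    simp only [hG]
    rw [lintegral_const_mul' _ _ ENNReal.ofReal_ne_top, ← mul_assoc,
      mul_comm (ENNReal.ofReal (C1 p.κ Cb)), mul_assoc]
    refine mul_le_mul_right (hop1.trans (le_of_eq ?_)) _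
    congr 1
    have hAl : MeasurableSet {ω | Alive (driving p.κ B ω) z (σ ω)} :=
      (evST_alive hB p.κ z hσ).measurableSet
    rw [inter_comm, ← Measure.restrict_restrict hAl, ← lintegral_indicator hAl]
    rfl
  have s4 : ∫⁻ z in D, ∫⁻ ω in A, ENNReal.ofReal (‖deriv f z‖ ^ 2) *
        LB.cz p.κ p.ε p.c1 ‖deriv f z‖ (driving p.κ B ω) (Ioc (σ ω : ℝ) (τ ω)) z ∂P
      ≤ ENNReal.ofReal (C1 p.κ Cb) * ∫⁻ ω in A, (∫⁻ z in D, G ω z) ∂P := by
    refine (setLIntegral_mono' hDm s3).trans ?_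
    rw [lintegral_const_mul' _ _ ENNReal.ofReal_ne_top]
    refine mul_le_mul_right (le_of_eq ?_) _
    exact (lintegral_lintegral_swap (measurable_Gw hB p.κ f hσm ρ).aemeasurable).symm
  -- step 5 : one path
  have hmemA : ∀ ω ∈ A, ∀ y, 0 < y → y ≤ 10 * ρ →
      ‖(f ∘ ffl (driving p.κ B ω) (σ ω)) (y * Complex.I) - x‖ ≤ 3 * L / 32 := by
    intro ω hω
    have hrad : LB.rad (driving p.κ B ω) (σ ω) = ρ := rad_tk hB p.κ k ω
    have hb := hnb ω (σ ω) (by exact_mod_cast tk_pos hB p.κ k ω) (by exact_mod_cast hω)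
    unfold LB.Par.Bad2 at hb
    rw [hrad] at hb
    exact axis_near hρ hP1 hb
  set mk : Ω → ℕ → ℝ := fun ω j =>
    KB1.ups (f ∘ ffl (driving p.κ B ω) (σ ω)) ((yk ρ j : ℂ) * Complex.I) / L with hmk
  have hpath : ∀ ω ∈ A, (∀ j : ℕ, mk ω j ≤ 12800 * v * Real.exp (2 * j)) ∧
      ∫⁻ z in D, G ω z ≤ ENNReal.ofReal (Cm * L ^ dimParam p.κ) * (ENNReal.ofReal ((12800 * v) ^ c)
        + ∑' j : ℕ, ENNReal.ofReal ((min 1 (mk ω j)) ^ c)) := by
    intro ω hω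
    have hσ0 : (0 : ℝ) ≤ σ ω := (σ ω).2
    have hσρ : (σ ω : ℝ) ≤ ρ ^ 2 := tk_le_sq p.κ B k ω
    have hWσ : |driving p.κ B ω (σ ω)| ≤ ρ := by
      have h2 := LB.abs_le_rad (hcont ω) hσ0 le_rfl
      rwa [show LB.rad (driving p.κ B ω) (σ ω) = ρ from rad_tk hB p.κ k ω] at h2
    obtain ⟨h2, h3⟩ := hpm f hf hfi (driving p.κ B ω) (hcont ω) (σ ω) ρ hσ0 hρ hσρ hWσ x L hLpos
      (hmemA ω hω) v hv.le hups
    refine ⟨h2, le_trans ?_ h3⟩
    rw [← mass_eq hf hfi (hcont ω) hσ0 x (L / 4) ρ hρ]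
    have hAl : MeasurableSet {z : ℂ | Alive (driving p.κ B ω) z (σ ω)} :=
      (isOpen_Dom (hcont ω) (σ ω)).measurableSet
    have h4 : ∀ z, G ω z = {z : ℂ | Alive (driving p.κ B ω) z (σ ω)}.indicator
        (fun z => ENNReal.ofReal (‖deriv f z‖ ^ 2) *
          ENNReal.ofReal ((‖deriv f z‖ * OP.ups (driving p.κ B ω) (σ ω) z) ^ (p.κ / 8 - 1) *
          OP.sfl (driving p.κ B ω) (σ ω) z ^ (8 / p.κ - 1) *
          min 1 ((ρ / ‖FL.Zfl (driving p.κ B ω) (σ ω) z‖) ^ 2))) z := by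
      intro z
      simp only [hG]
      by_cases hz : Alive (driving p.κ B ω) z (σ ω)
      · rw [indicator_of_mem (show (ω, z) ∈ {q : Ω × ℂ | Alive (driving p.κ B q.1) q.2 (σ q.1)}
          from hz), indicator_of_mem (show z ∈ {z : ℂ | Alive (driving p.κ B ω) z (σ ω)} from hz)]
        rfl
      · rw [indicator_of_notMem (show (ω, z) ∉ {q : Ω × ℂ | Alive (driving p.κ B q.1) q.2 (σ q.1)}
          from hz), indicator_of_notMem (show z ∉ {z : ℂ | Alive (driving p.κ B ω) z (σ ω)} from hz),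
          mul_zero]
    simp_rw [h4]
    rw [lintegral_indicator hAl, Measure.restrict_restrict hAl]
    refine lintegral_mono_set ?_
    rintro z ⟨hz1, hz2, hz3⟩
    refine ⟨hz2, hz1, ?_⟩
    have h5 := hz3.2
    rw [Metric.mem_ball, dist_eq_norm] at h5
    exact h5.le
  -- the bad events
  have hbad : ∀ j : ℕ, 1 / 4 * Real.log (1 / v) < j →
      P (A ∩ {ω | Real.exp (-(c3 / 4 * j)) ≤ mk ω j})
        ≤ ENNReal.ofReal (49 * C3 / 1 ^ 2 * 20 ^ c3 * Real.exp (-(c3 / 2 * j))) := by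
    intro j _
    have h2 := LB2f.ev_le (P := P) (W := fun ω => driving p.κ B ω)
      (R := fun ω t => LB.rad (driving p.κ B ω) t) (C := C3) (c' := c3) (f := f) (x := x)
      (U := L) (ρ := ρ) (c := c3 / 4) (b := 1) hcont hC3 (hop Ω P F B hB) hf hfi hLpos hρ
      (by positivity) one_pos le_rfl j
    refine (measure_mono ?_).trans (h2.trans (le_of_eq ?_))
    · rintro ω ⟨hω, hωj⟩
      refine ⟨σ ω, (σ ω).2, (rad_tk hB p.κ k ω).ge, ?_, ?_⟩
      · have hyk20 : yk ρ j ≤ 10 * ρ := by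
          unfold yk
          have : Real.exp (-(j : ℝ)) ≤ 1 := by
            rw [Real.exp_le_one_iff]
            have : (0 : ℝ) ≤ j := Nat.cast_nonneg j
            linarith
          nlinarith
        have h5 := hmemA ω hω (yk ρ j) (yk_pos hρ j) hyk20
        refine le_trans h5 ?_
        linarith
      · have h5 : Real.exp (-(c3 / 4 * j)) ≤ mk ω j := hωj
        simp only [hmk] at h5
        rw [le_div_iff₀ hLpos] at h5
        rw [one_mul]
        exact h5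
    · congr 3
      ring
  have hfin := hexp P A hAm mk (fun ω j => by
      simp only [hmk]
      exact div_nonneg (mul_nonneg (by simp [(yk_pos hρ j).le]) (norm_nonneg _)) hLpos.le)
    v hv hv1 (fun ω hω => (hpath ω hω).1) hbad
  calc ∫⁻ ω, p.nearC f (driving p.κ B ω) (LB.win (driving p.κ B ω) (T2 ω) k) ∂P
      ≤ ENNReal.ofReal (C1 p.κ Cb) * ∫⁻ ω in A, (∫⁻ z in D, G ω z) ∂P :=
        s1.trans (s2.le.trans s4)
    _ ≤ ENNReal.ofReal (C1 p.κ Cb) * ∫⁻ ω in A, ENNReal.ofReal (Cm * L ^ dimParam p.κ) *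
        (ENNReal.ofReal ((12800 * v) ^ c)
        + ∑' j : ℕ, ENNReal.ofReal ((min 1 (mk ω j)) ^ c)) ∂P :=
        mul_le_mul_right (setLIntegral_mono' hAm fun ω hω => (hpath ω hω).2) _
    _ = ENNReal.ofReal (C1 p.κ Cb) * (ENNReal.ofReal (Cm * L ^ dimParam p.κ) *
        ∫⁻ ω in A, (ENNReal.ofReal ((12800 * v) ^ c)
        + ∑' j : ℕ, ENNReal.ofReal ((min 1 (mk ω j)) ^ c)) ∂P) := by
        rw [lintegral_const_mul' _ _ ENNReal.ofReal_ne_top]
    _ ≤ ENNReal.ofReal (C1 p.κ Cb) * (ENNReal.ofReal (Cm * L ^ dimParam p.κ) *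
        ENNReal.ofReal (Ce * v ^ e)) := by
        gcongr
    _ = ENNReal.ofReal (C1 p.κ Cb * Cm * Ce * v ^ e) := by
        rw [← hL1, Real.one_rpow, mul_one, ← ENNReal.ofReal_mul hCm.le,
          ← ENNReal.ofReal_mul hC1.le]
        congr 1
        ring

end Crest.Agent.R162.LB3b
end

-- ▼ part R162/LB3bCB
section

/-!
Row 162 (S0243), node LB3b: scaling in `lam` of the content bound (helper204 for helper268).
-/

set_option autoImplicit false

open MeasureTheory Set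
open scoped ENNReal NNReal
open Crest.ProbabilityR.Loewner

namespace Crest.Agent.R162.LB3b

open Crest.Agent.R162.FL Crest.Agent.R162.OP Crest.Agent.R162.OS Crest.Agent.R162.FLD

universe u

theorem cd_scale (κ ε c1 : ℝ) {lam : ℝ} (hlam : 0 < lam) (W : ℝ → ℝ) (s : ℝ) (z : ℂ) :
    LB.cd κ ε c1 lam W s z = lam ^ (κ / 8 - 1) * LB.cd κ (ε / lam) c1 1 W s z := by
  unfold LB.cd
  have hu := FL.ups_nonneg W s z
  have h1 : lam * OP.ups W s z / ε = 1 * OP.ups W s z / (ε / lam) := by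
    rw [one_mul, div_div_eq_mul_div, mul_comm]
  rw [h1, Real.mul_rpow hlam.le hu, one_mul]
  ring

/-- scaling of the content of one point -/
theorem cz_scale (κ ε c1 : ℝ) {lam : ℝ} (hlam : 0 < lam) (W : ℝ → ℝ) (E : Set ℝ) (z : ℂ) :
    LB.cz κ ε c1 lam W E z =
      ENNReal.ofReal (lam ^ (κ / 8 - 1)) * LB.cz κ (ε / lam) c1 1 W E z := by
  unfold LB.cz
  rw [← lintegral_const_mul' _ _ ENNReal.ofReal_ne_top]
  refine lintegral_congr fun s => ?_
  rw [cd_scale κ ε c1 hlam, ENNReal.ofReal_mul (by positivity)]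

theorem Gw_scale (κ : ℝ) {lam : ℝ} (hlam : 0 < lam) (W : ℝ → ℝ) (s : ℝ) (z : ℂ) : Gw κ lam W s z = lam ^ (κ / 8 - 1) * gr κ W s z := by
  unfold Gw gr
  rw [Real.mul_rpow hlam.le (FL.ups_nonneg W s z)]
  ring

/-- **LB-CONTENT (b) with the factor `lam`** from helper499's bound -/
theorem contB_of {κ : ℝ} (hκ : 0 < κ) (_hκ8 : κ < 8) (hM : OP.OPM.{u})
    (hE : ∀ {Ω : Type u} {m : MeasurableSpace Ω} {P : Measure Ω} [IsProbabilityMeasure P]
      {F : Filtration ℝ≥0 m} {B : ℝ≥0 → Ω → ℝ}, IsBM F B P → ∀ z : ℂ, 0 < z.im →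
      LBC.Exit F κ B z) : ContB.{u} κ 7 := by
  intro Ω m P _ F B hB ε c1 lam hε hlam z hz σ τ hσ hτ hστ T hT A hA
  have h := LBC.content_le hM hB hκ hz (hE hB z hz) (ε := ε / lam) (by positivity) c1 hσ hτ hT hA
    (fun ω _ => hστ ω)
  calc ∫⁻ ω in A, LB.cz κ ε c1 lam (driving κ B ω) (Ioc (σ ω : ℝ) (τ ω)) z ∂P
      = ENNReal.ofReal (lam ^ (κ / 8 - 1)) *
        ∫⁻ ω in A, LB.cz κ (ε / lam) c1 1 (driving κ B ω) (Ioc (σ ω : ℝ) (τ ω)) z ∂P := by
        rw [← lintegral_const_mul' _ _ ENNReal.ofReal_ne_top]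
        exact lintegral_congr fun ω => cz_scale κ ε c1 hlam _ _ _
    _ ≤ ENNReal.ofReal (lam ^ (κ / 8 - 1)) * (ENNReal.ofReal 7 *
        ∫⁻ ω in A ∩ {ω | AliveP κ B z (σ ω) ω},
          ENNReal.ofReal (gr κ (driving κ B ω) (σ ω) z) ∂P) := by gcongr
    _ = ENNReal.ofReal 7 * (ENNReal.ofReal (lam ^ (κ / 8 - 1)) *
        ∫⁻ ω in A ∩ {ω | AliveP κ B z (σ ω) ω},
          ENNReal.ofReal (gr κ (driving κ B ω) (σ ω) z) ∂P) := by ring
    _ = ENNReal.ofReal 7 * ∫⁻ ω in A ∩ {ω | Alive (driving κ B ω) z (σ ω)},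
        ENNReal.ofReal (Gw κ lam (driving κ B ω) (σ ω) z) ∂P := by
        congr 1
        rw [← lintegral_const_mul' _ _ ENNReal.ofReal_ne_top]
        have hm : MeasurableSet (A ∩ {ω | Alive (driving κ B ω) z (σ ω)}) :=
          hA.measurableSet.inter (evST_alive hB κ z hσ).measurableSet
        refine setLIntegral_congr_fun hm fun ω _ => ?_
        rw [Gw_scale κ hlam, ENNReal.ofReal_mul (by positivity)]

/-- **LB-CONTENT (b) with the factor `lam`, unconditional** -/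
theorem contB {κ : ℝ} (hκ : 0 < κ) (hκ8 : κ < 8) : ContB.{u} κ 7 :=
  contB_of hκ hκ8 OPM.opm.{u} (fun hB _ _ => LBC.exit_ok hB)

end Crest.Agent.R162.LB3b
end

-- ▼ part R162/LB3bT2
section

/-!
Row 162 (S0243), node LB3b: the stopping time `T2` = first time of `Bad2` (capped at `N`), for a
fixed map `f` (helper459, for helper268).
-/

set_option autoImplicit false

open MeasureTheory Set Filter Topology
open scoped NNReal ENNReal
open Crest.ProbabilityR.Loewner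

namespace Crest.Agent.R162.LB3b

open Crest.Agent.R162 Crest.Agent.R162.FL Crest.Agent.R162.OP Crest.Agent.R162.OS

section generic

variable {Ω : Type*} {m' : MeasurableSpace Ω} {f : ℂ → ℂ} {W : Ω → ℝ → ℝ} {t : ℝ} {p : LB.Par}

theorem measurableSet_bad2_fix (ht : 0 < t) (hf : ContinuousOn f {z | 0 < z.im})
    (hc : ∀ ω, ContinuousOn (W ω) (Set.Icc 0 t))
    (hm : ∀ s ∈ Set.Icc 0 t, Measurable[m'] (fun ω => W ω s)) :
    MeasurableSet[m'] {ω | p.Bad2 f (W ω) t} := by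
  have hrad := LBST.measurable_rad ht.le hc hm
  have him : ∀ y : ℝ, ((y : ℂ) * Complex.I).im = y := by intro y; simp
  have hf' : LBST.CFam m' (fun _ : Ω => f) := ⟨fun z _ => measurable_const, fun _ => hf⟩
  have hc2 := hf'.comp_ffl ht.le hc hm
  have e : {ω | p.Bad2 f (W ω) t} = {ω | ∃ y ∈ Set.Ioc 0 (10 * LB.rad (W ω) t),
      (0 : ℝ) < ‖f (ffl (W ω) t (y * Complex.I)) -
        f ((10 * LB.rad (W ω) t : ℝ) * Complex.I)‖ - p.u0 (p.x f) / 16} := by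
    ext ω
    simp only [LB.Par.Bad2, Set.mem_ofPred_eq, Set.mem_Ioc, sub_pos, and_assoc]
  rw [e]
  refine LBST.measurableSet_exists_Ioc (G := fun (y : ℝ) ω => ‖f (ffl (W ω) t (y * Complex.I)) -
        f ((10 * LB.rad (W ω) t : ℝ) * Complex.I)‖ - p.u0 (p.x f) / 16)
    (R := fun ω => 10 * LB.rad (W ω) t) ?_ (measurable_const.mul hrad) ?_
  · intro y hy
    have h1 : Measurable[m'] fun ω => f (ffl (W ω) t (y * Complex.I)) :=
      hc2.meas _ (by rw [him]; exact hy)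
    have h2 : Measurable[m'] fun ω => f ((10 * LB.rad (W ω) t : ℝ) * Complex.I) := by
      refine hf'.eval ?_ fun ω => ?_
      · exact (Complex.measurable_ofReal.comp (measurable_const.mul hrad)).mul measurable_const
      · rw [him]
        exact mul_pos (by norm_num) (LBST.rad_pos ht)
    exact ((h1.sub h2).norm).sub measurable_const
  · intro ω
    refine ContinuousOn.sub (ContinuousOn.norm (ContinuousOn.sub ?_ continuousOn_const))
      continuousOn_const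
    refine (hc2.cont ω).comp (Continuous.continuousOn (by fun_prop)) ?_
    intro y hy
    show 0 < ((y : ℂ) * Complex.I).im
    rw [him]
    exact hy

theorem not_bad2_zero {W : ℝ → ℝ} (h0 : W 0 = 0) : ¬ p.Bad2 f W 0 := by
  rintro ⟨y, hy, hy1, _⟩
  rw [rad_zero h0, mul_zero] at hy1
  exact absurd hy (not_lt.2 hy1)

end generic

section brownian

variable {Ω : Type*} {m : MeasurableSpace Ω} {F : Filtration ℝ≥0 m} {P : Measure Ω}
  {B : ℝ≥0 → Ω → ℝ} {p : LB.Par} {f : ℂ → ℂ} {N : ℝ≥0} {ω : Ω}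

/-- first time of `Bad2`, capped at `N` -/
noncomputable def T2 (p : LB.Par) (f : ℂ → ℂ) (B : ℝ≥0 → Ω → ℝ) (N : ℝ≥0) (ω : Ω) : ℝ≥0 :=
  LBST.deb (fun t ω => p.Bad2 f (driving p.κ B ω) t) (fun _ => 0) N ω


theorem not_bad2_of_lt {s : ℝ} (h0 : 0 ≤ s) (h : s < T2 p f B N ω) :
    ¬ p.Bad2 f (driving p.κ B ω) s := by
  have h1 : s.toNNReal < T2 p f B N ω := by
    rw [← NNReal.coe_lt_coe, Real.coe_toNNReal _ h0]; exact h
  have h2 := LBST.not_of_lt_deb (O := fun t ω => p.Bad2 f (driving p.κ B ω) t) (σ := fun _ => 0)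
    (T := N) (t := s.toNNReal) (zero_le) h1
  rwa [Real.coe_toNNReal _ h0] at h2

theorem bad2_driving_pos (hB : IsBM F B P) {t : ℝ≥0} (h : p.Bad2 f (driving p.κ B ω) t) :
    0 < t := by
  rcases eq_or_lt_of_le (zero_le (a := t)) with h0 | h0
  · rw [← h0] at h
    exact absurd h (not_bad2_zero (drv_zero hB p.κ ω))
  · exact h0

theorem le_T2 (hB : IsBM F B P) {t : ℝ} (ht : 0 < t) (htN : t ≤ N)
    (h : ∀ s, 0 < s → s < t → ¬ p.Bad2 f (driving p.κ B ω) s) : t ≤ T2 p f B N ω := by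
  by_contra hcon
  rw [not_le] at hcon
  have h1 : T2 p f B N ω < t.toNNReal := by
    rw [← NNReal.coe_lt_coe, Real.coe_toNNReal _ ht.le]; exact hcon
  rcases LBST.deb_lt_iff.1 h1 with ⟨s, _, h2, h3⟩ | h2
  · have hs := bad2_driving_pos hB h3
    rw [← NNReal.coe_lt_coe, Real.coe_toNNReal _ ht.le] at h2
    exact h s (by exact_mod_cast hs) h2 h3
  · have h3 : N < t.toNNReal := (le_max_left _ _).trans_lt h2
    rw [← NNReal.coe_lt_coe, Real.coe_toNNReal _ ht.le] at h3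
    exact absurd htN (not_le.2 h3)

theorem isST_T2_of_cont (hB : IsBM F B P) [F.IsRightContinuous]
    (hf : ContinuousOn f {z | 0 < z.im}) : IsST F (T2 p f B N) := by
  refine LBST.isST_deb (σ := fun _ => 0) (fun t => ?_)
    (O := fun t ω => p.Bad2 f (driving p.κ B ω) t) (fun t => ?_) (fun ω t _ h => ?_) N
  · simp
  · rcases eq_or_lt_of_le (zero_le (a := t)) with h0 | h0
    · have : {ω | (0 : ℝ≥0) ≤ t ∧ p.Bad2 f (driving p.κ B ω) t} = ∅ := by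
        ext ω
        simp only [Set.mem_ofPred_eq, Set.mem_empty_iff_false, iff_false, not_and]
        intro _ h
        exact absurd (bad2_driving_pos hB h) (by rw [← h0]; exact lt_irrefl _)
      rw [this]
      exact @MeasurableSet.empty _ (F t)
    · have : {ω | (0 : ℝ≥0) ≤ t ∧ p.Bad2 f (driving p.κ B ω) t}
          = {ω | p.Bad2 f (driving p.κ B ω) t} := by
        ext ω
        simp
      rw [this]
      exact measurableSet_bad2_fix (m' := F t) (by exact_mod_cast h0) hf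
        (fun ω => (FLD.driving_cont hB p.κ ω).continuousOn)
        (fun s hs => FLD.driving_meas hB p.κ hs)
  · have h0 := bad2_driving_pos hB h
    have h1 := LBST.bad2_right hf (FLD.driving_cont hB p.κ ω).continuousOn
      (by exact_mod_cast h0) h
    have h2 : ∀ᶠ s : ℝ≥0 in 𝓝 t, p.Bad2 f (driving p.κ B ω) s :=
      (NNReal.continuous_coe.tendsto t).eventually h1
    exact h2.filter_mono nhdsWithin_le_nhds

theorem isST_T2 (hB : IsBM F B P) [F.IsRightContinuous]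
    (hf : DifferentiableOn ℂ f KB1.Hs) : IsST F (T2 p f B N) :=
  isST_T2_of_cont hB hf.continuousOn

end brownian

end Crest.Agent.R162.LB3b
end

-- ▼ part R162/LB3bMeas
section

/-!
Row 162 (S0243), measurability for node LB3b (helper459, for helper268): joint measurability of
`(ω, s) ↦ rad (driving κ B ω) s`, of the random time windows `win`, and of `(ω, z) ↦ cz … z` over
the window `win (driving κ B ω) (τ ω) k`.
-/

set_option autoImplicit false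

open MeasureTheory Set Filter Topology
open scoped NNReal ENNReal
open Crest.ProbabilityR.Loewner

namespace Crest.Agent.R162.LB3bMeas

open Crest.Agent.R162 Crest.Agent.R162.FL Crest.Agent.R162.OP Crest.Agent.R162.OS

section generic

variable {Ω : Type*} {m : MeasurableSpace Ω} {W : Ω → ℝ → ℝ}

theorem rad_of_neg {W : ℝ → ℝ} {t : ℝ} (ht : t < 0) : LB.rad W t = 0 := by
  unfold LB.rad
  rw [Set.Icc_eq_empty (not_le.2 ht), Set.image_empty, Real.sSup_empty,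
    Real.sqrt_eq_zero_of_nonpos ht.le, max_self]

/-- joint measurability of `rad` -/
theorem measurable_rad_of (hc : ∀ ω, ContinuousOn (W ω) (Ici 0))
    (hm : ∀ s, 0 ≤ s → Measurable (fun ω => W ω s)) :
    Measurable (fun x : Ω × ℝ => LB.rad (W x.1) x.2) := by
  have h1 : Measurable (Function.uncurry fun (t : ℝ) (ω : Ω) => LB.rad (W ω) (max 0 t)) := by
    refine measurable_uncurry_of_continuous_of_measurable (fun ω => ?_) (fun t => ?_)
    · exact (LBST.continuousOn_rad (hc ω)).comp_continuous (continuous_const.max continuous_id)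
        fun t => (le_max_left 0 t : (0 : ℝ) ≤ max 0 t)
    · exact LBST.measurable_rad (le_max_left 0 t) (fun ω => (hc ω).mono fun s hs => hs.1)
        fun s hs => hm s hs.1
  have h2 : Measurable (fun x : Ω × ℝ => LB.rad (W x.1) (max 0 x.2)) :=
    h1.comp measurable_swap
  have h3 : (fun x : Ω × ℝ => LB.rad (W x.1) x.2)
      = {x : Ω × ℝ | 0 ≤ x.2}.indicator (fun x : Ω × ℝ => LB.rad (W x.1) (max 0 x.2)) := by
    funext x
    by_cases hx : 0 ≤ x.2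
    · rw [indicator_of_mem (show x ∈ {x : Ω × ℝ | 0 ≤ x.2} from hx), max_eq_right hx]
    · rw [indicator_of_notMem (show x ∉ {x : Ω × ℝ | 0 ≤ x.2} from hx),
        rad_of_neg (not_le.1 hx)]
  rw [h3]
  exact h2.indicator (measurableSet_le measurable_const measurable_snd)

theorem win_subset (W : ℝ → ℝ) (t : ℝ) (k : ℤ) :
    LB.win W t k ⊆ Icc 0 (((2 : ℝ) ^ (k + 1)) ^ 2) := by
  intro s hs
  refine ⟨hs.1.le, ?_⟩
  refine (LB.le_rad_sq (W := W) hs.1.le).trans ?_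
  exact pow_le_pow_left₀ (LB.rad_nonneg W s) hs.2.2.2.le 2

/-- the random window is jointly measurable -/
theorem measurableSet_win_of (hc : ∀ ω, ContinuousOn (W ω) (Ici 0))
    (hm : ∀ s, 0 ≤ s → Measurable (fun ω => W ω s)) {τ : Ω → ℝ} (hτ : Measurable τ) (k : ℤ) :
    MeasurableSet {x : Ω × ℝ | x.2 ∈ LB.win (W x.1) (τ x.1) k} := by
  have hr := measurable_rad_of hc hm
  have h1 : MeasurableSet {x : Ω × ℝ | 0 < x.2} := measurableSet_lt measurable_const measurable_snd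
  have h2 : MeasurableSet {x : Ω × ℝ | x.2 ≤ τ x.1} :=
    measurableSet_le measurable_snd (hτ.comp measurable_fst)
  have h3 : MeasurableSet {x : Ω × ℝ | (2 : ℝ) ^ k ≤ LB.rad (W x.1) x.2} :=
    measurableSet_le measurable_const hr
  have h4 : MeasurableSet {x : Ω × ℝ | LB.rad (W x.1) x.2 < (2 : ℝ) ^ (k + 1)} :=
    measurableSet_lt hr measurable_const
  exact h1.inter (h2.inter (h3.inter h4))


/-- `ω ↦ content` over the window -/
theorem measurable_content_win_of {κ ε c1 : ℝ} (f : ℂ → ℂ) (V : Set ℂ)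
    (hc : ∀ ω, ContinuousOn (W ω) (Ici 0))
    (hm : ∀ s, 0 ≤ s → Measurable (fun ω => W ω s)) {τ : Ω → ℝ} (hτ : Measurable τ) (k : ℤ) :
    Measurable (fun ω => LB.content κ ε c1 f (W ω) (LB.win (W ω) (τ ω) k) V) :=
  LBCont.measurable_content (T := ((2 : ℝ) ^ (k + 1)) ^ 2) f V
    (fun ω => (hc ω).mono fun _ hs => hs.1) (fun s hs => hm s hs.1)
    (E := fun ω => LB.win (W ω) (τ ω) k) (measurableSet_win_of hc hm hτ k)
    (fun ω => win_subset (W ω) (τ ω) k)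

end generic

section brownian

variable {Ω : Type*} {m : MeasurableSpace Ω} {F : Filtration ℝ≥0 m} {P : Measure Ω}
  {B : ℝ≥0 → Ω → ℝ}






/-- the content of a window is a random variable -/
theorem measurable_content_win (hB : IsBM F B P) {κ ε c1 : ℝ} (f : ℂ → ℂ) (V : Set ℂ) (k : ℤ)
    {τ : Ω → ℝ≥0} (hτ : Measurable τ) :
    Measurable (fun ω => LB.content κ ε c1 f (driving κ B ω)
      (LB.win (driving κ B ω) (τ ω) k) V) :=
  measurable_content_win_of f V (fun ω => (FLD.driving_cont hB κ ω).continuousOn)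
    (fun s _ => FLD.driving_meas' hB κ s) (τ := fun ω => (τ ω : ℝ)) hτ.coe_nnreal_real k

end brownian

end Crest.Agent.R162.LB3bMeas
end

-- ▼ part R162/LB3bIn3
section

/-!
Row 162, node LB3b (helper636, for helper268): final wiring `WinMean κ → In3 κ c1`.
-/

set_option autoImplicit false

open MeasureTheory ProbabilityTheory Set Filter Topology
open scoped NNReal ENNReal
open Crest.ProbabilityR.Loewner

namespace Crest.Agent.R162.LB3b

open Crest.Agent.R162.FL Crest.Agent.R162.OS Crest.Agent.R162.LBStep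

universe u

/-- the mean bound of one window (helper268) -/
def WinMean (κ : ℝ) : Prop :=
  ∃ C e : ℝ, 0 < C ∧ 0 < e ∧ ∀ p : LB.Par, p.κ = κ → p.Adm → 0 < p.ε →
    ∀ f : ℂ → ℂ, DifferentiableOn ℂ f KB1.Hs → InjOn f KB1.Hs → ∀ k : ℤ,
    (∀ y : ℝ, 0 < y → y ≤ 10 * (2:ℝ)^k →
      ‖f (y * Complex.I) - p.x f‖ ≤ p.u0 (p.x f) / 32) → LB.vv p.u0 f (2^k) ≤ 1 →
    ∀ (Ω : Type u) [MeasurableSpace Ω] (P : Measure Ω) [IsProbabilityMeasure P]
      (F : Filtration ℝ≥0 (inferInstance : MeasurableSpace Ω)) (B : ℝ≥0 → Ω → ℝ)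
      (_ : IsBM F B P) (T2 : Ω → ℝ≥0) (_ : IsST F T2)
      (_ : ∀ ω s, 0 < s → s < (T2 ω : ℝ) → ¬ p.Bad2 f (driving κ B ω) s),
      ∫⁻ ω, p.nearC f (driving κ B ω) (LB.win (driving κ B ω) (T2 ω) k) ∂P
        ≤ ENNReal.ofReal (C * LB.vv p.u0 f (2^k) ^ e)

lemma win_mono {W : ℝ → ℝ} {s t : ℝ} (h : s ≤ t) (k : ℤ) : LB.win W s k ⊆ LB.win W t k := by
  rintro u ⟨h0, h1, h2, h3⟩
  exact ⟨h0, h1.trans h, h2, h3⟩

/-- **LB3b**: `In3 κ c1` from the mean bound. -/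
theorem in3_of {κ c1 : ℝ} (h : WinMean.{u} κ) : LBStep.In3.{u} κ c1 := by
  obtain ⟨C, e, hC, he, h⟩ := h
  refine ⟨e, C, he, hC.le, ?_⟩
  intro cs q η K3 K4 hcs hcse hq hq8 hη hη8 hK3 hK4
  obtain ⟨θ0, hθ0, hθall⟩ := LB2h.exists_th0 hq (by linarith : q < 1) hK3 hK4 one_pos
  refine ⟨θ0, hθ0, ?_⟩
  intro θ hθ hθθ0
  refine ⟨1, one_pos, ?_⟩
  intro p hκ hpc1 hpcs hpq hpη hpK3 hpK4 hpθ hε0 hε hA f hS Ω _ P _ F B hB k hk
  obtain ⟨s1, s2, s3, s4⟩ := hθall θ hθ hθθ0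
  have hsmall : LB0.Small p :=
    { q_pos := by rw [hpq]; exact hq
      q_lt := by rw [hpq]; linarith
      η_nonneg := by rw [hpη]; exact hη.le
      θ_pos := by rw [hpθ]; exact hθ
      K3_pos := by rw [hpK3]; exact hK3
      K4_ge := by rw [hpK4]; exact hK4
      sm1 := by rw [hpK3, hpq, hpθ]; exact s1
      sm2 := by rw [hpK4, hpθ]; linarith }
  have hG := LB2h.geo_state hA hsmall hS (by rw [hpθ]; exact s3)
  subst hκ
  have hρ : (0 : ℝ) < (2 : ℝ) ^ k := by positivity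
  have hρ10 : (2 : ℝ) ^ k ≤ 10 * p.rho1 f := by have := hG.rho_pos; linarith
  have hnear : ∀ y : ℝ, 0 < y → y ≤ 10 * (2:ℝ)^k →
      ‖f (y * Complex.I) - p.x f‖ ≤ p.u0 (p.x f) / 32 := by
    intro y hy0 hy
    have h1 := hG.near y hy0 (by linarith)
    have h2 : 0 < p.u0 (p.x f) := lt_of_lt_of_le one_pos (hA.one_le _)
    linarith
  have hvv1 : LB.vv p.u0 f (2 ^ k) ≤ 1 := hG.vv_le_one _ hρ hρ10
  have hups0 : 0 < KB1.ups f (((2 : ℝ) ^ k : ℝ) * Complex.I) :=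
    KB1.ups_pos hS.diff hS.inj (by rw [LB2a.mulI_im]; exact hρ)
  have hvv0 : 0 < LB.vv p.u0 f (2 ^ k) := by
    refine div_pos hups0 ?_
    exact lt_of_lt_of_le one_pos (hA.one_le _)
  -- the stopping time
  set N : ℝ≥0 := (((2 : ℝ) ^ (k + 1)) ^ 2).toNNReal with hN
  have hNle : ((2 : ℝ) ^ (k + 1)) ^ 2 ≤ (N : ℝ) := Real.le_coe_toNNReal _
  have hN0 : (0 : ℝ) < (N : ℝ) := lt_of_lt_of_le (by positivity) hNle
  have hB' : IsBM F.rightCont B P := LBST.isBM_rightCont hB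
  set τ : Ω → ℝ≥0 := T2 p f B N with hτ
  have hST : IsST F.rightCont τ := isST_T2 hB' hS.diff
  have hτm : Measurable τ := hST.measurable
  have hno : ∀ ω s, 0 < s → s < (τ ω : ℝ) → ¬ p.Bad2 f (driving p.κ B ω) s :=
    fun ω s hs h2 => not_bad2_of_lt hs.le h2
  have hmean := h p rfl hA hε0 f hS.diff hS.inj k hnear hvv1 Ω P F.rightCont B hB' τ hST hno
  set X : Ω → ℝ≥0∞ := fun ω => p.nearC f (driving p.κ B ω) (LB.win (driving p.κ B ω) (τ ω) k)
    with hX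
  have hXm : Measurable X := LB3bMeas.measurable_content_win hB f (p.near f) k hτm
  set a : ℝ≥0∞ := ENNReal.ofReal (LB.vv p.u0 f (2 ^ k) ^ (cs / 2)) with ha
  have hapos : 0 < LB.vv p.u0 f (2 ^ k) ^ (cs / 2) := Real.rpow_pos_of_pos hvv0 _
  have ha0 : a ≠ 0 := by
    rw [ha]
    exact (ENNReal.ofReal_pos.2 hapos).ne'
  have hat : a ≠ ⊤ := ENNReal.ofReal_ne_top
  have hsub : {ω | E3 p f (driving p.κ B ω) k} ⊆ {ω | a ≤ X ω} := by
    rintro ω ⟨t, ht, hnb, hbad⟩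
    have hbad' : a < p.nearC f (driving p.κ B ω) (LB.win (driving p.κ B ω) t k) := by
      have h1 : ENNReal.ofReal (LB.vv p.u0 f (2 ^ k) ^ (p.cs / 2))
        < p.nearC f (driving p.κ B ω) (LB.win (driving p.κ B ω) t k) := hbad
      rw [hpcs] at h1
      exact h1
    have hm : min t (N : ℝ) ≤ (τ ω : ℝ) := by
      refine le_T2 hB (lt_min ht hN0) (min_le_right _ _) ?_
      intro s hs0 hs
      exact hnb s hs0 (hs.trans_le (min_le_left _ _))
    refine hbad'.le.trans ?_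
    rw [win_min hNle]
    exact LB.content_mono (win_mono hm k) (subset_refl _)
  refine (measure_mono hsub).trans ((meas_ge_le_lintegral_div hXm.aemeasurable ha0 hat).trans ?_)
  refine (ENNReal.div_le_div_right hmean a).trans ?_
  rw [ha, ← ENNReal.ofReal_div_of_pos hapos]
  refine ENNReal.ofReal_le_ofReal ?_
  rw [mul_div_assoc, ← Real.rpow_sub hvv0]
  refine mul_le_mul_of_nonneg_left ?_ hC.le
  exact Real.rpow_le_rpow_of_exponent_ge hvv0 hvv1 (by linarith)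

end Crest.Agent.R162.LB3b
end

-- ▼ part R162/LBJB
section

/-!
Row 162, node STEP (helper411): the input `JBS` of the step theorem: in case B `K₃ ≤ J(10 ρ₁)`.
-/

set_option autoImplicit false

open MeasureTheory Filter Topology Set Complex
open scoped NNReal ENNReal

namespace Crest.Agent.R162.LBJB

open Crest.Agent.R162.LB Crest.Agent.R162.LBS Crest.Agent.R162.LBStep

/-- the set defining `y_x` is not empty for a start map -/
theorem bad_nonempty {p : Par} {f : ℂ → ℂ} (hθ : p.θ < 1) (hs : Start p f) :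
    (LB0.bad p.u0 p.q f p.θ p.K3).Nonempty := by
  have h := (hs.v_tendsto.eventually (lt_mem_nhds hθ)).and (eventually_gt_atTop 0)
  obtain ⟨y, hy1, hy0⟩ := h.exists
  exact ⟨y, hy0, Or.inl hy1.le⟩

theorem y_pos {p : Par} (hok : Ok p) {f : ℂ → ℂ} (hs : Start p f) : 0 < p.y f :=
  LB0.yx_pos hs.univ.diff hs.univ.inj hok.adm.lip hok.adm.one_le hok.q0 hok.θ0
    (by have := hok.θ1; linarith) (by have := hok.K3; linarith)
    ⟨1, one_pos, lt_top_iff_ne_top.2 (hs.J_ne_top 1)⟩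
    (bad_nonempty (by have := hok.θ1; linarith) hs)


theorem jbs {p : Par} (hok : Ok p) : JBS p := by
  intro f hs hB
  have hy := y_pos hok hs
  have h10 : 10 * p.rho1 f = p.y f := by
    unfold Par.rho1
    rw [if_neg hB]
    ring
  rw [h10]
  exact LB0.le_Jv_yx hs.univ.diff hs.univ.inj hok.adm.lip hok.adm.one_le hok.q0
    (bad_nonempty (by have := hok.θ1; linarith) hs) hy (not_le.1 hB)

theorem forSmall_jbs (κ c1 q η cs K4 K3 : ℝ) : ForSmall κ c1 q η cs K4 K3 JBS :=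
  ⟨1, one_pos, fun _ _ _ => ⟨1, one_pos, fun _ _ _ _ _ hok => jbs hok⟩⟩

/-- `Geo` for a start map (small constants). -/
theorem geo {p : Par} (hok : Ok p) (hc : LB0.Small p) {f : ℂ → ℂ} (hs : Start p f) :
    0 < p.y f ∧ 0 < p.rho1 f ∧ p.y f ≤ 10 * p.rho1 f ∧
    (∀ y : ℝ, 0 < y → y ≤ 10 * p.rho1 f → ‖f (y * I) - p.x f‖ ≤ p.u0 (p.x f) / 64) ∧
    (∀ y : ℝ, 0 < y → y ≤ 10 * p.rho1 f → vv p.u0 f y ≤ 102 * p.K4 ^ 2 * p.θ) ∧
    Jv p.u0 p.q f (10 * p.rho1 f) ≤ ENNReal.ofReal (p.K3 + Real.log (10 * p.K4)) := by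
  have hrho : p.rho1 f = LB0.rho1 p.u0 p.q f p.θ p.K3 p.K4 := by
    unfold LB.Par.rho1 LB0.rho1
    rfl
  obtain ⟨g1, g2, g3, g4, g5, g6⟩ := LB0.geo (K4 := p.K4) hs.univ.diff hs.univ.inj hok.adm.lip
    hok.adm.one_le hc.q_pos hc.q_lt hc.θ_pos hc.K3_pos hc.K4_ge hc.sm1 hc.sm2
    ⟨1, one_pos, lt_top_iff_ne_top.2 (hs.J_ne_top 1)⟩
    (bad_nonempty (by have := hok.θ1; linarith) hs)
  rw [← hrho] at g2 g3 g4 g5 g6
  exact ⟨g1, g2, g3, fun y hy hy2 => g4 y hy hy2, fun y hy hy2 => g5 y hy hy2, g6⟩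

end Crest.Agent.R162.LBJB
end

-- ▼ part R162/LB1SX
section

/-!
Row 162, node LB1S (helper411, second of helper791): the potential drop of one step in the frozen
form of `LBSkel`, with its `ForSmall` quantifiers; constants `CV = 5`, `cJ = 1/2`.
-/

set_option autoImplicit false

open MeasureTheory Filter Topology Set Complex
open scoped NNReal ENNReal

namespace Crest.Agent.R162.LB1SX

open Crest.Agent.R162.FL Crest.Agent.R162.LB Crest.Agent.R162.LBS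

/-- `ffl W 0` is the identity on the half-plane -/
theorem ffl_zero_eqOn {W : ℝ → ℝ} (hW : Drive W) : EqOn (ffl W 0) (fun z => z) KB1.Hs := by
  intro z hz
  have h1 := FLC.gfl_zero_ffl hW.cont le_rfl hz
  have h2 := FLC.gfl_ffl hW.cont le_rfl hz
  rw [h1, hW.zero] at h2
  simpa using h2

theorem st_zero_eqOn {W : ℝ → ℝ} (hW : Drive W) (f : ℂ → ℂ) : EqOn (Par.st f W 0) f KB1.Hs := by
  intro z hz
  change f (ffl W 0 z) = f z
  rw [ffl_zero_eqOn hW hz]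

/-- the old geodesic -/
theorem old {p : Par} (hok : Ok p) (hc : LB0.Small p) {f : ℂ → ℂ} (hs : Start p f) :
    LBStepD.Old p f := by
  obtain ⟨g1, g2, g3, g4, g5, g6⟩ := LBJB.geo hok hc hs
  refine ⟨fun y hy hy2 => (g4 y hy hy2).trans ?_, fun y hy hy2 => (g5 y hy hy2).trans ?_⟩
  · have h1 : 0 < p.u0 (p.x f) := lt_of_lt_of_le one_pos (hok.adm.one_le _)
    have : p.u0 (p.x f) / 64 ≤ p.u0 (p.x f) / 32 := by gcongr; norm_num
    exact this
  · have := hc.sm2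
    nlinarith

theorem lb1S {p : Par} (hok : Ok p) (hc : LB0.Small p) : LB1S 5 (1 / 2) p := by
  intro f hs W hW
  have hw : 0 ≤ p.varpi f := by
    have h1 : 0 < p.u0 (p.x f) := lt_of_lt_of_le one_pos (hok.adm.one_le _)
    unfold Par.varpi
    positivity
  rcases (T_nonneg p f W).lt_or_eq with hT | hT
  · have h := LBStepD.dL_le hok.adm hok.q0.le hok.η0.le hok.qη hs.univ.diff hs.univ.inj
      (old hok hc hs) hW.cont hT
    refine h.trans ?_
    rw [add_assoc, mul_add, mul_one]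
    refine add_le_add le_rfl ?_
    rw [add_comm]
    gcongr
    norm_num
  · rw [← hT]
    have h0 : rad W 0 = 0 := LBStepD.rad_zero hW.zero
    have hJ : Jv p.u0 p.q f (10 * rad W 0) = 0 := by
      rw [h0, mul_zero]
      unfold Jv
      simp
    have hL : p.Λ (Par.st f W 0) = p.Λ f := LB1.Lam_congr (st_zero_eqOn hW f)
    rw [hJ, mul_zero, add_zero, hL]
    exact le_self_add

theorem small_of {κ c1 q η cs K4 K3 θ ε : ℝ} {B : Set ℂ} {u0 : ℂ → ℝ} (hq : 0 < q) (hq1 : q < 1)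
    (hK3 : 0 < K3) (hK4 : 1 ≤ K4) (hη : 0 ≤ η) (hθ : 0 < θ)
    (h1 : K3 * θ ^ (1 - q) ≤ 1 / 130) (h2 : 3200 * K4 ^ 2 * θ ≤ 1) :
    LB0.Small (mkP κ c1 q η cs K4 K3 θ ε B u0) :=
  ⟨hq, hq1, hη, hθ, hK3, hK4, h1, h2⟩

/-- **LB1S with its quantifiers** -/
theorem forSmall_lb1S (κ c1 q η cs K4 K3 : ℝ) :
    ForSmall κ c1 q η cs K4 K3 (LB1S 5 (1 / 2)) := by
  by_cases h : 0 < q ∧ q < 1 ∧ 0 < K3 ∧ 1 ≤ K4
  · obtain ⟨hq, hq1, hK3, hK4⟩ := h
    obtain ⟨θ0, hθ0, hth⟩ := LB0.exists_theta hq hq1 hK3 hK4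
    refine ⟨θ0, hθ0, fun θ hθ hle => ⟨1, one_pos, fun ε _ _ B u0 hok => ?_⟩⟩
    obtain ⟨h1, h2⟩ := hth θ hθ hle
    exact lb1S hok (small_of hq hq1 hK3 hK4 hok.η0.le hθ h1 h2)
  · refine ⟨1, one_pos, fun θ hθ hle => ⟨1, one_pos, fun ε _ _ B u0 hok => absurd ?_ h⟩⟩
    have e1 : 0 < q := hok.q0
    have e2 : 4 * q + 2 * η ≤ 1 / 2 := hok.qη
    have e3 : 0 < η := hok.η0
    have e4 : 1 ≤ K3 := hok.K3
    have e5 : 1 ≤ K4 := hok.K4
    exact ⟨e1, by linarith, by linarith, e5⟩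

end Crest.Agent.R162.LB1SX
end

-- ▼ part R162/LB3c
section

/-!
Row 162, node LB3c (helper868): the FAR content lemma.  Points `z` with `‖Z_s(z)‖ ≥ 10 ρ_T`
(far from the tip in the half-plane chart) collect little content during the step.
-/

set_option autoImplicit false

open Set MeasureTheory Filter
open scoped ENNReal

namespace Crest.Agent.R162.LB3c

open Crest.Agent.R162.FL Crest.Agent.R162

variable {W : ℝ → ℝ} {z : ℂ} {s ρ : ℝ}

theorem continuousOn_norm_Zfl (hW : ContinuousOn W (Ici 0)) (h : Alive W z s) :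
    ContinuousOn (fun r => ‖Zfl W r z‖) (Icc 0 s) :=
  (continuousOn_Zfl hW h).norm

/-- increments of the flow while `‖Z‖ ≥ m`. -/
theorem norm_gfl_sub_le_of (h : Alive W z s) {a b m : ℝ} (ha : 0 ≤ a) (hab : a ≤ b)
    (hb : b ≤ s) (hm : 0 < m) (hZ : ∀ r ∈ Icc a b, m ≤ ‖Zfl W r z‖) :
    ‖gfl W b z - gfl W a z‖ ≤ 2 / m * (b - a) := by
  have hsub : Icc a b ⊆ Icc 0 s := Icc_subset_Icc ha hb
  have key := Convex.norm_image_sub_le_of_norm_hasDerivWithin_le (𝕜 := ℝ)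
    (f := fun r => gfl W r z) (f' := fun r => 2 / (Zfl W r z)) (s := Icc a b) (x := a) (y := b)
    (C := 2 / m)
    (fun r hr => (hasDerivWithinAt_gfl h (hsub hr)).mono hsub)
    (fun r hr => ?_) (convex_Icc a b) ⟨le_rfl, hab⟩ ⟨hab, le_rfl⟩
  · rwa [Real.norm_eq_abs, abs_of_nonneg (sub_nonneg.2 hab)] at key
  · rw [norm_div, Complex.norm_ofNat]
    exact div_le_div_of_nonneg_left (by norm_num) hm (hZ r hr)

theorem far_seven (hW : ContinuousOn W (Ici 0)) (h : Alive W z s) (hρ : 0 < ρ)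
    (hsρ : s ≤ ρ ^ 2) (hWρ : ∀ r ∈ Icc 0 s, |W r| ≤ ρ) (hfar : 10 * ρ ≤ ‖Zfl W s z‖) :
    ∀ r ∈ Icc 0 s, 7 * ρ ≤ ‖Zfl W r z‖ := by
  by_contra hcon
  push Not at hcon
  obtain ⟨r₁, hr₁, hlt⟩ := hcon
  have hcont := continuousOn_norm_Zfl hW h
  set A : Set ℝ := {r | r ∈ Icc 0 s ∧ ‖Zfl W r z‖ ≤ 7 * ρ} with hA
  have hAcl : IsClosed A := by
    have := hcont.preimage_isClosed_of_isClosed isClosed_Icc (isClosed_Iic (a := 7 * ρ))
    exact this
  have hAc : IsCompact A := (isCompact_Icc (a := (0:ℝ)) (b := s)).of_isClosed_subset hAcl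
    (fun r hr => hr.1)
  obtain ⟨r₀, hr₀⟩ := hAc.exists_isGreatest ⟨r₁, show r₁ ∈ A from ⟨hr₁, hlt.le⟩⟩
  have hr₀A : r₀ ∈ Icc 0 s ∧ ‖Zfl W r₀ z‖ ≤ 7 * ρ := hr₀.1
  have hge : ∀ r ∈ Icc r₀ s, 7 * ρ ≤ ‖Zfl W r z‖ := by
    intro r hr
    rcases eq_or_lt_of_le hr.1 with he | hl
    · -- at r₀: by continuity from the right
      subst he
      by_contra hc
      push Not at hc
      have hr0s : r₀ < s := by
        rcases eq_or_lt_of_le hr₀A.1.2 with he | hl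
        · rw [he] at hc; linarith
        · exact hl
      have hcw : ContinuousWithinAt (fun r => ‖Zfl W r z‖) (Icc 0 s) r₀ := hcont r₀ hr₀A.1
      have hev : ∀ᶠ r in nhdsWithin r₀ (Icc 0 s), ‖Zfl W r z‖ < 7 * ρ :=
        hcw.eventually (gt_mem_nhds hc)
      have hev2 : ∀ᶠ r in nhdsWithin r₀ (Ioc r₀ s), ‖Zfl W r z‖ < 7 * ρ :=
        hev.filter_mono (nhdsWithin_mono _
          (show Ioc r₀ s ⊆ Icc 0 s from fun r hr => ⟨hr₀A.1.1.trans hr.1.le, hr.2⟩))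
      have hne : (nhdsWithin r₀ (Ioc r₀ s)).NeBot := by
        rw [nhdsWithin_Ioc_eq_nhdsGT hr0s]; infer_instance
      obtain ⟨r, hr1, hr2⟩ := (hev2.and self_mem_nhdsWithin).exists
      have : r ≤ r₀ := hr₀.2 (show r ∈ A from ⟨⟨hr₀A.1.1.trans hr2.1.le, hr2.2⟩, hr1.le⟩)
      exact absurd hr2.1 (not_lt.2 this)
    · by_contra hc
      push Not at hc
      have : r ≤ r₀ := hr₀.2 (show r ∈ A from ⟨⟨hr₀A.1.1.trans hr.1, hr.2⟩, hc.le⟩)
      exact absurd hl (not_lt.2 this)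
  have hinc := norm_gfl_sub_le_of h hr₀A.1.1 hr₀A.1.2 le_rfl (by positivity : 0 < 7 * ρ) hge
  have h1 : 2 / (7 * ρ) * (s - r₀) ≤ 2 / 7 * ρ := by
    have : s - r₀ ≤ ρ ^ 2 := by linarith [hr₀A.1.1]
    calc 2 / (7 * ρ) * (s - r₀) ≤ 2 / (7 * ρ) * ρ ^ 2 := by gcongr
      _ = 2 / 7 * ρ := by field_simp
  have h2 : ‖Zfl W s z‖ ≤ ‖Zfl W r₀ z‖ + ‖gfl W s z - gfl W r₀ z‖ + |W s| + |W r₀| := by
    have e : Zfl W s z = Zfl W r₀ z + (gfl W s z - gfl W r₀ z) - (W s : ℂ) + (W r₀ : ℂ) := by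
      simp only [Zfl]; ring
    calc ‖Zfl W s z‖ = ‖Zfl W r₀ z + (gfl W s z - gfl W r₀ z) - (W s : ℂ) + (W r₀ : ℂ)‖ := by
          rw [← e]
      _ ≤ ‖Zfl W r₀ z + (gfl W s z - gfl W r₀ z) - (W s : ℂ)‖ + ‖(W r₀ : ℂ)‖ := norm_add_le _ _
      _ ≤ ‖Zfl W r₀ z + (gfl W s z - gfl W r₀ z)‖ + ‖(W s : ℂ)‖ + ‖(W r₀ : ℂ)‖ := by
          gcongr; exact norm_sub_le _ _
      _ ≤ ‖Zfl W r₀ z‖ + ‖gfl W s z - gfl W r₀ z‖ + ‖(W s : ℂ)‖ + ‖(W r₀ : ℂ)‖ := by
          gcongr; exact norm_add_le _ _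
      _ = _ := by simp [Complex.norm_real]
  have h3 := hWρ s ⟨h.nonneg, le_rfl⟩
  have h4 := hWρ r₀ hr₀A.1
  have h5 := hr₀A.2
  linarith

theorem far_close (hW : ContinuousOn W (Ici 0)) (h : Alive W z s) (hρ : 0 < ρ)
    (hsρ : s ≤ ρ ^ 2) (hWρ : ∀ r ∈ Icc 0 s, |W r| ≤ ρ) (hfar : 10 * ρ ≤ ‖Zfl W s z‖) :
    ‖Zfl W s z - z‖ ≤ 13 / 10 * ρ := by
  have h7 := far_seven hW h hρ hsρ hWρ hfar
  have hinc := norm_gfl_sub_le_of h le_rfl h.nonneg le_rfl (by positivity : 0 < 7 * ρ) h7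
  have h0 : gfl W 0 z = z := gfl_zero' h
  rw [h0, sub_zero] at hinc
  have h1 : 2 / (7 * ρ) * s ≤ 2 / 7 * ρ := by
    calc 2 / (7 * ρ) * s ≤ 2 / (7 * ρ) * ρ ^ 2 := by gcongr
      _ = 2 / 7 * ρ := by field_simp
  have e : Zfl W s z - z = (gfl W s z - z) - (W s : ℂ) := by simp only [Zfl]; ring
  have h3 := hWρ s ⟨h.nonneg, le_rfl⟩
  calc ‖Zfl W s z - z‖ = ‖(gfl W s z - z) - (W s : ℂ)‖ := by rw [e]
    _ ≤ ‖gfl W s z - z‖ + ‖(W s : ℂ)‖ := norm_sub_le _ _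
    _ = ‖gfl W s z - z‖ + |W s| := by rw [Complex.norm_real, Real.norm_eq_abs]
    _ ≤ 13 / 10 * ρ := by linarith

theorem far_ups (hW : ContinuousOn W (Ici 0)) (h : Alive W z s) (hρ : 0 < ρ)
    (hsρ : s ≤ ρ ^ 2) (hWρ : ∀ r ∈ Icc 0 s, |W r| ≤ ρ) (hfar : 10 * ρ ≤ ‖Zfl W s z‖) :
    z.im * Real.exp (-(4 / 49)) ≤ OP.ups W s z := by
  have h7 := far_seven hW h hρ hsρ hWρ hfar
  have hz := h.im_pos
  have key := Convex.norm_image_sub_le_of_norm_hasDerivWithin_le (𝕜 := ℝ)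
    (f := fun r => Real.log (OP.ups W r z))
    (f' := fun r => -(4 * (Zfl W r z).im ^ 2 / ‖Zfl W r z‖ ^ 4)) (s := Icc 0 s) (x := 0) (y := s)
    (C := 4 / (49 * ρ ^ 2))
    (fun r hr => hasDeriv_log_ups hW h hr)
    (fun r hr => ?_) (convex_Icc 0 s) ⟨le_rfl, h.nonneg⟩ ⟨h.nonneg, le_rfl⟩
  · simp only [sub_zero] at key
    rw [ups_zero hz, Real.norm_eq_abs, Real.norm_eq_abs, abs_of_nonneg h.nonneg] at key
    have h1 : 4 / (49 * ρ ^ 2) * s ≤ 4 / 49 := by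
      calc 4 / (49 * ρ ^ 2) * s ≤ 4 / (49 * ρ ^ 2) * ρ ^ 2 := by gcongr
        _ = 4 / 49 := by field_simp
    have h2 := (abs_le.1 (key.trans h1)).1
    have hu := ups_pos h
    have h3 : Real.log (z.im * Real.exp (-(4 / 49))) ≤ Real.log (OP.ups W s z) := by
      rw [Real.log_mul hz.ne' (Real.exp_pos _).ne', Real.log_exp]; linarith
    exact (Real.log_le_log_iff (by positivity) hu).1 h3
  · have hpos : 0 < ‖Zfl W r z‖ := norm_Zfl_pos_of_mem h hr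
    rw [norm_neg, Real.norm_eq_abs, abs_of_nonneg (by positivity)]
    have him : (Zfl W r z).im ^ 2 ≤ ‖Zfl W r z‖ ^ 2 := by
      have := Complex.abs_im_le_norm (Zfl W r z)
      rw [← sq_abs]; gcongr
    have h49 : 49 * ρ ^ 2 ≤ ‖Zfl W r z‖ ^ 2 := by
      have := h7 r hr
      nlinarith [norm_nonneg (Zfl W r z)]
    calc 4 * (Zfl W r z).im ^ 2 / ‖Zfl W r z‖ ^ 4
        ≤ 4 * ‖Zfl W r z‖ ^ 2 / ‖Zfl W r z‖ ^ 4 := by gcongr
      _ = 4 / ‖Zfl W r z‖ ^ 2 := by field_simp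
      _ ≤ 4 / (49 * ρ ^ 2) := by gcongr

end Crest.Agent.R162.LB3c
end

-- ▼ part R162/LB3cB
section

/-!
Row 162 (S0243), node LB3c (far content), part B (helper786):
* `mm`, `Psi`: `m = max (Ups_f) (u0 ∘ f)`, `Psi = Ups_f^q m^(-q-η)`;
* `log m` and `log Psi` are Lipschitz in the hyperbolic metric;
* the radial integral `∫_{|z| ≥ 7ρ} |z|^(-7/2) ≤ C ρ^(-3/2)`.
-/

set_option autoImplicit false

open Complex Set Metric MeasureTheory
open scoped ComplexConjugate ENNReal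

namespace Crest.Agent.R162.LB3c

open Crest.Agent.R162

/-- `m = max (Ups_f) (u0 ∘ f)` -/
noncomputable def mm (u0 : ℂ → ℝ) (f : ℂ → ℂ) (z : ℂ) : ℝ := max (KB1.ups f z) (u0 (f z))

/-- `Psi = Ups_f^q m^(-q-η)` -/
noncomputable def Psi (q η : ℝ) (u0 : ℂ → ℝ) (f : ℂ → ℂ) (z : ℂ) : ℝ :=
  KB1.ups f z ^ q * mm u0 f z ^ (-q - η)

variable {f : ℂ → ℂ} {u0 : ℂ → ℝ} {q η : ℝ}

theorem ups_le_mm (z : ℂ) : KB1.ups f z ≤ mm u0 f z := le_max_left _ _

theorem u0_le_mm (z : ℂ) : u0 (f z) ≤ mm u0 f z := le_max_right _ _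

theorem one_le_mm (hu1 : ∀ x, 1 ≤ u0 x) (z : ℂ) : 1 ≤ mm u0 f z :=
  (hu1 _).trans (u0_le_mm z)

theorem mm_pos (hu1 : ∀ x, 1 ≤ u0 x) (z : ℂ) : 0 < mm u0 f z :=
  zero_lt_one.trans_le (one_le_mm hu1 z)

/-- `log m` is 2-Lipschitz in the hyperbolic metric. -/
theorem mm_lip (hf : DifferentiableOn ℂ f KB1.Hs) (hfi : InjOn f KB1.Hs)
    (hu : ∀ x y, |u0 x - u0 y| ≤ ‖x - y‖) {z w : ℂ} (hz : 0 < z.im) (hw : 0 < w.im) :
    mm u0 f w ≤ mm u0 f z * Real.exp (2 * KB1.hd z w) := by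
  have h1 := KB1.ups_le_exp hf hfi hz hw
  have h2 := KB1.norm_sub_le_exp hf hfi hz hw
  have h3 := (abs_le.1 (hu (f w) (f z))).2
  have hE : 1 ≤ Real.exp (2 * KB1.hd z w) := Real.one_le_exp (by have := KB1.hd_nonneg z w; linarith)
  have hup := KB1.ups_pos hf hfi hz
  have ha : KB1.ups f z ≤ mm u0 f z := ups_le_mm z
  have hb : u0 (f z) ≤ mm u0 f z := u0_le_mm z
  refine max_le ?_ ?_
  · refine h1.trans ?_
    gcongr
  · have h4 : KB1.ups f z * ((Real.exp (2 * KB1.hd z w) - 1) / 2) ≤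
        mm u0 f z * ((Real.exp (2 * KB1.hd z w) - 1) / 2) := by
      apply mul_le_mul_of_nonneg_right ha; linarith
    have h5 : 0 ≤ mm u0 f z := hup.le.trans ha
    nlinarith

/-- `log Psi` is `(4q+2η)`-Lipschitz in the hyperbolic metric. -/
theorem Psi_lip (hf : DifferentiableOn ℂ f KB1.Hs) (hfi : InjOn f KB1.Hs)
    (hu1 : ∀ x, 1 ≤ u0 x) (hu : ∀ x y, |u0 x - u0 y| ≤ ‖x - y‖) (hq : 0 ≤ q) (hη : 0 ≤ η)
    {z w : ℂ} (hz : 0 < z.im) (hw : 0 < w.im) :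
    Psi q η u0 f w ≤ Psi q η u0 f z * Real.exp ((4 * q + 2 * η) * KB1.hd z w) := by
  have h1 := KB1.ups_le_exp hf hfi hz hw
  have h2 := mm_lip hf hfi hu hw hz
  rw [KB1.hd_comm w z] at h2
  have hupz := KB1.ups_pos hf hfi hz
  have hupw := KB1.ups_pos hf hfi hw
  have hmz : 0 < mm u0 f z := mm_pos hu1 z
  have hmw : 0 < mm u0 f w := mm_pos hu1 w
  set d := KB1.hd z w with hd
  have hA : KB1.ups f w ^ q ≤ KB1.ups f z ^ q * Real.exp (2 * d * q) := by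
    calc KB1.ups f w ^ q ≤ (KB1.ups f z * Real.exp (2 * d)) ^ q :=
          Real.rpow_le_rpow hupw.le h1 hq
      _ = KB1.ups f z ^ q * Real.exp (2 * d * q) := by
          rw [Real.mul_rpow hupz.le (Real.exp_pos _).le, ← Real.exp_mul]
  have hB : mm u0 f w ^ (-q - η) ≤ mm u0 f z ^ (-q - η) * Real.exp (2 * d * (q + η)) := by
    have h3 : mm u0 f z * Real.exp (-(2 * d)) ≤ mm u0 f w := by
      calc mm u0 f z * Real.exp (-(2 * d)) ≤ (mm u0 f w * Real.exp (2 * d)) *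
          Real.exp (-(2 * d)) := by gcongr
        _ = mm u0 f w := by rw [mul_assoc, ← Real.exp_add]; simp
    calc mm u0 f w ^ (-q - η) ≤ (mm u0 f z * Real.exp (-(2 * d))) ^ (-q - η) :=
          Real.rpow_le_rpow_of_nonpos (by positivity) h3 (by linarith)
      _ = mm u0 f z ^ (-q - η) * Real.exp (2 * d * (q + η)) := by
          rw [Real.mul_rpow hmz.le (Real.exp_pos _).le, ← Real.exp_mul]
          congr 2
          ring
  unfold Psi
  calc KB1.ups f w ^ q * mm u0 f w ^ (-q - η)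
      ≤ (KB1.ups f z ^ q * Real.exp (2 * d * q)) *
        (mm u0 f z ^ (-q - η) * Real.exp (2 * d * (q + η))) := by
        gcongr
    _ = KB1.ups f z ^ q * mm u0 f z ^ (-q - η) *
        (Real.exp (2 * d * q) * Real.exp (2 * d * (q + η))) := by ring
    _ = KB1.ups f z ^ q * mm u0 f z ^ (-q - η) * Real.exp ((4 * q + 2 * η) * d) := by
        rw [← Real.exp_add]
        congr 2
        ring

theorem Psi_pos (hf : DifferentiableOn ℂ f KB1.Hs) (hfi : InjOn f KB1.Hs)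
    (hu1 : ∀ x, 1 ≤ u0 x) {z : ℂ} (hz : 0 < z.im) : 0 < Psi q η u0 f z := by
  have hupz := KB1.ups_pos hf hfi hz
  have hmz : 0 < mm u0 f z := mm_pos hu1 z
  unfold Psi
  positivity


/-- vertical comparison, general real part. -/
theorem Psi_vert_gen (hf : DifferentiableOn ℂ f KB1.Hs) (hfi : InjOn f KB1.Hs)
    (hu1 : ∀ x, 1 ≤ u0 x) (hu : ∀ x y, |u0 x - u0 y| ≤ ‖x - y‖) (hq : 0 ≤ q) (hη : 0 ≤ η)
    {z w : ℂ} (hz : 0 < z.im) (hzw : z.im ≤ w.im) (h : z.re = w.re) :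
    Psi q η u0 f w ≤ Psi q η u0 f z * (w.im / z.im) ^ (4 * q + 2 * η) ∧
    Psi q η u0 f z ≤ Psi q η u0 f w * (w.im / z.im) ^ (4 * q + 2 * η) := by
  have hw : 0 < w.im := hz.trans_le hzw
  have h0 : KB1.hd z w = Real.log (w.im / z.im) := by
    rw [KB1.hd_vert hz hw h, abs_sub_comm, ← Real.log_div hw.ne' hz.ne',
      abs_of_nonneg (Real.log_nonneg (by rw [le_div_iff₀ hz]; linarith))]
  have h1 := Psi_lip hf hfi hu1 hu hq hη hz hw
  have h2 := Psi_lip hf hfi hu1 hu hq hη hw hz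
  rw [KB1.hd_comm w z] at h2
  have h3 : Real.exp ((4 * q + 2 * η) * KB1.hd z w) = (w.im / z.im) ^ (4 * q + 2 * η) := by
    rw [h0, mul_comm, ← Real.rpow_def_of_pos (by positivity)]
  rw [h3] at h1 h2
  exact ⟨h1, h2⟩

/-- vertical comparison on the imaginary axis, upward. -/
theorem Psi_vert (hf : DifferentiableOn ℂ f KB1.Hs) (hfi : InjOn f KB1.Hs)
    (hu1 : ∀ x, 1 ≤ u0 x) (hu : ∀ x y, |u0 x - u0 y| ≤ ‖x - y‖) (hq : 0 ≤ q) (hη : 0 ≤ η)
    {a b : ℝ} (ha : 0 < a) (hab : a ≤ b) :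
    Psi q η u0 f (b * I) ≤ Psi q η u0 f (a * I) * (b / a) ^ (4 * q + 2 * η) := by
  have h := (Psi_vert_gen (z := a * I) (w := b * I) hf hfi hu1 hu hq hη (by simpa using ha)
    (by simpa using hab) (by simp)).1
  simpa using h

/-- vertical comparison on the imaginary axis, downward. -/
theorem Psi_vert' (hf : DifferentiableOn ℂ f KB1.Hs) (hfi : InjOn f KB1.Hs)
    (hu1 : ∀ x, 1 ≤ u0 x) (hu : ∀ x y, |u0 x - u0 y| ≤ ‖x - y‖) (hq : 0 ≤ q) (hη : 0 ≤ η)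
    {a b : ℝ} (ha : 0 < a) (hab : a ≤ b) :
    Psi q η u0 f (a * I) ≤ Psi q η u0 f (b * I) * (b / a) ^ (4 * q + 2 * η) := by
  have h := (Psi_vert_gen (z := a * I) (w := b * I) hf hfi hu1 hu hq hη (by simpa using ha)
    (by simpa using hab) (by simp)).2
  simpa using h

/-- `∫_{|z| ≥ a} |z|^(-s) = 2π a^(2-s)/(s-2)`, upper bound, for `s > 2`. -/
theorem lintegral_far_rpow {s : ℝ} (hs : 2 < s) {a : ℝ} (ha : 0 < a) :
    ∫⁻ z in {z : ℂ | a ≤ ‖z‖}, ENNReal.ofReal (‖z‖ ^ (-s)) ≤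
      ENNReal.ofReal (2 * Real.pi * (a ^ (2 - s) / (s - 2))) := by
  have hmeas : MeasurableSet {z : ℂ | a ≤ ‖z‖} := measurableSet_le measurable_const measurable_norm
  rw [← lintegral_indicator hmeas, ← Complex.lintegral_comp_polarCoord_symm]
  have h1 : ∀ p ∈ polarCoord.target, ENNReal.ofReal p.1 •
      ({z : ℂ | a ≤ ‖z‖}.indicator (fun z : ℂ => ENNReal.ofReal (‖z‖ ^ (-s)))
        (Complex.polarCoord.symm p)) =
      (Ici a).indicator (fun r : ℝ => ENNReal.ofReal (r ^ (1 - s))) p.1 := by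
    intro p hp
    have hp1 : 0 < p.1 := hp.1
    have hn : ‖Complex.polarCoord.symm p‖ = p.1 := by
      rw [Complex.norm_polarCoord_symm, abs_of_pos hp1]
    by_cases h : a ≤ p.1
    · rw [indicator_of_mem (show Complex.polarCoord.symm p ∈ {z : ℂ | a ≤ ‖z‖} by
        rw [mem_setOf_eq, hn]; exact h), indicator_of_mem (show p.1 ∈ Ici a from h), hn, smul_eq_mul,
        ← ENNReal.ofReal_mul hp1.le]
      congr 1
      rw [show (1 - s) = 1 + (-s) by ring, Real.rpow_add hp1, Real.rpow_one]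
    · rw [indicator_of_notMem (show Complex.polarCoord.symm p ∉ {z : ℂ | a ≤ ‖z‖} by
        rw [mem_setOf_eq, hn]; exact h), indicator_of_notMem (show p.1 ∉ Ici a from h)]
      simp
  rw [setLIntegral_congr_fun polarCoord.open_target.measurableSet h1]
  have hg : Measurable (fun r : ℝ => (Ici a).indicator
      (fun r : ℝ => ENNReal.ofReal (r ^ (1 - s))) r) := by
    apply Measurable.indicator _ measurableSet_Ici
    fun_prop
  have htar : polarCoord.target = Ioi (0:ℝ) ×ˢ Ioo (-Real.pi) Real.pi := rfl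
  rw [htar, Measure.volume_eq_prod, ← Measure.prod_restrict]
  rw [lintegral_prod (fun x : ℝ × ℝ => (Ici a).indicator
    (fun r : ℝ => ENNReal.ofReal (r ^ (1 - s))) x.1) (hg.comp measurable_fst).aemeasurable]
  simp only [lintegral_const, Measure.restrict_apply MeasurableSet.univ, univ_inter,
    Real.volume_Ioo]
  rw [lintegral_mul_const _ hg]
  have h2 : ∫⁻ r in Ioi (0:ℝ), (Ici a).indicator (fun r : ℝ => ENNReal.ofReal (r ^ (1 - s))) r =
      ENNReal.ofReal (a ^ (2 - s) / (s - 2)) := by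
    rw [lintegral_indicator measurableSet_Ici, Measure.restrict_restrict measurableSet_Ici]
    have hset : Ici a ∩ Ioi 0 = Ici a := by
      ext x; simp only [mem_inter_iff, mem_Ici, mem_Ioi, and_iff_left_iff_imp]
      intro h; linarith
    rw [hset, setLIntegral_congr Ioi_ae_eq_Ici.symm,
      ← ofReal_integral_eq_lintegral_ofReal]
    · congr 1
      rw [integral_Ioi_rpow_of_lt (by linarith) ha]
      rw [show 1 - s + 1 = -(s - 2) by ring, show -(s-2) = 2 - s by ring]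
      rw [show (2 - s) = -(s - 2) by ring, neg_div_neg_eq]
    · exact integrableOn_Ioi_rpow_of_lt (by linarith) ha
    · filter_upwards [ae_restrict_mem measurableSet_Ioi] with x hx
      have : 0 < x := ha.trans hx
      positivity
  rw [h2, ← ENNReal.ofReal_mul (by
    have : 0 < s - 2 := by linarith
    positivity)]
  apply ENNReal.ofReal_le_ofReal
  apply le_of_eq
  ring

/-- the radial integral of LB3c: constant `C = 4π/3`. -/
theorem lintegral_far {ρ : ℝ} (hρ : 0 < ρ) :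
    ∫⁻ z in {z : ℂ | 7 * ρ ≤ ‖z‖}, ENNReal.ofReal (‖z‖ ^ (-(7 / 2) : ℝ)) ≤
      ENNReal.ofReal (4 * Real.pi / 3 * ρ ^ (-(3 / 2) : ℝ)) := by
  refine (lintegral_far_rpow (by norm_num) (by positivity)).trans ?_
  apply ENNReal.ofReal_le_ofReal
  have h1 : (7 * ρ) ^ (2 - 7 / 2 : ℝ) ≤ ρ ^ (-(3 / 2) : ℝ) := by
    rw [show (2 - 7 / 2 : ℝ) = -(3/2) by norm_num]
    exact Real.rpow_le_rpow_of_nonpos hρ (by linarith) (by norm_num)
  have h2 : (2 * Real.pi * ((7 * ρ) ^ (2 - 7 / 2 : ℝ) / (7 / 2 - 2))) =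
      4 * Real.pi / 3 * (7 * ρ) ^ (2 - 7 / 2 : ℝ) := by ring
  rw [h2]
  have := Real.pi_pos
  gcongr

end Crest.Agent.R162.LB3c
end

-- ▼ part R162/LB3cE
section

/-!
Row 162, node LB3c (helper868): the FAR content lemma, pointwise bound and integral form.
-/

set_option autoImplicit false

open Set MeasureTheory Filter
open scoped ENNReal

namespace Crest.Agent.R162.LB3c

open Crest.Agent.R162.FL Crest.Agent.R162

/-- abstract pointwise bound: all geometric inputs are real numbers. -/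
theorem far_real {κ ε q c V Y d n N Ψ P : ℝ} (hκ : 0 < κ) (hκ8 : κ < 8) (hε : 0 < ε) (hε1 : ε ≤ 1)
    (hq1 : q ≤ 1) (hc : 0 < c) (hn : 0 < n) (hY : c * n ≤ Y)
    (hd : 0 ≤ d) (hU : Y * d ≤ 3 * ε) (hV : ε ≤ V) (hN : 4 / 5 * n ≤ N)
    (hΨ : ε ^ q ≤ P * Ψ) :
    d ^ 2 * (V ^ (κ / 8 - 1) * (4 / N ^ 2)) ≤
      225 / 4 / c ^ 2 * (P * Ψ) / n ^ 4 := by
  have hYpos : 0 < Y := lt_of_lt_of_le (by positivity) hY
  have hVpos : 0 < V := lt_of_lt_of_le hε hV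
  have hNpos : 0 < N := lt_of_lt_of_le (by positivity) hN
  have h1 : V ^ (κ / 8 - 1) ≤ ε ^ (κ / 8 - 1) :=
    Real.rpow_le_rpow_of_nonpos hε hV (by linarith)
  have h2 : d ≤ 3 * ε / (c * n) := by
    rw [le_div_iff₀ (by positivity)]
    calc d * (c * n) ≤ d * Y := by gcongr
      _ = Y * d := by ring
      _ ≤ 3 * ε := hU
  have h3 : 4 / N ^ 2 ≤ 4 / (4 / 5 * n) ^ 2 := by gcongr
  have h4 : d ^ 2 * (V ^ (κ / 8 - 1) * (4 / N ^ 2)) ≤
      (3 * ε / (c * n)) ^ 2 * (ε ^ (κ / 8 - 1) * (4 / (4 / 5 * n) ^ 2)) := by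
    gcongr
  have h5 : (3 * ε / (c * n)) ^ 2 * (ε ^ (κ / 8 - 1) * (4 / (4 / 5 * n) ^ 2)) =
      225 / 4 / c ^ 2 * (ε ^ 2 * ε ^ (κ / 8 - 1)) / n ^ 4 := by
    field_simp
    ring
  have h6 : ε ^ 2 * ε ^ (κ / 8 - 1) ≤ ε ^ q := by
    rw [← Real.rpow_natCast ε 2, ← Real.rpow_add hε]
    apply Real.rpow_le_rpow_of_exponent_ge hε hε1
    push_cast; linarith
  calc d ^ 2 * (V ^ (κ / 8 - 1) * (4 / N ^ 2))
      ≤ 225 / 4 / c ^ 2 * (ε ^ 2 * ε ^ (κ / 8 - 1)) / n ^ 4 := h4.trans h5.le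
    _ ≤ 225 / 4 / c ^ 2 * (P * Ψ) / n ^ 4 := by
        have := h6.trans hΨ
        gcongr

/-- geometry of a far point `z` at a time `s` where it collects content. -/
theorem far_geom {W : ℝ → ℝ} {z : ℂ} {s ρ c₁ : ℝ} (hW : ContinuousOn W (Ici 0))
    (h : Alive W z s) (hρ : 0 < ρ) (hsρ : s ≤ ρ ^ 2) (hWρ : ∀ r ∈ Icc 0 s, |W r| ≤ ρ)
    (hfar : 10 * ρ ≤ ‖Zfl W s z‖) (hc₁ : 0 < c₁) (hS : c₁ ≤ OP.sfl W s z) :
    7 * ρ ≤ ‖z‖ ∧ 4 / 5 * ‖z‖ ≤ ‖Zfl W s z‖ ∧ c₁ / 2 * ‖z‖ ≤ z.im ∧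
      OP.ups W s z ≤ z.im ∧ z.im ≤ 6 / 5 * OP.ups W s z := by
  have hz := h.im_pos
  have h7 := far_seven hW h hρ hsρ hWρ hfar 0 ⟨le_rfl, h.nonneg⟩
  have hcl := far_close hW h hρ hsρ hWρ hfar
  have hcl' : ‖z - Zfl W s z‖ ≤ 13 / 10 * ρ := by rwa [norm_sub_rev]
  have hup := far_ups hW h hρ hsρ hWρ hfar
  have hule := ups_le_im hW h
  have hZz : ‖Zfl W s z‖ ≤ ‖z‖ + 13 / 10 * ρ := by
    have := norm_le_norm_add_norm_sub' (Zfl W s z) z
    linarith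
  have hzZ : ‖z‖ ≤ ‖Zfl W s z‖ + 13 / 10 * ρ := by
    have := norm_le_norm_add_norm_sub' z (Zfl W s z)
    linarith
  have hn7 : 7 * ρ ≤ ‖z‖ := by linarith
  have h45 : 4 / 5 * ‖z‖ ≤ ‖Zfl W s z‖ := by linarith
  have hZpos : 0 < ‖Zfl W s z‖ := by linarith
  have him : (Zfl W s z).im ≤ z.im := by rw [Zfl_im]; exact im_anti' h
  have hS' : c₁ * ‖Zfl W s z‖ ≤ (Zfl W s z).im := by
    have := hS
    rw [OP.sfl, le_div_iff₀ hZpos] at this
    exact this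
  refine ⟨hn7, h45, ?_, hule, ?_⟩
  · have : c₁ * (4 / 5 * ‖z‖) ≤ c₁ * ‖Zfl W s z‖ := by gcongr
    nlinarith [norm_nonneg z]
  · have he : (5 / 6 : ℝ) ≤ Real.exp (-(4 / 49)) := by
      have := Real.add_one_le_exp (-(4 / 49) : ℝ)
      linarith
    have : z.im * (5 / 6) ≤ OP.ups W s z := le_trans (by gcongr) hup
    linarith


theorem hd_I {z : ℂ} (hz : 0 < z.im) {c : ℝ} (hc : 0 < c) (hS : c * ‖z‖ ≤ z.im) :
    KB1.hd (((‖z‖ : ℝ) : ℂ) * Complex.I) z ≤ 2 / Real.sqrt c := by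
  have hn : 0 < ‖z‖ := norm_pos_iff.2 (by rintro rfl; simp at hz)
  have him : ((((‖z‖ : ℝ) : ℂ) * Complex.I)).im = ‖z‖ := by simp
  have hpos : 0 < ((((‖z‖ : ℝ) : ℂ) * Complex.I)).im := by rw [him]; exact hn
  have h := KB1.hd_le_div hpos hz
  rw [him] at h
  have h2 : ‖((‖z‖ : ℝ) : ℂ) * Complex.I - z‖ ≤ 2 * ‖z‖ := by
    calc _ ≤ ‖((‖z‖ : ℝ) : ℂ) * Complex.I‖ + ‖z‖ := norm_sub_le _ _
      _ = 2 * ‖z‖ := by rw [norm_mul, Complex.norm_I, Complex.norm_real, norm_norm]; ring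
  have h3 : Real.sqrt c * ‖z‖ ≤ Real.sqrt (‖z‖ * z.im) := by
    apply Real.le_sqrt_of_sq_le
    rw [mul_pow, Real.sq_sqrt hc.le]
    nlinarith
  have hsc : 0 < Real.sqrt c := Real.sqrt_pos.2 hc
  calc KB1.hd _ z ≤ ‖((‖z‖ : ℝ) : ℂ) * Complex.I - z‖ / Real.sqrt (‖z‖ * z.im) := h
    _ ≤ 2 * ‖z‖ / (Real.sqrt c * ‖z‖) := by gcongr
    _ = 2 / Real.sqrt c := by field_simp

/-- a far point in a channel of width `ε` inside `B` forces `Psi (10 ρ i)` to be `≳ ε^q`. -/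
theorem far_psi {f : ℂ → ℂ} {u0 : ℂ → ℝ} {q η : ℝ} (hf : DifferentiableOn ℂ f KB1.Hs)
    (hfi : InjOn f KB1.Hs) (hu1 : ∀ x, 1 ≤ u0 x) (hu : ∀ x y, |u0 x - u0 y| ≤ ‖x - y‖)
    (hq : 0 ≤ q) (hη : 0 ≤ η) (hqη : 4 * q + 2 * η ≤ 1 / 2) {ρ : ℝ} (hρ : 0 < ρ) {z : ℂ}
    (hz : 0 < z.im) {c : ℝ} (hc : 0 < c) (hS : c * ‖z‖ ≤ z.im) (h7 : 7 * ρ ≤ ‖z‖) {ε : ℝ}
    (hε : 0 < ε) (hε1 : ε ≤ 1) (h1 : ε ≤ KB1.ups f z) (h2 : KB1.ups f z ≤ 3 * ε)
    (h0 : u0 (f z) ≤ 1) :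
    ε ^ q ≤ 3 ^ (q + η) * Real.exp (1 / Real.sqrt c) * (‖z‖ / ρ) ^ (1 / 2 : ℝ) *
      Psi q η u0 f (((10 * ρ : ℝ) : ℂ) * Complex.I) := by
  have hn : 0 < ‖z‖ := norm_pos_iff.2 (by rintro rfl; simp at hz)
  have hup : 0 < KB1.ups f z := hε.trans_le h1
  have hmm : mm u0 f z ≤ 3 := by
    apply max_le
    · linarith
    · linarith
  have hmpos := mm_pos (f := f) hu1 z
  -- lower bound of Psi z
  have hA : ε ^ q * 3 ^ (-q - η) ≤ Psi q η u0 f z := by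
    unfold Psi
    have e1 : ε ^ q ≤ KB1.ups f z ^ q := Real.rpow_le_rpow hε.le h1 hq
    have e2 : (3:ℝ) ^ (-q - η) ≤ mm u0 f z ^ (-q - η) :=
      Real.rpow_le_rpow_of_nonpos hmpos hmm (by linarith)
    gcongr
  -- to the axis
  have hpos : 0 < ((((‖z‖ : ℝ) : ℂ) * Complex.I)).im := by simpa using hn
  have hB := Psi_lip (q := q) (η := η) hf hfi hu1 hu hq hη hpos hz
  have hhd := hd_I hz hc hS
  have hhd0 := KB1.hd_nonneg (((‖z‖ : ℝ) : ℂ) * Complex.I) z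
  have hsc : 0 < Real.sqrt c := Real.sqrt_pos.2 hc
  have hexp : Real.exp ((4 * q + 2 * η) * KB1.hd (((‖z‖ : ℝ) : ℂ) * Complex.I) z) ≤
      Real.exp (1 / Real.sqrt c) := by
    apply Real.exp_le_exp.2
    calc (4 * q + 2 * η) * KB1.hd (((‖z‖ : ℝ) : ℂ) * Complex.I) z
        ≤ 1 / 2 * (2 / Real.sqrt c) := by gcongr
      _ = 1 / Real.sqrt c := by ring
  have hP0 := Psi_pos (q := q) (η := η) hf hfi hu1 hpos
  -- along the axis
  have hC : Psi q η u0 f (((‖z‖ : ℝ) : ℂ) * Complex.I) ≤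
      Psi q η u0 f (((10 * ρ : ℝ) : ℂ) * Complex.I) * (‖z‖ / ρ) ^ (1 / 2 : ℝ) := by
    have h10 : 0 < 10 * ρ := by positivity
    have hpos10 : 0 < ((((10 * ρ : ℝ) : ℂ) * Complex.I)).im := by simpa using h10
    have hP10 := Psi_pos (q := q) (η := η) hf hfi hu1 hpos10
    have hr1 : 1 ≤ ‖z‖ / ρ := by rw [le_div_iff₀ hρ]; linarith
    have key : ∀ x : ℝ, 0 < x → 1 ≤ x → x ≤ ‖z‖ / ρ → x ^ (4 * q + 2 * η) ≤
        (‖z‖ / ρ) ^ (1 / 2 : ℝ) := by
      intro x hx0 hx1 hx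
      calc x ^ (4 * q + 2 * η) ≤ x ^ (1 / 2 : ℝ) := Real.rpow_le_rpow_of_exponent_le hx1 hqη
        _ ≤ (‖z‖ / ρ) ^ (1 / 2 : ℝ) := Real.rpow_le_rpow hx0.le hx (by norm_num)
    rcases le_total (10 * ρ) ‖z‖ with hle | hle
    · have h := Psi_vert (q := q) (η := η) hf hfi hu1 hu hq hη h10 hle
      refine h.trans ?_
      have hx : ‖z‖ / (10 * ρ) ≤ ‖z‖ / ρ := by
        apply div_le_div_of_nonneg_left hn.le hρ; linarith
      have := key (‖z‖ / (10 * ρ)) (by positivity) (by rw [le_div_iff₀ h10]; linarith) hx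
      gcongr
    · have h := Psi_vert' (q := q) (η := η) hf hfi hu1 hu hq hη hn hle
      refine h.trans ?_
      have hx : 10 * ρ / ‖z‖ ≤ ‖z‖ / ρ := by
        rw [div_le_div_iff₀ hn hρ]; nlinarith
      have := key (10 * ρ / ‖z‖) (by positivity) (by rw [le_div_iff₀ hn]; linarith) hx
      gcongr
  have h3 : (3:ℝ) ^ (q + η) * 3 ^ (-q - η) = 1 := by
    rw [← Real.rpow_add (by norm_num)]; norm_num
  calc ε ^ q = (3:ℝ) ^ (q + η) * (ε ^ q * 3 ^ (-q - η)) := by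
        rw [show (3:ℝ) ^ (q + η) * (ε ^ q * 3 ^ (-q - η)) =
          ε ^ q * ((3:ℝ) ^ (q + η) * 3 ^ (-q - η)) by ring, h3, mul_one]
    _ ≤ (3:ℝ) ^ (q + η) * (Psi q η u0 f (((‖z‖ : ℝ) : ℂ) * Complex.I) *
          Real.exp (1 / Real.sqrt c)) := by
        exact mul_le_mul_of_nonneg_left
          (hA.trans (hB.trans (mul_le_mul_of_nonneg_left hexp hP0.le))) (by positivity)
    _ ≤ (3:ℝ) ^ (q + η) * ((Psi q η u0 f (((10 * ρ : ℝ) : ℂ) * Complex.I) *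
          (‖z‖ / ρ) ^ (1 / 2 : ℝ)) * Real.exp (1 / Real.sqrt c)) := by gcongr
    _ = _ := by ring


/-- the constant of the far content lemma. -/
noncomputable def Kfar (Kχ c₁ q η : ℝ) : ℝ :=
  Kχ * (225 / 4 / (c₁ / 2) ^ 2) * (3 ^ (q + η) * Real.exp (1 / Real.sqrt (c₁ / 2))) *
    (4 * Real.pi / 3)

theorem Kfar_nonneg {Kχ c₁ q η : ℝ} (hK : 0 ≤ Kχ) (hc₁ : 0 < c₁) : 0 ≤ Kfar Kχ c₁ q η := by
  unfold Kfar; positivity

/-- **FAR content lemma**, abstract in the rate. -/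
theorem far_content {κ : ℝ} (hκ : 0 < κ) (hκ8 : κ < 8) {c₁ : ℝ} (hc₁ : 0 < c₁) {q η : ℝ}
    (hq : 0 ≤ q) (hη : 0 ≤ η) (hqη : 4 * q + 2 * η ≤ 1 / 2) {Kχ : ℝ} (hK : 0 ≤ Kχ)
    {f : ℂ → ℂ} {u0 : ℂ → ℝ} (hf : DifferentiableOn ℂ f KB1.Hs) (hfi : InjOn f KB1.Hs)
    (hu1 : ∀ x, 1 ≤ u0 x) (hu : ∀ x y, |u0 x - u0 y| ≤ ‖x - y‖) {W : ℝ → ℝ}
    (hW : ContinuousOn W (Ici 0)) {ρ T : ℝ} (hρ : 0 < ρ) (hT : T ≤ ρ ^ 2)
    (hWρ : ∀ r ∈ Icc 0 T, |W r| ≤ ρ) {ε : ℝ} (hε : 0 < ε) (hε1 : ε ≤ 1)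
    {rate : ℝ → ℂ → ℝ}
    (hrate : ∀ s ∈ Icc 0 T, ∀ z, rate s z ≤
      Kχ * ((‖deriv f z‖ * OP.ups W s z) ^ (κ / 8 - 1) * (4 / ‖Zfl W s z‖ ^ 2)))
    (hsupp : ∀ s ∈ Icc 0 T, ∀ z, 0 < rate s z → Alive W z s ∧ c₁ ≤ OP.sfl W s z ∧
      ε ≤ ‖deriv f z‖ * OP.ups W s z ∧ ‖deriv f z‖ * OP.ups W s z ≤ 2 * ε)
    {E : Set ℂ} (hE : ∀ z ∈ E, u0 (f z) ≤ 1)
    (hfar : ∀ z ∈ E, ∀ s ∈ Icc 0 T, 0 < rate s z → 10 * ρ ≤ ‖Zfl W s z‖) :
    ∫⁻ z in E, (∫⁻ s in Icc 0 T, ENNReal.ofReal (rate s z)) * ENNReal.ofReal (‖deriv f z‖ ^ 2) ≤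
      ENNReal.ofReal (Kfar Kχ c₁ q η * Psi q η u0 f (((10 * ρ : ℝ) : ℂ) * Complex.I)) := by
  set Ψ := Psi q η u0 f (((10 * ρ : ℝ) : ℂ) * Complex.I) with hΨdef
  have hΨ0 : 0 < Ψ := by
    apply Psi_pos hf hfi hu1
    simpa using hρ
  set c := c₁ / 2 with hcdef
  have hc : 0 < c := by positivity
  set A := Kχ * (225 / 4 / c ^ 2) * (3 ^ (q + η) * Real.exp (1 / Real.sqrt c)) with hA
  have hA0 : 0 ≤ A := by positivity
  -- pointwise bound
  have hpt : ∀ z ∈ E, ∀ s ∈ Icc 0 T, 0 < rate s z → 7 * ρ ≤ ‖z‖ ∧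
      rate s z * ‖deriv f z‖ ^ 2 ≤ A * Ψ * ρ ^ (-(1 / 2) : ℝ) * ‖z‖ ^ (-(7 / 2) : ℝ) := by
    intro z hz s hs hpos
    obtain ⟨hal, hS, hV1, hV2⟩ := hsupp s hs z hpos
    have hWs : ∀ r ∈ Icc 0 s, |W r| ≤ ρ := fun r hr => hWρ r ⟨hr.1, hr.2.trans hs.2⟩
    obtain ⟨h7, h45, him, hule, hlu⟩ :=
      far_geom hW hal hρ (hs.2.trans hT) hWs (hfar z hz s hs hpos) hc₁ hS
    have hzim := hal.im_pos
    have hn : 0 < ‖z‖ := by linarith
    have hd0 : 0 ≤ ‖deriv f z‖ := norm_nonneg _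
    have hu1' : ε ≤ KB1.ups f z := by
      refine hV1.trans ?_
      rw [KB1.ups, mul_comm]; gcongr
    have hu2' : KB1.ups f z ≤ 3 * ε := by
      rw [KB1.ups]
      calc z.im * ‖deriv f z‖ ≤ 6 / 5 * OP.ups W s z * ‖deriv f z‖ := by gcongr
        _ = 6 / 5 * (‖deriv f z‖ * OP.ups W s z) := by ring
        _ ≤ 6 / 5 * (2 * ε) := by gcongr
        _ ≤ 3 * ε := by linarith
    have hpsi := far_psi hf hfi hu1 hu hq hη hqη hρ hzim hc him h7 hε hε1 hu1' hu2' (hE z hz)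
    rw [← hΨdef] at hpsi
    have hreal := far_real (q := q) hκ hκ8 hε hε1 (by linarith) hc hn him hd0 hu2' hV1 h45 hpsi
    refine ⟨h7, ?_⟩
    have hrt := hrate s hs z
    calc rate s z * ‖deriv f z‖ ^ 2
        ≤ Kχ * ((‖deriv f z‖ * OP.ups W s z) ^ (κ / 8 - 1) * (4 / ‖Zfl W s z‖ ^ 2)) *
            ‖deriv f z‖ ^ 2 := by gcongr
      _ = Kχ * (‖deriv f z‖ ^ 2 *
            ((‖deriv f z‖ * OP.ups W s z) ^ (κ / 8 - 1) * (4 / ‖Zfl W s z‖ ^ 2))) := by ring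
      _ ≤ Kχ * (225 / 4 / c ^ 2 * (3 ^ (q + η) * Real.exp (1 / Real.sqrt c) *
            (‖z‖ / ρ) ^ (1 / 2 : ℝ) * Ψ) / ‖z‖ ^ 4) := by gcongr
      _ = A * Ψ * ((‖z‖ / ρ) ^ (1 / 2 : ℝ) / ‖z‖ ^ 4) := by rw [hA]; ring
      _ = A * Ψ * ρ ^ (-(1 / 2) : ℝ) * ‖z‖ ^ (-(7 / 2) : ℝ) := by
          have e1 : (‖z‖ / ρ) ^ (1 / 2 : ℝ) / ‖z‖ ^ 4 =
              ρ ^ (-(1 / 2) : ℝ) * ‖z‖ ^ (-(7 / 2) : ℝ) := by
            rw [Real.div_rpow hn.le hρ.le, Real.rpow_neg hρ.le]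
            have e2 : ‖z‖ ^ (-(7 / 2) : ℝ) = ‖z‖ ^ (1 / 2 : ℝ) / ‖z‖ ^ 4 := by
              rw [← Real.rpow_natCast ‖z‖ 4, ← Real.rpow_sub hn]; norm_num
            rw [e2]; field_simp
          rw [e1]; ring
  -- integrate in time
  set K' := A * Ψ * ρ ^ (-(1 / 2) : ℝ) with hK'
  have hK'0 : 0 ≤ K' := by positivity
  set g : ℂ → ℝ≥0∞ := ({z : ℂ | 7 * ρ ≤ ‖z‖}).indicator
    (fun z => ENNReal.ofReal (ρ ^ 2 * K') * ENNReal.ofReal (‖z‖ ^ (-(7 / 2) : ℝ))) with hg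
  have hms : MeasurableSet {z : ℂ | 7 * ρ ≤ ‖z‖} := measurableSet_le measurable_const measurable_norm
  have hgm : Measurable g := by
    apply Measurable.indicator _ hms
    exact (measurable_norm.pow_const _).ennreal_ofReal.const_mul _
  have hle : ∀ z ∈ E, (∫⁻ s in Icc 0 T, ENNReal.ofReal (rate s z)) *
      ENNReal.ofReal (‖deriv f z‖ ^ 2) ≤ g z := by
    intro z hz
    by_cases h7 : 7 * ρ ≤ ‖z‖
    · have hgz : g z = ENNReal.ofReal (ρ ^ 2 * K') * ENNReal.ofReal (‖z‖ ^ (-(7 / 2) : ℝ)) :=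
        indicator_of_mem (show z ∈ {z : ℂ | 7 * ρ ≤ ‖z‖} from h7) _
      rw [hgz, ← lintegral_mul_const' _ _ ENNReal.ofReal_ne_top]
      have hb : ∀ s ∈ Icc 0 T, ENNReal.ofReal (rate s z) * ENNReal.ofReal (‖deriv f z‖ ^ 2) ≤
          ENNReal.ofReal (K' * ‖z‖ ^ (-(7 / 2) : ℝ)) := by
        intro s hs
        rw [← ENNReal.ofReal_mul' (by positivity)]
        apply ENNReal.ofReal_le_ofReal
        rcases le_or_gt (rate s z) 0 with hr | hr
        · have : rate s z * ‖deriv f z‖ ^ 2 ≤ 0 := mul_nonpos_of_nonpos_of_nonneg hr (by positivity)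
          exact this.trans (by positivity)
        · exact (hpt z hz s hs hr).2
      calc ∫⁻ s in Icc 0 T, ENNReal.ofReal (rate s z) * ENNReal.ofReal (‖deriv f z‖ ^ 2)
          ≤ ∫⁻ _ in Icc 0 T, ENNReal.ofReal (K' * ‖z‖ ^ (-(7 / 2) : ℝ)) :=
            setLIntegral_mono measurable_const hb
        _ = ENNReal.ofReal (K' * ‖z‖ ^ (-(7 / 2) : ℝ)) * ENNReal.ofReal (T - 0) := by
            rw [setLIntegral_const, Real.volume_Icc]
        _ ≤ ENNReal.ofReal (K' * ‖z‖ ^ (-(7 / 2) : ℝ)) * ENNReal.ofReal (ρ ^ 2) := by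
            gcongr; linarith
        _ = _ := by
            rw [← ENNReal.ofReal_mul (by positivity), ← ENNReal.ofReal_mul (by positivity)]
            congr 1; ring
    · have hgz : g z = 0 := indicator_of_notMem (show z ∉ {z : ℂ | 7 * ρ ≤ ‖z‖} from h7) _
      have hb : ∀ s ∈ Icc 0 T, ENNReal.ofReal (rate s z) ≤ 0 := by
        intro s hs
        rcases le_or_gt (rate s z) 0 with hr | hr
        · rw [ENNReal.ofReal_of_nonpos hr]
        · exact absurd (hpt z hz s hs hr).1 h7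
      have h0 : ∫⁻ s in Icc 0 T, ENNReal.ofReal (rate s z) ≤ 0 := by
        calc _ ≤ ∫⁻ _ in Icc 0 T, (0 : ℝ≥0∞) := setLIntegral_mono measurable_const hb
          _ = 0 := by simp
      rw [hgz, nonpos_iff_eq_zero.1 h0, zero_mul]
  calc ∫⁻ z in E, (∫⁻ s in Icc 0 T, ENNReal.ofReal (rate s z)) *
        ENNReal.ofReal (‖deriv f z‖ ^ 2) ≤ ∫⁻ z in E, g z := setLIntegral_mono hgm hle
    _ ≤ ∫⁻ z, g z := setLIntegral_le_lintegral _ _
    _ = ENNReal.ofReal (ρ ^ 2 * K') *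
          ∫⁻ z in {z : ℂ | 7 * ρ ≤ ‖z‖}, ENNReal.ofReal (‖z‖ ^ (-(7 / 2) : ℝ)) := by
        rw [hg, lintegral_indicator hms, lintegral_const_mul' _ _ ENNReal.ofReal_ne_top]
    _ ≤ ENNReal.ofReal (ρ ^ 2 * K') * ENNReal.ofReal (4 * Real.pi / 3 * ρ ^ (-(3 / 2) : ℝ)) := by
        gcongr
        exact lintegral_far hρ
    _ = ENNReal.ofReal (Kfar Kχ c₁ q η * Ψ) := by
        rw [← ENNReal.ofReal_mul (by positivity)]
        congr 1
        have e : ρ ^ 2 * ρ ^ (-(1 / 2) : ℝ) * ρ ^ (-(3 / 2) : ℝ) = 1 := by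
          rw [← Real.rpow_natCast ρ 2, ← Real.rpow_add hρ, ← Real.rpow_add hρ]
          norm_num
        rw [hK', hA, Kfar]
        calc _ = Kχ * (225 / 4 / c ^ 2) * (3 ^ (q + η) * Real.exp (1 / Real.sqrt c)) * Ψ *
              (4 * Real.pi / 3) * (ρ ^ 2 * ρ ^ (-(1 / 2) : ℝ) * ρ ^ (-(3 / 2) : ℝ)) := by ring
          _ = _ := by rw [e]; ring

end Crest.Agent.R162.LB3c
end

-- ▼ part R162/LB3cG
section

/-!
Row 162 (S0243), node LB3c (far content), part G (helper786):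
during the step the image of the geodesic `i(0, 10ρ₁]` stays in `closedBall x (u0 x / 8)`.
-/

set_option autoImplicit false

open Complex Set Metric MeasureTheory
open scoped ComplexConjugate ENNReal

namespace Crest.Agent.R162.LB3c

open Crest.Agent.R162 Crest.Agent.R162.FL Crest.Agent.R162.FLC

variable {f : ℂ → ℂ} {W : ℝ → ℝ} {x : ℂ} {u s r y : ℝ}

/-- hyperbolic displacement of `iy` under `ffl W s`: at most `0.3` when `y ≥ 10 r`. -/
theorem hd_ffl_le (hW : ContinuousOn W (Ici 0)) (hs : 0 ≤ s) (hsr : s ≤ r ^ 2) (hWr : |W s| ≤ r)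
    (hy : 0 < y) (hry : 10 * r ≤ y) :
    KB1.hd (y * I) (ffl W s (y * I)) ≤ 3 / 10 := by
  have hz : 0 < ((y : ℂ) * I).im := by simpa using hy
  have e1 : ((y : ℂ) * I).im = y := by simp
  have h1 := norm_ffl_I_sub_le hW hs hsr hWr hy hry
  have h2 := im_le_ffl hW hs hz
  have h3 := ffl_im_pos hW hs hz
  have h4 := KB1.hd_le_div hz h3
  rw [e1] at h2 h4
  refine h4.trans ?_
  have h5 : y ≤ √(y * (ffl W s (y * I)).im) := by
    apply Real.le_sqrt_of_sq_le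
    nlinarith
  rw [div_le_iff₀ (hy.trans_le h5), norm_sub_rev]
  linarith

/-- the image of the geodesic stays near `x` for `y ≥ 10 ρ_s`. -/
theorem geo_near' (hf : DifferentiableOn ℂ f KB1.Hs) (hfi : InjOn f KB1.Hs)
    (hW : ContinuousOn W (Ici 0)) (hs : 0 ≤ s) (hsr : s ≤ r ^ 2) (hWr : |W s| ≤ r)
    (hy : 0 < y) (hry : 10 * r ≤ y) (h1 : ‖f (y * I) - x‖ ≤ u / 32)
    (h2 : KB1.ups f (y * I) ≤ u / 32) :
    ‖f (ffl W s (y * I)) - x‖ ≤ u / 16 := by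
  have hz : 0 < ((y : ℂ) * I).im := by simpa using hy
  have h3 := ffl_im_pos hW hs hz
  have h4 := KB1.norm_sub_le_exp hf hfi hz h3
  have h5 := hd_ffl_le hW hs hsr hWr hy hry
  have h6 : Real.exp (2 * KB1.hd (y * I) (ffl W s (y * I))) ≤ 3 := by
    calc Real.exp (2 * KB1.hd (y * I) (ffl W s (y * I))) ≤ Real.exp 1 :=
          Real.exp_le_exp.2 (by linarith)
      _ ≤ 3 := by have := Real.exp_one_lt_d9; linarith
  have h7 := KB1.ups_pos hf hfi hz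
  have h8 : KB1.ups f (y * I) * ((Real.exp (2 * KB1.hd (y * I) (ffl W s (y * I))) - 1) / 2) ≤
      KB1.ups f (y * I) * 1 := by
    apply mul_le_mul_of_nonneg_left _ h7.le
    linarith
  calc ‖f (ffl W s (y * I)) - x‖ ≤ ‖f (ffl W s (y * I)) - f (y * I)‖ + ‖f (y * I) - x‖ := by
        have := norm_add_le (f (ffl W s (y * I)) - f (y * I)) (f (y * I) - x)
        simpa using this
    _ ≤ u / 16 := by linarith

/-- the image of the geodesic stays near `x` for `y ≥ 10 ρ_s`, weaker constant. -/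
theorem geo_near (hf : DifferentiableOn ℂ f KB1.Hs) (hfi : InjOn f KB1.Hs)
    (hW : ContinuousOn W (Ici 0)) (hs : 0 ≤ s) (hsr : s ≤ r ^ 2) (hWr : |W s| ≤ r)
    (hy : 0 < y) (hry : 10 * r ≤ y) (h1 : ‖f (y * I) - x‖ ≤ u / 32)
    (h2 : KB1.ups f (y * I) ≤ u / 32) :
    ‖f (ffl W s (y * I)) - x‖ ≤ u / 8 := by
  have h := geo_near' hf hfi hW hs hsr hWr hy hry h1 h2
  have h0 : 0 ≤ u := by have := (norm_nonneg _).trans h1; linarith
  linarith

/-- conclusion `hgeo`: `rho s` a nonneg. function with `s ≤ rho s ^ 2`, `|W s| ≤ rho s`; old geodesic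
near `x` up to `Y`, and the new geodesic (T2) near `x` for `y ≤ 10 rho s`. -/
theorem hgeo (hf : DifferentiableOn ℂ f KB1.Hs) (hfi : InjOn f KB1.Hs)
    (hW : ContinuousOn W (Ici 0)) {rho : ℝ → ℝ} {T Y : ℝ}
    (hsr : ∀ s ∈ Icc 0 T, s ≤ rho s ^ 2) (hWr : ∀ s ∈ Icc 0 T, |W s| ≤ rho s)
    (P1 : ∀ y, 0 < y → y ≤ Y → ‖f (y * I) - x‖ ≤ u / 32)
    (P2 : ∀ y, 0 < y → y ≤ Y → KB1.ups f (y * I) ≤ u / 32)
    (T2 : ∀ s ∈ Icc 0 T, ∀ y, 0 < y → y ≤ 10 * rho s → ‖f (ffl W s (y * I)) - x‖ ≤ u / 8) :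
    ∀ s ∈ Icc 0 T, ∀ y, 0 < y → y ≤ Y → ‖f (ffl W s (y * I)) - x‖ ≤ u / 8 := by
  intro s hs y hy hyY
  rcases le_total y (10 * rho s) with h | h
  · exact T2 s hs y hy h
  · exact geo_near hf hfi hW hs.1 (hsr s hs) (hWr s hs) hy h (P1 y hy hyY) (P2 y hy hyY)

end Crest.Agent.R162.LB3c
end

-- ▼ part R162/LB3cF
section

/-!
Row 162, node LB3c (helper868): near dichotomy and the FAR content lemma on the frozen
definitions `LBDefs`: `farC ≤ C₆ ϖ`.
-/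

set_option autoImplicit false

open Set MeasureTheory Filter Complex
open scoped ENNReal

namespace Crest.Agent.R162.LB3cF

open Crest.Agent.R162.FL Crest.Agent.R162.FLC Crest.Agent.R162 Crest.Agent.R162.LB3c

/-- constant of the near dichotomy. -/
noncomputable def Kc (c₁ : ℝ) : ℝ := Real.exp (4 / Real.sqrt c₁) - 1

/-- a point collecting content at time `s` is within `Kc ε` of the image `f_s (i ‖Z‖)`. -/
theorem near_point {f : ℂ → ℂ} {W : ℝ → ℝ} {z : ℂ} {s ε c₁ : ℝ}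
    (hf : DifferentiableOn ℂ f KB1.Hs) (hfi : InjOn f KB1.Hs) (hW : ContinuousOn W (Ici 0))
    (h : Alive W z s) (hc₁ : 0 < c₁) (hS : c₁ ≤ OP.sfl W s z)
    (hU : ‖deriv f z‖ * OP.ups W s z ≤ 2 * ε) :
    ‖f z - f (ffl W s (((‖Zfl W s z‖ : ℝ) : ℂ) * I))‖ ≤ Kc c₁ * ε := by
  have hs := h.nonneg
  set Z := Zfl W s z with hZ
  have hZim : 0 < Z.im := FL.Zfl_im_pos h
  have hZn : 0 < ‖Z‖ := norm_pos_iff.2 (by rintro h0; rw [h0] at hZim; simp at hZim)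
  have hzf : ffl W s Z = z := ffl_Zfl hW h
  set F : ℂ → ℂ := f ∘ ffl W s with hF
  have hmaps : MapsTo (ffl W s) KB1.Hs KB1.Hs := fun ζ hζ => ffl_im_pos hW hs hζ
  have hFd : DifferentiableOn ℂ F KB1.Hs := hf.comp (differentiableOn_ffl hW hs) hmaps
  have hFi : InjOn F KB1.Hs := hfi.comp (injOn_ffl hW hs) hmaps
  have hpos : 0 < ((((‖Z‖ : ℝ) : ℂ) * I)).im := by simpa using hZn
  have hkey := KB1.norm_sub_le_exp hFd hFi hZim hpos
  have hSZ : c₁ * ‖Z‖ ≤ Z.im := by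
    have := hS
    rw [OP.sfl, le_div_iff₀ (by rw [← hZ]; exact hZn)] at this
    exact this
  have hhd : KB1.hd Z (((‖Z‖ : ℝ) : ℂ) * I) ≤ 2 / Real.sqrt c₁ := by
    rw [KB1.hd_comm]; exact hd_I hZim hc₁ hSZ
  -- the conformal radius
  have hups : KB1.ups F Z = ‖deriv f z‖ * OP.ups W s z := by
    have hdf : HasDerivAt f (deriv f z) (ffl W s Z) := by
      rw [hzf]
      exact (hf.differentiableAt (KB1.isOpen_Hs.mem_nhds h.im_pos)).hasDerivAt
    have hdF : HasDerivAt F (deriv f z * deriv (ffl W s) Z) Z := by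
      have h2 : HasDerivAt (ffl W s) (deriv (ffl W s) Z) Z :=
        ((differentiableOn_ffl hW hs).differentiableAt (KB1.isOpen_Hs.mem_nhds hZim)).hasDerivAt
      exact hdf.comp Z h2
    have hinv : deriv (gfl W s) z * deriv (ffl W s) Z = 1 := by
      have h2 : HasDerivAt (ffl W s) (deriv (ffl W s) Z) Z :=
        ((differentiableOn_ffl hW hs).differentiableAt (KB1.isOpen_Hs.mem_nhds hZim)).hasDerivAt
      have h3 : HasDerivAt (gfl W s) (deriv (gfl W s) z) (ffl W s Z) := by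
        rw [hzf]
        exact ((FL.hasDerivAt_gfl_space hW h).differentiableAt).hasDerivAt
      have h4 := h3.comp Z h2
      have h5 : HasDerivAt (gfl W s ∘ ffl W s) 1 Z := by
        have h6 : HasDerivAt (fun ζ : ℂ => ζ + (W s : ℂ)) 1 Z := (hasDerivAt_id Z).add_const _
        apply h6.congr_of_eventuallyEq
        filter_upwards [KB1.isOpen_Hs.mem_nhds hZim] with ζ hζ
        exact gfl_ffl hW hs hζ
      exact h4.unique h5
    have hn : ‖deriv (gfl W s) z‖ * ‖deriv (ffl W s) Z‖ = 1 := by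
      rw [← norm_mul, hinv, norm_one]
    have hgpos : 0 < ‖deriv (gfl W s) z‖ := by
      by_contra hc
      have : ‖deriv (gfl W s) z‖ = 0 := le_antisymm (not_lt.1 hc) (norm_nonneg _)
      rw [this, zero_mul] at hn; exact zero_ne_one hn
    rw [KB1.ups, hdF.deriv, norm_mul, ups_eq_deriv hW h, hZ, Zfl_im]
    have : ‖deriv (ffl W s) Z‖ = 1 / ‖deriv (gfl W s) z‖ := by
      field_simp; linarith
    rw [← hZ, this]
    ring
  have hexp : Real.exp (2 * KB1.hd Z (((‖Z‖ : ℝ) : ℂ) * I)) ≤ Real.exp (4 / Real.sqrt c₁) := by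
    apply Real.exp_le_exp.2
    calc _ ≤ 2 * (2 / Real.sqrt c₁) := by gcongr
      _ = _ := by ring
  have h1le : 1 ≤ Real.exp (2 * KB1.hd Z (((‖Z‖ : ℝ) : ℂ) * I)) :=
    Real.one_le_exp (by have := KB1.hd_nonneg Z (((‖Z‖ : ℝ) : ℂ) * I); linarith)
  have e : ‖f z - f (ffl W s (((‖Z‖ : ℝ) : ℂ) * I))‖ = ‖F (((‖Z‖ : ℝ) : ℂ) * I) - F Z‖ := by
    rw [norm_sub_rev]
    simp only [hF, Function.comp_apply, hzf]
  rw [e]
  calc _ ≤ KB1.ups F Z * ((Real.exp (2 * KB1.hd Z (((‖Z‖ : ℝ) : ℂ) * I)) - 1) / 2) := hkey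
    _ ≤ (2 * ε) * ((Real.exp (4 / Real.sqrt c₁) - 1) / 2) := by
        rw [hups]
        have h0 : 0 ≤ ‖deriv f z‖ * OP.ups W s z :=
          mul_nonneg (norm_nonneg _) (FL.ups_nonneg _ _ _)
        apply mul_le_mul hU _ (by linarith) (h0.trans hU)
        linarith
    _ = Kc c₁ * ε := by rw [Kc]; ring



/-- the constant `C₆`. -/
noncomputable def C6 (c₁ q η : ℝ) : ℝ := Kfar ((Real.log 2)⁻¹) c₁ q η * 2 ^ η

theorem C6_nonneg {c₁ q η : ℝ} (hc₁ : 0 < c₁) : 0 ≤ C6 c₁ q η := by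
  have := Kfar_nonneg (Kχ := (Real.log 2)⁻¹) (q := q) (η := η)
    (inv_nonneg.2 (Real.log_nonneg (by norm_num))) hc₁
  unfold C6; positivity

/-- what collects content at a time `s < t` and is not near has `‖Z_s‖ ≥ 10 ρ_t`. -/
theorem far_of_not_near {p : LB.Par} {f : ℂ → ℂ} {W : ℝ → ℝ} {z : ℂ} {s t : ℝ}
    (hf : DifferentiableOn ℂ f KB1.Hs) (hfi : InjOn f KB1.Hs) (hu1 : 1 ≤ p.u0 (p.x f))
    (hW : ContinuousOn W (Ici 0)) (hc₁ : 0 < p.c1)
    (hε1 : Kc p.c1 * p.ε < 1 / 8)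
    (h1 : LB.rad W t ≤ p.rho1 f) (hst : s < t) (hs0 : 0 < s) (h2 : ¬ p.Bad2 f W s)
    (P1 : ∀ y : ℝ, 0 < y → y ≤ 10 * p.rho1 f → ‖f (y * I) - p.x f‖ ≤ p.u0 (p.x f) / 32)
    (P2 : ∀ y : ℝ, 0 < y → y ≤ 10 * p.rho1 f → KB1.ups f (y * I) ≤ p.u0 (p.x f) / 32)
    (h : Alive W z s) (hS : p.c1 ≤ OP.sfl W s z)
    (hU : ‖deriv f z‖ * OP.ups W s z ≤ 2 * p.ε)
    (hz : f z ∉ Metric.ball (p.x f) (p.u0 (p.x f) / 4)) :
    10 * LB.rad W t ≤ ‖Zfl W s z‖ := by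
  by_contra hcon
  push Not at hcon
  set u := p.u0 (p.x f) with hu
  have hZn : 0 < ‖Zfl W s z‖ := norm_pos_iff.2 (Zfl_ne_zero h)
  set y := ‖Zfl W s z‖ with hy
  have hr0 : 0 < LB.rad W s := lt_of_lt_of_le (Real.sqrt_pos.2 hs0) (LB.sqrt_le_rad W s)
  have hrst : LB.rad W s ≤ LB.rad W t := LB.rad_mono hW hs0.le hst.le
  have hgeo : ‖f (ffl W s (y * I)) - p.x f‖ ≤ u / 8 := by
    rcases le_total y (10 * LB.rad W s) with hle | hle
    · have h3 : ‖f (ffl W s (y * I)) - f ((10 * LB.rad W s : ℝ) * I)‖ ≤ u / 16 := by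
        by_contra hc
        push Not at hc
        exact h2 ⟨y, hZn, hle, hc⟩
      have h4 := P1 (10 * LB.rad W s) (by positivity) (by linarith)
      calc ‖f (ffl W s (y * I)) - p.x f‖
          ≤ ‖f (ffl W s (y * I)) - f ((10 * LB.rad W s : ℝ) * I)‖ +
            ‖f ((10 * LB.rad W s : ℝ) * I) - p.x f‖ := norm_sub_le_norm_sub_add_norm_sub _ _ _
        _ ≤ u / 8 := by linarith
    · exact geo_near hf hfi hW hs0.le (LB.le_rad_sq hs0.le) (LB.abs_le_rad hW hs0.le le_rfl) hZn hle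
        (P1 y hZn (by linarith)) (P2 y hZn (by linarith))
  have hnp := near_point hf hfi hW h hc₁ hS hU
  rw [← hy] at hnp
  apply hz
  rw [Metric.mem_ball, dist_eq_norm]
  calc ‖f z - p.x f‖ ≤ ‖f z - f (ffl W s (y * I))‖ + ‖f (ffl W s (y * I)) - p.x f‖ :=
        norm_sub_le_norm_sub_add_norm_sub _ _ _
    _ < u / 4 := by linarith

/-- **LB3c.** Far content of a step is at most `C₆ ϖ`. -/
theorem farC_le {p : LB.Par} (hA : p.Adm) (hκ : 0 < p.κ) (hκ8 : p.κ < 8) (hc₁ : 0 < p.c1)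
    (hq : 0 ≤ p.q) (hη : 0 ≤ p.η) (hqη : 4 * p.q + 2 * p.η ≤ 1 / 2) (hε : 0 < p.ε)
    (hε1 : p.ε ≤ 1) (hεK : Kc p.c1 * p.ε < 1 / 8) {f : ℂ → ℂ} {W : ℝ → ℝ}
    (hf : DifferentiableOn ℂ f KB1.Hs) (hfi : InjOn f KB1.Hs) (hW : ContinuousOn W (Ici 0))
    {t : ℝ} (h1 : LB.rad W t ≤ p.rho1 f) (h2 : ∀ s, 0 < s → s < t → ¬ p.Bad2 f W s)
    (P1 : ∀ y : ℝ, 0 < y → y ≤ 10 * p.rho1 f → ‖f (y * I) - p.x f‖ ≤ p.u0 (p.x f) / 32)
    (P2 : ∀ y : ℝ, 0 < y → y ≤ 10 * p.rho1 f → KB1.ups f (y * I) ≤ p.u0 (p.x f) / 32) :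
    p.farC f W (Ioc 0 t) ≤ ENNReal.ofReal (C6 p.c1 p.q p.η * p.varpi f) := by
  rcases le_or_gt t 0 with ht | ht
  · have he : Ioc 0 t = ∅ := Ioc_eq_empty (by linarith)
    unfold LB.Par.farC LB.content LB.cz
    rw [he]
    simp
  have hρ : 0 < LB.rad W t := lt_of_lt_of_le (Real.sqrt_pos.2 ht) (LB.sqrt_le_rad W t)
  have hlip : ∀ x y, |p.u0 x - p.u0 y| ≤ ‖x - y‖ := by
    intro x y
    have := hA.lip.dist_le_mul x y
    rw [Real.dist_eq, dist_eq_norm] at this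
    simpa using this
  have hu01 : ∀ w ∈ p.B, p.u0 w ≤ 1 := by
    intro w hw
    have := hA.le_dist w hw w
    simpa using this
  set rate : ℝ → ℂ → ℝ := fun s z =>
    if s < t ∧ 0 < s then LB.cd p.κ p.ε p.c1 ‖deriv f z‖ W s z else 0 with hratedef
  set E : Set ℂ := {z : ℂ | 0 < z.im ∧ f z ∈ p.B \ p.near f} with hEdef
  have hlog : 0 ≤ (Real.log 2)⁻¹ := inv_nonneg.2 (Real.log_nonneg (by norm_num))
  have hb : 0 ≤ 8 / p.κ - 1 := by
    have : 1 ≤ 8 / p.κ := by rw [le_div_iff₀ hκ]; linarith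
    linarith
  have hsfl : ∀ s z, 0 ≤ OP.sfl W s z → OP.sfl W s z ≤ 1 := by
    intro s z _
    unfold OP.sfl
    apply div_le_one_of_le₀ ((le_abs_self _).trans (Complex.abs_im_le_norm _)) (norm_nonneg _)
  have hcdle : ∀ s z, LB.cd p.κ p.ε p.c1 ‖deriv f z‖ W s z ≤ (Real.log 2)⁻¹ *
      ((‖deriv f z‖ * OP.ups W s z) ^ (p.κ / 8 - 1) * (4 / ‖Zfl W s z‖ ^ 2)) := by
    intro s z
    have hu0 := FL.ups_nonneg W s z
    have hx : 0 ≤ ‖deriv f z‖ * OP.ups W s z := mul_nonneg (norm_nonneg _) hu0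
    have hx2 : 0 ≤ (‖deriv f z‖ * OP.ups W s z) ^ (p.κ / 8 - 1) := Real.rpow_nonneg hx _
    by_cases hne : LB.cd p.κ p.ε p.c1 ‖deriv f z‖ W s z = 0
    · rw [hne]; positivity
    obtain ⟨hal, -, -, hS⟩ := LB.of_cd_ne_zero hε hne
    have hs0 : 0 ≤ OP.sfl W s z := hc₁.le.trans hS
    have hs1 := hsfl s z hs0
    unfold LB.cd
    rw [if_pos hS, mul_one]
    have hchi := LB.chi_le (‖deriv f z‖ * OP.ups W s z / p.ε)
    have hchi0 := LB.chi_nonneg (‖deriv f z‖ * OP.ups W s z / p.ε)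
    have hsb : OP.sfl W s z ^ (8 / p.κ - 1) ≤ 1 := Real.rpow_le_one hs0 hs1 hb
    have hsb0 : 0 ≤ OP.sfl W s z ^ (8 / p.κ - 1) := Real.rpow_nonneg hs0 _
    have hs2 : 4 * OP.sfl W s z ^ 2 / ‖Zfl W s z‖ ^ 2 ≤ 4 / ‖Zfl W s z‖ ^ 2 := by
      apply div_le_div_of_nonneg_right _ (by positivity)
      nlinarith
    calc LB.chi (‖deriv f z‖ * OP.ups W s z / p.ε) *
          (‖deriv f z‖ * OP.ups W s z) ^ (p.κ / 8 - 1) *
          OP.sfl W s z ^ (8 / p.κ - 1) * (4 * OP.sfl W s z ^ 2 / ‖Zfl W s z‖ ^ 2)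
        ≤ (Real.log 2)⁻¹ * (‖deriv f z‖ * OP.ups W s z) ^ (p.κ / 8 - 1) * 1 *
          (4 / ‖Zfl W s z‖ ^ 2) := by gcongr
      _ = _ := by ring
  have hfc := far_content (T := t) (ε := p.ε) (rate := rate) (E := E) hκ hκ8 hc₁ hq hη hqη hlog
    hf hfi hA.one_le hlip hW hρ (LB.le_rad_sq ht.le) (fun r hr => LB.abs_le_rad hW hr.1 hr.2) hε hε1
    (fun s _ z => by
      by_cases hst : s < t ∧ 0 < s
      · simp only [hratedef, if_pos hst]; exact hcdle s z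
      · simp only [hratedef, if_neg hst]
        have hu0 := FL.ups_nonneg W s z
        positivity)
    (fun s _ z hpos => by
      by_cases hst : s < t ∧ 0 < s
      · simp only [hratedef, if_pos hst] at hpos
        obtain ⟨hal, ha, hb', hS⟩ := LB.of_cd_ne_zero hε hpos.ne'
        exact ⟨hal, hS, ha, hb'⟩
      · simp only [hratedef, if_neg hst] at hpos
        exact absurd hpos (lt_irrefl _))
    (fun z hz => hu01 _ hz.2.1)
    (fun z hz s _ hpos => by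
      by_cases hst : s < t ∧ 0 < s
      · simp only [hratedef, if_pos hst] at hpos
        obtain ⟨hal, ha, hb', hS⟩ := LB.of_cd_ne_zero hε hpos.ne'
        exact far_of_not_near hf hfi (hA.one_le _) hW hc₁ hεK h1 hst.1 hst.2
          (h2 s hst.2 hst.1) P1 P2 hal hS hb' (fun hball => hz.2.2 ⟨hz.2.1, hball⟩)
      · simp only [hratedef, if_neg hst] at hpos
        exact absurd hpos (lt_irrefl _))
  -- rewrite the left side
  have hlhs : p.farC f W (Ioc 0 t) =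
      ∫⁻ z in E, (∫⁻ s in Icc 0 t, ENNReal.ofReal (rate s z)) *
        ENNReal.ofReal (‖deriv f z‖ ^ 2) := by
    unfold LB.Par.farC LB.content
    apply lintegral_congr
    intro z
    rw [mul_comm]
    congr 1
    unfold LB.cz
    have e1 : ∫⁻ s in Ioc 0 t, ENNReal.ofReal (LB.cd p.κ p.ε p.c1 ‖deriv f z‖ W s z) =
        ∫⁻ s in Ioo 0 t, ENNReal.ofReal (LB.cd p.κ p.ε p.c1 ‖deriv f z‖ W s z) :=
      setLIntegral_congr Ioo_ae_eq_Ioc.symm
    have e2 : ∫⁻ s in Icc 0 t, ENNReal.ofReal (rate s z) =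
        ∫⁻ s in Ioo 0 t, ENNReal.ofReal (rate s z) := setLIntegral_congr Ioo_ae_eq_Icc.symm
    rw [e1, e2]
    apply setLIntegral_congr_fun measurableSet_Ioo
    intro s hs
    simp only [hratedef]
    rw [if_pos ⟨hs.2, hs.1⟩]
  rw [hlhs]
  refine hfc.trans (ENNReal.ofReal_le_ofReal ?_)
  -- Psi (10 ρ i) ≤ 2^η ϖ
  have h10 : 0 < 10 * LB.rad W t := by positivity
  have hpos10 : 0 < ((((10 * LB.rad W t : ℝ) : ℂ) * I)).im := by simpa using h10
  set ζ : ℂ := ((10 * LB.rad W t : ℝ) : ℂ) * I with hζ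
  have hux : 0 < p.u0 (p.x f) := lt_of_lt_of_le one_pos (hA.one_le _)
  have hclose : p.u0 (p.x f) / 2 ≤ p.u0 (f ζ) := by
    have h3 := P1 (10 * LB.rad W t) h10 (by linarith)
    have h4 := hlip (f ζ) (p.x f)
    have h5 := (abs_le.1 (h4.trans h3)).1
    linarith
  have hup := KB1.ups_pos hf hfi hpos10
  have hmp := mm_pos (f := f) hA.one_le ζ
  have hPsi : Psi p.q p.η p.u0 f ζ ≤ 2 ^ p.η * p.varpi f := by
    have e1 : Psi p.q p.η p.u0 f ζ ≤ mm p.u0 f ζ ^ (-p.η) := by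
      unfold Psi
      have e2 : KB1.ups f ζ ^ p.q ≤ mm p.u0 f ζ ^ p.q :=
        Real.rpow_le_rpow hup.le (ups_le_mm ζ) hq
      calc KB1.ups f ζ ^ p.q * mm p.u0 f ζ ^ (-p.q - p.η)
          ≤ mm p.u0 f ζ ^ p.q * mm p.u0 f ζ ^ (-p.q - p.η) := by gcongr
        _ = mm p.u0 f ζ ^ (-p.η) := by
            rw [← Real.rpow_add hmp]; congr 1; ring
    have e3 : mm p.u0 f ζ ^ (-p.η) ≤ (p.u0 (p.x f) / 2) ^ (-p.η) :=
      Real.rpow_le_rpow_of_nonpos (by positivity) (hclose.trans (u0_le_mm ζ)) (by linarith)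
    have e4 : (p.u0 (p.x f) / 2) ^ (-p.η) = 2 ^ p.η * p.varpi f := by
      unfold LB.Par.varpi
      rw [Real.div_rpow hux.le (by norm_num), Real.rpow_neg (by norm_num : (0:ℝ) ≤ 2)]
      field_simp
    linarith [e1.trans e3]
  have hK0 := Kfar_nonneg (q := p.q) (η := p.η) hlog hc₁
  calc Kfar (Real.log 2)⁻¹ p.c1 p.q p.η * Psi p.q p.η p.u0 f ζ
      ≤ Kfar (Real.log 2)⁻¹ p.c1 p.q p.η * (2 ^ p.η * p.varpi f) := by gcongr
    _ = C6 p.c1 p.q p.η * p.varpi f := by rw [C6]; ring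

end Crest.Agent.R162.LB3cF
end

-- ▼ part R162/LB3cI
section

/-!
Row 162, node LB3c (helper868), end: the far content of a step, `(P1)`, `(P2)` from helper411's
`Geo`, and the inequality `ρ_T ≤ ρ₁`.
-/

set_option autoImplicit false

open Set MeasureTheory Filter Complex Topology
open scoped ENNReal

namespace Crest.Agent.R162.LB3cF

open Crest.Agent.R162.FL Crest.Agent.R162

/-- `411`'s `Geo` from finiteness of `J` (without the boundedness of the ray). -/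
theorem geoJ {p : LB.Par} (hA : p.Adm) (hc : LB0.Small p) {f : ℂ → ℂ}
    (hf : DifferentiableOn ℂ f KB1.Hs) (hfi : InjOn f KB1.Hs)
    (hJ : ∀ y, LB.Jv p.u0 p.q f y ≠ ⊤)
    (hv : ∃ y : ℝ, 0 < y ∧ p.θ ≤ LB.vv p.u0 f y) : LB0.Geo p f := by
  obtain ⟨y0, hy0, hvy0⟩ := hv
  have hK42 : 1 ≤ p.K4 ^ 2 := one_le_pow₀ hc.K4_ge
  have hθ1 : p.θ ≤ 1 := by have := hc.sm2; have := hc.θ_pos; nlinarith
  have hJ : ∀ y, LB0.Jv p.u0 p.q f y < ⊤ := fun y => lt_top_iff_ne_top.2 (hJ y)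
  have hne : (LB0.bad p.u0 p.q f p.θ p.K3).Nonempty := ⟨y0, hy0, Or.inl hvy0⟩
  obtain ⟨g1, g2, g3, g4, g5, g6⟩ := LB0.geo (K4 := p.K4) hf hfi hA.lip hA.one_le hc.q_pos hc.q_lt
    hc.θ_pos hc.K3_pos hc.K4_ge hc.sm1 hc.sm2 ⟨1, one_pos, hJ 1⟩ hne
  have hrho : p.rho1 f = LB0.rho1 p.u0 p.q f p.θ p.K3 p.K4 := by
    unfold LB.Par.rho1 LB0.rho1
    rfl
  rw [← hrho] at g2 g3 g4 g5 g6
  have hyx : p.y f = LB0.yx p.u0 p.q f p.θ p.K3 := rfl
  have hx : p.x f = f ((LB0.yx p.u0 p.q f p.θ p.K3 : ℂ) * Complex.I) := rfl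
  have hvy : LB.vv p.u0 f (p.y f) ≤ p.θ := LB0.vv_yx_le hf hA.lip hA.one_le g1
  have hJy : LB.Jv p.u0 p.q f (p.y f) ≤ ENNReal.ofReal p.K3 :=
    LB0.Jv_yx_le hf hfi hA.one_le hc.q_pos g1
  have hnear : ∀ y : ℝ, 0 < y → y ≤ 10 * p.rho1 f →
      ‖f (y * Complex.I) - p.x f‖ ≤ p.u0 (p.x f) / 64 := fun y hy hy2 => g4 y hy hy2
  refine
    { y_pos := g1
      rho_pos := g2
      y_le := g3
      near := hnear
      vv_le := fun y hy hy2 => g5 y hy hy2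
      vv_le_one := fun y hy hy2 => (g5 y hy hy2).trans (by have := hc.sm2; nlinarith)
      Jv_le := g6
      Jv_lt_top := hJ
      lt_y := fun y hy hy2 => LB0.good_of_lt hy hy2
      vv_y_le := hvy
      Jv_y_le := hJy
      caseA := fun h => ⟨le_antisymm hvy h, by unfold LB.Par.rho1; rw [if_pos h]⟩
      caseB := fun h => ?_
      u0_near := fun y hy hy2 => LB0.u0_comparable hA.lip (hnear y hy hy2)
      norm_sub := fun y y' hy hy2 hy' hy2' => ?_ }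
  · refine ⟨by unfold LB.Par.rho1; rw [if_neg h]; ring, le_antisymm hJy ?_⟩
    exact LB0.le_Jv_yx hf hfi hA.lip hA.one_le hc.q_pos hne g1 (not_le.1 h)
  · have h3 := hnear y hy hy2
    have h4 := hnear y' hy' hy2'
    calc ‖f (y * Complex.I) - f (y' * Complex.I)‖
        = ‖(f (y * Complex.I) - p.x f) - (f (y' * Complex.I) - p.x f)‖ := by ring_nf
      _ ≤ ‖f (y * Complex.I) - p.x f‖ + ‖f (y' * Complex.I) - p.x f‖ := norm_sub_le _ _
      _ ≤ _ := by linarith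

/-- `ρ_T ≤ ρ₁`. -/
theorem rad_T_le {p : LB.Par} {f : ℂ → ℂ} {W : ℝ → ℝ} (hW : ContinuousOn W (Ici 0))
    (hT : 0 < p.T f W) : LB.rad W (p.T f W) ≤ p.rho1 f := by
  set T := p.T f W with hTdef
  have hb : ∀ t, 0 < t → t < T → LB.rad W t ≤ p.rho1 f := by
    intro t ht0 ht
    have := LB.not_bad_of_lt p ht0 ht
    unfold LB.Par.Bad at this
    push Not at this
    exact not_lt.1 this.1
  have hs : Real.sqrt T ≤ p.rho1 f := by
    have h1 : Tendsto Real.sqrt (𝓝[<] T) (𝓝 (Real.sqrt T)) :=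
      (Real.continuous_sqrt.tendsto T).mono_left nhdsWithin_le_nhds
    refine le_of_tendsto h1 ?_
    have : Ioo 0 T ∈ 𝓝[<] T := Ioo_mem_nhdsLT hT
    filter_upwards [this] with t ht
    exact (LB.sqrt_le_rad W t).trans (hb t ht.1 ht.2)
  have hWs : ∀ s, 0 ≤ s → s < T → |W s| ≤ p.rho1 f := by
    intro s hs0 hs1
    have h1 : 0 < (s + T) / 2 := by linarith
    have h2 : (s + T) / 2 < T := by linarith
    exact (LB.abs_le_rad hW hs0 (by linarith)).trans (hb _ h1 h2)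
  have hWT : |W T| ≤ p.rho1 f := by
    have h1 : Tendsto (fun s => |W s|) (𝓝[Ioo 0 T] T) (𝓝 |W T|) := by
      have := ((hW.abs T hT.le).mono (fun s (hs : s ∈ Ioo 0 T) => (hs.1.le : s ∈ Ici (0:ℝ))))
      exact this
    have : (𝓝[Ioo 0 T] T).NeBot := by
      rw [nhdsWithin_Ioo_eq_nhdsLT hT]
      infer_instance
    refine le_of_tendsto h1 ?_
    filter_upwards [self_mem_nhdsWithin] with s hs
    exact hWs s hs.1.le hs.2
  unfold LB.rad
  refine max_le hs ?_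
  refine csSup_le ⟨|W 0|, 0, ⟨le_rfl, hT.le⟩, rfl⟩ ?_
  rintro _ ⟨s, hs, rfl⟩
  rcases hs.2.lt_or_eq with h | h
  · exact hWs s hs.1 h
  · simpa [h] using hWT

/-- **Far content of a step** with `411`'s geometry. -/
theorem farC_T_le {p : LB.Par} (hA : p.Adm) (hκ : 0 < p.κ) (hκ8 : p.κ < 8) (hc₁ : 0 < p.c1)
    (hη : 0 ≤ p.η) (hqη : 4 * p.q + 2 * p.η ≤ 1 / 2) (hc : LB0.Small p)
    (hθ2 : 6400 * p.K4 ^ 2 * p.θ ≤ 1) (hε : 0 < p.ε)
    (hε1 : p.ε ≤ 1) (hεK : Kc p.c1 * p.ε < 1 / 8) {f : ℂ → ℂ} {W : ℝ → ℝ}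
    (hf : DifferentiableOn ℂ f KB1.Hs) (hfi : InjOn f KB1.Hs)
    (hG : LB0.Geo p f) (hW : ContinuousOn W (Ici 0)) :
    p.farC f W (Ioc 0 (p.T f W)) ≤ ENNReal.ofReal (C6 p.c1 p.q p.η * p.varpi f) := by
  rcases (LB.T_nonneg p f W).eq_or_lt with hT | hT
  · have he : Ioc 0 (p.T f W) = ∅ := by rw [← hT]; simp
    unfold LB.Par.farC LB.content LB.cz
    rw [he]
    simp
  · have hu : 0 < p.u0 (p.x f) := lt_of_lt_of_le one_pos (hA.one_le _)
    refine farC_le hA hκ hκ8 hc₁ hc.q_pos.le hη hqη hε hε1 hεK hf hfi hW (rad_T_le hW hT)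
      (fun s hs0 hsT hb => LB.not_bad_of_lt p hs0 hsT (Or.inr (Or.inl hb)))
      (fun y hy0 hy => (hG.near y hy0 hy).trans (by linarith)) (fun y hy0 hy => ?_)
    have h1 := hG.vv_le y hy0 hy
    have h2 := (hG.u0_near y hy0 hy).2
    have h0 : 0 < p.u0 (f (y * Complex.I)) := lt_of_lt_of_le one_pos (hA.one_le _)
    unfold LB.vv at h1
    rw [div_le_iff₀ h0] at h1
    have h3 : 102 * p.K4 ^ 2 * p.θ ≤ 102 / 6400 := by linarith
    calc KB1.ups f (y * Complex.I) ≤ 102 * p.K4 ^ 2 * p.θ * p.u0 (f (y * Complex.I)) := h1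
      _ ≤ 102 / 6400 * (65 / 64 * p.u0 (p.x f)) := by gcongr
      _ ≤ p.u0 (p.x f) / 32 := by linarith

end Crest.Agent.R162.LB3cF
end

-- ▼ part R162/LB3cJ
section

/-!
Row 162, node LB3c (helper868): the far content of a step in the form of helper561's `InFar`
(with the extra hypothesis `4q + 2η ≤ 1/2`) and in helper310's format (`LBSkel`).
-/

set_option autoImplicit false

open Set MeasureTheory Filter Complex Topology
open scoped ENNReal

namespace Crest.Agent.R162.LB3cF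

open Crest.Agent.R162.FL Crest.Agent.R162

theorem exists_vv_ge {p : LB.Par} {f : ℂ → ℂ} (h : Tendsto (LB.vv p.u0 f) atTop (𝓝 1))
    (hθ : p.θ ≤ 1 / 2) : ∃ y : ℝ, 0 < y ∧ p.θ ≤ LB.vv p.u0 f y := by
  have h1 : ∀ᶠ y in atTop, (1 / 2 : ℝ) < LB.vv p.u0 f y := h.eventually_const_lt (by norm_num)
  obtain ⟨y, hy, hy0⟩ := (h1.and (eventually_gt_atTop (0 : ℝ))).exists
  exact ⟨y, hy0, hθ.trans hy.le⟩

/-- smallness of `θ` -/
theorem exists_theta {q K3 K4 : ℝ} (hq : 0 < q) (hq1 : q < 1) (hK3 : 0 < K3) (hK4 : 1 ≤ K4) :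
    ∃ θ0 : ℝ, 0 < θ0 ∧ θ0 ≤ 1 / 2 ∧ ∀ θ : ℝ, 0 < θ → θ ≤ θ0 →
      K3 * θ ^ (1 - q) ≤ 1 / 130 ∧ 3200 * K4 ^ 2 * θ ≤ 1 ∧ 6400 * K4 ^ 2 * θ ≤ 1 := by
  obtain ⟨θ0, h0, h1⟩ := LB0.exists_theta hq hq1 hK3 hK4
  refine ⟨min (θ0 / 2) (1 / 2), by positivity, min_le_right _ _, fun θ hθ hle => ?_⟩
  have h2 : θ ≤ θ0 / 2 := hle.trans (min_le_left _ _)
  have h3 := h1 θ hθ (by linarith)
  have h4 := (h1 θ0 h0 le_rfl).2
  have h5 : 0 ≤ K4 ^ 2 := by positivity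
  exact ⟨h3.1, h3.2, by nlinarith⟩

/-- smallness of `ε` -/
noncomputable def eps0 (c1 : ℝ) : ℝ := min 1 (1 / (16 * (Kc c1 + 1)))

theorem Kc_nonneg (c1 : ℝ) : 0 ≤ Kc c1 := by
  unfold Kc
  have : 1 ≤ Real.exp (4 / Real.sqrt c1) := Real.one_le_exp (by positivity)
  linarith

theorem eps0_pos (c1 : ℝ) : 0 < eps0 c1 := by
  have := Kc_nonneg c1
  unfold eps0; positivity

theorem eps0_spec {c1 ε : ℝ} (hε : 0 < ε) (h : ε ≤ eps0 c1) : ε ≤ 1 ∧ Kc c1 * ε < 1 / 8 := by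
  have hK := Kc_nonneg c1
  have h2 : ε ≤ 1 / (16 * (Kc c1 + 1)) := h.trans (min_le_right _ _)
  rw [le_div_iff₀ (by positivity)] at h2
  exact ⟨h.trans (min_le_left _ _), by nlinarith⟩


/-- far content of a step in helper310's format -/
theorem farC_skel {p : LB.Par} (hok : LBS.Ok p) (hθ : 6400 * p.K4 ^ 2 * p.θ ≤ 1)
    (hθ2 : p.K3 * p.θ ^ (1 - p.q) ≤ 1 / 130) (hε : p.ε ≤ eps0 p.c1) {f : ℂ → ℂ}
    (hS : LBS.Start p f) {W : ℝ → ℝ} (hW : LBS.Drive W) :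
    p.farC f W (Ioc 0 (p.T f W)) ≤ ENNReal.ofReal (C6 p.c1 p.q p.η * p.varpi f) := by
  have hη := hok.η0
  have hqη := hok.qη
  have hθ0 := hok.θ0
  have hK4 := hok.K4
  have hK42 : (1 : ℝ) ≤ p.K4 ^ 2 := one_le_pow₀ hK4
  have hc : LB0.Small p :=
    { q_pos := hok.q0, q_lt := by linarith, η_nonneg := hη.le, θ_pos := hθ0,
      K3_pos := by linarith [hok.K3], K4_ge := hK4, sm1 := hθ2, sm2 := by nlinarith }
  obtain ⟨e1, e2⟩ := eps0_spec hok.ε0 hε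
  have hG := geoJ hok.adm hc hS.univ.diff hS.univ.inj hS.J_ne_top
    (exists_vv_ge hS.v_tendsto hok.θ1.le)
  exact farC_T_le hok.adm hok.κ0 hok.κ8 hok.c10 hη.le hqη hc hθ hok.ε0 e1 e2 hS.univ.diff
    hS.univ.inj hG hW.cont

end Crest.Agent.R162.LB3cF
end

-- ▼ part R162/LBcSF

/-!
Row 162 (S0243), node LBcSF (helper661): the total content of one step is `≤ K₅ ϖ`
(`LBS.LBcS` with its quantifiers), from the near windows (T₃) and the far content (868).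
-/

set_option autoImplicit false

open MeasureTheory Set Filter Topology
open scoped ENNReal NNReal

namespace Crest.Agent.R162.LBcSF

open Crest.Agent.R162.KB1
open Crest.Agent.R162
open Crest.Agent.R162.LB (win)

/-- `geoP` with `J < ∞` as a hypothesis. -/
theorem geoJ {p : LB.Par} (hA : p.Adm) (hc : LB0.Small p) {f : ℂ → ℂ}
    (hf : DifferentiableOn ℂ f Hs) (hfi : InjOn f Hs)
    (hJ : ∀ y, LB0.Jv p.u0 p.q f y < ⊤)
    (hv : ∃ y : ℝ, 0 < y ∧ p.θ ≤ LB.vv p.u0 f y) : LB0.Geo p f := by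
  obtain ⟨y0, hy0, hvy0⟩ := hv
  have hK42 : 1 ≤ p.K4 ^ 2 := one_le_pow₀ hc.K4_ge
  have hθ1 : p.θ ≤ 1 := by have := hc.sm2; have := hc.θ_pos; nlinarith
  have hne : (LB0.bad p.u0 p.q f p.θ p.K3).Nonempty := ⟨y0, hy0, Or.inl hvy0⟩
  obtain ⟨g1, g2, g3, g4, g5, g6⟩ := LB0.geo (K4 := p.K4) hf hfi hA.lip hA.one_le hc.q_pos hc.q_lt
    hc.θ_pos hc.K3_pos hc.K4_ge hc.sm1 hc.sm2 ⟨1, one_pos, hJ 1⟩ hne
  have hrho : p.rho1 f = LB0.rho1 p.u0 p.q f p.θ p.K3 p.K4 := by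
    unfold LB.Par.rho1 LB0.rho1
    rfl
  rw [← hrho] at g2 g3 g4 g5 g6
  have hvy : LB.vv p.u0 f (p.y f) ≤ p.θ := LB0.vv_yx_le hf hA.lip hA.one_le g1
  have hJy : LB.Jv p.u0 p.q f (p.y f) ≤ ENNReal.ofReal p.K3 :=
    LB0.Jv_yx_le hf hfi hA.one_le hc.q_pos g1
  have hnear : ∀ y : ℝ, 0 < y → y ≤ 10 * p.rho1 f →
      ‖f (y * Complex.I) - p.x f‖ ≤ p.u0 (p.x f) / 64 := fun y hy hy2 => g4 y hy hy2
  refine
    { y_pos := g1
      rho_pos := g2
      y_le := g3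
      near := hnear
      vv_le := fun y hy hy2 => g5 y hy hy2
      vv_le_one := fun y hy hy2 => (g5 y hy hy2).trans (by have := hc.sm2; nlinarith)
      Jv_le := g6
      Jv_lt_top := hJ
      lt_y := fun y hy hy2 => LB0.good_of_lt hy hy2
      vv_y_le := hvy
      Jv_y_le := hJy
      caseA := fun h => ⟨le_antisymm hvy h, by unfold LB.Par.rho1; rw [if_pos h]⟩
      caseB := fun h => ?_
      u0_near := fun y hy hy2 => LB0.u0_comparable hA.lip (hnear y hy hy2)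
      norm_sub := fun y y' hy hy2 hy' hy2' => ?_ }
  · refine ⟨by unfold LB.Par.rho1; rw [if_neg h]; ring, le_antisymm hJy ?_⟩
    exact LB0.le_Jv_yx hf hfi hA.lip hA.one_le hc.q_pos hne g1 (not_le.1 h)
  · have h3 := hnear y hy hy2
    have h4 := hnear y' hy' hy2'
    calc ‖f (y * Complex.I) - f (y' * Complex.I)‖
        = ‖(f (y * Complex.I) - p.x f) - (f (y' * Complex.I) - p.x f)‖ := by ring_nf
      _ ≤ ‖f (y * Complex.I) - p.x f‖ + ‖f (y' * Complex.I) - p.x f‖ := norm_sub_le _ _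
      _ ≤ _ := by linarith

/-- the geometry of a step from `Start`. -/
theorem geo_start {p : LB.Par} (hA : p.Adm) (hc : LB0.Small p) (hθ : p.θ < 1 / 2) {f : ℂ → ℂ}
    (hs : LBS.Start p f) : LB0.Geo p f := by
  refine geoJ hA hc hs.univ.diff hs.univ.inj (fun y => (hs.J_ne_top y).lt_top) ?_
  have h1 := hs.v_tendsto.eventually (lt_mem_nhds (show p.θ < 1 by linarith))
  obtain ⟨y, hy1, hy2⟩ := (h1.and (eventually_gt_atTop 0)).exists
  exact ⟨y, hy2, hy1.le⟩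

variable {κ ε c1 : ℝ} {f : ℂ → ℂ} {W : ℝ → ℝ} {B : Set ℂ}

/-- measurability in `z` of the density of the content, deterministic path -/
theorem measurable_cz_z (hW : ContinuousOn W (Ici 0)) {E : Set ℝ} {T : ℝ} (hE : MeasurableSet E)
    (hET : E ⊆ Icc 0 T) (f : ℂ → ℂ) :
    Measurable (fun z : ℂ => LB.cz κ ε c1 ‖deriv f z‖ W E z) := by
  have hl : Measurable (fun p : Unit × ℂ => ‖deriv f p.2‖) :=
    (measurable_deriv f).norm.comp measurable_snd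
  have hE2 : MeasurableSet {x : Unit × ℝ | x.2 ∈ (fun _ : Unit => E) x.1} := measurable_snd hE
  have hg : Measurable (fun z : ℂ => (((), z) : Unit × ℂ)) := measurable_const.prodMk measurable_id
  have hc : ∀ ω : Unit, ContinuousOn ((fun _ : Unit => W) ω) (Icc 0 T) :=
    fun _ => hW.mono Icc_subset_Ici_self
  have hm : ∀ s ∈ Icc 0 T, Measurable (fun ω : Unit => (fun _ : Unit => W) ω s) :=
    fun _ _ => measurable_const
  have h := LBCont.measurable_cz (κ := κ) (ε := ε) (c1 := c1) (Ω := Unit) (W := fun _ => W) (T := T)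
    hl hc hm hE2 (fun _ => hET)
  have h2 := h.comp hg
  simpa only [Function.comp_def] using h2

/-- continuity from the left of the content in the time -/
theorem content_limit (hW : ContinuousOn W (Ici 0)) {T : ℝ} {K : ℝ≥0∞}
    (h : ∀ t, 0 < t → t < T → LB.content κ ε c1 f W (Ioc 0 t) B ≤ K) :
    LB.content κ ε c1 f W (Ioc 0 T) B ≤ K := by
  rcases le_or_gt T 0 with hT | hT
  · unfold LB.content LB.cz
    rw [Ioc_eq_empty (by linarith)]
    simp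
  set u : ℕ → ℝ := fun n => T * (1 - 1 / ((n : ℝ) + 2)) with hu
  have hu0 : ∀ n, 0 < u n := by
    intro n
    have h2 : (1:ℝ) / ((n : ℝ) + 2) ≤ 1 / 2 := by
      apply one_div_le_one_div_of_le (by norm_num)
      have : (0:ℝ) ≤ n := Nat.cast_nonneg n
      linarith
    have : 0 < 1 - 1 / ((n : ℝ) + 2) := by linarith
    exact mul_pos hT this
  have huT : ∀ n, u n < T := by
    intro n
    have : (0:ℝ) < 1 / ((n : ℝ) + 2) := by positivity
    calc u n < T * 1 := mul_lt_mul_of_pos_left (by linarith) hT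
      _ = T := mul_one T
  have humono : Monotone u := by
    intro a b hab
    have hab' : (a : ℝ) ≤ b := Nat.cast_le.2 hab
    have : (1:ℝ) / ((b : ℝ) + 2) ≤ 1 / ((a : ℝ) + 2) := by
      apply one_div_le_one_div_of_le (by positivity)
      linarith
    exact mul_le_mul_of_nonneg_left (by linarith) hT.le
  have hulim : Tendsto u atTop (𝓝 T) := by
    have h1 : Tendsto (fun n : ℕ => (1:ℝ) / ((n : ℝ) + 2)) atTop (𝓝 0) := by
      have h2 : Tendsto (fun n : ℕ => (n : ℝ) + 2) atTop atTop :=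
        tendsto_atTop_add_const_right _ _ tendsto_natCast_atTop_atTop
      have h4 := tendsto_inv_atTop_zero.comp h2
      refine h4.congr fun n => ?_
      simp [Function.comp]
    have h3 := (tendsto_const_nhds (x := T)).mul ((tendsto_const_nhds (x := (1:ℝ))).sub h1)
    rw [sub_zero, mul_one] at h3
    exact h3
  have hcov : Ioo 0 T = ⋃ n, Ioc 0 (u n) := by
    ext s
    rw [mem_iUnion]
    constructor
    · intro hs
      have h1 := hulim.eventually (lt_mem_nhds hs.2)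
      obtain ⟨n, hn⟩ := h1.exists
      exact ⟨n, hs.1, hn.le⟩
    · rintro ⟨n, hn⟩
      exact ⟨hn.1, hn.2.trans_lt (huT n)⟩
  have hmono : Monotone (fun n => Ioc 0 (u n)) := fun a b hab => Ioc_subset_Ioc_right (humono hab)
  have hcz : ∀ z, LB.cz κ ε c1 ‖deriv f z‖ W (Ioc 0 T) z =
      ⨆ n, LB.cz κ ε c1 ‖deriv f z‖ W (Ioc 0 (u n)) z := by
    intro z
    unfold LB.cz
    rw [setLIntegral_congr Ioo_ae_eq_Ioc.symm, hcov,
      setLIntegral_iUnion_of_directed _ (directed_of_isDirected_le hmono)]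
  have hm : ∀ n, Measurable (fun z : ℂ => LB.cz κ ε c1 ‖deriv f z‖ W (Ioc 0 (u n)) z) :=
    fun n => measurable_cz_z (T := u n) hW measurableSet_Ioc Ioc_subset_Icc_self f
  have hmain : LB.content κ ε c1 f W (Ioc 0 T) B =
      ⨆ n, LB.content κ ε c1 f W (Ioc 0 (u n)) B := by
    unfold LB.content
    rw [← lintegral_iSup]
    · apply lintegral_congr
      intro z
      rw [hcz z, ENNReal.mul_iSup]
    · intro n
      exact ((measurable_deriv f).norm.pow_const 2).ennreal_ofReal.mul (hm n)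
    · intro a b hab z
      exact mul_le_mul' le_rfl (LB.cz_mono (hmono hab) z)
  rw [hmain]
  exact iSup_le fun n => h (u n) (hu0 n) (huT n)

/-- countable subadditivity of the content in the time set -/
theorem content_le_tsum {E : ℤ → Set ℝ} {S : Set ℝ}
    (hm : ∀ k, Measurable (fun z : ℂ => LB.cz κ ε c1 ‖deriv f z‖ W (E k) z))
    (hsub : S ⊆ ⋃ k, E k) :
    LB.content κ ε c1 f W S B ≤ ∑' k, LB.content κ ε c1 f W (E k) B := by
  unfold LB.content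
  rw [← lintegral_tsum]
  · apply lintegral_mono
    intro z
    simp only
    rw [ENNReal.tsum_mul_left]
    refine mul_le_mul' le_rfl ?_
    refine (LB.cz_mono hsub z).trans ?_
    exact lintegral_iUnion_le _ _
  · intro k
    exact (((measurable_deriv f).norm.pow_const 2).ennreal_ofReal.mul (hm k)).aemeasurable

/-- subadditivity of the content in the physical set -/
theorem content_union_le (B B' : Set ℂ) (E : Set ℝ) :
    LB.content κ ε c1 f W E (B ∪ B') ≤ LB.content κ ε c1 f W E B + LB.content κ ε c1 f W E B' := by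
  unfold LB.content
  have : {z : ℂ | 0 < z.im ∧ f z ∈ B ∪ B'} = {z : ℂ | 0 < z.im ∧ f z ∈ B} ∪
      {z : ℂ | 0 < z.im ∧ f z ∈ B'} := by
    ext z
    simp only [mem_ofPred_eq, mem_union]
    tauto
  rw [this]
  exact lintegral_union_le _ _ _

/-- the windows are measurable -/
theorem measurableSet_win (hW : ContinuousOn W (Ici 0)) (t : ℝ) (k : ℤ) :
    MeasurableSet (win W t k) := by
  have hr : Continuous (fun s : ℝ => LB.rad W (max s 0)) :=
    (LBST.continuousOn_rad hW).comp_continuous (by fun_prop) (fun s => le_max_right s 0)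
  have h1 : MeasurableSet {s : ℝ | 0 < s ∧ s ≤ t ∧ (2 : ℝ) ^ k ≤ LB.rad W (max s 0) ∧
      LB.rad W (max s 0) < (2 : ℝ) ^ (k + 1)} := by
    refine (measurableSet_lt measurable_const measurable_id).inter
      ((measurableSet_le measurable_id measurable_const).inter
      ((measurableSet_le measurable_const hr.measurable).inter
        (measurableSet_lt hr.measurable measurable_const)))
  convert h1 using 1
  ext s
  simp only [win, mem_ofPred_eq]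
  constructor
  · rintro ⟨h0, h1, h2, h3⟩
    rw [max_eq_left h0.le]
    exact ⟨h0, h1, h2, h3⟩
  · rintro ⟨h0, h1, h2, h3⟩
    rw [max_eq_left h0.le] at h2 h3
    exact ⟨h0, h1, h2, h3⟩

/-- the windows below `r` cover `(0,t]` -/
theorem cover (hW : ContinuousOn W (Ici 0)) {t r : ℝ} (hr : LB.rad W t ≤ r) :
    Ioc 0 t ⊆ ⋃ k : ℤ, (if (2 : ℝ) ^ k ≤ r then win W t k else ∅) := by
  intro s hs
  have h0 : 0 < LB.rad W s := lt_of_lt_of_le (Real.sqrt_pos.2 hs.1) (LB.sqrt_le_rad W s)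
  obtain ⟨k, hk1, hk2⟩ := exists_mem_Ico_zpow h0 (one_lt_two : (1:ℝ) < 2)
  rw [mem_iUnion]
  refine ⟨k, ?_⟩
  have : (2 : ℝ) ^ k ≤ r := hk1.trans ((LB.rad_mono hW hs.1.le hs.2).trans hr)
  rw [if_pos this]
  exact ⟨hs.1, hs.2, hk1, hk2⟩

/-- `near = ∅` if `u₀(x) > 1` -/
theorem near_eq_empty {p : LB.Par} (hA : p.Adm) {f : ℂ → ℂ} (h : 1 < p.u0 (p.x f)) :
    p.near f = ∅ := by
  ext w
  simp only [LB.Par.near, mem_inter_iff, Metric.mem_ball, mem_empty_iff_false, iff_false, not_and,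
    not_lt]
  intro hw
  have h1 := hA.le_dist w hw (p.x f)
  rcases le_max_iff.1 h1 with h2 | h2
  · linarith
  · rw [dist_comm] at h2
    linarith

/-- near content of a step, from the `T₃` windows -/
theorem nearC_le {p : LB.Par} (hA : p.Adm) {f : ℂ → ℂ} {W : ℝ → ℝ} {t : ℝ} (hg : LB0.Geo p f)
    (hf : DifferentiableOn ℂ f Hs) (hfi : InjOn f Hs)
    (hq0 : 0 ≤ p.q) (hq1 : p.q ≤ 1) (hqcs : p.q ≤ p.cs / 2)
    (hW : ContinuousOn W (Ici 0)) (hr : LB.rad W t ≤ p.rho1 f)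
    (h3 : ∀ k : ℤ, p.nearC f W (win W t k) ≤
      ENNReal.ofReal (LB.vv p.u0 f ((2 : ℝ) ^ k) ^ (p.cs / 2))) :
    p.nearC f W (Ioc 0 t) ≤
      ENNReal.ofReal (20 * (p.K3 + Real.log (10 * p.K4)) * p.varpi f) := by
  rcases lt_or_ge 1 (p.u0 (p.x f)) with hx | hx
  · have : p.nearC f W (Ioc 0 t) = 0 := by
      unfold LB.Par.nearC LB.content
      rw [near_eq_empty hA hx]
      simp
    rw [this]
    exact bot_le
  have hx1 : p.u0 (p.x f) = 1 := le_antisymm hx (hA.one_le _)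
  have hvarpi : p.varpi f = 1 := by
    unfold LB.Par.varpi
    rw [hx1, Real.one_rpow]
  rw [hvarpi, mul_one]
  have hl : ∀ a b : ℂ, |p.u0 a - p.u0 b| ≤ ‖a - b‖ := by
    intro a b
    have := hA.lip.dist_le_mul a b
    rw [Real.dist_eq, dist_eq_norm] at this
    simpa using this
  set E : ℤ → Set ℝ := fun k => if (2 : ℝ) ^ k ≤ p.rho1 f then win W t k else ∅ with hE
  have hEm : ∀ k, Measurable (fun z : ℂ => LB.cz p.κ p.ε p.c1 ‖deriv f z‖ W (E k) z) := by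
    intro k
    refine measurable_cz_z (T := t) hW ?_ ?_ f
    · simp only [hE]
      split_ifs
      · exact measurableSet_win hW t k
      · exact MeasurableSet.empty
    · simp only [hE]
      split_ifs
      · intro s hs
        exact ⟨hs.1.le, hs.2.1⟩
      · exact empty_subset _
  have h1 := content_le_tsum (B := p.near f) hEm (cover hW hr)
  have h2 : ∀ k, LB.content p.κ p.ε p.c1 f W (E k) (p.near f) ≤
      (if (2 : ℝ) ^ k ≤ p.rho1 f then
        ENNReal.ofReal (LB.vv p.u0 f ((2 : ℝ) ^ k) ^ (p.cs / 2)) else 0) := by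
    intro k
    simp only [hE]
    split_ifs
    · exact h3 k
    · unfold LB.content LB.cz
      simp
  have hd := LBStep.dyad hf hfi hA.one_le hl (q := p.q) (a := p.cs / 2) (r := p.rho1 f) (V := 1)
    hq0 hq1 hqcs le_rfl (fun y hy hy2 => hg.vv_le_one y hy (by have := hg.rho_pos; linarith))
  rw [Real.one_rpow, mul_one] at hd
  calc p.nearC f W (Ioc 0 t) ≤ ∑' k, LB.content p.κ p.ε p.c1 f W (E k) (p.near f) := h1
    _ ≤ _ := ENNReal.tsum_le_tsum h2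
    _ ≤ ENNReal.ofReal 20 * LB.Jv p.u0 p.q f (2 * p.rho1 f) := hd
    _ ≤ ENNReal.ofReal 20 * LB.Jv p.u0 p.q f (10 * p.rho1 f) := by
        refine mul_le_mul' le_rfl (LB0.Jv_mono ?_)
        have := hg.rho_pos
        linarith
    _ ≤ ENNReal.ofReal 20 * ENNReal.ofReal (p.K3 + Real.log (10 * p.K4)) :=
        mul_le_mul' le_rfl hg.Jv_le
    _ = _ := (ENNReal.ofReal_mul (by norm_num)).symm

/-- **LBcS**, explicit form. -/
theorem lbcS {p : LB.Par} (hok : LBS.Ok p) (hqcs : p.q ≤ p.cs / 2)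
    (hθ : 6400 * p.K4 ^ 2 * p.θ ≤ 1) (hθ2 : p.K3 * p.θ ^ (1 - p.q) ≤ 1 / 130)
    (hε : p.ε ≤ LB3cF.eps0 p.c1) :
    LBS.LBcS (20 * (p.K3 + Real.log (10 * p.K4)) + LB3cF.C6 p.c1 p.q p.η) p := by
  intro f hS W hW
  have hA := hok.adm
  have hη := hok.η0
  have hqη := hok.qη
  have hθ0 := hok.θ0
  have hq0 := hok.q0
  have hK4 := hok.K4
  have hK3 := hok.K3
  have hK42 : (1 : ℝ) ≤ p.K4 ^ 2 := one_le_pow₀ hK4
  have hlog : 0 ≤ Real.log (10 * p.K4) := Real.log_nonneg (by linarith)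
  have hc : LB0.Small p :=
    { q_pos := hq0, q_lt := by linarith, η_nonneg := hη.le, θ_pos := hθ0,
      K3_pos := by linarith, K4_ge := hK4, sm1 := hθ2, sm2 := by nlinarith }
  have hG := geo_start hA hc hok.θ1 hS
  have hv0 : 0 ≤ p.varpi f := Real.rpow_nonneg (by linarith [hA.one_le (p.x f)]) _
  have hnear : p.nearC f W (Ioc 0 (p.T f W)) ≤
      ENNReal.ofReal (20 * (p.K3 + Real.log (10 * p.K4)) * p.varpi f) := by
    refine content_limit hW.cont fun t ht htT => ?_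
    have hb := LB.not_bad_of_lt p ht htT
    refine nearC_le hA hG hS.univ.diff hS.univ.inj hq0.le (by linarith) hqcs hW.cont ?_ ?_
    · exact not_lt.1 fun h => hb (Or.inl h)
    · exact fun k => not_lt.1 fun h => hb (Or.inr (Or.inr ⟨k, h⟩))
  have hfar := LB3cF.farC_skel hok hθ hθ2 hε hS hW
  have hB : p.B = p.near f ∪ (p.B \ p.near f) := by
    rw [union_sdiff_cancel]
    exact inter_subset_left
  calc p.cont f W (Ioc 0 (p.T f W))
      ≤ p.nearC f W (Ioc 0 (p.T f W)) + p.farC f W (Ioc 0 (p.T f W)) := by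
        unfold LB.Par.cont LB.Par.nearC LB.Par.farC
        conv_lhs => rw [hB]
        exact content_union_le _ _ _
    _ ≤ _ := add_le_add hnear hfar
    _ = _ := by
        rw [← ENNReal.ofReal_add]
        · congr 1
          ring
        · positivity
        · exact mul_nonneg (LB3cF.C6_nonneg hok.c10) hv0

/-- **LBcS** with the quantifiers of `LBS.StepIn`. -/
theorem lbcS_all {κ c1 q η cs K4 K3 : ℝ} (hc1 : 0 < c1) (hq : 0 < q) (hη : 0 < η)
    (hqη : 4 * q + 2 * η ≤ 1 / 2) (hqcs : q ≤ cs / 2) (hK4 : 1 ≤ K4) (hK3 : 1 ≤ K3) :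
    ∃ θ₀ > 0, ∀ θ, 0 < θ → θ ≤ θ₀ → ∃ K5 ≥ 0, ∃ ε₀ > 0, ∀ ε, 0 < ε → ε ≤ ε₀ → ∀ B u0,
      LBS.Ok (LBS.mkP κ c1 q η cs K4 K3 θ ε B u0) →
        LBS.LBcS K5 (LBS.mkP κ c1 q η cs K4 K3 θ ε B u0) := by
  obtain ⟨θ0, hθ0, -, hθs⟩ := LB3cF.exists_theta hq (by linarith) (by linarith : 0 < K3) hK4
  have hlog : 0 ≤ Real.log (10 * K4) := Real.log_nonneg (by linarith)
  have hC6 : 0 ≤ LB3cF.C6 c1 q η := LB3cF.C6_nonneg hc1
  refine ⟨θ0, hθ0, fun θ hθ hle => ⟨20 * (K3 + Real.log (10 * K4)) + LB3cF.C6 c1 q η, by positivity,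
    LB3cF.eps0 c1, LB3cF.eps0_pos c1, fun ε _ hεle B u0 hok => ?_⟩⟩
  obtain ⟨s1, -, s3⟩ := hθs θ hθ hle
  exact lbcS hok hqcs s3 s1 hεle

end Crest.Agent.R162.LBcSF
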