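import Crest.Agent.R162.OSDefs

/-!
Row 162, node OS5 (helper430): Brownian set-up.  From `IsBrownianReal B P` a version `Bc` with all
paths continuous, started at `0`, measurable, equal to `B` almost surely simultaneously at all
times, with `IsBM` for its natural filtration.
-/

set_option autoImplicit false

open MeasureTheory ProbabilityTheory Filter Topology Set
open scoped NNReal ENNReal

noncomputable section

namespace Crest.Agent.R162.OS

variable {Ω : Type*} {m : MeasurableSpace Ω} {P : Measure Ω}


/-- natural filtration of a measurable real process. -/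
def natF (Bc : ℝ≥0 → Ω → ℝ) (h : ∀ t, Measurable (Bc t)) : Filtration ℝ≥0 m where
  seq s := MeasurableSpace.comap (fun ω (t : Set.Iic s) => Bc t ω) MeasurableSpace.pi
  mono' s t hst := by
    rw [← measurable_iff_comap_le]
    refine @measurable_pi_lambda _ _ _ (_) _ _ fun u => ?_
    have h1 : Measurable[MeasurableSpace.comap (fun ω (t' : Set.Iic t) => Bc t' ω)
        MeasurableSpace.pi] (fun ω (t' : Set.Iic t) => Bc t' ω) := comap_measurable _
    exact (measurable_pi_apply (⟨u.1, u.2.trans hst⟩ : Set.Iic t)).comp h1
  le' s := by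
    rw [← measurable_iff_comap_le]
    exact measurable_pi_lambda _ fun u => h u

lemma isBM_natF [IsProbabilityMeasure P] {Bc : ℝ≥0 → Ω → ℝ} (h : ∀ t, Measurable (Bc t))
    (hc : ∀ ω, Continuous fun t => Bc t ω) (h0 : ∀ ω, Bc 0 ω = 0) (hB : IsPreBrownianReal Bc P) :
    IsBM (natF Bc h) Bc P where
  cont := hc
  zero := h0
  adapted t := by
    have h1 : Measurable[natF Bc h t] (fun ω (t' : Set.Iic t) => Bc t' ω) := comap_measurable _
    exact (measurable_pi_apply (⟨t, Set.mem_Iic.2 le_rfl⟩ : Set.Iic t)).comp h1
  law s u := by
    have h1 := (hB.shift s).hasLaw_eval u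
    exact h1.map_eq
  indep s := by
    have h1 := hB.indepFun_shift s
    exact h1


end Crest.Agent.R162.OS
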