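import Crest.Agent.R162.OS5

/-!
Row 162, node OS5b (helper430): shift of a Brownian set-up, exponential martingale, Gaussian tail of
the running maximum, fourth moment of the running maximum.
-/

set_option autoImplicit false

open MeasureTheory ProbabilityTheory Filter Topology Set
open scoped NNReal ENNReal

noncomputable section

namespace Crest.Agent.R162.OS

variable {Ω : Type*} {m : MeasurableSpace Ω} {P : Measure Ω}

/-- shifted filtration. -/
def shiftF (F : Filtration ℝ≥0 m) (s : ℝ≥0) : Filtration ℝ≥0 m where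
  seq t := F (s + t)
  mono' _ _ h := F.mono (add_le_add_right h s)
  le' t := F.le (s + t)

lemma IsBM.shift {F : Filtration ℝ≥0 m} {B : ℝ≥0 → Ω → ℝ} (h : IsBM F B P) (s : ℝ≥0) :
    IsBM (shiftF F s) (fun t ω => B (s + t) ω - B s ω) P where
  cont ω := ((h.cont ω).comp (by fun_prop)).sub continuous_const
  zero ω := by simp
  adapted t := (h.adapted (s + t)).sub
    ((h.adapted s).mono (F.mono (le_add_of_nonneg_right (zero_le))) le_rfl)
  law a u := by
    have h1 := h.law (s + a) u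
    have : (fun ω => B (s + (a + u)) ω - B s ω - (B (s + a) ω - B s ω)) =
        fun ω => B (s + a + u) ω - B (s + a) ω := by
      funext ω; rw [add_assoc]; ring
    rw [this]; exact h1
  indep a := by
    have h1 := h.indep (s + a)
    have : (fun ω (u : ℝ≥0) => B (s + (a + u)) ω - B s ω - (B (s + a) ω - B s ω)) =
        fun ω u => B (s + a + u) ω - B (s + a) ω := by
      funext ω u; rw [add_assoc]; ring
    rw [this]; exact h1

section

variable {F : Filtration ℝ≥0 m} {B : ℝ≥0 → Ω → ℝ}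

lemma IsBM.measurable (h : IsBM F B P) (t : ℝ≥0) : Measurable (B t) :=
  (h.adapted t).mono (F.le t) le_rfl


lemma IsBM.integrable_exp_incr (h : IsBM F B P) (θ : ℝ) (s u : ℝ≥0) :
    Integrable (fun ω => Real.exp (θ * (B (s + u) ω - B s ω))) P := by
  have hm : Measurable fun ω => B (s + u) ω - B s ω := (h.measurable _).sub (h.measurable _)
  have h1 := integrable_exp_mul_gaussianReal (μ := 0) (v := u) θ
  rw [← h.law s u] at h1
  exact h1.comp_measurable hm

lemma IsBM.integral_exp_incr (h : IsBM F B P) (θ : ℝ) (s u : ℝ≥0) :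
    ∫ ω, Real.exp (θ * (B (s + u) ω - B s ω)) ∂P = Real.exp (u * θ ^ 2 / 2) := by
  have := mgf_gaussianReal (h.law s u) θ
  simpa [mgf] using this

lemma IsBM.integrable_exp (h : IsBM F B P) (θ : ℝ) (t : ℝ≥0) :
    Integrable (fun ω => Real.exp (θ * B t ω)) P := by
  have := h.integrable_exp_incr θ 0 t
  simpa [h.zero] using this

/-- exponential martingale. -/
def expM (B : ℝ≥0 → Ω → ℝ) (θ : ℝ) (t : ℝ≥0) (ω : Ω) : ℝ :=
  Real.exp (θ * B t ω - θ ^ 2 * t / 2)

lemma expM_pos (θ : ℝ) (t : ℝ≥0) (ω : Ω) : 0 < expM B θ t ω := Real.exp_pos _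

lemma IsBM.integrable_expM (h : IsBM F B P) (θ : ℝ) (t : ℝ≥0) : Integrable (expM B θ t) P := by
  have := (h.integrable_exp θ t).mul_const (Real.exp (-(θ ^ 2 * t / 2)))
  refine this.congr (Eventually.of_forall fun ω => ?_)
  simp only [expM]
  rw [← Real.exp_add]; ring_nf

lemma IsBM.measurable_expM (h : IsBM F B P) (θ : ℝ) (t : ℝ≥0) :
    Measurable[F t] (expM B θ t) := by
  have h1 := h.adapted t
  exact Real.measurable_exp.comp ((h1.const_mul θ).sub_const _)

lemma IsBM.martingale_expM [IsProbabilityMeasure P] (h : IsBM F B P) (θ : ℝ) :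
    Martingale (expM B θ) F P := by
  refine ⟨fun t => (h.measurable_expM θ t).stronglyMeasurable, fun s t hst => ?_⟩
  obtain ⟨u, rfl⟩ : ∃ u, t = s + u := ⟨t - s, (add_tsub_cancel_of_le hst).symm⟩
  set g : Ω → ℝ := fun ω => Real.exp (θ * (B (s + u) ω - B s ω) - θ ^ 2 * u / 2) with hg
  have hgint : Integrable g P := by
    have := (h.integrable_exp_incr θ s u).mul_const (Real.exp (-(θ ^ 2 * u / 2)))
    refine this.congr (Eventually.of_forall fun ω => ?_)
    simp only [hg]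
    rw [← Real.exp_add]; ring_nf
  have hg1 : ∫ ω, g ω ∂P = 1 := by
    have : ∀ ω, g ω = Real.exp (θ * (B (s + u) ω - B s ω)) * Real.exp (-(θ ^ 2 * u / 2)) := by
      intro ω; simp only [hg]; rw [← Real.exp_add]; ring_nf
    simp_rw [this]
    rw [integral_mul_const, h.integral_exp_incr, ← Real.exp_add]
    have : (u : ℝ) * θ ^ 2 / 2 + -(θ ^ 2 * u / 2) = 0 := by ring
    rw [this, Real.exp_zero]
  have hmul : expM B θ (s + u) = expM B θ s * g := by
    funext ω
    simp only [expM, hg, Pi.mul_apply]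
    rw [← Real.exp_add]
    congr 1
    push_cast
    ring
  have hgm : StronglyMeasurable[MeasurableSpace.comap
      (fun ω (u : ℝ≥0) => B (s + u) ω - B s ω) MeasurableSpace.pi] g := by
    have h1 : Measurable[MeasurableSpace.comap (fun ω (u : ℝ≥0) => B (s + u) ω - B s ω)
        MeasurableSpace.pi] (fun ω (u : ℝ≥0) => B (s + u) ω - B s ω) := comap_measurable _
    have h2 := (measurable_pi_apply u).comp h1
    exact (Real.measurable_exp.comp ((h2.const_mul θ).sub_const _)).stronglyMeasurable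
  have hle : MeasurableSpace.comap (fun ω (u : ℝ≥0) => B (s + u) ω - B s ω)
      MeasurableSpace.pi ≤ m := by
    rw [← measurable_iff_comap_le]
    exact measurable_pi_lambda _ fun u => (h.measurable _).sub (h.measurable _)
  have hcond : P[g | F s] =ᵐ[P] fun _ => P[g] :=
    condExp_indep_eq hle (F.le s) hgm (h.indep s)
  have hpull : P[expM B θ s * g | F s] =ᵐ[P] expM B θ s * P[g | F s] :=
    condExp_mul_of_stronglyMeasurable_left (h.measurable_expM θ s).stronglyMeasurable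
      (by rw [← hmul]; exact h.integrable_expM θ _) hgint
  rw [hmul]
  filter_upwards [hpull, hcond] with ω h1 h2
  rw [h1, Pi.mul_apply, h2, hg1, mul_one]

lemma IsBM.integral_expM [IsProbabilityMeasure P] (h : IsBM F B P) (θ : ℝ) (t : ℝ≥0) :
    ∫ ω, expM B θ t ω ∂P = 1 := by
  have h1 := h.integral_exp_incr θ 0 t
  have : ∀ ω, expM B θ t ω = Real.exp (θ * (B (0 + t) ω - B 0 ω)) *
      Real.exp (-(θ ^ 2 * t / 2)) := by
    intro ω; simp only [expM, zero_add, h.zero, sub_zero]; rw [← Real.exp_add]; ring_nf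
  simp_rw [this]
  rw [integral_mul_const, h1, ← Real.exp_add]
  have : (t : ℝ) * θ ^ 2 / 2 + -(θ ^ 2 * t / 2) = 0 := by ring
  rw [this, Real.exp_zero]

/-- maximal inequality on a dyadic grid. -/
lemma IsBM.grid_max [IsProbabilityMeasure P] (h : IsBM F B P) (θ : ℝ) (u : ℝ≥0) (n : ℕ)
    {ε : ℝ≥0} (hε : 0 < ε) :
    P {ω | ∃ k : ℕ, k ≤ 2 ^ n ∧ (ε : ℝ) ≤ expM B θ (k * (u / 2 ^ n)) ω} ≤ (ε : ℝ≥0∞)⁻¹ := by
  let G : Filtration ℕ m :=
    { seq := fun k => F (k * (u / 2 ^ n))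
      mono' := fun i j hij => F.mono (by gcongr)
      le' := fun k => F.le _ }
  have hmart := h.martingale_expM θ
  have hsub : Submartingale (fun (k : ℕ) ω => expM B θ (k * (u / 2 ^ n)) ω) G P := by
    refine ⟨fun k => hmart.1 _, fun i j hij => ?_, fun k => h.integrable_expM θ _⟩
    have := hmart.2 (i * (u / 2 ^ n) : ℝ≥0) (j * (u / 2 ^ n)) (by gcongr)
    exact this.symm.le
  have h1 := maximal_ineq hsub (fun k ω => (expM_pos θ _ ω).le) (ε := ε) (2 ^ n)
  have hset : {ω | ∃ k : ℕ, k ≤ 2 ^ n ∧ (ε : ℝ) ≤ expM B θ (k * (u / 2 ^ n)) ω} ⊆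
      {ω | (ε : ℝ) ≤ (Finset.range (2 ^ n + 1)).sup' Finset.nonempty_range_add_one
        fun k => expM B θ (k * (u / 2 ^ n)) ω} := by
    rintro ω ⟨k, hk, h2⟩
    exact h2.trans (Finset.le_sup' (fun k : ℕ => expM B θ (k * (u / 2 ^ n)) ω)
      (Finset.mem_range.2 (Nat.lt_succ_of_le hk)))
  have h2 : ENNReal.ofReal (∫ ω in {ω | (ε : ℝ) ≤ (Finset.range (2 ^ n + 1)).sup'
      Finset.nonempty_range_add_one fun k => expM B θ (k * (u / 2 ^ n)) ω},
        expM B θ ((2 ^ n : ℕ) * (u / 2 ^ n)) ω ∂P) ≤ 1 := by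
    rw [← ENNReal.ofReal_one]
    apply ENNReal.ofReal_le_ofReal
    rw [← h.integral_expM θ ((2 ^ n : ℕ) * (u / 2 ^ n))]
    exact setIntegral_le_integral (h.integrable_expM θ _)
      (Eventually.of_forall fun ω => (expM_pos θ _ ω).le)
  have h3 := (h1.trans h2)
  calc P {ω | ∃ k : ℕ, k ≤ 2 ^ n ∧ (ε : ℝ) ≤ expM B θ (k * (u / 2 ^ n)) ω} ≤ _ := measure_mono hset
    _ ≤ (ε : ℝ≥0∞)⁻¹ := by
      rw [ENNReal.le_inv_iff_mul_le, mul_comm]
      exact h3

lemma IsBM.continuous_expM (h : IsBM F B P) (θ : ℝ) (ω : Ω) :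
    Continuous fun t => expM B θ t ω := by
  have := h.cont ω
  unfold expM
  fun_prop

/-- maximal inequality in continuous time (strict form). -/
lemma IsBM.max_lt [IsProbabilityMeasure P] (h : IsBM F B P) (θ : ℝ) (u : ℝ≥0)
    {ε : ℝ≥0} (hε : 0 < ε) :
    P {ω | ∃ t ≤ u, (ε : ℝ) < expM B θ t ω} ≤ (ε : ℝ≥0∞)⁻¹ := by
  have hmono : Monotone fun n : ℕ =>
      {ω | ∃ k : ℕ, k ≤ 2 ^ n ∧ (ε : ℝ) ≤ expM B θ (k * (u / 2 ^ n)) ω} := by
    refine monotone_nat_of_le_succ fun n => ?_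
    rintro ω ⟨k, hk, hk2⟩
    refine ⟨2 * k, by rw [pow_succ]; omega, ?_⟩
    have : (((2 * k : ℕ) : ℝ≥0) * (u / 2 ^ (n + 1))) = k * (u / 2 ^ n) := by
      push_cast
      rw [pow_succ]
      field_simp
    rw [this]; exact hk2
  have hsub : {ω | ∃ t ≤ u, (ε : ℝ) < expM B θ t ω} ⊆
      ⋃ n : ℕ, {ω | ∃ k : ℕ, k ≤ 2 ^ n ∧ (ε : ℝ) ≤ expM B θ (k * (u / 2 ^ n)) ω} := by
    rintro ω ⟨t, ht, hlt⟩
    rw [mem_iUnion]
    have hopen : IsOpen {v : ℝ≥0 | (ε : ℝ) < expM B θ v ω} :=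
      isOpen_lt continuous_const (h.continuous_expM θ ω)
    obtain ⟨δ, hδ, hball⟩ := Metric.isOpen_iff.1 hopen t hlt
    rcases eq_or_ne u 0 with hu | hu
    · have ht0 : t = 0 := le_antisymm (hu ▸ ht) zero_le
      refine ⟨0, 0, by simp, ?_⟩
      simp only [Nat.cast_zero, zero_mul]
      rw [← ht0]; exact hlt.le
    have hupos : (0 : ℝ) < u := NNReal.coe_pos.2 (pos_iff_ne_zero.2 hu)
    obtain ⟨n, hn⟩ : ∃ n : ℕ, (u : ℝ) * (1 / 2) ^ n < δ := by
      have : Tendsto (fun n : ℕ => (u : ℝ) * (1 / 2) ^ n) atTop (𝓝 ((u : ℝ) * 0)) :=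
        (tendsto_pow_atTop_nhds_zero_of_lt_one (by norm_num) (by norm_num)).const_mul _
      rw [mul_zero] at this
      exact ((this.eventually (gt_mem_nhds hδ))).exists
    have hd : (0 : ℝ) < (u : ℝ) / 2 ^ n := by positivity
    refine ⟨n, ⌊(t : ℝ) / ((u : ℝ) / 2 ^ n)⌋₊, ?_, ?_⟩
    · have : (t : ℝ) / ((u : ℝ) / 2 ^ n) ≤ ((2 ^ n : ℕ) : ℝ) := by
        rw [div_le_iff₀ hd]
        push_cast
        have : (2 : ℝ) ^ n * ((u : ℝ) / 2 ^ n) = u := by field_simp
        rw [this]; exact_mod_cast ht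
      exact Nat.floor_le_of_le this
    · refine (hball ?_).le
      rw [Metric.mem_ball, NNReal.dist_eq]
      push_cast
      have h1 : (⌊(t : ℝ) / ((u : ℝ) / 2 ^ n)⌋₊ : ℝ) * ((u : ℝ) / 2 ^ n) ≤ t := by
        have := Nat.floor_le (show (0 : ℝ) ≤ (t : ℝ) / ((u : ℝ) / 2 ^ n) by positivity)
        rwa [le_div_iff₀ hd] at this
      have h2 : (t : ℝ) < (⌊(t : ℝ) / ((u : ℝ) / 2 ^ n)⌋₊ + 1 : ℝ) * ((u : ℝ) / 2 ^ n) := by
        have := Nat.lt_floor_add_one ((t : ℝ) / ((u : ℝ) / 2 ^ n))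
        rwa [div_lt_iff₀ hd] at this
      have h3 : (u : ℝ) / 2 ^ n < δ := by
        have : (u : ℝ) / 2 ^ n = (u : ℝ) * (1 / 2) ^ n := by
          rw [one_div, inv_pow]; rfl
        rw [this]; exact hn
      rw [abs_lt]
      constructor
      · nlinarith
      · linarith
  refine (measure_mono hsub).trans ?_
  rw [hmono.measure_iUnion]
  exact iSup_le fun n => h.grid_max θ u n hε

/-- one-sided Gaussian tail of the running maximum. -/
lemma IsBM.tail_one [IsProbabilityMeasure P] (h : IsBM F B P) (u : ℝ≥0) (hu : 0 < u) {x : ℝ}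
    (hx : 0 < x) (sg : ℝ) (hsg : sg = 1 ∨ sg = -1) :
    P {ω | ∃ t ≤ u, x ≤ sg * B t ω} ≤ ENNReal.ofReal (Real.exp (-(x ^ 2 / (2 * u)))) := by
  have hupos : (0 : ℝ) < u := NNReal.coe_pos.2 hu
  have key : ∀ y : ℝ, y < x → P {ω | ∃ t ≤ u, x ≤ sg * B t ω} ≤
      ENNReal.ofReal (Real.exp (x ^ 2 / (2 * u) - x * y / u)) := by
    intro y hy
    set θ : ℝ := sg * (x / u) with hθ
    set ε : ℝ≥0 := ⟨Real.exp (x * y / u - x ^ 2 / (2 * u)), (Real.exp_pos _).le⟩ with hε
    have hεpos : 0 < ε := NNReal.coe_pos.1 (Real.exp_pos _)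
    have h1 := h.max_lt θ u hεpos
    have hsub : {ω | ∃ t ≤ u, x ≤ sg * B t ω} ⊆ {ω | ∃ t ≤ u, (ε : ℝ) < expM B θ t ω} := by
      rintro ω ⟨t, ht, hB⟩
      refine ⟨t, ht, ?_⟩
      change Real.exp _ < Real.exp _
      apply Real.exp_lt_exp.2
      have h2 : θ * B t ω = x / u * (sg * B t ω) := by rw [hθ]; ring
      have h3 : θ ^ 2 = (x / u) ^ 2 := by
        rw [hθ]; rcases hsg with h | h <;> rw [h] <;> ring
      rw [h2, h3]
      have h4 : x / u * x ≤ x / u * (sg * B t ω) := by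
        apply mul_le_mul_of_nonneg_left hB; positivity
      have h5 : (x / u) ^ 2 * (t : ℝ) / 2 ≤ x ^ 2 / (2 * u) := by
        have : (t : ℝ) ≤ u := by exact_mod_cast ht
        calc (x / u) ^ 2 * (t : ℝ) / 2 ≤ (x / u) ^ 2 * (u : ℝ) / 2 := by gcongr
          _ = x ^ 2 / (2 * u) := by field_simp
      have h6 : x * y / u < x / u * x := by
        rw [div_mul_eq_mul_div]
        gcongr
      linarith
    refine (measure_mono hsub).trans (h1.trans ?_)
    have h7 : (ε : ℝ≥0∞) = ENNReal.ofReal (Real.exp (x * y / u - x ^ 2 / (2 * u))) := by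
      rw [ENNReal.ofReal, Real.toNNReal_of_nonneg (Real.exp_pos _).le]; rfl
    rw [h7, ← ENNReal.ofReal_inv_of_pos (Real.exp_pos _), ← Real.exp_neg]
    apply ENNReal.ofReal_le_ofReal
    apply Real.exp_le_exp.2
    linarith
  have hlim : Tendsto (fun y : ℝ => ENNReal.ofReal (Real.exp (x ^ 2 / (2 * u) - x * y / u)))
      (𝓝[<] x) (𝓝 (ENNReal.ofReal (Real.exp (-(x ^ 2 / (2 * u)))))) := by
    have hc : Continuous fun y : ℝ =>
        ENNReal.ofReal (Real.exp (x ^ 2 / (2 * u) - x * y / u)) := by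
      refine ENNReal.continuous_ofReal.comp ?_
      fun_prop
    have h1 := (hc.tendsto x).mono_left (nhdsWithin_le_nhds (s := Iio x))
    have h2 : x ^ 2 / (2 * (u : ℝ)) - x * x / u = -(x ^ 2 / (2 * u)) := by
      field_simp; ring
    rwa [h2] at h1
  exact ge_of_tendsto hlim (eventually_nhdsWithin_of_forall fun y hy => key y hy)

/-- Gaussian tail of the running maximum of `|B|`. -/
theorem IsBM.tail [IsProbabilityMeasure P] (h : IsBM F B P) (u : ℝ≥0) (hu : 0 < u) {x : ℝ}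
    (hx : 0 < x) :
    P {ω | ∃ t ≤ u, x ≤ |B t ω|} ≤ ENNReal.ofReal (2 * Real.exp (-(x ^ 2 / (2 * u)))) := by
  have hsub : {ω | ∃ t ≤ u, x ≤ |B t ω|} ⊆
      {ω | ∃ t ≤ u, x ≤ 1 * B t ω} ∪ {ω | ∃ t ≤ u, x ≤ -1 * B t ω} := by
    rintro ω ⟨t, ht, h1⟩
    rcases le_abs.1 h1 with h2 | h2
    · exact Or.inl ⟨t, ht, by simpa using h2⟩
    · exact Or.inr ⟨t, ht, by simpa using h2⟩
  refine (measure_mono hsub).trans ((measure_union_le _ _).trans ?_)
  rw [two_mul, ENNReal.ofReal_add (Real.exp_pos _).le (Real.exp_pos _).le]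
  exact add_le_add (h.tail_one u hu hx 1 (Or.inl rfl)) (h.tail_one u hu hx (-1) (Or.inr rfl))

end

end Crest.Agent.R162.OS
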