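import Crest.Agent.Lib.InjHolo
import Crest.Agent.R162.FL1
import Crest.Agent.R162.FLC
import Crest.Prelude.Def_Loewner
import Crest.Agent.R162.KBDisc

-- ▼ part R162/TR0
section

/-!
Row 162 (S0243), node TR, part 0: Schwarz-Pick on the half-plane and rigidity of
hydrodynamically normalised automorphisms.
-/

set_option autoImplicit false

open Set Filter Metric Complex
open scoped Topology ComplexConjugate

namespace Crest.Agent.R162.TR

theorem normSq_sub_conj (z a : ℂ) :
    ‖z - conj a‖ ^ 2 = ‖z - a‖ ^ 2 + 4 * (z.im * a.im) := by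
  rw [Complex.sq_norm, Complex.sq_norm, Complex.normSq_apply, Complex.normSq_apply]
  simp only [Complex.sub_re, Complex.sub_im, Complex.conj_re, Complex.conj_im]
  ring

theorem sub_conj_ne {z a : ℂ} (hz : 0 < z.im) (ha : 0 < a.im) : z - conj a ≠ 0 := by
  intro h
  have h1 := congrArg Complex.im h
  simp only [Complex.sub_im, Complex.conj_im, Complex.zero_im] at h1
  linarith

/-- Cayley-type map to the disc. -/
noncomputable def cay (b w : ℂ) : ℂ := (w - b) / (w - conj b)

theorem cay_norm_lt {b w : ℂ} (hb : 0 < b.im) (hw : 0 < w.im) : ‖cay b w‖ < 1 := by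
  have h0 := sub_conj_ne hw hb
  have h1 : 0 < ‖w - conj b‖ := norm_pos_iff.2 h0
  rw [cay, norm_div, div_lt_one h1]
  have h2 := normSq_sub_conj w b
  have h3 : 0 < w.im * b.im := mul_pos hw hb
  exact lt_of_pow_lt_pow_left₀ 2 h1.le (by rw [h2]; linarith)

/-- Inverse Cayley map. -/
noncomputable def icay (a u : ℂ) : ℂ := (a - conj a * u) / (1 - u)

theorem one_sub_ne {u : ℂ} (hu : ‖u‖ < 1) : 1 - u ≠ 0 := by
  intro h
  have : u = 1 := (sub_eq_zero.1 h).symm
  rw [this, norm_one] at hu
  exact lt_irrefl _ hu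

theorem icay_im {a u : ℂ} (hu : ‖u‖ < 1) :
    (icay a u).im = a.im * (1 - ‖u‖ ^ 2) / ‖1 - u‖ ^ 2 := by
  have h0 := one_sub_ne hu
  have h1 : Complex.normSq (1 - u) ≠ 0 := by simpa [Complex.normSq_eq_zero] using h0
  rw [icay, Complex.div_im, Complex.sq_norm, Complex.sq_norm]
  rw [← sub_div]
  congr 1
  rw [Complex.normSq_apply]
  simp only [Complex.sub_re, Complex.sub_im, Complex.mul_re, Complex.mul_im, Complex.conj_re,
    Complex.conj_im, Complex.one_re, Complex.one_im]
  ring

theorem icay_im_pos {a u : ℂ} (ha : 0 < a.im) (hu : ‖u‖ < 1) : 0 < (icay a u).im := by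
  rw [icay_im hu]
  have h0 := one_sub_ne hu
  have h1 : 0 < ‖1 - u‖ := norm_pos_iff.2 h0
  have h2 : ‖u‖ ^ 2 < 1 := by
    have := norm_nonneg u
    nlinarith
  positivity

theorem icay_cay {a z : ℂ} (hz : 0 < z.im) (ha : 0 < a.im) : icay a (cay a z) = z := by
  have h0 := sub_conj_ne hz ha
  have h1 : 1 - cay a z ≠ 0 := one_sub_ne (cay_norm_lt ha hz)
  rw [icay, div_eq_iff h1, cay]
  field_simp
  ring

theorem icay_zero (a : ℂ) : icay a 0 = a := by simp [icay]

/-- Schwarz-Pick in the half-plane. -/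
theorem schwarz_pick {f : ℂ → ℂ} (hd : DifferentiableOn ℂ f {z | 0 < z.im})
    (hm : MapsTo f {z : ℂ | 0 < z.im} {z : ℂ | 0 < z.im}) {z a : ℂ} (hz : 0 < z.im)
    (ha : 0 < a.im) :
    ‖f z - f a‖ ^ 2 * (z.im * a.im) ≤ ‖z - a‖ ^ 2 * ((f z).im * (f a).im) := by
  have hfa : 0 < (f a).im := hm ha
  have hfz : 0 < (f z).im := hm hz
  have hmap : MapsTo (icay a) (ball 0 1) {z : ℂ | 0 < z.im} := by
    intro u hu
    exact icay_im_pos ha (by simpa using hu)
  have hdi : DifferentiableOn ℂ (icay a) (ball 0 1) := by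
    intro u hu
    have h0 := one_sub_ne (u := u) (by simpa using hu)
    unfold icay
    refine DifferentiableAt.differentiableWithinAt ?_
    exact ((differentiableAt_const _).sub ((differentiableAt_const _).mul differentiableAt_id)).div
      ((differentiableAt_const _).sub differentiableAt_id) h0
  have hdF : DifferentiableOn ℂ (fun u => cay (f a) (f (icay a u))) (ball 0 1) := by
    have h1 : DifferentiableOn ℂ (fun u => f (icay a u)) (ball 0 1) := hd.comp hdi hmap
    unfold cay
    refine (h1.sub_const _).div (h1.sub_const _) ?_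
    intro u hu
    exact sub_conj_ne (hm (hmap hu)) hfa
  have hmF : MapsTo (fun u => cay (f a) (f (icay a u))) (ball 0 1) (closedBall 0 1) := by
    intro u hu
    have := cay_norm_lt hfa (hm (hmap hu))
    simpa using this.le
  have hF0 : (fun u => cay (f a) (f (icay a u))) 0 = 0 := by
    simp [icay_zero, cay]
  have key := Complex.norm_le_norm_of_mapsTo_ball hdF hmF hF0 (z := cay a z) (cay_norm_lt ha hz)
  simp only [icay_cay hz ha] at key
  rw [cay, cay, norm_div, norm_div] at key
  have p1 : 0 < ‖f z - conj (f a)‖ := norm_pos_iff.2 (sub_conj_ne hfz hfa)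
  have p2 : 0 < ‖z - conj a‖ := norm_pos_iff.2 (sub_conj_ne hz ha)
  rw [div_le_div_iff₀ p1 p2] at key
  have key2 : (‖f z - f a‖ * ‖z - conj a‖) ^ 2 ≤ (‖z - a‖ * ‖f z - conj (f a)‖) ^ 2 :=
    pow_le_pow_left₀ (by positivity) key 2
  rw [mul_pow, mul_pow, normSq_sub_conj, normSq_sub_conj] at key2
  nlinarith [key2]

end Crest.Agent.R162.TR
end

-- ▼ part R162/TR1
section

/-!
Row 162 (S0243), node TR, part 1: a hydrodynamically normalised automorphism of the half-plane is
the identity; the surviving domain of the trace is the domain of the Loewner flow.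
-/

set_option autoImplicit false

open Set Filter Metric Complex
open scoped Topology ComplexConjugate

namespace Crest.Agent.R162.TR

theorem lim_aux (w : ℂ) {e : ℝ → ℂ} (he : Tendsto e atTop (𝓝 0)) :
    Tendsto (fun y : ℝ => ‖w - (y * I + e y)‖ ^ 2 / y ^ 2) atTop (𝓝 1) := by
  have h1 : Tendsto (fun y : ℝ => (w - e y) * ((y⁻¹ : ℝ) : ℂ) - I) atTop (𝓝 ((w - 0) * ((0 : ℝ) : ℂ) - I)) := by
    refine Tendsto.sub (Tendsto.mul (tendsto_const_nhds.sub he) ?_) tendsto_const_nhds
    exact (Complex.continuous_ofReal.tendsto 0).comp tendsto_inv_atTop_zero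
  have h2 := (h1.norm).pow 2
  have h3 : ‖(w - 0) * ((0 : ℝ) : ℂ) - I‖ ^ 2 = 1 := by simp
  rw [h3] at h2
  refine h2.congr' ?_
  filter_upwards [eventually_gt_atTop 0] with y hy
  have hy' : (y : ℂ) ≠ 0 := by exact_mod_cast hy.ne'
  have : w - (y * I + e y) = y * ((w - e y) * ((y⁻¹ : ℝ) : ℂ) - I) := by
    push_cast
    field_simp
    ring
  rw [this, norm_mul, Complex.norm_real, Real.norm_eq_abs, mul_pow, sq_abs]
  field_simp

theorem lim_im {e : ℝ → ℂ} (he : Tendsto e atTop (𝓝 0)) :
    Tendsto (fun y : ℝ => (y * I + e y).im / y) atTop (𝓝 1) := by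
  have h1 : Tendsto (fun y : ℝ => 1 + (e y).im * y⁻¹) atTop (𝓝 (1 + 0 * 0)) := by
    refine tendsto_const_nhds.add (Tendsto.mul ?_ tendsto_inv_atTop_zero)
    have := (Complex.continuous_im.tendsto 0).comp he
    rw [Complex.zero_im] at this
    exact this
  have h2 : (1 : ℝ) + 0 * 0 = 1 := by norm_num
  rw [h2] at h1
  refine h1.congr' ?_
  filter_upwards [eventually_gt_atTop 0] with y hy
  simp only [Complex.add_im, Complex.mul_im, Complex.ofReal_re, Complex.I_im, mul_one,
    Complex.ofReal_im, Complex.I_re, mul_zero, add_zero]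
  field_simp

theorem im_mul_I (y : ℝ) : ((y : ℂ) * I).im = y := by simp

theorem im_eq_of_normalised {g : ℂ → ℂ} (hd : DifferentiableOn ℂ g {z | 0 < z.im})
    (hinj : InjOn g {z : ℂ | 0 < z.im}) (him : g '' {z : ℂ | 0 < z.im} = {z : ℂ | 0 < z.im})
    (hlim : Tendsto (fun y : ℝ => g (y * I) - y * I) atTop (𝓝 0)) {z : ℂ} (hz : 0 < z.im) :
    (g z).im = z.im := by
  have hmaps : MapsTo g {z : ℂ | 0 < z.im} {z : ℂ | 0 < z.im} := by
    intro w hw
    rw [← him]
    exact mem_image_of_mem g hw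
  have hopen : IsOpen {z : ℂ | 0 < z.im} := isOpen_lt continuous_const Complex.continuous_im
  set e : ℝ → ℂ := fun y => g (y * I) - y * I with he
  have hge : ∀ y : ℝ, g (y * I) = y * I + e y := fun y => by simp [he]
  have hgz : 0 < (g z).im := hmaps hz
  -- the two limits
  have L1 : Tendsto (fun y : ℝ => ‖g z - g (y * I)‖ ^ 2 / y ^ 2 * (z.im * 1)) atTop
      (𝓝 (1 * (z.im * 1))) := by
    refine Tendsto.mul ?_ tendsto_const_nhds
    simpa only [hge] using lim_aux (g z) hlim
  have L2 : Tendsto (fun y : ℝ => ‖z - y * I‖ ^ 2 / y ^ 2 * ((g z).im * ((g (y * I)).im / y))) atTop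
      (𝓝 (1 * ((g z).im * 1))) := by
    refine Tendsto.mul ?_ (tendsto_const_nhds.mul ?_)
    · simpa using lim_aux z (e := fun _ => 0) tendsto_const_nhds
    · simpa only [hge] using lim_im hlim
  have hcube : ∀ y : ℝ, 0 < y → (‖g z - g (y * I)‖ ^ 2 / y ^ 2 * (z.im * 1)
        = (‖g z - g (y * I)‖ ^ 2 * (z.im * y)) / y ^ 3 ∧
      ‖z - y * I‖ ^ 2 / y ^ 2 * ((g z).im * ((g (y * I)).im / y))
        = (‖z - y * I‖ ^ 2 * ((g z).im * (g (y * I)).im)) / y ^ 3) := by
    intro y hy
    constructor <;> field_simp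
  refine le_antisymm ?_ ?_
  · -- the inverse
    obtain ⟨f, hf, -, hfim, hfg, hgf⟩ := Lib.exists_holomorphic_inverse hopen hd hinj
    rw [him] at hf hfim
    have hfmaps : MapsTo f {z : ℂ | 0 < z.im} {z : ℂ | 0 < z.im} := by
      intro w hw
      have : f w ∈ f '' {z : ℂ | 0 < z.im} := mem_image_of_mem f hw
      rw [hfim] at this
      exact this
    have h := le_of_tendsto_of_tendsto L2 L1 ?_
    · simpa using h
    · filter_upwards [eventually_gt_atTop 0] with y hy
      have hyI : 0 < ((y : ℂ) * I).im := by rw [im_mul_I]; exact hy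
      have h := schwarz_pick hf hfmaps hgz (a := g (y * I)) (hmaps hyI)
      rw [hfg z hz, hfg _ hyI, im_mul_I] at h
      rw [(hcube y hy).1, (hcube y hy).2]
      exact div_le_div_of_nonneg_right h (by positivity)
  · have h := le_of_tendsto_of_tendsto L1 L2 ?_
    · simpa using h
    · filter_upwards [eventually_gt_atTop 0] with y hy
      have h := schwarz_pick hd hmaps hz (a := y * I) (by rw [im_mul_I]; exact hy)
      rw [im_mul_I] at h
      rw [(hcube y hy).1, (hcube y hy).2]
      exact div_le_div_of_nonneg_right h (by positivity)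

/-- A hydrodynamically normalised automorphism of the half-plane is the identity. -/
theorem eq_id_of_normalised {g : ℂ → ℂ} (hd : DifferentiableOn ℂ g {z | 0 < z.im})
    (hinj : InjOn g {z : ℂ | 0 < z.im}) (him : g '' {z : ℂ | 0 < z.im} = {z : ℂ | 0 < z.im})
    (hlim : Tendsto (fun y : ℝ => g (y * I) - y * I) atTop (𝓝 0)) {z : ℂ} (hz : 0 < z.im) :
    g z = z := by
  have hopen : IsOpen {z : ℂ | 0 < z.im} := isOpen_lt continuous_const Complex.continuous_im
  have hconv : Convex ℝ {z : ℂ | 0 < z.im} := convex_halfSpace_im_gt 0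
  have hd' : DifferentiableOn ℂ (fun z => g z - z) {z : ℂ | 0 < z.im} := hd.sub differentiableOn_id
  have han : AnalyticOnNhd ℂ (fun z => g z - z) {z : ℂ | 0 < z.im} := hd'.analyticOnNhd hopen
  obtain ⟨c, hc⟩ : ∃ w, ∀ z ∈ {z : ℂ | 0 < z.im}, g z - z = w := by
    rcases han.is_constant_or_isOpen hconv.isPreconnected with h | h
    · exact h
    · exfalso
      have h1 := h _ subset_rfl hopen
      have h2 : (fun z => g z - z) '' {z : ℂ | 0 < z.im} ⊆ {z : ℂ | z.im = 0} := by
        rintro _ ⟨w, hw, rfl⟩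
        show (g w - w).im = 0
        rw [Complex.sub_im]
        rw [im_eq_of_normalised hd hinj him hlim hw, sub_self]
      have hIm : (I : ℂ) ∈ {z : ℂ | 0 < z.im} := by simp
      have h3 : (g I - I) ∈ (fun z => g z - z) '' {z : ℂ | 0 < z.im} := ⟨I, hIm, rfl⟩
      obtain ⟨ε, hε, hb⟩ := Metric.isOpen_iff.1 h1 _ h3
      have h4 : (g I - I) + (ε / 2 : ℝ) * I ∈ ball (g I - I) ε := by
        rw [mem_ball, dist_eq_norm, add_sub_cancel_left, norm_mul, Complex.norm_real, Complex.norm_I,
          mul_one, Real.norm_eq_abs, abs_of_pos (by linarith)]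
        linarith
      have h5 := h2 (hb h4)
      have h6 := h2 h3
      have h5' : ((g I - I) + ((ε / 2 : ℝ) : ℂ) * I).im = 0 := h5
      have h6' : (g I - I).im = 0 := h6
      rw [Complex.add_im, h6', im_mul_I] at h5'
      linarith
  have hc0 : c = 0 := by
    have h1 : Tendsto (fun y : ℝ => g (y * I) - y * I) atTop (𝓝 c) := by
      refine tendsto_const_nhds.congr' ?_
      filter_upwards [eventually_gt_atTop 0] with y hy
      exact (hc _ (by simpa using hy)).symm
    exact tendsto_nhds_unique h1 hlim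
  have := hc z hz
  rw [hc0] at this
  exact sub_eq_zero.1 this

/-! ## The surviving domain -/

open Crest.ProbabilityR.Loewner Crest.Agent.R162.FL

variable {W : ℝ → ℝ} {γ : ℝ → ℂ} {s t : ℝ} {z w : ℂ}

theorem survivingDomain_subset : survivingDomain γ t ⊆ {z : ℂ | 0 < z.im} := fun _ hz => hz.1.1

theorem survivingDomain_anti (hst : s ≤ t) : survivingDomain γ t ⊆ survivingDomain γ s := by
  rintro z ⟨hz, hb⟩
  have hsub : halfPlane \ γ '' Icc 0 t ⊆ halfPlane \ γ '' Icc 0 s :=
    sdiff_subset_sdiff_right (image_mono (Icc_subset_Icc le_rfl hst))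
  exact ⟨hsub hz, fun h => hb (h.subset (connectedComponentIn_mono z hsub))⟩

theorem not_isBounded_halfPlane : ¬ Bornology.IsBounded (halfPlane : Set ℂ) := by
  intro h
  obtain ⟨R, hR⟩ := h.subset_closedBall 0
  have h1 : ((|R| + 1 : ℝ) : ℂ) * I ∈ halfPlane := by
    show 0 < (((|R| + 1 : ℝ) : ℂ) * I).im
    rw [im_mul_I]; positivity
  have h2 := hR h1
  rw [mem_closedBall, dist_zero_right, norm_mul, Complex.norm_real, Complex.norm_I, mul_one,
    Real.norm_eq_abs, abs_of_pos (by positivity)] at h2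
  have := le_abs_self R
  linarith

theorem survivingDomain_zero (h0 : γ 0 = 0) : survivingDomain γ 0 = {z : ℂ | 0 < z.im} := by
  have h1 : halfPlane \ γ '' Icc 0 0 = halfPlane := by
    rw [Icc_self, image_singleton, h0]
    refine sdiff_singleton_eq_self ?_
    intro h
    have : (0 : ℝ) < (0 : ℂ).im := h
    simp at this
  ext z
  constructor
  · exact fun hz => hz.1.1
  · intro hz
    refine ⟨by rw [h1]; exact hz, ?_⟩
    have hp : IsPreconnected (halfPlane : Set ℂ) := (convex_halfSpace_im_gt 0).isPreconnected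
    rw [h1, hp.connectedComponentIn hz]
    exact not_isBounded_halfPlane

theorem isSol_of_isFlow {g : ℝ → ℂ} (h : IsFlow W z t g) : FLC.IsSol W t g :=
  fun s hs => ⟨h.im_pos s hs, h.deriv s hs⟩

/-- Injectivity of the flow. -/
theorem injOn_gfl (hW : ContinuousOn W (Ici 0)) (t : ℝ) : InjOn (gfl W t) (Dom W t) := by
  intro z hz w hw h
  have hz' : Alive W z t := hz
  have hw' : Alive W w t := hw
  have ht := hz'.1
  have h1 := isSol_of_isFlow hz'.isFlow
  have h2 := isSol_of_isFlow hw'.isFlow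
  have := h1.unique ht (hW.mono Icc_subset_Ici_self) h2 (right_mem_Icc.2 ht) h 0
    (left_mem_Icc.2 ht)
  simpa [gfl_zero' hz', gfl_zero' hw'] using this

/-- **TR1**, with the maps of the trace. -/
theorem maps_eq (h : IsChordalTrace W γ) (hW : ContinuousOn W (Ici 0)) :
    ∃ g : ℝ → ℂ → ℂ, (∀ t, 0 ≤ t → survivingDomain γ t = Dom W t ∧
      EqOn (g t) (gfl W t) (Dom W t) ∧ DifferentiableOn ℂ (g t) (Dom W t) ∧
      InjOn (g t) (Dom W t) ∧ g t '' Dom W t = {z : ℂ | 0 < z.im}) ∧
      ∀ t, 0 ≤ t → Tendsto (fun y : ℝ =>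
        Function.invFunOn (g t) (Dom W t) (W t + y * I)) (𝓝[>] 0) (𝓝 (γ t)) := by
  obtain ⟨g, hg1, hg2, hg3⟩ := h.maps
  -- time zero
  have hid : ∀ z : ℂ, 0 < z.im → g 0 z = z := by
    intro z hz
    obtain ⟨a1, a2, a3, a4⟩ := hg1 0 le_rfl
    rw [survivingDomain_zero h.start] at a1 a2 a3 a4
    refine eq_id_of_normalised a1 a2 a3 ?_ hz
    have hc : Tendsto (fun y : ℝ => (y : ℂ) * I) atTop
        (cocompact ℂ ⊓ 𝓟 {z : ℂ | 0 < z.im}) := by
      refine tendsto_inf.2 ⟨?_, ?_⟩
      · rw [← Metric.cobounded_eq_cocompact, ← tendsto_norm_atTop_iff_cobounded]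
        have : (fun y : ℝ => ‖(y : ℂ) * I‖) = fun y : ℝ => |y| := by
          funext y
          rw [norm_mul, Complex.norm_real, Complex.norm_I, mul_one, Real.norm_eq_abs]
        rw [this]
        exact tendsto_abs_atTop_atTop
      · rw [tendsto_principal]
        filter_upwards [eventually_gt_atTop 0] with y hy
        show 0 < ((y : ℂ) * I).im
        rw [im_mul_I]; exact hy
    exact a4.comp hc
  -- flow
  have hflow : ∀ t, 0 ≤ t → ∀ z ∈ survivingDomain γ t, IsFlow W z t (fun s => g s z) := by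
    intro t ht z hz
    have hz0 : 0 < z.im := survivingDomain_subset hz
    have hzs : ∀ s ∈ Icc 0 t, z ∈ survivingDomain γ s := fun s hs => survivingDomain_anti hs.2 hz
    refine ⟨hid z hz0, ?_, ?_⟩
    · intro s hs
      have : g s z ∈ g s '' survivingDomain γ s := mem_image_of_mem _ (hzs s hs)
      rw [(hg1 s hs.1).2.2.1] at this
      exact this
    · intro s hs
      exact (hg2 z hz0 s hs.1 (hzs s hs)).mono Icc_subset_Ici_self
  have hsub : ∀ t, 0 ≤ t → survivingDomain γ t ⊆ Dom W t :=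
    fun t ht z hz => ⟨ht, _, hflow t ht z hz⟩
  have heq : ∀ t, 0 ≤ t → EqOn (g t) (gfl W t) (survivingDomain γ t) :=
    fun t ht z hz => (hflow t ht z hz).eq_gfl ⟨ht, le_rfl⟩
  have hdom : ∀ t, 0 ≤ t → survivingDomain γ t = Dom W t := by
    intro t ht
    refine (hsub t ht).antisymm ?_
    intro w hw
    have h1 : 0 < (gfl W t w).im := gfl_im_pos hw
    have h2 : gfl W t w ∈ g t '' survivingDomain γ t := by
      rw [(hg1 t ht).2.2.1]; exact h1
    obtain ⟨z, hz, hzw⟩ := h2
    rw [heq t ht hz] at hzw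
    have := injOn_gfl hW t (hsub t ht hz) hw hzw
    rw [← this]; exact hz
  refine ⟨g, ?_, ?_⟩
  · intro t ht
    obtain ⟨a1, a2, a3, a4⟩ := hg1 t ht
    rw [hdom t ht] at a1 a2 a3
    refine ⟨hdom t ht, ?_, a1, a2, a3⟩
    rw [← hdom t ht]
    exact heq t ht
  · intro t ht
    have := hg3 t ht
    rwa [hdom t ht] at this

/-- **TR1** -/
theorem survivingDomain_eq (h : IsChordalTrace W γ) (hW : ContinuousOn W (Ici 0)) (ht : 0 ≤ t) :
    survivingDomain γ t = Dom W t := by
  obtain ⟨g, hg, -⟩ := maps_eq h hW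
  exact (hg t ht).1

theorem image_gfl (h : IsChordalTrace W γ) (hW : ContinuousOn W (Ici 0)) (ht : 0 ≤ t) :
    gfl W t '' Dom W t = {z : ℂ | 0 < z.im} := by
  obtain ⟨g, hg, -⟩ := maps_eq h hW
  obtain ⟨-, a, -, -, b⟩ := hg t ht
  rw [← b]
  exact (a.image_eq).symm

theorem differentiableOn_gfl' (h : IsChordalTrace W γ) (hW : ContinuousOn W (Ici 0))
    (ht : 0 ≤ t) : DifferentiableOn ℂ (gfl W t) (Dom W t) := by
  obtain ⟨g, hg, -⟩ := maps_eq h hW
  obtain ⟨-, a, b, -⟩ := hg t ht
  exact b.congr fun z hz => (a hz).symm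

/-- **TR1**: the tip -/
theorem tendsto_tip (h : IsChordalTrace W γ) (hW : ContinuousOn W (Ici 0)) (ht : 0 ≤ t) :
    Tendsto (fun y : ℝ => Function.invFunOn (gfl W t) (Dom W t) (W t + y * I)) (𝓝[>] 0)
      (𝓝 (γ t)) := by
  obtain ⟨g, hg, hg3⟩ := maps_eq h hW
  obtain ⟨-, a, -, c, d⟩ := hg t ht
  refine (hg3 t ht).congr' ?_
  filter_upwards [self_mem_nhdsWithin] with y hy
  have hy' : (0 : ℝ) < y := hy
  have hm : (W t + y * I : ℂ) ∈ {z : ℂ | 0 < z.im} := by
    show 0 < (W t + y * I : ℂ).im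
    rw [Complex.add_im, im_mul_I, Complex.ofReal_im]; linarith
  have e1 : ∃ x ∈ Dom W t, g t x = W t + y * I := by
    rw [← d] at hm; exact hm
  have e2 : ∃ x ∈ Dom W t, gfl W t x = W t + y * I := by
    obtain ⟨x, hx, hx2⟩ := e1
    exact ⟨x, hx, by rw [← a hx, hx2]⟩
  refine c (Function.invFunOn_mem e1) (Function.invFunOn_mem e2) ?_
  rw [Function.invFunOn_eq e1, a (Function.invFunOn_mem e2), Function.invFunOn_eq e2]

theorem eventually_mem_Dom (h : IsChordalTrace W γ) (hW : ContinuousOn W (Ici 0)) (ht : 0 ≤ t) :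
    ∀ᶠ y : ℝ in 𝓝[>] 0, Function.invFunOn (gfl W t) (Dom W t) (W t + y * I) ∈ Dom W t := by
  filter_upwards [self_mem_nhdsWithin] with y hy
  have hy' : (0 : ℝ) < y := hy
  have hm : (W t + y * I : ℂ) ∈ gfl W t '' Dom W t := by
    rw [image_gfl h hW ht]
    show 0 < (W t + y * I : ℂ).im
    rw [Complex.add_im, im_mul_I, Complex.ofReal_im]; linarith
  exact Function.invFunOn_mem hm

theorem mem_closure_Dom (h : IsChordalTrace W γ) (hW : ContinuousOn W (Ici 0)) (ht : 0 ≤ t) :
    γ t ∈ closure (Dom W t) :=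
  mem_closure_of_tendsto (tendsto_tip h hW ht) (eventually_mem_Dom h hW ht)




end Crest.Agent.R162.TR
end

-- ▼ part R162/TR2
section

/-!
Row 162 (S0243), node TR, parts 2 and 3, abstract form: distance to the hull versus the
conformal radius `Ups`, for a conformal map `g` of an open set onto the half-plane.
-/

set_option autoImplicit false

open Set Filter Metric Complex
open scoped Topology ComplexConjugate

namespace Crest.Agent.R162.TR

/-- the half-plane -/
abbrev HP : Set ℂ := {z : ℂ | 0 < z.im}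

theorem isOpen_HP : IsOpen HP := isOpen_lt continuous_const Complex.continuous_im

/-- Schwarz: a holomorphic map of `ball w r` into the half-plane. -/
theorem schwarz_ball {g : ℂ → ℂ} {w : ℂ} {r : ℝ} (hr : 0 < r)
    (hd : DifferentiableOn ℂ g (ball w r)) (hm : ∀ z ∈ ball w r, 0 < (g z).im) :
    r * ‖deriv g w‖ ≤ 2 * (g w).im := by
  have hw : w ∈ ball w r := mem_ball_self hr
  have hgw : 0 < (g w).im := hm w hw
  have hne : ∀ z ∈ ball w r, g z - conj (g w) ≠ 0 := fun z hz => sub_conj_ne (hm z hz) hgw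
  have hdF : DifferentiableOn ℂ (fun z => cay (g w) (g z)) (ball w r) := by
    unfold cay
    exact (hd.sub_const _).div (hd.sub_const _) hne
  have hF0 : cay (g w) (g w) = 0 := by simp [cay]
  have hmF : MapsTo (fun z => cay (g w) (g z)) (ball w r) (closedBall (cay (g w) (g w)) 1) := by
    intro z hz
    rw [hF0]
    have := cay_norm_lt hgw (hm z hz)
    simpa using this.le
  have hdw : HasDerivAt g (deriv g w) w :=
    (hd.differentiableAt (isOpen_ball.mem_nhds hw)).hasDerivAt
  have hdF' : HasDerivAt (fun z => cay (g w) (g z)) (deriv g w / (g w - conj (g w))) w := by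
    have h1 := (hdw.sub_const (g w)).div (hdw.sub_const (conj (g w))) (hne w hw)
    have h2 : (deriv g w * (g w - conj (g w)) - (g w - g w) * deriv g w) /
        (g w - conj (g w)) ^ 2 = deriv g w / (g w - conj (g w)) := by
      have h3 := hne w hw
      field_simp
      ring
    rw [h2] at h1
    exact h1
  have key : ‖deriv (fun z => cay (g w) (g z)) w‖ ≤ 1 / r :=
    Complex.norm_deriv_le_div_of_mapsTo_ball hdF hmF hr
  rw [hdF'.deriv, norm_div] at key
  have h4 : ‖g w - conj (g w)‖ = 2 * (g w).im := by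
    have h5 : g w - conj (g w) = ((2 * (g w).im : ℝ) : ℂ) * I := by
      apply Complex.ext
      · simp
      · simp; ring
    rw [h5, norm_mul, Complex.norm_I, mul_one, Complex.norm_real, Real.norm_of_nonneg]
    linarith
  rw [h4, div_le_div_iff₀ (by linarith) hr] at key
  linarith

/-- Koebe 1/4 on the half-plane. -/
theorem koebe_HP {f : ℂ → ℂ} (hf : DifferentiableOn ℂ f HP) (hinj : InjOn f HP) {a : ℂ}
    (ha : 0 < a.im) : ball (f a) (a.im * ‖deriv f a‖ / 2) ⊆ f '' HP := by
  have hmap : MapsTo (icay a) (ball 0 1) HP := by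
    intro u hu
    exact icay_im_pos ha (by simpa using hu)
  have hdi : ∀ u ∈ ball (0:ℂ) 1, HasDerivAt (icay a) ((a - conj a) / (1 - u) ^ 2) u := by
    intro u hu
    have h0 := one_sub_ne (u := u) (by simpa using hu)
    have h1 : HasDerivAt (fun u : ℂ => a - conj a * u) (-(conj a)) u := by
      simpa using ((hasDerivAt_id u).const_mul (conj a)).const_sub a
    have h2 : HasDerivAt (fun u : ℂ => 1 - u) (-1) u := by
      simpa using (hasDerivAt_id u).const_sub (1:ℂ)
    have h3 := h1.div h2 h0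
    have h4 : (-(conj a) * (1 - u) - (a - conj a * u) * -1) / (1 - u) ^ 2 =
        (a - conj a) / (1 - u) ^ 2 := by
      congr 1
      ring
    rw [h4] at h3
    exact h3
  have hinj2 : InjOn (icay a) (ball 0 1) := by
    intro u hu v hv huv
    have h1 := one_sub_ne (u := u) (by simpa using hu)
    have h2 := one_sub_ne (u := v) (by simpa using hv)
    rw [icay, icay, div_eq_div_iff h1 h2] at huv
    have h3 : (a - conj a) * (u - v) = 0 := by linear_combination huv
    rcases mul_eq_zero.1 h3 with h | h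
    · exact absurd h (sub_conj_ne ha ha)
    · exact sub_eq_zero.1 h
  have hdF : DifferentiableOn ℂ (fun u => f (icay a u)) (ball 0 1) :=
    hf.comp (fun u hu => (hdi u hu).differentiableAt.differentiableWithinAt) hmap
  have hinjF : InjOn (fun u => f (icay a u)) (ball 0 1) := hinj.comp hinj2 hmap
  have key := KBD.koebe_quarter hdF hinjF
  have h0 : (0:ℂ) ∈ ball (0:ℂ) 1 := mem_ball_self one_pos
  have hfa : HasDerivAt f (deriv f a) (icay a 0) := by
    rw [icay_zero]
    exact (hf.differentiableAt (isOpen_HP.mem_nhds ha)).hasDerivAt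
  have hder : deriv (fun u => f (icay a u)) 0 = deriv f a * (a - conj a) := by
    have := hfa.comp (0:ℂ) (hdi 0 h0)
    rw [show (fun u => f (icay a u)) = f ∘ icay a from rfl, this.deriv]
    simp
  have h4 : ‖a - conj a‖ = 2 * a.im := by
    have h5 : a - conj a = ((2 * a.im : ℝ) : ℂ) * I := by
      apply Complex.ext
      · simp
      · simp; ring
    rw [h5, norm_mul, Complex.norm_I, mul_one, Complex.norm_real, Real.norm_of_nonneg]
    linarith
  rw [hder, norm_mul, h4, icay_zero] at key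
  have h6 : ‖deriv f a‖ * (2 * a.im) / 4 = a.im * ‖deriv f a‖ / 2 := by ring
  rw [h6] at key
  refine key.trans ?_
  rintro _ ⟨u, hu, rfl⟩
  exact ⟨icay a u, hmap hu, rfl⟩

/-- Koebe 1/4 for a conformal map `g` of `D` onto the half-plane: `ball w (Ups/2) ⊆ D`. -/
theorem ball_ups_subset {D : Set ℂ} (hD : IsOpen D) {g : ℂ → ℂ} (hg : DifferentiableOn ℂ g D)
    (hinj : InjOn g D) (himg : g '' D = HP) {w : ℂ} (hw : w ∈ D) :
    ball w ((g w).im / ‖deriv g w‖ / 2) ⊆ D := by
  obtain ⟨f, hfd, hfi, hfim, hfg, hgf⟩ := Crest.Agent.Lib.exists_holomorphic_inverse hD hg hinj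
  rw [himg] at hfd hfi hfim hgf
  have hgw : g w ∈ HP := by rw [← himg]; exact mem_image_of_mem g hw
  have key := koebe_HP hfd hfi (a := g w) hgw
  have hdg : HasDerivAt g (deriv g w) w := (hg.differentiableAt (hD.mem_nhds hw)).hasDerivAt
  have hdf : HasDerivAt f (deriv f (g w)) (g w) :=
    (hfd.differentiableAt (isOpen_HP.mem_nhds hgw)).hasDerivAt
  have h1 : HasDerivAt (fun z => f (g z)) (deriv f (g w) * deriv g w) w := hdf.comp w hdg
  have h2 : HasDerivAt (fun z => f (g z)) 1 w := by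
    refine (hasDerivAt_id w).congr_of_eventuallyEq ?_
    filter_upwards [hD.mem_nhds hw] with z hz
    exact hfg z hz
  have h3 := h1.unique h2
  have h4 : ‖deriv f (g w)‖ * ‖deriv g w‖ = 1 := by rw [← norm_mul, h3, norm_one]
  have h5 : ‖deriv g w‖ ≠ 0 := by
    intro h; rw [h, mul_zero] at h4; exact zero_ne_one h4
  have h6 : ‖deriv f (g w)‖ = 1 / ‖deriv g w‖ := by
    field_simp
    linarith
  rw [h6, hfg w hw, hfim] at key
  have h7 : (g w).im / ‖deriv g w‖ / 2 = (g w).im * (1 / ‖deriv g w‖) / 2 := by ring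
  rw [h7]
  exact key

/-- Schwarz for a conformal map: the radius of a ball in `D` is at most `2 Ups`. -/
theorem radius_le_ups {D : Set ℂ} (hD : IsOpen D) {g : ℂ → ℂ} (hg : DifferentiableOn ℂ g D)
    (hinj : InjOn g D) (hmaps : ∀ z ∈ D, 0 < (g z).im) {w : ℂ} {r : ℝ} (hr : 0 < r)
    (hb : ball w r ⊆ D) : r ≤ 2 * (g w).im / ‖deriv g w‖ := by
  have hw : w ∈ D := hb (mem_ball_self hr)
  have h1 := schwarz_ball hr (hg.mono hb) fun z hz => hmaps z (hb hz)
  have h2 : deriv g w ≠ 0 := Crest.Agent.Lib.deriv_ne_zero_of_injOn hD hg hinj hw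
  rw [le_div_iff₀ (norm_pos_iff.2 h2)]
  exact h1

end Crest.Agent.R162.TR
end

-- ▼ part R162/TR3

/-!
Row 162 (S0243), node TR, parts 2 and 3 for surviving domains, stated for any family of
conformal maps of the surviving domains (no flow).
-/

set_option autoImplicit false

open Set Filter Metric Complex
open scoped Topology ComplexConjugate
open Crest.ProbabilityR.Loewner

namespace Crest.Agent.R162.TR

variable {γ : ℝ → ℂ}

theorem isClosed_hull (hγ : ContinuousOn γ (Ici 0)) (t : ℝ) : IsClosed (γ '' Icc 0 t) :=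
  (isCompact_Icc.image_of_continuousOn (hγ.mono Icc_subset_Ici_self)).isClosed

theorem ball_subset_surv {t : ℝ} {w : ℂ} {r : ℝ} (hw : w ∈ survivingDomain γ t)
    (hb : ball w r ⊆ halfPlane \ γ '' Icc 0 t) : ball w r ⊆ survivingDomain γ t := by
  intro z hz
  have hr : 0 < r := dist_nonneg.trans_lt (mem_ball.1 hz)
  refine ⟨hb hz, ?_⟩
  have h1 : ball w r ⊆ connectedComponentIn (halfPlane \ γ '' Icc 0 t) w :=
    (isPreconnected_ball).subset_connectedComponentIn (mem_ball_self hr) hb
  rw [← connectedComponentIn_eq (h1 hz)]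
  exact hw.2

theorem isOpen_surv (hγ : ContinuousOn γ (Ici 0)) (t : ℝ) : IsOpen (survivingDomain γ t) := by
  have ho : IsOpen (halfPlane \ γ '' Icc 0 t) := by
    have : IsOpen halfPlane := isOpen_HP
    exact this.sdiff (isClosed_hull hγ t)
  rw [Metric.isOpen_iff]
  intro w hw
  obtain ⟨ε, hε, hb⟩ := Metric.isOpen_iff.1 ho w hw.1
  exact ⟨ε, hε, ball_subset_surv hw hb⟩

theorem surv_anti {s t : ℝ} (hst : s ≤ t) : survivingDomain γ t ⊆ survivingDomain γ s := by
  intro z hz
  have hsub : halfPlane \ γ '' Icc 0 t ⊆ halfPlane \ γ '' Icc 0 s :=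
    sdiff_subset_sdiff_right (image_mono (Icc_subset_Icc_right hst))
  refine ⟨hsub hz.1, fun hbd => hz.2 ?_⟩
  exact hbd.subset (connectedComponentIn_mono z hsub)

/-- TR2: the distance to the hull and the real line is at most `2 Ups`. -/
theorem infDist_le_ups_surv (hγ : ContinuousOn γ (Ici 0)) {t : ℝ} {g : ℂ → ℂ}
    (hg : DifferentiableOn ℂ g (survivingDomain γ t)) (hinj : InjOn g (survivingDomain γ t))
    (himg : g '' survivingDomain γ t = halfPlane) {w : ℂ} (hw : w ∈ survivingDomain γ t) :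
    infDist w (γ '' Icc 0 t ∪ {z : ℂ | z.im ≤ 0}) ≤ 2 * (g w).im / ‖deriv g w‖ := by
  set r := infDist w (γ '' Icc 0 t ∪ {z : ℂ | z.im ≤ 0}) with hr
  have hmaps : ∀ z ∈ survivingDomain γ t, 0 < (g z).im := by
    intro z hz
    have : g z ∈ halfPlane := by rw [← himg]; exact mem_image_of_mem g hz
    exact this
  have hr0 : 0 ≤ r := infDist_nonneg
  rcases hr0.eq_or_lt with h0 | h0
  · have h1 : r = 0 := h0.symm
    rw [h1]
    have := hmaps w hw
    positivity
  · refine radius_le_ups (isOpen_surv hγ t) hg hinj hmaps h0 (ball_subset_surv hw ?_)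
    intro z hz
    have h1 : z ∉ γ '' Icc 0 t ∪ {z : ℂ | z.im ≤ 0} := by
      intro h
      have := infDist_le_dist_of_mem h (x := w)
      rw [dist_comm] at this
      exact absurd (mem_ball.1 hz) (not_lt.2 this)
    refine ⟨?_, fun h => h1 (Or.inl h)⟩
    by_contra h
    have h2 : z.im ≤ 0 := not_lt.1 h
    exact h1 (Or.inr h2)

/-- TR3: if the curve is in `ball w r` at time `t` then `Ups` of `w` has been `≤ 2 r` before. -/
theorem exists_ups_le_surv (hγ : ContinuousOn γ (Ici 0)) (hγ0 : γ 0 = 0) {t : ℝ} (ht : 0 ≤ t)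
    {g : ℝ → ℂ → ℂ}
    (hg : ∀ s ∈ Icc 0 t, DifferentiableOn ℂ (g s) (survivingDomain γ s))
    (hinj : ∀ s ∈ Icc 0 t, InjOn (g s) (survivingDomain γ s))
    (himg : ∀ s ∈ Icc 0 t, g s '' survivingDomain γ s = halfPlane)
    (hcl : γ t ∈ closure (survivingDomain γ t)) {w : ℂ} {r : ℝ}
    (hb : ball w r ⊆ halfPlane) (hgt : γ t ∈ ball w r) :
    ∃ s, 0 ≤ s ∧ s ≤ t ∧ w ∈ survivingDomain γ s ∧
      (g s w).im / ‖deriv (g s) w‖ ≤ 2 * r := by
  obtain ⟨r', hr'1, hr'2⟩ := exists_between (mem_ball.1 hgt)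
  have hr'0 : 0 < r' := dist_nonneg.trans_lt hr'1
  -- first hitting time
  set S : Set ℝ := {u | u ∈ Icc 0 t ∧ γ u ∈ closedBall w r'} with hS
  have hSne : S.Nonempty := ⟨t, ⟨ht, le_rfl⟩, mem_closedBall.2 hr'1.le⟩
  have hScl : IsClosed S := by
    have h1 : ContinuousOn γ (Icc 0 t) := hγ.mono Icc_subset_Ici_self
    exact h1.preimage_isClosed_of_isClosed isClosed_Icc isClosed_closedBall
  have hSbd : BddBelow S := ⟨0, fun u hu => hu.1.1⟩
  set s := sInf S with hs
  have hsS : s ∈ S := hScl.csInf_mem hSne hSbd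
  have hlt : ∀ u, 0 ≤ u → u < s → r' < dist (γ u) w := by
    intro u hu0 hus
    by_contra h
    have : u ∈ S := ⟨⟨hu0, hus.le.trans hsS.1.2⟩, mem_closedBall.2 (not_lt.1 h)⟩
    exact absurd (csInf_le hSbd this) (not_le.2 hus)
  have hs0 : 0 < s := by
    rcases hsS.1.1.eq_or_lt with h | h
    · exfalso
      have h1 := hsS.2
      rw [← h, hγ0] at h1
      have h2 : (0:ℂ) ∈ ball w r := mem_ball.2 ((mem_closedBall.1 h1).trans_lt hr'2)
      have h3 := hb h2
      simp [halfPlane] at h3
    · exact h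
  have hge : r' ≤ dist (γ s) w := by
    have hcont : ContinuousWithinAt (fun u => dist (γ u) w) (Ico 0 s) s := by
      have h1 : ContinuousWithinAt γ (Ico 0 s) s :=
        (hγ s hs0.le).mono (fun u hu => hu.1)
      exact h1.dist continuousWithinAt_const
    have hne : (𝓝[Ico 0 s] s).NeBot := by
      rw [← mem_closure_iff_nhdsWithin_neBot, closure_Ico hs0.ne]
      exact ⟨hs0.le, le_rfl⟩
    refine ge_of_tendsto hcont ?_
    filter_upwards [self_mem_nhdsWithin] with u hu
    exact (hlt u hu.1 hu.2).le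
  have hdist : dist (γ s) w = r' := le_antisymm (mem_closedBall.1 hsS.2) hge
  have hball : ball w r' ⊆ halfPlane \ γ '' Icc 0 s := by
    intro z hz
    refine ⟨hb (ball_subset_ball hr'2.le hz), ?_⟩
    rintro ⟨u, hu, rfl⟩
    rcases hu.2.eq_or_lt with h | h
    · rw [h] at hz
      exact absurd (mem_ball.1 hz) (not_lt.2 hdist.ge)
    · exact absurd (mem_ball.1 hz) (not_lt.2 (hlt u hu.1 h).le)
  have hwD : w ∈ survivingDomain γ s := by
    by_contra hw
    have hno : ∀ z ∈ ball w r', z ∉ survivingDomain γ s := by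
      intro z hz hzD
      apply hw
      refine ⟨hball (mem_ball_self hr'0), ?_⟩
      have h1 : ball w r' ⊆ connectedComponentIn (halfPlane \ γ '' Icc 0 s) z :=
        (isPreconnected_ball).subset_connectedComponentIn hz hball
      rw [← connectedComponentIn_eq (h1 (mem_ball_self hr'0))]
      exact hzD.2
    have h2 : (ball w r' ∩ survivingDomain γ t).Nonempty :=
      mem_closure_iff.1 hcl _ isOpen_ball (mem_ball.2 hr'1)
    obtain ⟨z, hz1, hz2⟩ := h2
    exact hno z hz1 (surv_anti hsS.1.2 hz2)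
  refine ⟨s, hsS.1.1, hsS.1.2, hwD, ?_⟩
  have key := ball_ups_subset (isOpen_surv hγ s) (hg s hsS.1) (hinj s hsS.1) (himg s hsS.1) hwD
  have h3 : (g s w).im / ‖deriv (g s) w‖ / 2 ≤ r' := by
    by_contra h
    have h4 : γ s ∈ ball w ((g s w).im / ‖deriv (g s) w‖ / 2) := by
      rw [mem_ball, hdist]; exact not_le.1 h
    have h5 := (key h4).1.2
    exact h5 ⟨s, ⟨hsS.1.1, le_rfl⟩, rfl⟩
  linarith

end Crest.Agent.R162.TR
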