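import Crest.Agent.R162.LBBookP_Mg
import Crest.Agent.R162.LBcSF_Mg
import Crest.Agent.R162.LBExp2_Mg
import Crest.Agent.R162.LB8
import Crest.Agent.R162.OSDefs
import Crest.Agent.R162.FLDef
import Mathlib
import Crest.Agent.R162.LBDefs
import Crest.Agent.R162.U5br
import Crest.Agent.R162.LBbc
import Crest.Agent.R162.UBDefs
import Crest.Agent.R162.LBSkel
import Crest.Prelude.Def_Loewner
import Crest.Agent.R162.Base
import Crest.Agent.R162.FL1
import Crest.Agent.R162.GM1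
import Crest.Agent.R162.Ver
import Crest.Agent.R162.FLE2
import Crest.Agent.R162.OS5
import Crest.Agent.R162.FL1b
import Crest.Agent.R162.FLC
import Crest.Agent.R162.FLC3
import Crest.Agent.R162.FLD
import Crest.Agent.R162.TR3_Mg
import Crest.Agent.R162.Top
import Crest.Agent.R162.OS5b
import Crest.Agent.R162.LBInD
import Crest.Agent.R162.LBSkel2

-- ▼ part R162/LBPk744
section

/-!
Row 162 (S0243): packaging of the step theorem, `StepIn3`, `StepAll0`, `ExpAll` (helper744,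
composition of the nodes only).
-/

set_option autoImplicit false

open MeasureTheory ProbabilityTheory Filter Topology Set Complex
open scoped NNReal ENNReal

namespace Crest.Agent.R162.LBPk744

open Crest.Agent.R162.FL Crest.Agent.R162.OS Crest.Agent.R162.LB Crest.Agent.R162.LBS
open Crest.Agent.R162.LBStep

universe u

theorem winMean {κ : ℝ} (hκ : 0 < κ) (hκ8 : κ < 8) : LB3b.WinMean.{u} κ :=
  LB3b.window_mean hκ hκ8 (by norm_num) (LB3b.contB.{u} hκ hκ8) (OPf.op3K.{u} hκ hκ8)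

theorem in3 {κ c1 : ℝ} (hκ : 0 < κ) (hκ8 : κ < 8) : In3.{u} κ c1 :=
  LB3b.in3_of (winMean hκ hκ8)

theorem stepIn3 {κ c1 : ℝ} (hκ : 0 < κ) (hκ8 : κ < 8) (hc1 : 0 < c1) : StepIn3.{u} κ c1 := by
  obtain ⟨cs0, hcs0, hb⟩ := LBBook.book LBBook.pathIn (OPf.in2.{u} hκ hκ8)
    (in3.{u} (c1 := c1) hκ hκ8) (OPf.inZ.{u} hκ hκ8)
  set cs : ℝ := min cs0 1 with hcs
  have hcs1 : 0 < cs := lt_min hcs0 one_pos
  have hcsle : cs ≤ cs0 := min_le_left _ _
  have hcs1' : cs ≤ 1 := min_le_right _ _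
  set q : ℝ := cs / 16 with hq
  have hq0 : 0 < q := by positivity
  obtain ⟨D, a, hD, ha, hb⟩ := hb cs q hcs1 hcsle hq0 (by linarith) (by linarith)
  refine ⟨LB4.pT κ, 17, cs, q, 1 / 8, LB4.pT_pos κ, LB4.pT_le_one hκ, by norm_num, hcs1, hq0,
    by norm_num, by linarith, 5, 1 / 2, D, a, by norm_num, by norm_num, hD, ha, fun K3 hK3 => ?_⟩
  obtain ⟨b1, b2⟩ := hb (1 / 8) 17 K3 (by norm_num) le_rfl (by norm_num) hK3
  refine ⟨LB1SX.forSmall_lb1S _ _ _ _ _ _ _, b1, b2, ?_, ?_, LB4W.clauseA, LBJB.forSmall_jbs _ _ _ _ _ _ _⟩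
  · exact LB4.clause4M (by norm_num) (LB4.tubeSet hκ hκ8)
  · exact LBcSF.lbcS_all hc1 hq0 (by norm_num) (by linarith) (by linarith) (by norm_num) hK3

theorem expAll {κ c1 : ℝ} (hκ : 0 < κ) (hκ8 : κ < 8) (hc1 : 0 < c1) (hc11 : c1 < 1) :
    ExpAll.{u} κ c1 :=
  LBExp.expAll_of hκ hκ8 hc1 hc11 (stepAll0_of (stepIn3 hκ hκ8 hc1))

end Crest.Agent.R162.LBPk744
end

-- ▼ part R162/LB8s
section

/-!
Row 162, node LB8s (iii) : from the normalised ball tail (LB7c) to the physical ball tail used by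
`LB8.frostman`.
-/

set_option autoImplicit false

namespace Crest.Agent.R162.LB8s

open Crest.ProbabilityR.Loewner MeasureTheory ProbabilityTheory Set Filter Topology Metric
open scoped ENNReal NNReal
open Crest.Agent.R162.GM Crest.Agent.R162.OS Crest.Agent.R162.FL
open Crest.Agent.R162.LB8 (Q0)

universe u

/-- abstract content functional `m ε W t V`. -/
abbrev CF := ℝ → (ℝ → ℝ) → ℝ → Set ℂ → ℝ≥0∞

/-- Brownian scaling of the content of balls. -/
def Scales (κ : ℝ) (m : CF) : Prop :=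
  ∀ (l ε t r : ℝ) (W : ℝ → ℝ) (z : ℂ), Continuous W → 0 < l → 0 < ε → 0 ≤ t →
    m ε W t (closedBall z r) =
      ENNReal.ofReal (l ^ dimParam κ) *
        m (ε / l) (scl l W) (t / l ^ 2) (closedBall (z / l) (r / l))

/-- start weight `G_0(w) = (Im w)^(κ/8-1) (Im w/|w|)^(8/κ-1)`. -/
noncomputable def G0 (κ : ℝ) (w : ℂ) : ℝ := w.im ^ (κ / 8 - 1) * (w.im / ‖w‖) ^ (8 / κ - 1)


/-- Brownian scaling (a Prop, discharged by node LB-SCALE). -/
def BMScale : Prop :=
  ∀ (Ω : Type u) [MeasurableSpace Ω] (P : Measure Ω) [IsProbabilityMeasure P]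
      (F : Filtration ℝ≥0 (inferInstance : MeasurableSpace Ω)) (B : ℝ≥0 → Ω → ℝ)
      (_ : IsBM F B P) (l : ℝ≥0), 0 < l →
      ∃ F' : Filtration ℝ≥0 (inferInstance : MeasurableSpace Ω),
        IsBM F' (fun t ω => (l : ℝ)⁻¹ * B (l ^ 2 * t) ω) P

lemma driving_scl {Ω : Type*} (κ : ℝ) (B : ℝ≥0 → Ω → ℝ) (l : ℝ≥0) (ω : Ω) :
    driving κ (fun t ω => (l : ℝ)⁻¹ * B (l ^ 2 * t) ω) ω = scl l (driving κ B ω) := by
  funext t
  have h : (((l : ℝ) ^ 2) * t).toNNReal = l ^ 2 * t.toNNReal := by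
    rw [Real.toNNReal_mul (by positivity), Real.toNNReal_pow (by positivity), Real.toNNReal_coe]
  simp only [driving, scl, h]
  ring

lemma driving_cont {Ω : Type*} {κ : ℝ} {B : ℝ≥0 → Ω → ℝ} {ω : Ω}
    (h : Continuous fun t => B t ω) : Continuous (driving κ B ω) := by
  unfold driving
  exact continuous_const.mul (h.comp continuous_real_toNNReal)

lemma norm_le_of_mem {z : ℂ} (hz : z ∈ Q0) : (1 / 2) * ‖z‖ ≤ z.im := by
  obtain ⟨h1, h2, h3, h4⟩ := hz
  have := Complex.norm_le_abs_re_add_abs_im z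
  rw [abs_of_nonneg h1, abs_of_nonneg (by linarith : (0 : ℝ) ≤ z.im)] at this
  linarith

lemma G0_div {κ : ℝ} (w : ℂ) {l : ℝ} (hl : 0 < l) (hw : 0 < w.im) :
    G0 κ (w / l) = l ^ (1 - κ / 8) * G0 κ w := by
  have him : (w / (l : ℂ)).im = w.im / l := by
    rw [Complex.div_ofReal_im]
  have hn : ‖w / (l : ℂ)‖ = ‖w‖ / l := by
    rw [norm_div, Complex.norm_real, Real.norm_of_nonneg hl.le]
  unfold G0
  rw [him, hn]
  have h1 : w.im / l / (‖w‖ / l) = w.im / ‖w‖ := by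
    rw [div_div_div_cancel_right₀ hl.ne']
  rw [h1, Real.div_rpow hw.le hl.le, show (1 - κ / 8) = -(κ / 8 - 1) by ring,
    Real.rpow_neg hl.le]
  ring

lemma G0_le_one {κ : ℝ} (hκ : 0 < κ) (hκ8 : κ < 8) {w : ℂ} (hw : 1 ≤ w.im) : G0 κ w ≤ 1 := by
  unfold G0
  have h0 : 0 < w.im := by linarith
  have hn : w.im ≤ ‖w‖ := (le_abs_self _).trans (Complex.abs_im_le_norm w)
  have hn0 : 0 < ‖w‖ := h0.trans_le hn
  have h1 : w.im ^ (κ / 8 - 1) ≤ 1 :=
    Real.rpow_le_one_of_one_le_of_nonpos hw (by linarith)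
  have h2 : (w.im / ‖w‖) ^ (8 / κ - 1) ≤ 1 := by
    refine Real.rpow_le_one (by positivity) ((div_le_one hn0).2 hn) ?_
    have : 1 ≤ 8 / κ := by rw [le_div_iff₀ hκ]; linarith
    linarith
  exact mul_le_one₀ h1 (by positivity) h2

lemma G0_nonneg {κ : ℝ} {w : ℂ} (hw : 0 ≤ w.im) : 0 ≤ G0 κ w := by
  unfold G0; positivity


end Crest.Agent.R162.LB8s
end

-- ▼ part R162/LBScale
section

/-!
Row 162 (S0243), node LB-SCALE (helper105): scaling.

(i) Brownian scaling keeps `OS.IsBM` (for the rescaled filtration);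
(ii) pathwise scaling of `gr`, `cd`, `Ct`, `mu` (no aliveness hypothesis).
-/

set_option autoImplicit false

open Set MeasureTheory ProbabilityTheory
open scoped NNReal ENNReal

namespace Crest.Agent.R162.LBScale

open Crest.Agent.R162.FL Crest.Agent.R162.OP Crest.Agent.R162.LB
open Crest.ProbabilityR.Loewner

/-! ### (i) Brownian scaling -/

section brownian

variable {Ω : Type*} {m : MeasurableSpace Ω} {F : Filtration ℝ≥0 m} {B : ℝ≥0 → Ω → ℝ}
  {P : Measure Ω}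

/-- the rescaled filtration `t ↦ F (l² t)` -/
def sclF (F : Filtration ℝ≥0 m) (l : ℝ≥0) : Filtration ℝ≥0 m where
  seq t := F (l ^ 2 * t)
  mono' _ _ h := F.mono (mul_le_mul_right h _)
  le' _ := F.le _

/-- the rescaled path `t ↦ l⁻¹ B (l² t)` -/
noncomputable def sclB (B : ℝ≥0 → Ω → ℝ) (l : ℝ≥0) (t : ℝ≥0) (ω : Ω) : ℝ :=
  (l : ℝ)⁻¹ * B (l ^ 2 * t) ω

theorem isBM_scl (hB : OS.IsBM F B P) {l : ℝ≥0} (hl : 0 < l) :
    OS.IsBM (sclF F l) (sclB B l) P where
  cont ω := by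
    unfold sclB
    exact continuous_const.mul ((hB.cont ω).comp (by fun_prop))
  zero ω := by
    unfold sclB
    rw [mul_zero, hB.zero ω, mul_zero]
  adapted t := by
    unfold sclB
    exact (hB.adapted (l ^ 2 * t)).const_mul _
  law s u := by
    have hm : Measurable (fun ω => B (l ^ 2 * s + l ^ 2 * u) ω - B (l ^ 2 * s) ω) :=
      ((hB.adapted _).mono (F.le _) le_rfl).sub ((hB.adapted _).mono (F.le _) le_rfl)
    have h1 : (fun ω => sclB B l (s + u) ω - sclB B l s ω)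
        = (fun x => (l : ℝ)⁻¹ * x) ∘ (fun ω => B (l ^ 2 * s + l ^ 2 * u) ω - B (l ^ 2 * s) ω) := by
      funext ω
      simp only [sclB, Function.comp, mul_add]
      ring
    rw [h1, ← Measure.map_map (by fun_prop) hm, hB.law]
    rw [gaussianReal_map_const_mul]
    congr 1
    · simp
    · apply NNReal.coe_injective
      have : (l : ℝ) ≠ 0 := by exact_mod_cast hl.ne'
      push_cast
      field_simp
  indep s := by
    have h := hB.indep (l ^ 2 * s)
    refine indep_of_indep_of_le_left h ?_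
    have h1 : (fun ω (u : ℝ≥0) => sclB B l (s + u) ω - sclB B l s ω)
        = (fun (x : ℝ≥0 → ℝ) (u : ℝ≥0) => (l : ℝ)⁻¹ * x (l ^ 2 * u)) ∘
          (fun ω (u : ℝ≥0) => B (l ^ 2 * s + u) ω - B (l ^ 2 * s) ω) := by
      funext ω u
      simp only [sclB, Function.comp, mul_add]
      ring
    rw [h1, ← MeasurableSpace.comap_comp]
    apply MeasurableSpace.comap_mono
    apply Measurable.comap_le
    rw [measurable_pi_iff]
    intro u
    exact (measurable_pi_apply _).const_mul _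


end brownian

/-! ### (ii) pathwise scaling -/

section path

variable {W : ℝ → ℝ} {κ ε c1 l s t : ℝ} {z : ℂ}

theorem ups_nn (W : ℝ → ℝ) (t : ℝ) (z : ℂ) : 0 ≤ ups W t z := by
  by_cases h : Alive W z t
  · exact mul_nonneg (gfl_im_pos h).le (Real.exp_pos _).le
  · rw [ups_of_dead h]





/-- scaling of the density of the content -/
theorem cd_scl (hl : 0 < l) :
    cd κ ε c1 1 (scl l W) s z
      = l ^ 2 * (l ^ (1 - κ / 8) * cd κ (l * ε) c1 1 W (l ^ 2 * s) (l * z)) := by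
  by_cases h : Alive W (l * z) (l ^ 2 * s)
  · unfold cd
    rw [U5br.ups_scl hl h, U5br.sfl_scl hl h, Zfl_scl hl h]
    have h1 : (1:ℝ) * (l⁻¹ * ups W (l ^ 2 * s) (l * z)) / ε
        = 1 * ups W (l ^ 2 * s) (l * z) / (l * ε) := by
      field_simp
    have h2 : ((1:ℝ) * (l⁻¹ * ups W (l ^ 2 * s) (l * z))) ^ (κ / 8 - 1)
        = l ^ (1 - κ / 8) * (1 * ups W (l ^ 2 * s) (l * z)) ^ (κ / 8 - 1) := by
      rw [one_mul, one_mul, Real.mul_rpow (inv_nonneg.2 hl.le) (ups_nn _ _ _),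
        ← Real.rpow_neg_one, ← Real.rpow_mul hl.le]
      congr 2
      ring
    have h3 : ‖(l : ℂ)⁻¹ * Zfl W (l ^ 2 * s) (l * z)‖ ^ 2
        = (l ^ 2)⁻¹ * ‖Zfl W (l ^ 2 * s) (l * z)‖ ^ 2 := by
      rw [norm_mul, norm_inv, Complex.norm_real, Real.norm_of_nonneg hl.le, mul_pow, inv_pow]
    rw [h1, h2, h3]
    have hn : ‖Zfl W (l ^ 2 * s) (l * z)‖ ≠ 0 := norm_ne_zero_iff.mpr (Zfl_ne_zero h)
    field_simp
  · rw [cd_of_dead h, cd_of_dead fun h' => h ((alive_scl hl).1 h'), mul_zero, mul_zero]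

/-- the substitution `s ↦ c s` in a `lintegral` (no measurability) -/
theorem lintegral_comp_mul_left {c : ℝ} (hc : 0 < c) (f : ℝ → ℝ≥0∞) (E : Set ℝ) :
    ∫⁻ s in (fun s => c * s) ⁻¹' E, ENNReal.ofReal c * f (c * s) = ∫⁻ s in E, f s := by
  have e : MeasurableEmbedding (fun s : ℝ => c * s) :=
    (Homeomorph.mulLeft₀ c hc.ne').measurableEmbedding
  rw [lintegral_const_mul' _ _ ENNReal.ofReal_ne_top]
  have h1 : ∫⁻ s in (fun s => c * s) ⁻¹' E, f (c * s)
      = ∫⁻ s, f s ∂((volume.restrict ((fun s => c * s) ⁻¹' E)).map (fun s => c * s)) :=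
    (e.lintegral_map f).symm
  rw [h1, ← e.restrict_map, Real.map_volume_mul_left hc.ne', Measure.restrict_smul,
    lintegral_smul_measure, smul_eq_mul, ← mul_assoc, ← ENNReal.ofReal_mul hc.le,
    abs_of_pos (inv_pos.2 hc), mul_inv_cancel₀ hc.ne', ENNReal.ofReal_one, one_mul]

/-- scaling of the content per unit area -/
theorem cz_scl (hl : 0 < l) (E : Set ℝ) :
    cz κ ε c1 1 (scl l W) ((fun s => l ^ 2 * s) ⁻¹' E) z
      = ENNReal.ofReal (l ^ (1 - κ / 8)) * cz κ (l * ε) c1 1 W E (l * z) := by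
  have hl2 : 0 < l ^ 2 := by positivity
  have hlk : 0 ≤ l ^ (1 - κ / 8) := Real.rpow_nonneg hl.le _
  unfold cz
  rw [← lintegral_const_mul' _ _ ENNReal.ofReal_ne_top, ← lintegral_comp_mul_left hl2 _ E]
  refine lintegral_congr fun s => ?_
  rw [cd_scl hl, ENNReal.ofReal_mul hl2.le, ENNReal.ofReal_mul hlk]

/-- scaling of the content density `Ct` -/
theorem Ct_scl (hl : 0 < l) :
    Ct κ ε c1 (scl l W) t z
      = ENNReal.ofReal (l ^ (1 - κ / 8)) * Ct κ (l * ε) c1 W (l ^ 2 * t) (l * z) := by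
  have hl2 : 0 < l ^ 2 := by positivity
  unfold Ct
  rw [← cz_scl hl]
  congr 1
  ext s
  simp only [mem_Ioc, mem_preimage]
  constructor
  · rintro ⟨h1, h2⟩
    exact ⟨by positivity, mul_le_mul_of_nonneg_left h2 hl2.le⟩
  · rintro ⟨h1, h2⟩
    exact ⟨(mul_pos_iff_of_pos_left hl2).1 h1, le_of_mul_le_mul_left h2 hl2⟩

/-- the same, with the scaled path on the right -/
theorem Ct_scl' (hl : 0 < l) :
    Ct κ ε c1 W t z
      = ENNReal.ofReal (l ^ (κ / 8 - 1)) * Ct κ (ε / l) c1 (scl l W) (t / l ^ 2) (z / l) := by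
  have hl0 : (l : ℂ) ≠ 0 := Complex.ofReal_ne_zero.2 hl.ne'
  rw [Ct_scl hl, ← mul_assoc, ← ENNReal.ofReal_mul (Real.rpow_nonneg hl.le _),
    ← Real.rpow_add hl]
  have e1 : κ / 8 - 1 + (1 - κ / 8) = 0 := by ring
  have e2 : l * (ε / l) = ε := by field_simp
  have e3 : l ^ 2 * (t / l ^ 2) = t := by field_simp
  have e4 : (l : ℂ) * (z / l) = z := by field_simp
  rw [e1, e2, e3, e4, Real.rpow_zero, ENNReal.ofReal_one, one_mul]

/-- the substitution `z ↦ l z` in the plane (no measurability of the integrand) -/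
theorem lintegral_comp_smul (hl : 0 < l) (f : ℂ → ℝ≥0∞) (A : Set ℂ) :
    ∫⁻ z in A, f z = ENNReal.ofReal (l ^ 2) * ∫⁻ z in (fun z => (l : ℂ) * z) ⁻¹' A, f (l * z) := by
  have hl2 : 0 < l ^ 2 := by positivity
  have hl0 : (l : ℂ) ≠ 0 := Complex.ofReal_ne_zero.2 hl.ne'
  have e : MeasurableEmbedding (fun z : ℂ => (l : ℂ) * z) :=
    (Homeomorph.mulLeft₀ (l : ℂ) hl0).measurableEmbedding
  have h0 : (volume : Measure ℂ).map (fun z : ℂ => (l : ℂ) * z)
      = ENNReal.ofReal ((l ^ 2)⁻¹) • volume := by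
    have := Measure.map_addHaar_smul (volume : Measure ℂ) hl.ne'
    rw [Complex.finrank_real_complex, abs_of_pos (inv_pos.2 hl2)] at this
    rw [← this]
    congr 1
  have h1 : ∫⁻ z in (fun z => (l : ℂ) * z) ⁻¹' A, f (l * z)
      = ∫⁻ z, f z ∂((volume.restrict ((fun z : ℂ => (l : ℂ) * z) ⁻¹' A)).map
          (fun z => (l : ℂ) * z)) := (e.lintegral_map f).symm
  rw [h1, ← e.restrict_map, h0, Measure.restrict_smul,
    lintegral_smul_measure, smul_eq_mul, ← mul_assoc, ← ENNReal.ofReal_mul hl2.le,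
    mul_inv_cancel₀ hl2.ne', ENNReal.ofReal_one, one_mul]

/-- scaling of the content of a set -/
theorem lintegral_Ct_scl (hl : 0 < l) (A : Set ℂ) :
    ∫⁻ z in A, Ct κ ε c1 W t z
      = ENNReal.ofReal (l ^ (1 + κ / 8)) *
        ∫⁻ z in (fun z => (l : ℂ) * z) ⁻¹' A, Ct κ (ε / l) c1 (scl l W) (t / l ^ 2) z := by
  have hl0 : (l : ℂ) ≠ 0 := Complex.ofReal_ne_zero.2 hl.ne'
  rw [lintegral_comp_smul hl]
  have h1 : ∀ z : ℂ, Ct κ ε c1 W t (l * z) =
      ENNReal.ofReal (l ^ (κ / 8 - 1)) * Ct κ (ε / l) c1 (scl l W) (t / l ^ 2) z := by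
    intro z
    rw [Ct_scl' hl]
    congr 2
    field_simp
  rw [lintegral_congr h1, lintegral_const_mul' _ _ ENNReal.ofReal_ne_top, ← mul_assoc,
    ← ENNReal.ofReal_mul (by positivity)]
  congr 2
  rw [← Real.rpow_natCast l 2, ← Real.rpow_add hl]
  congr 1
  push_cast
  ring

/-- scaling of the measure `mu` -/
theorem mu_scl (hl : 0 < l) {A : Set ℂ} (hA : MeasurableSet A) :
    mu κ ε c1 W t A
      = ENNReal.ofReal (l ^ (1 + κ / 8)) *
        mu κ (ε / l) c1 (scl l W) (t / l ^ 2) ((fun z => (l : ℂ) * z) ⁻¹' A) := by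
  have hm : Measurable (fun z : ℂ => (l : ℂ) * z) := by fun_prop
  unfold mu
  rw [withDensity_apply _ hA, withDensity_apply _ (hm hA), lintegral_Ct_scl hl]

theorem preimage_closedBall (hl : 0 < l) (z : ℂ) (r : ℝ) :
    (fun z => (l : ℂ) * z) ⁻¹' Metric.closedBall z r = Metric.closedBall (z / l) (r / l) := by
  have hl0 : (l : ℂ) ≠ 0 := Complex.ofReal_ne_zero.2 hl.ne'
  ext w
  simp only [mem_preimage, Metric.mem_closedBall, dist_eq_norm]
  have h1 : (l : ℂ) * w - z = l * (w - z / l) := by field_simp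
  rw [h1, norm_mul, Complex.norm_real, Real.norm_of_nonneg hl.le, le_div_iff₀ hl, mul_comm]


/-- scaling of the measure of a closed ball -/
theorem mu_closedBall_scl (hl : 0 < l) (z : ℂ) (r : ℝ) :
    mu κ ε c1 W t (Metric.closedBall z r)
      = ENNReal.ofReal (l ^ (1 + κ / 8)) *
        mu κ (ε / l) c1 (scl l W) (t / l ^ 2) (Metric.closedBall (z / l) (r / l)) := by
  rw [mu_scl hl Metric.isClosed_closedBall.measurableSet, preimage_closedBall hl]




end path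

/-! ### the physical form, for Brownian driving functions -/

section phys

variable {Ω : Type*} {m : MeasurableSpace Ω} {F : Filtration ℝ≥0 m} {B : ℝ≥0 → Ω → ℝ}
  {P : Measure Ω} {κ ε c1 t : ℝ}



end phys

end Crest.Agent.R162.LBScale
end

-- ▼ part R162/LB8t
section

/-!
Row 162, node LB8s, concrete form: `TailN` (final form of LB7c, note 15162) ⟹ tail field of `LBIn`.
-/

set_option autoImplicit false

namespace Crest.Agent.R162.LB8s

open Crest.ProbabilityR.Loewner MeasureTheory ProbabilityTheory Set Filter Topology Metric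
open scoped ENNReal NNReal
open Crest.Agent.R162.GM Crest.Agent.R162.OS Crest.Agent.R162.FL
open Crest.Agent.R162.LB8 (Q0)

universe u

/-- normalised ball tail with free constants. -/
def NormG (κ : ℝ) (m : CF) (Cμ C M K N0 : ℝ) : Prop :=
    ∀ (Ω : Type u) [MeasurableSpace Ω] (P : Measure Ω) [IsProbabilityMeasure P]
      (F : Filtration ℝ≥0 (inferInstance : MeasurableSpace Ω)) (B : ℝ≥0 → Ω → ℝ)
      (_ : IsBM F B P) (N : ℝ), N0 ≤ N → ∀ ε : ℝ, 0 < ε → M * ε ≤ 1 → ∀ (t : ℝ≥0) (w0 : ℂ),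
      K * Real.sqrt N ≤ w0.im → ‖w0‖ ≤ 2 * w0.im →
      ∫⁻ ω in {ω | ENNReal.ofReal (Cμ * N) <
            m ε (driving κ B ω) t (closedBall w0 (Real.sqrt N))},
          m ε (driving κ B ω) t (closedBall w0 (Real.sqrt N)) ∂P ≤
        ENNReal.ofReal (C * Real.exp (-(2 * N)) * N * G0 κ w0)

/-- the physical ball tail. -/
theorem ball_tailG {κ : ℝ} (hκ : 0 < κ) (hκ8 : κ < 8) {m : CF} (hbm : BMScale.{u})
    (hs : Scales κ m) {Cm C3 M K N0 : ℝ} (hC : 0 < C3) (hM0 : 0 < M) (hKt : 0 < K)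
    (hN : NormG.{u} κ m Cm C3 M K N0) :
    ∃ r1 : ℝ, 0 < r1 ∧ r1 ≤ m0 ∧
    ∀ (Ω : Type u) [MeasurableSpace Ω] (P : Measure Ω) [IsProbabilityMeasure P]
      (F : Filtration ℝ≥0 (inferInstance : MeasurableSpace Ω)) (B : ℝ≥0 → Ω → ℝ)
      (_ : IsBM F B P) (ε : ℝ) (_ : 0 < ε) (n : ℝ≥0),
      ∀ z ∈ Q0, ∀ r, 0 < r → r ≤ r1 → M * ε * Real.sqrt (L r) ≤ r →
        ∫⁻ ω in {ω | ENNReal.ofReal (Cm * gaugeReal κ r) <
              m ε (driving κ B ω) n (closedBall z r)},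
            m ε (driving κ B ω) n (closedBall z r) ∂P ≤
          ENNReal.ofReal (C3 * (Real.log (1 / r) ^ 2)⁻¹ * r ^ 2) := by
  refine ⟨min (min m0 (1 / K)) (Real.exp (-Real.exp N0)), lt_min
    (lt_min m0_pos (by positivity)) (Real.exp_pos _), (min_le_left _ _).trans (min_le_left _ _), ?_⟩
  intro Ω _ P _ F B hB ε hε n z hz r hr hr1 hM
  have hrm : r ≤ m0 := (hr1.trans (min_le_left _ _)).trans (min_le_left _ _)
  have hrK : r ≤ 1 / K := (hr1.trans (min_le_left _ _)).trans (min_le_right _ _)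
  have hrN : r ≤ Real.exp (-Real.exp N0) := hr1.trans (min_le_right _ _)
  set N : ℝ := L r with hNdef
  have hN1 : 1 ≤ N := L_ge_one hr hrm
  have hNN0 : N0 ≤ N := by
    have h1 : Real.exp N0 ≤ Real.log (1 / r) := by
      rw [one_div, Real.log_inv]
      have := Real.log_le_log hr hrN
      rw [Real.log_exp] at this
      linarith
    have h2 := Real.log_le_log (Real.exp_pos _) h1
    rwa [Real.log_exp] at h2
  have hN0 : 0 < N := by linarith
  have hsN : 0 < Real.sqrt N := Real.sqrt_pos.2 hN0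
  have hsN2 : Real.sqrt N ^ 2 = N := Real.sq_sqrt hN0.le
  set l : ℝ≥0 := ⟨r / Real.sqrt N, by positivity⟩ with hl
  have hlr : (l : ℝ) = r / Real.sqrt N := rfl
  have hl0 : (0 : ℝ) < l := by rw [hlr]; positivity
  have hl0' : 0 < l := by exact_mod_cast hl0
  have hrl : r / l = Real.sqrt N := by rw [hlr]; field_simp
  have hz1 : 1 ≤ z.im := hz.2.2.1
  have hd := dim_gt hκ
  obtain ⟨F', hB'⟩ := hbm Ω P F B hB l hl0'
  -- scaling of the content
  have hsc : ∀ ω, m ε (driving κ B ω) n (closedBall z r) =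
      ENNReal.ofReal ((l : ℝ) ^ dimParam κ) *
        m (ε / l) (driving κ (fun t ω => (l : ℝ)⁻¹ * B (l ^ 2 * t) ω) ω) ((n / l ^ 2 : ℝ≥0) : ℝ)
          (closedBall (z / (l : ℝ)) (Real.sqrt N)) := by
    intro ω
    rw [hs l ε n r (driving κ B ω) z (driving_cont (hB.cont ω)) hl0 hε n.2, driving_scl, hrl]
    simp
  have hdl : (0 : ℝ) < (l : ℝ) ^ dimParam κ := Real.rpow_pos_of_pos hl0 _
  have hgauge : gaugeReal κ r = (l : ℝ) ^ dimParam κ * N := by
    rw [gaugeReal_small hrm, ← hNdef, hlr, Real.div_rpow hr.le hsN.le, Real.sqrt_eq_rpow,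
      ← Real.rpow_mul hN0.le, div_mul_eq_mul_div, mul_div_assoc]
    congr 1
    rw [show (2 - dimParam κ) / 2 = 1 - 1 / 2 * dimParam κ by ring, Real.rpow_sub hN0,
      Real.rpow_one]
  -- the events agree
  have hset : {ω | ENNReal.ofReal (Cm * gaugeReal κ r) <
        m ε (driving κ B ω) n (closedBall z r)} =
      {ω | ENNReal.ofReal (Cm * N) <
        m (ε / l) (driving κ (fun t ω => (l : ℝ)⁻¹ * B (l ^ 2 * t) ω) ω) ((n / l ^ 2 : ℝ≥0) : ℝ)
          (closedBall (z / (l : ℝ)) (Real.sqrt N))} := by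
    ext ω
    simp only [mem_ofPred_eq]
    rw [hsc ω, hgauge, show Cm * ((l : ℝ) ^ dimParam κ * N) = (l : ℝ) ^ dimParam κ * (Cm * N) by
      ring, ENNReal.ofReal_mul hdl.le]
    exact ENNReal.mul_lt_mul_iff_right (ENNReal.ofReal_pos.2 hdl).ne' ENNReal.ofReal_ne_top
  rw [hset]
  simp_rw [hsc]
  rw [lintegral_const_mul' _ _ ENNReal.ofReal_ne_top]
  have hεl : M * (ε / l) ≤ 1 := by
    rw [mul_div_assoc', div_le_one hl0, hlr, le_div_iff₀ hsN]
    exact hM
  have him : (z / ((l : ℝ) : ℂ)).im = z.im / l := by rw [Complex.div_ofReal_im]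
  have hnz : ‖z / ((l : ℝ) : ℂ)‖ = ‖z‖ / l := by
    rw [norm_div, Complex.norm_real, Real.norm_of_nonneg hl0.le]
  have h7 := hN Ω P F' (fun t ω => (l : ℝ)⁻¹ * B (l ^ 2 * t) ω) hB' N hNN0 (ε / l) (by positivity)
    hεl (n / l ^ 2) (z / (l : ℝ)) ?_ ?_
  · refine (mul_le_mul_right h7 _).trans ?_
    rw [← ENNReal.ofReal_mul hdl.le]
    refine ENNReal.ofReal_le_ofReal ?_
    rw [G0_div z hl0 (by linarith)]
    have hexp : Real.exp (-(2 * N)) = (Real.log (1 / r) ^ 2)⁻¹ := by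
      have hlog : 0 < Real.log (1 / r) := (Real.exp_pos 1).trans_le (log_one_div_ge hr hrm)
      have : Real.exp N = Real.log (1 / r) := by rw [hNdef, L, Real.exp_log hlog]
      rw [← this, ← Real.exp_nat_mul, ← Real.exp_neg]
      congr 1
    have hl2 : (l : ℝ) ^ dimParam κ * (l : ℝ) ^ (1 - κ / 8) = (l : ℝ) ^ 2 := by
      rw [← Real.rpow_add hl0, ← Real.rpow_natCast]
      congr 1
      unfold dimParam; push_cast; ring
    have hl2N : (l : ℝ) ^ 2 * N = r ^ 2 := by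
      rw [hlr, div_pow, hsN2]; field_simp
    have hG := G0_le_one hκ hκ8 hz1
    have hG0 : 0 ≤ G0 κ z := G0_nonneg (by linarith)
    calc (l : ℝ) ^ dimParam κ * (C3 * Real.exp (-(2 * N)) * N * ((l : ℝ) ^ (1 - κ / 8) * G0 κ z))
        = C3 * Real.exp (-(2 * N)) * (((l : ℝ) ^ dimParam κ * (l : ℝ) ^ (1 - κ / 8)) * N) *
            G0 κ z := by ring
      _ = C3 * (Real.log (1 / r) ^ 2)⁻¹ * r ^ 2 * G0 κ z := by rw [hl2, hl2N, hexp]
      _ ≤ C3 * (Real.log (1 / r) ^ 2)⁻¹ * r ^ 2 * 1 := by gcongr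
      _ = _ := by ring
  · rw [him, le_div_iff₀ hl0, hlr]
    have : K * Real.sqrt N * (r / Real.sqrt N) = K * r := by field_simp
    rw [this]
    have h1 : K * r ≤ K * (1 / K) := by gcongr
    have h2 : K * (1 / K) = 1 := by field_simp
    linarith
  · rw [him, hnz, mul_div_assoc']
    have := norm_le_of_mem hz
    exact div_le_div_of_nonneg_right (by linarith) hl0.le


/-- the content measure of `LBDefs` as a content functional. -/
noncomputable def cfMu (κ c1 : ℝ) : CF := fun ε W t V => LB.mu κ ε c1 W t V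

theorem bmScale : BMScale.{u} := fun _ _ _ _ _ _ hB _ hl => ⟨_, LBScale.isBM_scl hB hl⟩

theorem scales_mu (κ c1 : ℝ) : Scales κ (cfMu κ c1) := by
  intro l ε t r W z _ hl _ _
  exact LBScale.mu_closedBall_scl hl z r

/-- the tail field of `LBIn`, from `TailN`. -/
theorem tail_of {κ c1 : ℝ} (hκ : 0 < κ) (hκ8 : κ < 8)
    (hT : ∃ (Cμ C M K N0 : ℝ), 0 < Cμ ∧ 0 < C ∧ 0 < M ∧ 1 ≤ K ∧ 1 ≤ N0 ∧
      ∀ (Ω : Type u) [MeasurableSpace Ω] (P : Measure Ω) [IsProbabilityMeasure P]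
        (F : Filtration ℝ≥0 (inferInstance : MeasurableSpace Ω)) (B : ℝ≥0 → Ω → ℝ),
        OS.IsBM F B P → ∀ N : ℝ, N0 ≤ N → ∀ ε : ℝ, 0 < ε → M * ε ≤ 1 → ∀ T : ℝ≥0, ∀ w0 : ℂ,
        K * Real.sqrt N ≤ w0.im → ‖w0‖ ≤ 2 * w0.im →
        ∫⁻ ω in {ω | ENNReal.ofReal (Cμ * N) <
              LB.mu κ ε c1 (driving κ B ω) T (closedBall w0 (Real.sqrt N))},
            LB.mu κ ε c1 (driving κ B ω) T (closedBall w0 (Real.sqrt N)) ∂P ≤
          ENNReal.ofReal (C * Real.exp (-(2 * N)) * N * UB.green κ w0)) :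
    ∃ M Cm C3 r1 : ℝ, 0 < M ∧ 0 < r1 ∧ ∀ (Ω : Type u) [MeasurableSpace Ω] (P : Measure Ω)
      [IsProbabilityMeasure P]
      (F : Filtration ℝ≥0 (inferInstance : MeasurableSpace Ω)) (B : ℝ≥0 → Ω → ℝ)
      (_ : IsBM F B P) (n : ℝ≥0) (ε : ℝ) (_ : 0 < ε),
      ∀ z ∈ Q0, ∀ r, 0 < r → r ≤ r1 → M * ε * Real.sqrt (L r) ≤ r →
        ∫⁻ ω in {ω | ENNReal.ofReal (Cm * gaugeReal κ r) <
              LB.mu κ ε c1 (driving κ B ω) n (closedBall z r)},
            LB.mu κ ε c1 (driving κ B ω) n (closedBall z r) ∂P ≤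
          ENNReal.ofReal (C3 * (Real.log (1 / r) ^ 2)⁻¹ * r ^ 2) := by
  obtain ⟨Cμ, C, M, K, N0, h1, h2, h3, h4, h5, h6⟩ := hT
  have h7 : NormG.{u} κ (cfMu κ c1) Cμ C M K N0 := by
    intro Ω _ P _ F B hB N hN ε hε hM t w0 hK hw
    exact h6 Ω P F B hB N hN ε hε hM t w0 hK hw
  obtain ⟨r1, hr1, -, h8⟩ := ball_tailG hκ hκ8 bmScale (scales_mu κ c1) h2 h3 (by linarith) h7
  exact ⟨M, Cμ, C, r1, h3, hr1, fun Ω _ P _ F B hB n ε hε => h8 Ω P F B hB ε hε n⟩

/-- the tail field of `LBIn`, from 310's frozen `Frost7`. -/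
theorem tail_of_frost7 {κ c1 : ℝ} (hκ : 0 < κ) (hκ8 : κ < 8) (hT : LBS.Frost7.{u} κ c1) :
    ∃ M Cm C3 r1 : ℝ, 0 < M ∧ 0 < r1 ∧ ∀ (Ω : Type u) [MeasurableSpace Ω] (P : Measure Ω)
      [IsProbabilityMeasure P]
      (F : Filtration ℝ≥0 (inferInstance : MeasurableSpace Ω)) (B : ℝ≥0 → Ω → ℝ)
      (_ : IsBM F B P) (n : ℝ≥0) (ε : ℝ) (_ : 0 < ε),
      ∀ z ∈ Q0, ∀ r, 0 < r → r ≤ r1 → M * ε * Real.sqrt (L r) ≤ r →
        ∫⁻ ω in {ω | ENNReal.ofReal (Cm * gaugeReal κ r) <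
              LB.mu κ ε c1 (driving κ B ω) n (closedBall z r)},
            LB.mu κ ε c1 (driving κ B ω) n (closedBall z r) ∂P ≤
          ENNReal.ofReal (C3 * (Real.log (1 / r) ^ 2)⁻¹ * r ^ 2) := by
  obtain ⟨Cμ, C, K, ε0, h1, h2, h4, h5, h6⟩ := hT (1 / 2) (by norm_num)
  refine tail_of hκ hκ8 ⟨Cμ, C, 1 / ε0, max K 1, 1, h1, h2, by positivity, le_max_right _ _,
    le_rfl, ?_⟩
  intro Ω _ P _ F B hB N hN ε hε hM T w0 hK hw
  have h7 := h6 N w0 ε hN ((mul_le_mul_of_nonneg_right (le_max_left _ _)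
    (Real.sqrt_nonneg _)).trans hK) (by linarith) hε ?_ Ω P F B hB T
  · have e1 : -2 * N = -(2 * N) := by ring
    rw [e1] at h7
    exact h7
  · rwa [one_div, inv_mul_le_one₀ h5] at hM

end Crest.Agent.R162.LB8s
end

-- ▼ part R162/Ga1
section

/-!
Row 162 (S0243), sub-node U9-LIM: small gauge calculus and the limit mass distribution
principle for the gauge measure of a compact set.
-/

namespace Crest.Agent.R162.Ga

open MeasureTheory Filter Topology Set
open Crest.ProbabilityR.Loewner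
open scoped ENNReal

noncomputable section

variable {κ : ℝ}

/-- The cutoff radius. -/
def e0 : ℝ := Real.exp (-Real.exp 1)

lemma e0_pos : 0 < e0 := Real.exp_pos _


/-- iterated logarithm at the cut-off radius -/
def LL (x : ℝ) : ℝ := Real.log (Real.log (1 / x))

lemma log_inv_ge {x : ℝ} (hx : 0 < x) (hx0 : x ≤ e0) : Real.exp 1 ≤ Real.log (1 / x) := by
  have h1 : Real.exp (Real.exp 1) ≤ 1 / x := by
    rw [le_div_iff₀ hx]
    calc Real.exp (Real.exp 1) * x ≤ Real.exp (Real.exp 1) * e0 := by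
          exact mul_le_mul_of_nonneg_left hx0 (Real.exp_pos _).le
      _ = 1 := by
          unfold e0
          rw [← Real.exp_add]; simp
  calc Real.exp 1 = Real.log (Real.exp (Real.exp 1)) := by rw [Real.log_exp]
    _ ≤ Real.log (1 / x) := Real.log_le_log (Real.exp_pos _) h1

lemma LL_ge_one {x : ℝ} (hx : 0 < x) (hx0 : x ≤ e0) : 1 ≤ LL x := by
  have h := log_inv_ge hx hx0
  calc (1:ℝ) = Real.log (Real.exp 1) := by rw [Real.log_exp]
    _ ≤ LL x := Real.log_le_log (Real.exp_pos _) h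

lemma LL_anti {x y : ℝ} (hx : 0 < x) (hxy : x ≤ y) (hy0 : y ≤ e0) : LL y ≤ LL x := by
  have hy : 0 < y := hx.trans_le hxy
  have h := log_inv_ge hy hy0
  refine Real.log_le_log ((Real.exp_pos _).trans_le h) ?_
  refine Real.log_le_log (by positivity) ?_
  exact one_div_le_one_div_of_le hx hxy

lemma gaugeReal_eq (κ x : ℝ) :
    gaugeReal κ x = (min x e0) ^ dimParam κ * LL (min x e0) ^ ((2 - dimParam κ) / 2) := rfl

lemma min_pos {x : ℝ} (hx : 0 < x) : 0 < min x e0 := lt_min hx e0_pos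

lemma gaugeReal_pos {x : ℝ} (hx : 0 < x) : 0 < gaugeReal κ x := by
  rw [gaugeReal_eq]
  have h1 := min_pos hx
  have h2 := LL_ge_one h1 (min_le_right _ _)
  positivity

lemma dimParam_pos (hκ : 0 < κ) : 1 < dimParam κ := by
  unfold dimParam; linarith

lemma gaugeReal_zero (hκ : 0 < κ) : gaugeReal κ 0 = 0 := by
  rw [gaugeReal_eq]
  have h : min (0:ℝ) e0 = 0 := min_eq_left e0_pos.le
  rw [h, Real.zero_rpow (by have := dimParam_pos hκ; linarith), zero_mul]

lemma gaugeReal_nonneg (hκ : 0 < κ) {x : ℝ} (hx : 0 ≤ x) : 0 ≤ gaugeReal κ x := by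
  rcases hx.eq_or_lt with h | h
  · rw [← h, gaugeReal_zero hκ]
  · exact (gaugeReal_pos h).le

lemma LL_ratio {x y : ℝ} (hx : 0 < x) (hxy : x ≤ y) (hy0 : y ≤ e0) : LL x ≤ (y / x) * LL y := by
  have hy : 0 < y := hx.trans_le hxy
  set s := Real.log (1 / x) with hs
  set t := Real.log (1 / y) with ht
  have htge : Real.exp 1 ≤ t := log_inv_ge hy hy0
  have hsge : Real.exp 1 ≤ s := log_inv_ge hx (hxy.trans hy0)
  have he1 : (1:ℝ) < Real.exp 1 := by
    have := Real.add_one_lt_exp (x := 1) (by norm_num); linarith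
  have htpos : 0 < t := (Real.exp_pos _).trans_le htge
  have hspos : 0 < s := (Real.exp_pos _).trans_le hsge
  have hts : t ≤ s := by
    rw [hs, ht]
    exact Real.log_le_log (by positivity) (one_div_le_one_div_of_le hx hxy)
  have hanti := Real.log_div_self_antitoneOn (show t ∈ {x | Real.exp 1 ≤ x} from htge)
    (show s ∈ {x | Real.exp 1 ≤ x} from hsge) hts
  have hr : 1 ≤ y / x := by rw [le_div_iff₀ hx]; linarith
  have hst : s = t + Real.log (y / x) := by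
    rw [hs, ht, Real.log_div (by positivity) (by positivity),
      Real.log_div (by positivity) (by positivity), Real.log_div (by positivity) (by positivity)]
    ring
  have hlog : Real.log (y / x) ≤ y / x - 1 := by
    have := Real.log_le_sub_one_of_pos (show 0 < y / x by positivity); linarith
  have hsr : s ≤ t * (y / x) := by
    rw [hst]
    nlinarith
  have hlt : 0 ≤ Real.log t := Real.log_nonneg (by linarith)
  have h1 : Real.log s ≤ (Real.log t / t) * s := by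
    have : Real.log s = (Real.log s / s) * s := by field_simp
    rw [this]
    exact mul_le_mul_of_nonneg_right hanti hspos.le
  show Real.log s ≤ (y / x) * Real.log t
  calc Real.log s ≤ (Real.log t / t) * s := h1
    _ ≤ (Real.log t / t) * (t * (y / x)) := by
        exact mul_le_mul_of_nonneg_left hsr (by positivity)
    _ = (y / x) * Real.log t := by field_simp

lemma gauge_mono_aux (hκ : 0 < κ) (hκ8 : κ < 8) {x y : ℝ} (hx : 0 < x) (hxy : x ≤ y)
    (hy0 : y ≤ e0) :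
    x ^ dimParam κ * LL x ^ ((2 - dimParam κ) / 2) ≤
      y ^ dimParam κ * LL y ^ ((2 - dimParam κ) / 2) := by
  have hy : 0 < y := hx.trans_le hxy
  have hd := dimParam_pos hκ
  have hd2 : dimParam κ < 2 := by unfold dimParam; linarith
  have hp : 0 ≤ (2 - dimParam κ) / 2 := by linarith
  have h1 := LL_ratio hx hxy hy0
  have hLx := LL_ge_one hx (hxy.trans hy0)
  have hLy := LL_ge_one hy hy0
  have hr : 1 ≤ y / x := by rw [le_div_iff₀ hx]; linarith
  calc x ^ dimParam κ * LL x ^ ((2 - dimParam κ) / 2)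
      ≤ x ^ dimParam κ * ((y / x) * LL y) ^ ((2 - dimParam κ) / 2) := by
        refine mul_le_mul_of_nonneg_left ?_ (by positivity)
        exact Real.rpow_le_rpow (by linarith) h1 hp
    _ = x ^ dimParam κ * ((y / x) ^ ((2 - dimParam κ) / 2) * LL y ^ ((2 - dimParam κ) / 2)) := by
        rw [Real.mul_rpow (by positivity) (by linarith)]
    _ ≤ x ^ dimParam κ * ((y / x) ^ dimParam κ * LL y ^ ((2 - dimParam κ) / 2)) := by
        refine mul_le_mul_of_nonneg_left ?_ (by positivity)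
        refine mul_le_mul_of_nonneg_right ?_ (by positivity)
        exact Real.rpow_le_rpow_of_exponent_le hr (by linarith)
    _ = y ^ dimParam κ * LL y ^ ((2 - dimParam κ) / 2) := by
        rw [← mul_assoc, ← Real.mul_rpow hx.le (by positivity)]
        congr 2
        field_simp

lemma gaugeReal_mono (hκ : 0 < κ) (hκ8 : κ < 8) {x y : ℝ} (hx : 0 ≤ x) (hxy : x ≤ y) :
    gaugeReal κ x ≤ gaugeReal κ y := by
  rcases hx.eq_or_lt with h | h
  · rw [← h, gaugeReal_zero hκ]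
    exact gaugeReal_nonneg hκ (hx.trans hxy)
  · rw [gaugeReal_eq, gaugeReal_eq]
    exact gauge_mono_aux hκ hκ8 (min_pos h) (min_le_min_right _ hxy) (min_le_right _ _)

/-- Doubling. -/
lemma gaugeReal_mul_le (hκ : 0 < κ) (hκ8 : κ < 8) {C x : ℝ} (hC : 1 ≤ C) (hx : 0 ≤ x) :
    gaugeReal κ (C * x) ≤ C ^ dimParam κ * gaugeReal κ x := by
  rcases hx.eq_or_lt with h | h
  · rw [← h, mul_zero, gaugeReal_zero hκ, mul_zero]
  have hd := dimParam_pos hκ
  have hd2 : dimParam κ < 2 := by unfold dimParam; linarith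
  have hp : 0 ≤ (2 - dimParam κ) / 2 := by linarith
  have hxC : x ≤ C * x := by nlinarith
  have hm1 : min x e0 ≤ min (C * x) e0 := min_le_min_right _ hxC
  have hm2 : min (C * x) e0 ≤ C * min x e0 := by
    rcases le_total x e0 with h1 | h1
    · rw [min_eq_left h1]; exact min_le_left _ _
    · rw [min_eq_right h1]
      refine (min_le_right _ _).trans ?_
      have := e0_pos
      nlinarith
  have hmp := min_pos h
  have hmp' : 0 < min (C * x) e0 := hmp.trans_le hm1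
  have hLa := LL_anti hmp hm1 (min_le_right _ _)
  have hL1 := LL_ge_one hmp (min_le_right _ _)
  have hL2 := LL_ge_one hmp' (min_le_right _ _)
  rw [gaugeReal_eq, gaugeReal_eq, ← mul_assoc, ← Real.mul_rpow (by linarith) hmp.le]
  refine mul_le_mul ?_ ?_ (by positivity) (by positivity)
  · exact Real.rpow_le_rpow hmp'.le hm2 (by linarith)
  · exact Real.rpow_le_rpow (by linarith) hLa hp

lemma gaugeReal_two_mul_le (hκ : 0 < κ) (hκ8 : κ < 8) {x : ℝ} (hx : 0 ≤ x) :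
    gaugeReal κ (2 * x) ≤ 4 * gaugeReal κ x := by
  have hd2 : dimParam κ < 2 := by unfold dimParam; linarith
  refine (gaugeReal_mul_le hκ hκ8 (by norm_num) hx).trans ?_
  refine mul_le_mul_of_nonneg_right ?_ (gaugeReal_nonneg hκ hx)
  calc (2:ℝ) ^ dimParam κ ≤ 2 ^ (2:ℝ) := Real.rpow_le_rpow_of_exponent_le (by norm_num) hd2.le
    _ = 4 := by norm_num

/-- upper bound `φ(x) ≤ x ^ (d/2)`-type: `φ x ≤ x ^ d * (1/x)^p'`; here we only need `φ → 0`. -/
lemma gaugeReal_le_self (hκ : 0 < κ) (hκ8 : κ < 8) {x : ℝ} (hx : 0 < x) (hx0 : x ≤ e0) :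
    gaugeReal κ x ≤ x ^ ((3 * dimParam κ - 2) / 2) := by
  have hd := dimParam_pos hκ
  have hd2 : dimParam κ < 2 := by unfold dimParam; linarith
  have hp : 0 ≤ (2 - dimParam κ) / 2 := by linarith
  have hL := LL_ge_one hx hx0
  have hlog := log_inv_ge hx hx0
  have hlp : 0 < Real.log (1 / x) := (Real.exp_pos _).trans_le hlog
  have h1 : LL x ≤ 1 / x := by
    have a := Real.log_le_sub_one_of_pos hlp
    have b := Real.log_le_sub_one_of_pos (show 0 < 1 / x by positivity)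
    unfold LL
    linarith
  rw [gaugeReal_eq, min_eq_left hx0]
  calc x ^ dimParam κ * LL x ^ ((2 - dimParam κ) / 2)
      ≤ x ^ dimParam κ * (1 / x) ^ ((2 - dimParam κ) / 2) := by
        refine mul_le_mul_of_nonneg_left ?_ (by positivity)
        exact Real.rpow_le_rpow (by linarith) h1 hp
    _ = x ^ ((3 * dimParam κ - 2) / 2) := by
        rw [one_div, Real.inv_rpow hx.le, ← Real.rpow_neg hx.le, ← Real.rpow_add hx]
        congr 1
        ring

lemma gaugeReal_tendsto_zero (hκ : 0 < κ) (hκ8 : κ < 8) :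
    Tendsto (gaugeReal κ) (𝓝[>] 0) (𝓝 0) := by
  have hd := dimParam_pos hκ
  have hd2 : dimParam κ < 2 := by unfold dimParam; linarith
  have hq : 0 < (3 * dimParam κ - 2) / 2 := by linarith
  have h1 : Tendsto (fun x : ℝ => x ^ ((3 * dimParam κ - 2) / 2)) (𝓝[>] 0) (𝓝 0) := by
    have := (Real.continuousAt_rpow_const 0 ((3 * dimParam κ - 2) / 2) (Or.inr hq.le)).tendsto
    rw [Real.zero_rpow hq.ne'] at this
    exact this.mono_left nhdsWithin_le_nhds
  refine tendsto_of_tendsto_of_tendsto_of_le_of_le' tendsto_const_nhds h1 ?_ ?_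
  · filter_upwards [self_mem_nhdsWithin] with x hx using (gaugeReal_pos hx).le
  · have : Iio e0 ∈ 𝓝[>] (0:ℝ) := mem_nhdsWithin_of_mem_nhds (Iio_mem_nhds e0_pos)
    filter_upwards [self_mem_nhdsWithin, this] with x hx hx0
    exact gaugeReal_le_self hκ hκ8 hx (le_of_lt hx0)

/-- For any `η > 0` there are arbitrarily small radii with gauge at most `η`. -/
lemma exists_small (hκ : 0 < κ) (hκ8 : κ < 8) {η r : ℝ} (hη : 0 < η) (hr : 0 < r) :
    ∃ x, 0 < x ∧ x < r ∧ gaugeReal κ x ≤ η := by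
  have h1 := (gaugeReal_tendsto_zero hκ hκ8).eventually (Iio_mem_nhds hη)
  have h2 : Ioo (0:ℝ) r ∈ 𝓝[>] (0:ℝ) := Ioo_mem_nhdsGT hr
  obtain ⟨x, hx1, hx2⟩ := (h1.and h2).exists
  exact ⟨x, hx2.1, hx2.2, le_of_lt hx1⟩

/-- **Limit mass distribution principle** (one-measure-per-scale form).  `K` compact; for every
`δ > 0` there is a measure `ν` of mass at least `c`, carried by the `δ`-thickening of `K`, with
`ν (closedBall x r) ≤ C φ(r)` for `x ∈ K` and `δ ≤ r ≤ r0`.  Then the gauge measure of `K` is at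
least `c / (4 C)`. -/
theorem gaugeMeasure_ge_of_approx (hκ : 0 < κ) (hκ8 : κ < 8) {K : Set ℂ} (hK : IsCompact K)
    {c C r0 : ℝ} (hC : 0 < C) (hr0 : 0 < r0)
    (h : ∀ δ : ℝ, 0 < δ → ∃ ν : Measure ℂ, ENNReal.ofReal c ≤ ν univ ∧
      ν (Metric.thickening δ K)ᶜ = 0 ∧
      ∀ x ∈ K, ∀ r : ℝ, δ ≤ r → r ≤ r0 →
        ν (Metric.closedBall x r) ≤ ENNReal.ofReal (C * gaugeReal κ r)) :
    ENNReal.ofReal (c / (4 * C)) ≤ gaugeMeasure κ K := by
  by_contra hcon
  push Not at hcon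
  -- choose a cover
  have hr4 : (0 : ℝ≥0∞) < ENNReal.ofReal (r0 / 4) := by
    rw [ENNReal.ofReal_pos]; positivity
  have h1 : (⨅ (t : ℕ → Set ℂ) (_ : K ⊆ iUnion t)
      (_ : ∀ n, Metric.ediam (t n) ≤ ENNReal.ofReal (r0 / 4)),
        ∑' n, ⨆ _ : (t n).Nonempty, gaugeExt κ (Metric.ediam (t n))) <
        ENNReal.ofReal (c / (4 * C)) := by
    refine lt_of_le_of_lt ?_ hcon
    unfold gaugeMeasure
    rw [Measure.mkMetric_apply]
    exact le_iSup₂_of_le _ hr4 le_rfl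
  simp only [iInf_lt_iff] at h1
  obtain ⟨t, htK, htd, hsum⟩ := h1
  set S := ∑' n, ⨆ _ : (t n).Nonempty, gaugeExt κ (Metric.ediam (t n)) with hS
  obtain ⟨η, hη0, hη⟩ : ∃ η : ℝ≥0∞, η ≠ 0 ∧ S + η < ENNReal.ofReal (c / (4 * C)) := by
    have hsub : 0 < ENNReal.ofReal (c / (4 * C)) - S := tsub_pos_of_lt hsum
    obtain ⟨η, h0, h2⟩ := exists_between hsub
    refine ⟨η, h0.ne', ?_⟩
    have := ENNReal.add_lt_add_left (a := S) (ne_top_of_lt hsum) h2
    rwa [add_tsub_cancel_of_le hsum.le] at this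
  obtain ⟨η', hη'0, hη'sum⟩ := ENNReal.exists_pos_sum_of_countable hη0 ℕ
  have hex : ∀ n, ∃ x, 0 < x ∧ x < r0 / 4 ∧ gaugeReal κ x ≤ η' n := fun n =>
    exists_small hκ hκ8 (hη'0 n) (by positivity)
  choose x hx0 hxr hxη using hex
  -- the radii
  set D : ℕ → ℝ := fun n => (Metric.ediam (t n)).toReal with hD
  have hDfin : ∀ n, Metric.ediam (t n) ≠ ⊤ := fun n =>
    ne_top_of_le_ne_top ENNReal.ofReal_ne_top (htd n)
  have hDr : ∀ n, D n ≤ r0 / 4 := fun n => by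
    have := ENNReal.toReal_mono ENNReal.ofReal_ne_top (htd n)
    rwa [ENNReal.toReal_ofReal (by positivity)] at this
  have hD0 : ∀ n, 0 ≤ D n := fun n => ENNReal.toReal_nonneg
  set ρ : ℕ → ℝ := fun n => 2 * max (D n) (x n) with hρ
  have hρ0 : ∀ n, 0 < ρ n := fun n => by
    have := lt_max_of_lt_right (b := D n) (hx0 n)
    simp only [hρ]; linarith
  have hρr : ∀ n, ρ n ≤ r0 := fun n => by
    have : max (D n) (x n) ≤ r0 / 4 := max_le (hDr n) (hxr n).le
    simp only [hρ]; linarith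
  have hρφ : ∀ n, gaugeReal κ (ρ n) ≤ 4 * (gaugeReal κ (D n) + η' n) := fun n => by
    refine (gaugeReal_two_mul_le hκ hκ8 ((hD0 n).trans (le_max_left _ _))).trans ?_
    refine mul_le_mul_of_nonneg_left ?_ (by norm_num)
    have hg0 := gaugeReal_nonneg hκ (hD0 n)
    rcases max_cases (D n) (x n) with h | h
    · rw [h.1]; have : (0:ℝ) ≤ η' n := (η' n).2; linarith
    · rw [h.1]; linarith [hxη n]
  -- centres
  let J := {n : ℕ // (t n ∩ K).Nonempty}
  let y : J → ℂ := fun j => j.2.some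
  have hyK : ∀ j : J, y j ∈ K := fun j => j.2.some_mem.2
  have hyt : ∀ j : J, y j ∈ t j := fun j => j.2.some_mem.1
  have hcov : K ⊆ ⋃ j : J, Metric.ball (y j) (ρ j) := by
    intro z hz
    obtain ⟨n, hn⟩ := mem_iUnion.1 (htK hz)
    refine mem_iUnion.2 ⟨⟨n, z, hn, hz⟩, ?_⟩
    rw [Metric.mem_ball]
    set j : J := ⟨n, z, hn, hz⟩
    have h2 : dist z (y j) ≤ D n := by
      have := Metric.edist_le_ediam_of_mem hn (hyt j)
      rw [edist_dist] at this
      exact (ENNReal.ofReal_le_iff_le_toReal (hDfin n)).1 this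
    have h3 : D n ≤ max (D n) (x n) := le_max_left _ _
    have h4 := lt_max_of_lt_right (b := D n) (hx0 n)
    have h5 : ρ (j : ℕ) = 2 * max (D n) (x n) := rfl
    rw [h5]; linarith
  obtain ⟨F, hF⟩ := hK.elim_finite_subcover _ (fun j => Metric.isOpen_ball) hcov
  obtain ⟨δ1, hδ1, hthick⟩ := hK.exists_thickening_subset_open
    (isOpen_biUnion fun j _ => Metric.isOpen_ball) hF
  obtain ⟨δ2, hδ2, hδ2F⟩ : ∃ δ2 : ℝ, 0 < δ2 ∧ ∀ j ∈ F, δ2 ≤ ρ (j : ℕ) := by
    rcases F.eq_empty_or_nonempty with h0 | h0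
    · exact ⟨1, one_pos, by simp [h0]⟩
    · obtain ⟨j0, hj0, hmin⟩ := F.exists_min_image (fun j : J => ρ (j : ℕ)) h0
      exact ⟨ρ j0, hρ0 _, hmin⟩
  obtain ⟨ν, hmass, hsupp, hball⟩ := h (min δ1 δ2) (lt_min hδ1 hδ2)
  have hle1 : ν univ ≤ ν (⋃ j ∈ F, Metric.ball (y j) (ρ (j : ℕ))) := by
    have hsub : (univ : Set ℂ) ⊆ (Metric.thickening (min δ1 δ2) K)ᶜ ∪
        ⋃ j ∈ F, Metric.ball (y j) (ρ (j : ℕ)) := by
      intro z _
      by_cases hz : z ∈ Metric.thickening (min δ1 δ2) K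
      · exact Or.inr (hthick (Metric.thickening_mono (min_le_left _ _) _ hz))
      · exact Or.inl hz
    refine (measure_mono hsub).trans ((measure_union_le _ _).trans ?_)
    rw [hsupp, zero_add]
  have hle2 : ν (⋃ j ∈ F, Metric.ball (y j) (ρ (j : ℕ))) ≤
      ∑ j ∈ F, ENNReal.ofReal (4 * C) * (gaugeExt κ (Metric.ediam (t (j : ℕ))) + η' (j : ℕ)) := by
    refine (measure_biUnion_finset_le _ _).trans (Finset.sum_le_sum fun j hj => ?_)
    refine (measure_mono Metric.ball_subset_closedBall).trans ?_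
    refine (hball (y j) (hyK j) (ρ j) ((min_le_right _ _).trans (hδ2F j hj)) (hρr j)).trans ?_
    have e1 : gaugeExt κ (Metric.ediam (t (j : ℕ))) = ENNReal.ofReal (gaugeReal κ (D j)) := rfl
    have e2 : ((η' (j : ℕ) : NNReal) : ℝ≥0∞) = ENNReal.ofReal ((η' (j : ℕ) : NNReal) : ℝ) :=
      (ENNReal.ofReal_coe_nnreal).symm
    rw [e1, e2, ← ENNReal.ofReal_add (gaugeReal_nonneg hκ (hD0 _)) (NNReal.coe_nonneg _),
      ← ENNReal.ofReal_mul (by positivity)]
    refine ENNReal.ofReal_le_ofReal ?_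
    calc C * gaugeReal κ (ρ j) ≤ C * (4 * (gaugeReal κ (D j) + η' (j : ℕ))) :=
          mul_le_mul_of_nonneg_left (hρφ _) hC.le
      _ = 4 * C * (gaugeReal κ (D j) + η' (j : ℕ)) := by ring
  have hle3 : ∑ j ∈ F, ENNReal.ofReal (4 * C) *
      (gaugeExt κ (Metric.ediam (t (j : ℕ))) + η' (j : ℕ)) ≤ ENNReal.ofReal (4 * C) * (S + η) := by
    rw [← Finset.mul_sum]
    refine mul_le_mul_right ?_ _
    rw [Finset.sum_add_distrib]
    refine add_le_add ?_ ?_
    · rw [hS]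
      have hinj : Function.Injective (fun j : J => (j : ℕ)) := Subtype.val_injective
      calc ∑ j ∈ F, gaugeExt κ (Metric.ediam (t (j : ℕ)))
          = ∑ j ∈ F, ⨆ _ : (t (j : ℕ)).Nonempty, gaugeExt κ (Metric.ediam (t (j : ℕ))) := by
            refine Finset.sum_congr rfl fun j _ => ?_
            have hne : (t (j : ℕ)).Nonempty := ⟨y j, hyt j⟩
            exact (iSup_pos (f := fun _ => gaugeExt κ (Metric.ediam (t (j : ℕ)))) hne).symm
        _ = ∑ n ∈ F.map ⟨_, hinj⟩, ⨆ _ : (t n).Nonempty, gaugeExt κ (Metric.ediam (t n)) := by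
            rw [Finset.sum_map]; rfl
        _ ≤ _ := ENNReal.sum_le_tsum _
    · have hinj : Function.Injective (fun j : J => (j : ℕ)) := Subtype.val_injective
      calc ∑ j ∈ F, ((η' (j : ℕ) : NNReal) : ℝ≥0∞)
          = ∑ n ∈ F.map ⟨_, hinj⟩, ((η' n : NNReal) : ℝ≥0∞) := by
            rw [Finset.sum_map]; rfl
        _ ≤ _ := (ENNReal.sum_le_tsum _).trans hη'sum.le
  have hfin : ENNReal.ofReal c < ENNReal.ofReal c := by
    calc ENNReal.ofReal c ≤ ν univ := hmass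
      _ ≤ ENNReal.ofReal (4 * C) * (S + η) := hle1.trans (hle2.trans hle3)
      _ < ENNReal.ofReal (4 * C) * ENNReal.ofReal (c / (4 * C)) := by
          refine (ENNReal.mul_lt_mul_iff_right ?_ ENNReal.ofReal_ne_top).2 hη
          exact (ENNReal.ofReal_pos.2 (by positivity)).ne'
      _ = ENNReal.ofReal c := by
          rw [← ENNReal.ofReal_mul (by positivity)]
          congr 1
          field_simp
  exact lt_irrefl _ hfin


end

end Crest.Agent.R162.Ga
end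

-- ▼ part R162/LB9a
section

/-!
Row 162 (S0243), node LB9a (measure side): the compact set `KK W n Q0` of points of `Q0` near which
the conformal radius gets arbitrarily small before time `n`; finite measures at scales `ε → 0`
carried by points of small conformal radius, with mass bounded below and a Frostman bound, give
positive gauge measure of `KK W n Q0`.
-/

set_option autoImplicit false

open Set MeasureTheory Filter Topology
open Crest.ProbabilityR.Loewner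

namespace Crest.Agent.R162.LB9a

open Crest.Agent.R162.FL Crest.Agent.R162.OP

/-- points of `Q0` of conformal radius at most `ε` at some time `≤ n` -/
def SS (W : ℝ → ℝ) (n : ℝ) (Q0 : Set ℂ) (ε : ℝ) : Set ℂ :=
  {z | z ∈ Q0 ∧ ∃ u ∈ Icc (0 : ℝ) n, Alive W z u ∧ ups W u z ≤ ε}

/-- points of `Q0` near which the conformal radius gets arbitrarily small before time `n` -/
def KK (W : ℝ → ℝ) (n : ℝ) (Q0 : Set ℂ) : Set ℂ :=
  {z | z ∈ Q0 ∧ ∀ ε > 0, ∃ z', ‖z' - z‖ < ε ∧ ∃ u ∈ Icc (0 : ℝ) n, Alive W z' u ∧ ups W u z' ≤ ε}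

variable {W : ℝ → ℝ} {n : ℝ} {Q0 : Set ℂ} {κ : ℝ}

lemma KK_subset : KK W n Q0 ⊆ Q0 := fun _ h => h.1


lemma SS_mono {ε ε' : ℝ} (h : ε ≤ ε') : SS W n Q0 ε ⊆ SS W n Q0 ε' := by
  rintro z ⟨hz, u, hu, ha, hle⟩
  exact ⟨hz, u, hu, ha, hle.trans h⟩


lemma KK_isClosed (hQ : IsClosed Q0) : IsClosed (KK W n Q0) := by
  rw [← isSeqClosed_iff_isClosed]
  intro x z hx hz
  refine ⟨hQ.isSeqClosed (fun k => (hx k).1) hz, fun ε hε => ?_⟩
  obtain ⟨k, hk⟩ := ((Metric.tendsto_nhds.1 hz (ε / 2) (half_pos hε))).exists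
  obtain ⟨z', h1, u, hu, ha, hle⟩ := (hx k).2 (ε / 2) (half_pos hε)
  refine ⟨z', ?_, u, hu, ha, hle.trans (by linarith)⟩
  rw [dist_eq_norm] at hk
  calc ‖z' - z‖ = ‖(z' - x k) + (x k - z)‖ := by ring_nf
    _ ≤ ‖z' - x k‖ + ‖x k - z‖ := norm_add_le _ _
    _ < ε := by linarith

/-- (1) `KK` is compact -/
theorem KK_isCompact (hQ : IsCompact Q0) : IsCompact (KK W n Q0) :=
  hQ.of_isClosed_subset (KK_isClosed hQ.isClosed) KK_subset

/-- (2) points of `Q0` of small conformal radius are close to `KK` -/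
theorem KK_supp' (hQ : IsCompact Q0) {δ : ℝ} (hδ : 0 < δ) :
    ∃ ε0 > 0, SS W n Q0 ε0 ⊆ Metric.thickening δ (KK W n Q0) := by
  by_contra hcon
  push Not at hcon
  have hcon' : ∀ k : ℕ, ∃ z ∈ SS W n Q0 (1 / ((k : ℝ) + 1)), z ∉ Metric.thickening δ (KK W n Q0) :=
    fun k => not_subset.1 (hcon _ (by positivity))
  choose x hx hxn using hcon'
  obtain ⟨z, hz, φ, hφ, hlim⟩ := hQ.tendsto_subseq fun k => (hx k).1
  have hzK : z ∈ KK W n Q0 := by
    refine ⟨hz, fun ε hε => ?_⟩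
    have h1 : ∀ᶠ k in atTop, ‖x (φ k) - z‖ < ε := by
      have := Metric.tendsto_nhds.1 hlim ε hε
      simpa [dist_eq_norm] using this
    have h2 : ∀ᶠ k in atTop, 1 / ((φ k : ℝ) + 1) ≤ ε := by
      have := (tendsto_one_div_add_atTop_nhds_zero_nat.comp hφ.tendsto_atTop).eventually
        (ge_mem_nhds hε)
      simpa using this
    obtain ⟨k, hk1, hk2⟩ := (h1.and h2).exists
    obtain ⟨_, u, hu, ha, hle⟩ := hx (φ k)
    exact ⟨x (φ k), hk1, u, hu, ha, hle.trans hk2⟩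
  obtain ⟨k, hk⟩ := (Metric.tendsto_nhds.1 hlim δ hδ).exists
  exact hxn (φ k) (Metric.mem_thickening_iff.2 ⟨z, hzK, hk⟩)


/-- (3) one-measure-per-scale form (balls) -/
theorem gaugeMeasure_KK_ge (hκ : 0 < κ) (hκ8 : κ < 8) (hQ : IsCompact Q0) {c C r0 : ℝ}
    (hC : 0 < C) (hr0 : 0 < r0)
    (h : ∀ ε : ℝ, 0 < ε → ∃ ν : Measure ℂ, ENNReal.ofReal c ≤ ν univ ∧
      (∀ᵐ z ∂ν, z ∈ SS W n Q0 ε) ∧
      ∀ x : ℂ, ∀ r : ℝ, ε ≤ r → r ≤ r0 →
        ν (Metric.closedBall x r) ≤ ENNReal.ofReal (C * gaugeReal κ r)) :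
    ENNReal.ofReal (c / (4 * C)) ≤ gaugeMeasure κ (KK W n Q0) := by
  refine Ga.gaugeMeasure_ge_of_approx hκ hκ8 (KK_isCompact hQ) hC hr0 fun δ hδ => ?_
  obtain ⟨ε0, h0, hs⟩ := KK_supp' (W := W) (n := n) hQ hδ
  obtain ⟨ν, h1, h2, h3⟩ := h (min ε0 δ) (lt_min h0 hδ)
  refine ⟨ν, h1, ?_, fun x _ r hr hr' => h3 x r ((min_le_right _ _).trans hr) hr'⟩
  have : ∀ᵐ z ∂ν, z ∈ Metric.thickening δ (KK W n Q0) := by
    filter_upwards [h2] with z hz
    exact hs (SS_mono (min_le_left _ _) hz)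
  exact this

theorem gaugeMeasure_KK_pos (hκ : 0 < κ) (hκ8 : κ < 8) (hQ : IsCompact Q0) {c C r0 : ℝ}
    (hc : 0 < c) (hC : 0 < C) (hr0 : 0 < r0)
    (h : ∀ ε : ℝ, 0 < ε → ∃ ν : Measure ℂ, ENNReal.ofReal c ≤ ν univ ∧
      (∀ᵐ z ∂ν, z ∈ SS W n Q0 ε) ∧
      ∀ x : ℂ, ∀ r : ℝ, ε ≤ r → r ≤ r0 →
        ν (Metric.closedBall x r) ≤ ENNReal.ofReal (C * gaugeReal κ r)) :
    0 < gaugeMeasure κ (KK W n Q0) := by
  refine lt_of_lt_of_le ?_ (gaugeMeasure_KK_ge (W := W) (n := n) hκ hκ8 hQ hC hr0 h)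
  rw [ENNReal.ofReal_pos]; positivity


end Crest.Agent.R162.LB9a
end

-- ▼ part R162/ZO1
section

/-!
Row 162, node ZO1: restarted Brownian pieces on successive intervals are independent, hence
almost surely at least one of infinitely many events of probability `≥ c`, each measurable with
respect to the increments on its own interval, occurs.
-/

set_option autoImplicit false
set_option linter.unusedSectionVars false
set_option warn.classDefReducibility false

open MeasureTheory ProbabilityTheory Filter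
open scoped NNReal ENNReal Topology

namespace Crest.Agent.R162.ZO

variable {Ω : Type*} [mΩ : MeasurableSpace Ω] {P : Measure Ω} {B : ℝ≥0 → Ω → ℝ}

/-- The sigma-algebra of the increments `B (s + u) - B s`, `u ≤ τ`. -/
def incSigma (B : ℝ≥0 → Ω → ℝ) (s τ : ℝ≥0) : MeasurableSpace Ω :=
  MeasurableSpace.comap (fun ω (u : Set.Iic τ) => B (s + u) ω - B s ω) MeasurableSpace.pi

/-- The sigma-algebra of the past up to time `s`. -/
def pastSigma (B : ℝ≥0 → Ω → ℝ) (s : ℝ≥0) : MeasurableSpace Ω :=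
  MeasurableSpace.comap (fun ω (u : Set.Iic s) => B u ω) MeasurableSpace.pi

/-- The sigma-algebra of all increments after time `s`. -/
def futSigma (B : ℝ≥0 → Ω → ℝ) (s : ℝ≥0) : MeasurableSpace Ω :=
  MeasurableSpace.comap (fun ω (u : ℝ≥0) => B (s + u) ω - B s ω) MeasurableSpace.pi

lemma incSigma_le_fut (B : ℝ≥0 → Ω → ℝ) (s τ : ℝ≥0) : incSigma B s τ ≤ futSigma B s := by
  unfold incSigma futSigma
  have : (fun ω (u : Set.Iic τ) => B (s + u) ω - B s ω)
      = (fun (x : ℝ≥0 → ℝ) (u : Set.Iic τ) => x u) ∘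
        (fun ω (u : ℝ≥0) => B (s + u) ω - B s ω) := rfl
  rw [this, ← MeasurableSpace.comap_comp]
  apply MeasurableSpace.comap_mono
  rw [← measurable_iff_comap_le]
  exact measurable_pi_lambda _ fun u => measurable_pi_apply _

lemma incSigma_le_past (B : ℝ≥0 → Ω → ℝ) {s τ r : ℝ≥0} (h : s + τ ≤ r) :
    incSigma B s τ ≤ pastSigma B r := by
  unfold incSigma pastSigma
  have hs : s ≤ r := le_trans (le_add_of_nonneg_right zero_le) h
  have hu : ∀ u : Set.Iic τ, s + (u : ℝ≥0) ≤ r := fun u => le_trans (by gcongr; exact u.2) h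
  have : (fun ω (u : Set.Iic τ) => B (s + u) ω - B s ω)
      = (fun (x : Set.Iic r → ℝ) (u : Set.Iic τ) => x ⟨s + u, hu u⟩ - x ⟨s, hs⟩) ∘
        (fun ω (u : Set.Iic r) => B u ω) := rfl
  rw [this, ← MeasurableSpace.comap_comp]
  apply MeasurableSpace.comap_mono
  rw [← measurable_iff_comap_le]
  exact measurable_pi_lambda _ fun u => (measurable_pi_apply _).sub (measurable_pi_apply _)


lemma pastSigma_le (hm : ∀ t, Measurable (B t)) (s : ℝ≥0) : pastSigma B s ≤ mΩ := by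
  unfold pastSigma
  rw [← measurable_iff_comap_le]
  exact measurable_pi_lambda _ fun u => hm _

lemma futSigma_le (hm : ∀ t, Measurable (B t)) (s : ℝ≥0) : futSigma B s ≤ mΩ := by
  unfold futSigma
  rw [← measurable_iff_comap_le]
  exact measurable_pi_lambda _ fun u => (hm _).sub (hm _)

lemma incSigma_le (hm : ∀ t, Measurable (B t)) (s τ : ℝ≥0) : incSigma B s τ ≤ mΩ :=
  (incSigma_le_fut B s τ).trans (futSigma_le hm s)

/-- Independence of the future increments and the past. -/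
lemma indep_fut_past (hB : IsPreBrownianReal B P) (s : ℝ≥0) :
    Indep (futSigma B s) (pastSigma B s) P :=
  hB.indepFun_shift s

/-- The probability that none of the first `n` events occurs. -/
lemma prob_none_le (hB : IsPreBrownianReal B P) (hm : ∀ t, Measurable (B t))
    {c : ℝ≥0∞} (s τ : ℕ → ℝ≥0) (hs : ∀ k, s k + τ k ≤ s (k + 1))
    (E : ℕ → Set Ω) (hE : ∀ k, MeasurableSet[incSigma B (s k) (τ k)] (E k))
    (hP : ∀ k, c ≤ P (E k)) (n : ℕ) :
    P (⋂ k ∈ Finset.range n, (E k)ᶜ) ≤ (1 - c) ^ n := by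
  have hprob : IsProbabilityMeasure P := hB.isGaussianProcess.isProbabilityMeasure
  have hmono : ∀ k m, k < m → s k + τ k ≤ s m := by
    intro k m hkm
    induction m with
    | zero => omega
    | succ m ih =>
      rcases Nat.lt_succ_iff_lt_or_eq.mp hkm with h | h
      · exact (ih h).trans ((le_add_of_nonneg_right zero_le).trans (hs m))
      · subst h; exact hs k
  induction n with
  | zero => simpa using prob_le_one
  | succ n ih =>
    have h1 : (⋂ k ∈ Finset.range (n + 1), (E k)ᶜ)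
        = (E n)ᶜ ∩ (⋂ k ∈ Finset.range n, (E k)ᶜ) := by
      rw [Finset.range_add_one, Finset.set_biInter_insert]
    have hA : MeasurableSet[futSigma B (s n)] (E n)ᶜ :=
      (incSigma_le_fut B _ _ _ (hE n)).compl
    have hC : MeasurableSet[pastSigma B (s n)] (⋂ k ∈ Finset.range n, (E k)ᶜ) := by
      refine @Finset.measurableSet_biInter _ _ (pastSigma B (s n)) _ _ fun k hk => ?_
      exact (incSigma_le_past B (hmono k n (Finset.mem_range.mp hk)) _ (hE k)).compl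
    have hind := (Indep_iff _ _ P).mp (indep_fut_past hB (s n)) _ _ hA hC
    rw [h1, hind, pow_succ, mul_comm]
    refine mul_le_mul' ih ?_
    rw [prob_compl_eq_one_sub (incSigma_le hm _ _ _ (hE n))]
    exact tsub_le_tsub_left (hP n) 1

/-- **Node ZO1.** Almost surely one of the events occurs. -/
theorem ae_exists (hB : IsPreBrownianReal B P) (hm : ∀ t, Measurable (B t))
    {c : ℝ≥0∞} (hc : 0 < c) (s τ : ℕ → ℝ≥0) (hs : ∀ k, s k + τ k ≤ s (k + 1))
    (E : ℕ → Set Ω) (hE : ∀ k, MeasurableSet[incSigma B (s k) (τ k)] (E k))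
    (hP : ∀ k, c ≤ P (E k)) : ∀ᵐ ω ∂P, ∃ k, ω ∈ E k := by
  have hlt : (1 - c : ℝ≥0∞) < 1 := ENNReal.sub_lt_self ENNReal.one_ne_top one_ne_zero hc.ne'
  have hlim : Tendsto (fun n : ℕ => (1 - c : ℝ≥0∞) ^ n) atTop (𝓝 0) :=
    ENNReal.tendsto_pow_atTop_nhds_zero_of_lt_one hlt
  have hle : ∀ n : ℕ, P {ω | ¬ ∃ k, ω ∈ E k} ≤ (1 - c) ^ n := by
    intro n
    refine (measure_mono ?_).trans (prob_none_le hB hm s τ hs E hE hP n)
    intro ω hω
    simp only [Set.mem_iInter, Set.mem_compl_iff]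
    intro k _ hk
    exact hω ⟨k, hk⟩
  rw [ae_iff]
  exact le_antisymm (ge_of_tendsto' hlim hle) zero_le

/-- Version with the intervals inside `[a, b)`: restart times `s k = b - (b - a) / 2 ^ k`. -/
theorem ae_exists_Ico (hB : IsPreBrownianReal B P) (hm : ∀ t, Measurable (B t))
    {c : ℝ≥0∞} (hc : 0 < c) {a b : ℝ≥0} (hab : a < b)
    (E : ℝ≥0 → ℝ≥0 → Set Ω)
    (hE : ∀ s τ, 0 < τ → MeasurableSet[incSigma B s τ] (E s τ))
    (hP : ∀ s τ, 0 < τ → c ≤ P (E s τ)) :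
    ∀ᵐ ω ∂P, ∃ s τ : ℝ≥0, a ≤ s ∧ 0 < τ ∧ s + τ ≤ b ∧ ω ∈ E s τ := by
  obtain ⟨l, hl, rfl⟩ : ∃ l : ℝ≥0, 0 < l ∧ b = a + l :=
    ⟨b - a, tsub_pos_of_lt hab, (add_tsub_cancel_of_le hab.le).symm⟩
  -- s k = a + l * (1 - 2^{-k}), τ k = l * 2^{-(k+1)}
  let x : ℕ → ℝ≥0 := fun k => 1 - (1 / 2) ^ k
  have hx : ∀ k, x k + (1 / 2) ^ k = 1 := fun k =>
    tsub_add_cancel_of_le (pow_le_one₀ (by positivity) (by norm_num))
  have hx1 : ∀ k, x k + (1 / 2) ^ (k + 1) = x (k + 1) := by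
    intro k
    have h1 := hx k
    have h2 := hx (k + 1)
    have h3 : ((1 : ℝ≥0) / 2) ^ k = (1 / 2) ^ (k + 1) + (1 / 2) ^ (k + 1) := by
      rw [pow_succ]
      rw [← mul_add]
      norm_num
    have h4 : (x k + (1 / 2) ^ (k + 1)) + (1 / 2) ^ (k + 1) = x (k + 1) + (1 / 2) ^ (k + 1) := by
      rw [h2, add_assoc, ← h3, h1]
    exact add_right_cancel h4
  have hτ : ∀ k : ℕ, 0 < l * ((1 : ℝ≥0) / 2) ^ (k + 1) := fun k => by positivity
  have key := ae_exists hB hm hc (fun k => a + l * x k) (fun k => l * (1 / 2) ^ (k + 1))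
    (fun k => by
      show a + l * x k + l * (1 / 2) ^ (k + 1) ≤ a + l * x (k + 1)
      rw [add_assoc, ← mul_add, hx1])
    (fun k => E (a + l * x k) (l * (1 / 2) ^ (k + 1)))
    (fun k => hE _ _ (hτ k)) (fun k => hP _ _ (hτ k))
  filter_upwards [key] with ω ⟨k, hk⟩
  refine ⟨_, _, ?_, hτ k, ?_, hk⟩
  · exact le_add_of_nonneg_right zero_le
  · rw [add_assoc, ← mul_add, hx1]
    have : x (k + 1) ≤ 1 := by
      calc x (k + 1) ≤ x (k + 1) + (1 / 2) ^ (k + 1) := le_add_of_nonneg_right zero_le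
        _ = 1 := hx _
    calc a + l * x (k + 1) ≤ a + l * 1 := by gcongr
      _ = a + l := by rw [mul_one]

/-- The restarted and rescaled process `t ↦ τ^{-1/2} (B_{s + τ t} - B_s)`. -/
noncomputable def piece (B : ℝ≥0 → Ω → ℝ) (s τ : ℝ≥0) : ℝ≥0 → Ω → ℝ :=
  fun t ω => (√(τ : ℝ))⁻¹ * (B (s + τ * t) ω - B s ω)

lemma piece_isBrownian (hB : IsBrownianReal B P) (s : ℝ≥0) {τ : ℝ≥0} (hτ : 0 < τ) :
    IsBrownianReal (piece B s τ) P :=
  (hB.shift s).smul hτ.ne'

lemma piece_measurable (hm : ∀ t, Measurable (B t)) (s τ t : ℝ≥0) :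
    Measurable (piece B s τ t) :=
  ((hm _).sub (hm _)).const_mul _

lemma piece_continuous (hc : ∀ ω, Continuous fun t => B t ω) (s τ : ℝ≥0) (ω : Ω) :
    Continuous fun t => piece B s τ t ω := by
  unfold piece
  have := hc ω
  fun_prop

lemma piece_zero (B : ℝ≥0 → Ω → ℝ) (s τ : ℝ≥0) (ω : Ω) : piece B s τ 0 ω = 0 := by
  simp [piece]

lemma past_piece_le (B : ℝ≥0 → Ω → ℝ) (s τ : ℝ≥0) :
    pastSigma (piece B s τ) 1 ≤ incSigma B s τ := by
  unfold pastSigma incSigma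
  have hu : ∀ u : Set.Iic (1 : ℝ≥0), τ * (u : ℝ≥0) ≤ τ := fun u =>
    mul_le_of_le_one_right zero_le u.2
  have : (fun ω (u : Set.Iic (1 : ℝ≥0)) => piece B s τ u ω)
      = (fun (x : Set.Iic τ → ℝ) (u : Set.Iic (1 : ℝ≥0)) => (√(τ : ℝ))⁻¹ * x ⟨τ * u, hu u⟩) ∘
        (fun ω (u : Set.Iic τ) => B (s + u) ω - B s ω) := rfl
  rw [this, ← MeasurableSpace.comap_comp]
  apply MeasurableSpace.comap_mono
  rw [← measurable_iff_comap_le]
  exact measurable_pi_lambda _ fun u => (measurable_pi_apply _).const_mul _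


end Crest.Agent.R162.ZO
end

-- ▼ part R162/LB9g
section

/-!
Row 162 (S0243), node LB9a (packaging): from events `A m` at scales `ε m → 0` (each of probability
`≥ c8`, measurable with respect to the path up to time `n`, each giving a finite measure carried by
points of small conformal radius with a Frostman bound) to ONE path predicate
`Good w := ∃ᶠ m, A m w`, with the three properties (G1), (G2), (G3) of note 14765.
-/

set_option autoImplicit false

open Set MeasureTheory Filter Topology ProbabilityTheory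
open scoped NNReal ENNReal
open Crest.ProbabilityR.Loewner

namespace Crest.Agent.R162.LB9a

open Crest.Agent.R162.FL Crest.Agent.R162.OP

/-- `P (limsup A_m) ≥ c` as soon as `P (A_m) ≥ c` for all large `m`; the events need not be
measurable for the full σ-algebra beyond what is assumed. -/
theorem le_measure_limsup {Ω : Type*} {m0 : MeasurableSpace Ω} {P : Measure Ω} [IsFiniteMeasure P]
    {c : ℝ≥0∞} {A : ℕ → Set Ω} (hA : ∀ m, MeasurableSet (A m))
    (hP : ∀ᶠ m in atTop, c ≤ P (A m)) : c ≤ P {ω | ∃ᶠ m in atTop, ω ∈ A m} := by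
  have hset : {ω | ∃ᶠ m in atTop, ω ∈ A m} = ⋂ k : ℕ, ⋃ m : ℕ, ⋃ _ : k ≤ m, A m := by
    ext ω
    simp only [mem_setOf_eq, frequently_atTop, mem_iInter, mem_iUnion, exists_prop]
  rw [hset]
  have hmeas : ∀ k : ℕ, MeasurableSet (⋃ m : ℕ, ⋃ _ : k ≤ m, A m) := fun k =>
    MeasurableSet.iUnion fun m => MeasurableSet.iUnion fun _ => hA m
  have hanti : Antitone fun k : ℕ => ⋃ m : ℕ, ⋃ _ : k ≤ m, A m := by
    intro k l hkl ω hω
    simp only [mem_iUnion, exists_prop] at hω ⊢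
    obtain ⟨m, hm, h⟩ := hω
    exact ⟨m, hkl.trans hm, h⟩
  have hlim := tendsto_measure_iInter_atTop (μ := P) (fun k => (hmeas k).nullMeasurableSet) hanti
    ⟨0, measure_ne_top _ _⟩
  obtain ⟨k0, hk0⟩ := eventually_atTop.1 hP
  refine ge_of_tendsto hlim (eventually_atTop.2 ⟨k0, fun k hk => ?_⟩)
  refine (hk0 k hk).trans (measure_mono ?_)
  intro ω hω
  simp only [mem_iUnion, exists_prop]
  exact ⟨k, le_rfl, hω⟩

/-- (G1) measurability of `∃ᶠ m, A m` for any σ-algebra -/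
theorem measurableSet_frequently {Ω : Type*} {m0 : MeasurableSpace Ω} {A : ℕ → Set Ω}
    (hA : ∀ m, MeasurableSet (A m)) : MeasurableSet {ω | ∃ᶠ m in atTop, ω ∈ A m} := by
  have hset : {ω | ∃ᶠ m in atTop, ω ∈ A m} = ⋂ k : ℕ, ⋃ m : ℕ, ⋃ _ : k ≤ m, A m := by
    ext ω
    simp only [mem_setOf_eq, frequently_atTop, mem_iInter, mem_iUnion, exists_prop]
  rw [hset]
  exact MeasurableSet.iInter fun k => MeasurableSet.iUnion fun m =>
    MeasurableSet.iUnion fun _ => hA m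


/-- **Packaging of LB8 for LB9b.**  `A m` (`m : ℕ`) are predicates of the driving Brownian path. -/
theorem good_pack {κ : ℝ} (hκ : 0 < κ) (hκ8 : κ < 8) {n : ℝ≥0} {Q0 : Set ℂ} (hQ : IsCompact Q0)
    {c C r0 : ℝ} (hc : 0 < c) (hC : 0 < C) (hr0 : 0 < r0) (ε : ℕ → ℝ)
    (hε : Tendsto ε atTop (𝓝 0)) (A : ℕ → (ℝ≥0 → ℝ) → Prop)
    (hA : ∀ m w, Continuous w → w 0 = 0 → A m w → ∃ ν : Measure ℂ, ENNReal.ofReal c ≤ ν univ ∧
      (∀ᵐ z ∂ν, z ∈ SS (fun t => √κ * w t.toNNReal) n Q0 (ε m)) ∧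
      ∀ x : ℂ, ∀ r : ℝ, ε m ≤ r → r ≤ r0 →
        ν (Metric.closedBall x r) ≤ ENNReal.ofReal (C * gaugeReal κ r))
    {Ω : Type*} {m0 : MeasurableSpace Ω} {P : Measure Ω} [IsProbabilityMeasure P] {c8 : ℝ≥0∞}
    (hm : ∀ m, ∀ B' : ℝ≥0 → Ω → ℝ, (∀ t, Measurable (B' t)) →
      (∀ ω, Continuous fun t => B' t ω) → (∀ ω, B' 0 ω = 0) →
      MeasurableSet[ZO.pastSigma B' n] {ω | A m fun t => B' t ω})
    (hP : ∀ B' : ℝ≥0 → Ω → ℝ, IsBrownianReal B' P → (∀ t, Measurable (B' t)) →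
      (∀ ω, Continuous fun t => B' t ω) → (∀ ω, B' 0 ω = 0) →
      ∀ᶠ m in atTop, c8 ≤ P {ω | A m fun t => B' t ω}) :
    (∀ B' : ℝ≥0 → Ω → ℝ, (∀ t, Measurable (B' t)) →
      (∀ ω, Continuous fun t => B' t ω) → (∀ ω, B' 0 ω = 0) →
      MeasurableSet[ZO.pastSigma B' n] {ω | ∃ᶠ m in atTop, A m fun t => B' t ω}) ∧
    (∀ B' : ℝ≥0 → Ω → ℝ, IsBrownianReal B' P → (∀ t, Measurable (B' t)) →
      (∀ ω, Continuous fun t => B' t ω) → (∀ ω, B' 0 ω = 0) →
      c8 ≤ P {ω | ∃ᶠ m in atTop, A m fun t => B' t ω}) ∧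
    ∀ w : ℝ≥0 → ℝ, Continuous w → w 0 = 0 → (∃ᶠ m in atTop, A m w) →
      0 < gaugeMeasure κ (KK (fun t => √κ * w t.toNNReal) n Q0) := by
  refine ⟨fun B' h1 h2 h3 => ?_, fun B' h0 h1 h2 h3 => ?_, fun w hw hw0 hfr => ?_⟩
  · exact measurableSet_frequently (m0 := ZO.pastSigma B' n) (A := fun m => {ω | A m fun t => B' t ω})
      (fun m => hm m B' h1 h2 h3)
  · refine le_measure_limsup (A := fun m => {ω | A m fun t => B' t ω}) (fun m => ?_)
      (hP B' h0 h1 h2 h3)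
    exact ZO.pastSigma_le h1 n _ (hm m B' h1 h2 h3)
  · refine gaugeMeasure_KK_pos hκ hκ8 hQ hc hC hr0 fun δ hδ => ?_
    obtain ⟨m, h1, h2⟩ := (hfr.and_eventually (hε.eventually (gt_mem_nhds hδ))).exists
    obtain ⟨ν, a1, a2, a3⟩ := hA m w hw hw0 h1
    refine ⟨ν, a1, ?_, fun x r hr hr' => a3 x r (h2.le.trans hr) hr'⟩
    filter_upwards [a2] with z hz
    exact SS_mono h2.le hz

end Crest.Agent.R162.LB9a
end

-- ▼ part R162/LB8b
section

/-!
Row 162, node LB8, second part: predicate form of `frostman`, and the assembly of the good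
predicate of the driving path from an abstract content functional.
-/

set_option autoImplicit false

namespace Crest.Agent.R162.LB8

open Crest.ProbabilityR.Loewner MeasureTheory ProbabilityTheory Set Filter Topology Metric
open scoped ENNReal NNReal

section pred

/-- the good predicate of a measure -/
def GoodM (a : ℝ≥0∞) (T : ℕ → ℝ≥0∞) (k1 : ℕ) (ν : Measure ℂ) : Prop :=
  a / 4 ≤ ν Q0 - ∑' k, Yk (fun _ : Unit => ν) T k1 k ()

lemma GoodM.spec {a : ℝ≥0∞} {T : ℕ → ℝ≥0∞} {k1 : ℕ} {ν : Measure ℂ} (h : GoodM a T k1 ν) :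
    ∃ g : Set ℂ, MeasurableSet g ∧ g ⊆ Q0 ∧ a / 4 ≤ ν g ∧
      ∀ k, k1 ≤ k → ∀ (z : ℂ) (r : ℝ), r ≤ side k → ν (g ∩ closedBall z r) ≤ T k :=
  ⟨G (fun _ : Unit => ν) T k1 (), measurableSet_G _ T k1 (), G_subset _ T k1 (),
    h.trans (tsub_le_iff_right.2 (mass_ge (fun _ : Unit => ν) T k1 ())),
    fun _ hk _ _ hr => frost (μ := fun _ : Unit => ν) (ω := ()) hk hr⟩

lemma Yk_eq {Ω : Type*} (μ : Ω → Measure ℂ) (T : ℕ → ℝ≥0∞) (k1 k : ℕ) (ω : Ω) :
    Yk (fun _ : Unit => μ ω) T k1 k () = Yk μ T k1 k ω := by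
  unfold Yk
  split_ifs with h
  · refine Finset.sum_congr rfl fun p _ => ?_
    by_cases hb : T k < μ ω (bll k p)
    · rw [indicator_of_mem (show () ∈ {_x : Unit | T k < μ ω (bll k p)} from hb),
        indicator_of_mem (show ω ∈ {ω | T k < μ ω (bll k p)} from hb)]
    · rw [indicator_of_notMem (show () ∉ {_x : Unit | T k < μ ω (bll k p)} from hb),
        indicator_of_notMem (show ω ∉ {ω | T k < μ ω (bll k p)} from hb)]
  · rfl

lemma goodM_iff {Ω : Type*} (a : ℝ≥0∞) (T : ℕ → ℝ≥0∞) (k1 : ℕ) (μ : Ω → Measure ℂ) (ω : Ω) :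
    GoodM a T k1 (μ ω) ↔ a / 4 ≤ μ ω Q0 - ∑' k, Yk μ T k1 k ω := by
  unfold GoodM
  rw [tsum_congr fun k => Yk_eq μ T k1 k ω]

lemma measurableSet_goodM {Ω : Type*} {m : MeasurableSpace Ω} {a : ℝ≥0∞} {T : ℕ → ℝ≥0∞} {k1 : ℕ}
    {μ : Ω → Measure ℂ} (hQ : Measurable fun ω => μ ω Q0)
    (hB : ∀ k p, Measurable fun ω => μ ω (bll k p)) :
    MeasurableSet {ω | GoodM a T k1 (μ ω)} := by
  have hbadm : ∀ k p, MeasurableSet {ω | T k < μ ω (bll k p)} := fun k p =>
    measurableSet_lt measurable_const (hB k p)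
  have hYm : ∀ k, Measurable (Yk μ T k1 k) := by
    intro k
    unfold Yk
    by_cases hk : k1 ≤ k
    · simp only [if_pos hk]
      exact Finset.measurable_sum _ fun p _ => (hB k p).indicator (hbadm k p)
    · simp only [if_neg hk]
      exact measurable_const
  have : {ω | GoodM a T k1 (μ ω)} = {ω | a / 4 ≤ μ ω Q0 - ∑' k, Yk μ T k1 k ω} := by
    ext ω; exact goodM_iff a T k1 μ ω
  rw [this]
  exact measurableSet_le measurable_const (hQ.sub (Measurable.tsum hYm))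

/-- **Abstract good event**, predicate form. -/
theorem good_event' {Ω : Type*} {mΩ : MeasurableSpace Ω} (P : Measure Ω) [IsProbabilityMeasure P]
    (μ : Ω → Measure ℂ) (k1 : ℕ) (T δ : ℕ → ℝ≥0∞) (a : ℝ≥0∞) (ha : a ≠ ⊤)
    (hQ : Measurable fun ω => μ ω Q0)
    (hB : ∀ k p, Measurable fun ω => μ ω (bll k p))
    (hmass : a ≤ ∫⁻ ω, μ ω Q0 ∂P)
    (hbad : ∀ k, k1 ≤ k → ∀ p,
      ∫⁻ ω in {ω | T k < μ ω (bll k p)}, μ ω (bll k p) ∂P ≤ δ k * (4 ^ k)⁻¹)
    (hδ : ∑' k, (if k1 ≤ k then δ k else 0) ≤ a / 2) :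
    a / 4 ≤ (4 ^ k1 * T k1) * P {ω | GoodM a T k1 (μ ω)} := by
  have hbadm : ∀ k p, MeasurableSet {ω | T k < μ ω (bll k p)} := fun k p =>
    measurableSet_lt measurable_const (hB k p)
  have hYm : ∀ k, Measurable (Yk μ T k1 k) := by
    intro k
    unfold Yk
    by_cases hk : k1 ≤ k
    · simp only [if_pos hk]
      exact Finset.measurable_sum _ fun p _ => (hB k p).indicator (hbadm k p)
    · simp only [if_neg hk]
      exact measurable_const
  have hYsm : Measurable fun ω => ∑' k, Yk μ T k1 k ω := Measurable.tsum hYm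
  have hXm : Measurable fun ω => μ ω Q0 - ∑' k, Yk μ T k1 k ω := hQ.sub hYsm
  have hY : ∫⁻ ω, ∑' k, Yk μ T k1 k ω ∂P ≤ a / 2 := by
    rw [lintegral_tsum fun k => (hYm k).aemeasurable]
    refine (ENNReal.tsum_le_tsum fun k => ?_).trans hδ
    by_cases hk : k1 ≤ k
    · simp only [Yk, if_pos hk]
      rw [lintegral_finsetSum _ fun p _ => (hB k p).indicator (hbadm k p)]
      calc ∑ p, ∫⁻ ω, indicator {ω | T k < μ ω (bll k p)} (fun ω => μ ω (bll k p)) ω ∂P
          ≤ ∑ _p : Fin (2 ^ k) × Fin (2 ^ k), δ k * (4 ^ k)⁻¹ := by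
            refine Finset.sum_le_sum fun p _ => ?_
            rw [lintegral_indicator (hbadm k p)]
            exact hbad k hk p
        _ = δ k := by
            rw [Finset.sum_const, Finset.card_univ, Fintype.card_prod, Fintype.card_fin,
              nsmul_eq_mul]
            have h4 : (((2 ^ k * 2 ^ k : ℕ)) : ℝ≥0∞) = 4 ^ k := by
              push_cast
              rw [← mul_pow]
              norm_num
            rw [h4, mul_comm (δ k), ← mul_assoc, ENNReal.mul_inv_cancel (by positivity)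
              (ENNReal.pow_ne_top (by norm_num)), one_mul]
    · simp only [Yk, if_neg hk, lintegral_zero, le_refl]
  have hX : a / 2 ≤ ∫⁻ ω, (μ ω Q0 - ∑' k, Yk μ T k1 k ω) ∂P := by
    have h1 : a ≤ ∫⁻ ω, (μ ω Q0 - ∑' k, Yk μ T k1 k ω) ∂P + a / 2 := by
      calc a ≤ ∫⁻ ω, μ ω Q0 ∂P := hmass
        _ ≤ ∫⁻ ω, ((μ ω Q0 - ∑' k, Yk μ T k1 k ω) + ∑' k, Yk μ T k1 k ω) ∂P :=
            lintegral_mono fun ω => le_tsub_add
        _ = ∫⁻ ω, (μ ω Q0 - ∑' k, Yk μ T k1 k ω) ∂P + ∫⁻ ω, ∑' k, Yk μ T k1 k ω ∂P :=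
            lintegral_add_left hXm _
        _ ≤ _ := by gcongr
    have h2 : a / 2 + a / 2 = a := ENNReal.add_halves a
    have h3 : a / 2 ≠ ⊤ := ENNReal.div_ne_top ha (by norm_num)
    by_contra hlt
    push Not at hlt
    have : ∫⁻ ω, (μ ω Q0 - ∑' k, Yk μ T k1 k ω) ∂P + a / 2 < a / 2 + a / 2 :=
      ENNReal.add_lt_add_right h3 hlt
    rw [h2] at this
    exact absurd h1 (not_le.2 this)
  have hXle : ∀ ω, μ ω Q0 - ∑' k, Yk μ T k1 k ω ≤ μ ω (G μ T k1 ω) := fun ω =>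
    tsub_le_iff_right.2 (mass_ge μ T k1 ω)
  have hAe : {ω | GoodM a T k1 (μ ω)} = {ω | a / 4 ≤ μ ω Q0 - ∑' k, Yk μ T k1 k ω} := by
    ext ω; exact goodM_iff a T k1 μ ω
  rw [hAe]
  set A := {ω | a / 4 ≤ μ ω Q0 - ∑' k, Yk μ T k1 k ω} with hA
  have hAm : MeasurableSet A := measurableSet_le measurable_const hXm
  have h1 : ∫⁻ ω, (μ ω Q0 - ∑' k, Yk μ T k1 k ω) ∂P ≤ a / 4 + (4 ^ k1 * T k1) * P A := by
    calc ∫⁻ ω, (μ ω Q0 - ∑' k, Yk μ T k1 k ω) ∂P
        ≤ ∫⁻ ω, (a / 4 + A.indicator (fun _ => 4 ^ k1 * T k1) ω) ∂P := by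
          refine lintegral_mono fun ω => ?_
          by_cases h : ω ∈ A
          · rw [indicator_of_mem h]
            exact ((hXle ω).trans (mass_le μ T k1 ω)).trans le_add_self
          · have h' : μ ω Q0 - ∑' k, Yk μ T k1 k ω < a / 4 := not_le.1 h
            exact h'.le.trans le_self_add
      _ = a / 4 + (4 ^ k1 * T k1) * P A := by
          rw [lintegral_add_left measurable_const, lintegral_const, measure_univ, mul_one,
            lintegral_indicator_const hAm]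
  have h2 : a / 4 + a / 4 = a / 2 := by
    rw [ENNReal.div_add_div_same, ← two_mul, show (4 : ℝ≥0∞) = 2 * 2 by norm_num,
      ENNReal.mul_div_mul_left _ _ (by norm_num) (by norm_num)]
  have h3 : a / 4 ≠ ⊤ := ENNReal.div_ne_top ha (by norm_num)
  have h4 := hX.trans h1
  rw [← h2] at h4
  exact (ENNReal.add_le_add_iff_left h3).1 h4

open GM

/-- **Node LB8**, predicate form. -/
theorem frostman_pred {κ : ℝ} (hκ : 0 < κ) (hκ8 : κ < 8) {a : ℝ≥0∞} (ha0 : a ≠ 0) (ha : a ≠ ⊤)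
    {D M Cm C3 r1 : ℝ} (hD : 0 ≤ D) (hM : 0 < M) (hr1 : 0 < r1) :
    ∃ k1 : ℕ, ∃ C : ℝ, 0 < C ∧ ∃ c8 : ℝ≥0∞, c8 ≠ 0 ∧ ∃ Good : Measure ℂ → Prop,
      (∀ ν, Good ν → ∃ g : Set ℂ, MeasurableSet g ∧ g ⊆ Q0 ∧ a / 4 ≤ ν g ∧
        ∀ (z : ℂ) (r : ℝ), 0 < r → r ≤ side k1 →
          ν (g ∩ closedBall z r) ≤ ENNReal.ofReal (C * gaugeReal κ r)) ∧
      (∀ {Ω : Type*} {_m : MeasurableSpace Ω} (μ : Ω → Measure ℂ)
        (_ : Measurable fun ω => μ ω Q0)
        (_ : ∀ z r, Measurable fun ω => μ ω (closedBall z r)),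
        MeasurableSet {ω | Good (μ ω)}) ∧
      ∀ {Ω : Type*} {_mΩ : MeasurableSpace Ω} (P : Measure Ω) [IsProbabilityMeasure P]
        (ε : ℝ) (_ : 0 < ε) (μ : Ω → Measure ℂ)
        (_ : Measurable fun ω => μ ω Q0)
        (_ : ∀ z r, Measurable fun ω => μ ω (closedBall z r))
        (_ : a ≤ ∫⁻ ω, μ ω Q0 ∂P)
        (_ : ∀ ω, ∀ z ∈ Q0, ∀ r, 0 < r → r ≤ r1 →
          μ ω (closedBall z r) ≤ ENNReal.ofReal (D * ε ^ (dimParam κ - 2) * r ^ 2))
        (_ : ∀ z ∈ Q0, ∀ r, 0 < r → r ≤ r1 → M * ε * Real.sqrt (L r) ≤ r →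
          ∫⁻ ω in {ω | ENNReal.ofReal (Cm * gaugeReal κ r) < μ ω (closedBall z r)},
            μ ω (closedBall z r) ∂P ≤ ENNReal.ofReal (C3 * (Real.log (1 / r) ^ 2)⁻¹ * r ^ 2)),
        c8 ≤ P {ω | Good (μ ω)} := by
  have hd1 := dim_gt hκ
  have hd2 := dim_lt hκ8
  set Cx : ℝ := max 1 (max Cm (D * M ^ (2 - dimParam κ))) with hCx
  have hCx1 : 1 ≤ Cx := le_max_left _ _
  have hCxm : Cm ≤ Cx := (le_max_left _ _).trans (le_max_right _ _)
  have hCxD : D * M ^ (2 - dimParam κ) ≤ Cx := (le_max_right _ _).trans (le_max_right _ _)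
  set C4 : ℝ := max C3 0 with hC4
  have hC40 : 0 ≤ C4 := le_max_right _ _
  have hC43 : C3 ≤ C4 := le_max_left _ _
  set T : ℕ → ℝ≥0∞ := fun k => ENNReal.ofReal (Cx * gaugeReal κ (3 * side k)) with hT
  set δ : ℕ → ℝ≥0∞ := fun k => ENNReal.ofReal (144 * C4 * ((k : ℝ) ^ 2)⁻¹) with hδ
  -- choice of `k1`
  have hsum : ∑' k, δ k ≠ ⊤ := by
    have hs : Summable fun k : ℕ => 144 * C4 * ((k : ℝ) ^ 2)⁻¹ :=
      (Real.summable_nat_pow_inv.2 (by norm_num)).mul_left _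
    rw [hδ, ← ENNReal.ofReal_tsum_of_nonneg (fun k => by positivity) hs]
    exact ENNReal.ofReal_ne_top
  have htail : Tendsto (fun i => ∑' k, δ (k + i)) atTop (𝓝 0) :=
    ENNReal.tendsto_sum_nat_add δ hsum
  have hside : Tendsto (fun k => 3 * side k) atTop (𝓝 0) := by
    have : Tendsto (fun k => 3 * (1 / 2 : ℝ) ^ k) atTop (𝓝 (3 * 0)) :=
      (tendsto_pow_atTop_nhds_zero_of_lt_one (by norm_num) (by norm_num)).const_mul 3
    rw [mul_zero] at this
    refine this.congr fun k => ?_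
    rw [side_eq]
  have ha2 : 0 < a / 2 := ENNReal.div_pos ha0 (by norm_num)
  have hev : ∀ᶠ k in atTop, 3 ≤ k ∧ ∑' j, δ (j + k) ≤ a / 2 ∧ 3 * side k ≤ min r1 m0 := by
    filter_upwards [eventually_ge_atTop 3, htail.eventually_le_const ha2,
      hside.eventually_le_const (lt_min hr1 m0_pos)] with k h1 h2 h3
    exact ⟨h1, h2, h3⟩
  obtain ⟨k1, hk3, hk1t, hk1s⟩ := hev.exists
  have hTtop : T k1 ≠ ⊤ := ENNReal.ofReal_ne_top
  have hTpos : T k1 ≠ 0 := by
    rw [hT]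
    simp only [ne_eq, ENNReal.ofReal_eq_zero, not_le]
    exact mul_pos (by linarith) (gaugeReal_pos (by have := side_pos k1; positivity))
  have h4T : (4 : ℝ≥0∞) ^ k1 * T k1 ≠ ⊤ :=
    ENNReal.mul_ne_top (ENNReal.pow_ne_top (by norm_num)) hTtop
  have h4T0 : (4 : ℝ≥0∞) ^ k1 * T k1 ≠ 0 := mul_ne_zero (by positivity) hTpos
  refine ⟨k1, Cx * 6 ^ dimParam κ, by positivity, a / 4 / (4 ^ k1 * T k1), ?_, GoodM a T k1,
    ?_, ?_, ?_⟩
  · exact (ENNReal.div_pos (ENNReal.div_pos ha0 (by norm_num)).ne' h4T).ne'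
  · intro ν hν
    obtain ⟨g, hg1, hg2, hg3, hg4⟩ := hν.spec
    refine ⟨g, hg1, hg2, hg3, fun z r hr hrs => ?_⟩
    obtain ⟨k, hk, hrk, hk2⟩ := exists_level hr hrs
    refine (hg4 k hk z r hrk).trans (ENNReal.ofReal_le_ofReal ?_)
    have h6 : gaugeReal κ (3 * side k) ≤ 6 ^ dimParam κ * gaugeReal κ r := by
      refine (gaugeReal_mono hκ hκ8 (by have := side_pos k; positivity)
        (show 3 * side k ≤ 6 * r by linarith)).trans ?_
      exact gaugeReal_mul_le hκ hκ8 (by norm_num) hr.le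
    calc Cx * gaugeReal κ (3 * side k) ≤ Cx * (6 ^ dimParam κ * gaugeReal κ r) := by gcongr
      _ = Cx * 6 ^ dimParam κ * gaugeReal κ r := by ring
  · intro Ω m μ hQ hB
    exact measurableSet_goodM hQ fun k p => hB _ _
  intro Ω mΩ P _ ε hε μ hQ hB hmass hdens h3
  have hbad : ∀ k, k1 ≤ k → ∀ p,
      ∫⁻ ω in {ω | T k < μ ω (bll k p)}, μ ω (bll k p) ∂P ≤ δ k * (4 ^ k)⁻¹ := by
    intro k hk p
    have hs := side_pos k
    have hr0 : 0 < 3 * side k := by positivity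
    have hrk : 3 * side k ≤ min r1 m0 := by
      have := side_anti hk
      linarith
    have hrr : 3 * side k ≤ r1 := hrk.trans (min_le_left _ _)
    have hrm : 3 * side k ≤ m0 := hrk.trans (min_le_right _ _)
    have hk' : 3 ≤ k := hk3.trans hk
    by_cases hcase : M * ε * Real.sqrt (L (3 * side k)) ≤ 3 * side k
    · have h4 := h3 (ctr k p) (ctr_mem_Q0 k p) (3 * side k) hr0 hrr hcase
      have hsub : {ω | T k < μ ω (bll k p)} ⊆
          {ω | ENNReal.ofReal (Cm * gaugeReal κ (3 * side k)) <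
            μ ω (closedBall (ctr k p) (3 * side k))} := by
        intro ω hω
        refine lt_of_le_of_lt (ENNReal.ofReal_le_ofReal ?_) hω
        exact mul_le_mul_of_nonneg_right hCxm (gaugeReal_nonneg hr0.le)
      refine (lintegral_mono_set hsub).trans (h4.trans ?_)
      rw [hδ]
      have h5 : ((4 : ℝ≥0∞) ^ k)⁻¹ = ENNReal.ofReal (side k ^ 2) := by
        have h50 : side k ^ 2 = ((4 : ℝ) ^ k)⁻¹ := by
          rw [side, inv_pow, ← pow_mul, mul_comm k 2, pow_mul]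
          norm_num
        rw [h50, ENNReal.ofReal_inv_of_pos (by positivity), ENNReal.ofReal_pow (by norm_num),
          ENNReal.ofReal_ofNat]
      rw [h5]
      simp only
      rw [← ENNReal.ofReal_mul (by positivity)]
      refine ENNReal.ofReal_le_ofReal ?_
      have hlog := log_side_ge hk'
      have hkpos : (0 : ℝ) < k := by
        have : 0 < k := by omega
        exact_mod_cast this
      have h6 : (Real.log (1 / (3 * side k)) ^ 2)⁻¹ ≤ 16 * ((k : ℝ) ^ 2)⁻¹ := by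
        have : ((k : ℝ) / 4) ^ 2 ≤ Real.log (1 / (3 * side k)) ^ 2 := by gcongr
        calc (Real.log (1 / (3 * side k)) ^ 2)⁻¹ ≤ (((k : ℝ) / 4) ^ 2)⁻¹ := by gcongr
          _ = 16 * ((k : ℝ) ^ 2)⁻¹ := by field_simp; ring
      calc C3 * (Real.log (1 / (3 * side k)) ^ 2)⁻¹ * (3 * side k) ^ 2
          ≤ C4 * (Real.log (1 / (3 * side k)) ^ 2)⁻¹ * (3 * side k) ^ 2 := by gcongr
        _ ≤ C4 * (16 * ((k : ℝ) ^ 2)⁻¹) * (3 * side k) ^ 2 := by gcongr
        _ = 144 * C4 * ((k : ℝ) ^ 2)⁻¹ * side k ^ 2 := by ring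
    · have hcase' := not_le.1 hcase
      have hemp : {ω | T k < μ ω (bll k p)} = ∅ := by
        ext ω
        simp only [mem_ofPred_eq, mem_empty_iff_false, iff_false, not_lt]
        refine (hdens ω (ctr k p) (ctr_mem_Q0 k p) (3 * side k) hr0 hrr).trans ?_
        refine ENNReal.ofReal_le_ofReal ((small_scale hκ8 hD hM hr0 hrm hcase').trans ?_)
        exact mul_le_mul_of_nonneg_right hCxD (gaugeReal_nonneg hr0.le)
      rw [hemp, Measure.restrict_empty, lintegral_zero_measure]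
      exact zero_le
  have hAP := good_event' P μ k1 T δ a ha hQ (fun k p => hB _ _) hmass hbad
    (by rw [tsum_tail]; exact hk1t)
  rw [ENNReal.div_le_iff h4T0 h4T, mul_comm]
  exact hAP

end pred

section assembly

open FL OP

/-- the closed square -/
def Qc : Set ℂ := Icc (0 : ℝ) 1 ×ℂ Icc (1 : ℝ) 2

lemma isCompact_Qc : IsCompact Qc := isCompact_Icc.reProdIm isCompact_Icc

lemma Q0_subset_Qc : Q0 ⊆ Qc := by
  rintro z ⟨h1, h2, h3, h4⟩
  rw [Qc, Complex.mem_reProdIm]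
  exact ⟨⟨h1, h2.le⟩, h3, h4.le⟩

lemma volume_Q0_ne_top : volume Q0 ≠ ⊤ :=
  ne_top_of_le_ne_top isCompact_Qc.measure_lt_top.ne (measure_mono Q0_subset_Qc)

lemma volume_Q0_ne_zero : volume Q0 ≠ 0 := by
  have hsub : ball (⟨1 / 2, 3 / 2⟩ : ℂ) (1 / 2) ⊆ Q0 := by
    intro z hz
    rw [mem_ball, Complex.dist_eq] at hz
    have h1 := (Complex.abs_re_le_norm (z - ⟨1 / 2, 3 / 2⟩)).trans_lt hz
    have h2 := (Complex.abs_im_le_norm (z - ⟨1 / 2, 3 / 2⟩)).trans_lt hz
    rw [Complex.sub_re, abs_lt] at h1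
    rw [Complex.sub_im, abs_lt] at h2
    simp only at h1 h2
    exact ⟨by linarith, by linarith, by linarith, by linarith⟩
  exact ((measure_ball_pos volume _ (by norm_num)).trans_le (measure_mono hsub)).ne'

/-- the measure with density `C` on the square. -/
noncomputable def muC (C : ℂ → ℝ≥0∞) : Measure ℂ := (volume.restrict Q0).withDensity C

lemma muC_apply (C : ℂ → ℝ≥0∞) {S : Set ℂ} (hS : MeasurableSet S) :
    muC C S = ∫⁻ z in S, C z ∂(volume.restrict Q0) := withDensity_apply C hS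

lemma muC_le (C : ℂ → ℝ≥0∞) {S : Set ℂ} (hS : MeasurableSet S) :
    muC C S ≤ ∫⁻ z in S, C z := by
  rw [muC_apply C hS]
  exact lintegral_mono' (Measure.restrict_mono_measure Measure.restrict_le_self S) le_rfl

lemma muC_Q0 (C : ℂ → ℝ≥0∞) : muC C Q0 = ∫⁻ z in Q0, C z := by
  rw [muC_apply C measurableSet_Q0, Measure.restrict_restrict measurableSet_Q0, inter_self]

lemma muC_closedBall_le {C : ℂ → ℝ≥0∞} {b : ℝ} (hb : 0 ≤ b)
    (hC : ∀ z ∈ Q0, C z ≤ ENNReal.ofReal b) (z : ℂ) {r : ℝ} (hr : 0 ≤ r) :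
    muC C (closedBall z r) ≤ ENNReal.ofReal (b * Real.pi * r ^ 2) := by
  rw [muC_apply C measurableSet_closedBall, Measure.restrict_restrict measurableSet_closedBall]
  calc ∫⁻ w in closedBall z r ∩ Q0, C w
      ≤ ∫⁻ _ in closedBall z r ∩ Q0, ENNReal.ofReal b := by
        refine lintegral_mono_ae ?_
        filter_upwards [ae_restrict_mem (measurableSet_closedBall.inter measurableSet_Q0)] with w hw
        exact hC w hw.2
    _ = ENNReal.ofReal b * volume (closedBall z r ∩ Q0) := setLIntegral_const _ _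
    _ ≤ ENNReal.ofReal b * volume (closedBall z r) := by gcongr; exact inter_subset_left
    _ = ENNReal.ofReal (b * Real.pi * r ^ 2) := by
        rw [Complex.volume_closedBall, mul_assoc b, ENNReal.ofReal_mul hb,
          ENNReal.ofReal_mul Real.pi_pos.le, ENNReal.ofReal_pow hr, mul_comm (_ ^ 2)]
        congr 2
        rw [← ENNReal.ofReal_coe_nnreal]
        rfl

/-- **LB8, assembly**: from an abstract content functional `Cn ε w z` (content of the point `z` at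
scale `ε` collected by the path `w` up to time `n`) to the good predicate of the path. -/
theorem assembly {κ : ℝ} (hκ : 0 < κ) (hκ8 : κ < 8) {n : ℝ≥0}
    (Cn : ℝ → (ℝ≥0 → ℝ) → ℂ → ℝ≥0∞) {a : ℝ≥0∞} (ha0 : a ≠ 0) {D K M Cm C3 r1 ε0 : ℝ}
    (hD : 0 ≤ D) (hK : 0 < K) (hM : 0 < M) (hr1 : 0 < r1) (hε0 : 0 < ε0)
    {Ω : Type*} {m0 : MeasurableSpace Ω} {P : Measure Ω} [IsProbabilityMeasure P]
    (H0 : ∀ ε, 0 < ε → ∀ w : ℝ≥0 → ℝ, Continuous w → w 0 = 0 → Measurable (Cn ε w))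
    (H1 : ∀ ε, 0 < ε → ∀ B' : ℝ≥0 → Ω → ℝ, (∀ t, Measurable (B' t)) →
      (∀ ω, Continuous fun t => B' t ω) → (∀ ω, B' 0 ω = 0) →
      @Measurable (Ω × ℂ) ℝ≥0∞ (@Prod.instMeasurableSpace Ω ℂ (ZO.pastSigma B' n) _) _
        (fun p => Cn ε (fun t => B' t p.1) p.2))
    (H2 : ∀ ε, 0 < ε → ∀ w : ℝ≥0 → ℝ, Continuous w → w 0 = 0 → ∀ z ∈ Q0,
      Cn ε w z ≤ ENNReal.ofReal (D * ε ^ (dimParam κ - 2)))
    (H3 : ∀ ε, 0 < ε → ∀ w : ℝ≥0 → ℝ, Continuous w → w 0 = 0 → ∀ z ∈ Q0, Cn ε w z ≠ 0 →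
      ∃ u ∈ Icc (0 : ℝ) n, Alive (fun t => √κ * w t.toNNReal) z u ∧
        ups (fun t => √κ * w t.toNNReal) u z ≤ K * ε)
    (H4 : ∀ ε, 0 < ε → ε ≤ ε0 → ∀ (F : Filtration ℝ≥0 m0) (B' : ℝ≥0 → Ω → ℝ), OS.IsBM F B' P →
      ∀ z ∈ Q0, a ≤ ∫⁻ ω, Cn ε (fun t => B' t ω) z ∂P)
    (H5 : ∀ ε, 0 < ε → ε ≤ ε0 → ∀ (F : Filtration ℝ≥0 m0) (B' : ℝ≥0 → Ω → ℝ), OS.IsBM F B' P →
      ∀ z ∈ Q0, ∀ r, 0 < r → r ≤ r1 → M * ε * Real.sqrt (GM.L r) ≤ r →
      ∫⁻ ω in {ω | ENNReal.ofReal (Cm * gaugeReal κ r) <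
          ∫⁻ x in closedBall z r, Cn ε (fun t => B' t ω) x},
        (∫⁻ x in closedBall z r, Cn ε (fun t => B' t ω) x) ∂P ≤
          ENNReal.ofReal (C3 * (Real.log (1 / r) ^ 2)⁻¹ * r ^ 2)) :
    ∃ Good : (ℝ≥0 → ℝ) → Prop, ∃ c8 : ℝ≥0∞, c8 ≠ 0 ∧
      (∀ B' : ℝ≥0 → Ω → ℝ, (∀ t, Measurable (B' t)) →
        (∀ ω, Continuous fun t => B' t ω) → (∀ ω, B' 0 ω = 0) →
        MeasurableSet[ZO.pastSigma B' n] {ω | Good fun t => B' t ω}) ∧
      (∀ B' : ℝ≥0 → Ω → ℝ, IsBrownianReal B' P → (∀ t, Measurable (B' t)) →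
        (∀ ω, Continuous fun t => B' t ω) → (∀ ω, B' 0 ω = 0) →
        c8 ≤ P {ω | Good fun t => B' t ω}) ∧
      ∀ w : ℝ≥0 → ℝ, Continuous w → w 0 = 0 → Good w →
        0 < gaugeMeasure κ (LB9a.KK (fun t => √κ * w t.toNNReal) n Qc) := by
  -- total mass `a * volume Q0`
  set a1 : ℝ≥0∞ := min a 1 with ha1
  have ha1t : a1 ≠ ⊤ := ne_top_of_le_ne_top ENNReal.one_ne_top (min_le_right _ _)
  have ha10 : a1 ≠ 0 := by
    rw [ha1]
    exact (lt_min (pos_iff_ne_zero.2 ha0) one_pos).ne'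
  set b : ℝ≥0∞ := a1 * volume Q0 with hb
  have hb0 : b ≠ 0 := mul_ne_zero ha10 volume_Q0_ne_zero
  have hbt : b ≠ ⊤ := ENNReal.mul_ne_top ha1t volume_Q0_ne_top
  have hb4t : b / 4 ≠ ⊤ := ENNReal.div_ne_top hbt (by norm_num)
  have hb40 : b / 4 ≠ 0 := (ENNReal.div_pos hb0 (by norm_num)).ne'
  obtain ⟨k1, C, hC, c8, hc8, Good, hG1, hG2, hG3⟩ :=
    frostman_pred (D := D * Real.pi) (M := M) (Cm := Cm) (C3 := C3) (r1 := r1) hκ hκ8 hb0 hbt
      (mul_nonneg hD Real.pi_pos.le) hM hr1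
  -- the scales
  set e : ℕ → ℝ := fun m => min ε0 (1 / ((m : ℝ) + 1)) with he
  have he0 : ∀ m, 0 < e m := fun m => lt_min hε0 (by positivity)
  have hee : ∀ m, e m ≤ ε0 := fun m => min_le_left _ _
  have hlim : Tendsto (fun m => K * e m) atTop (𝓝 0) := by
    have h1 : Tendsto e atTop (𝓝 0) := by
      refine tendsto_of_tendsto_of_tendsto_of_le_of_le tendsto_const_nhds
        tendsto_one_div_add_atTop_nhds_zero_nat (fun m => (he0 m).le) (fun m => min_le_right _ _)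
    simpa using h1.const_mul K
  have hmeas : ∀ m, ∀ B' : ℝ≥0 → Ω → ℝ, (∀ t, Measurable (B' t)) →
      (∀ ω, Continuous fun t => B' t ω) → (∀ ω, B' 0 ω = 0) → ∀ S : Set ℂ, MeasurableSet S →
      Measurable[ZO.pastSigma B' n] fun ω => muC (Cn (e m) fun t => B' t ω) S := by
    intro m B' h1 h2 h3 S hS
    have hj := H1 (e m) (he0 m) B' h1 h2 h3
    have : (fun ω => muC (Cn (e m) fun t => B' t ω) S) =
        fun ω => ∫⁻ z, Cn (e m) (fun t => B' t ω) z ∂((volume.restrict Q0).restrict S) := by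
      funext ω
      exact muC_apply _ hS
    rw [this]
    exact @Measurable.lintegral_prod_right' Ω ℂ (ZO.pastSigma B' n) _
      ((volume.restrict Q0).restrict S) _ _ hj
  obtain ⟨q1, q2, q3⟩ := LB9a.good_pack (κ := κ) hκ hκ8 (n := n) isCompact_Qc
    (c := (b / 4).toReal) (C := C) (r0 := side k1)
    (ENNReal.toReal_pos hb40 hb4t) hC (side_pos k1) (fun m => K * e m) hlim
    (fun m w => Good (muC (Cn (e m) w)))
    (by
      intro m w hw hw0 hg
      obtain ⟨g, g1, g2, g3, g4⟩ := hG1 _ hg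
      refine ⟨(muC (Cn (e m) w)).restrict g, ?_, ?_, ?_⟩
      · rw [Measure.restrict_apply_univ, ENNReal.ofReal_toReal hb4t]
        exact g3
      · have hae : ∀ᵐ z ∂((volume.restrict Q0).withDensity (Cn (e m) w)),
            z ∈ LB9a.SS (fun t => √κ * w t.toNNReal) n Qc (K * e m) := by
          rw [ae_withDensity_iff (H0 (e m) (he0 m) w hw hw0)]
          filter_upwards [ae_restrict_mem measurableSet_Q0] with z hz hne
          obtain ⟨u, hu, hal, hup⟩ := H3 (e m) (he0 m) w hw hw0 z hz hne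
          exact ⟨Q0_subset_Qc hz, u, hu, hal, hup⟩
        exact ae_mono Measure.restrict_le_self hae
      · intro x r hr hr'
        rw [Measure.restrict_apply measurableSet_closedBall, inter_comm]
        exact g4 x r ((mul_pos hK (he0 m)).trans_le hr) hr')
    (P := P) (c8 := c8)
    (by
      intro m B' h1 h2 h3
      exact hG2 (_m := ZO.pastSigma B' n) (fun ω => muC (Cn (e m) fun t => B' t ω))
        (hmeas m B' h1 h2 h3 _ measurableSet_Q0)
        (fun z r => hmeas m B' h1 h2 h3 _ measurableSet_closedBall))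
    (by
      intro B' hB h1 h2 h3
      have hBM := Ver.isBM_natF hB.toIsPreBrownianReal h1 h2 h3
      refine Eventually.of_forall fun m => ?_
      have hle := ZO.pastSigma_le h1 n
      refine hG3 P (e m) (he0 m) (fun ω => muC (Cn (e m) fun t => B' t ω))
        ((hmeas m B' h1 h2 h3 _ measurableSet_Q0).mono hle le_rfl)
        (fun z r => (hmeas m B' h1 h2 h3 _ measurableSet_closedBall).mono hle le_rfl) ?_ ?_ ?_
      · have hj : Measurable fun p : Ω × ℂ => Cn (e m) (fun t => B' t p.1) p.2 :=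
          (H1 (e m) (he0 m) B' h1 h2 h3).mono (sup_le_sup (MeasurableSpace.comap_mono hle) le_rfl)
            le_rfl
        calc b = ∫⁻ _ in Q0, a1 := by rw [setLIntegral_const]
          _ ≤ ∫⁻ z in Q0, ∫⁻ ω, Cn (e m) (fun t => B' t ω) z ∂P := by
              refine lintegral_mono_ae ?_
              filter_upwards [ae_restrict_mem measurableSet_Q0] with z hz
              exact (min_le_left _ _).trans (H4 (e m) (he0 m) (hee m) _ B' hBM z hz)
          _ = ∫⁻ ω, (∫⁻ z in Q0, Cn (e m) (fun t => B' t ω) z) ∂P := by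
              rw [lintegral_lintegral_swap]
              exact (hj.comp measurable_swap).aemeasurable
          _ = ∫⁻ ω, muC (Cn (e m) fun t => B' t ω) Q0 ∂P :=
              lintegral_congr fun ω => (muC_Q0 _).symm
      · intro ω z hz r hr hr'
        refine (muC_closedBall_le (by positivity) (H2 (e m) (he0 m) _ (h2 ω) (h3 ω)) z
          hr.le).trans (le_of_eq ?_)
        congr 1
        ring
      · intro z hz r hr hr' hMr
        refine le_trans ?_ (H5 (e m) (he0 m) (hee m) _ B' hBM z hz r hr hr' hMr)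
        refine (lintegral_mono fun ω => muC_le _ measurableSet_closedBall).trans
          (lintegral_mono_set fun ω hω => ?_)
        exact lt_of_lt_of_le hω (muC_le _ measurableSet_closedBall))
  exact ⟨fun w => ∃ᶠ m in atTop, Good (muC (Cn (e m) w)), c8, hc8, q1, q2, q3⟩

end assembly

end Crest.Agent.R162.LB8
end

-- ▼ part R162/LB8m
section

/-!
Row 162 (S0243), node LB8m (helper904): measurability of the content density `LB.cd`, of the
content `LB.cz`, `LB.Ct` and of the occupation measure `LB.mu` (`LBDefs`), jointly in `(ω, z)` and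
with respect to the past `F t`; the measurability fields of `ZO.LBIn` and the hypotheses `H0`, `H1`
of `LB8.assembly`.
-/

set_option autoImplicit false

open Set MeasureTheory Filter Topology ProbabilityTheory
open scoped NNReal ENNReal

namespace Crest.Agent.R162.LB8m

open Crest.Agent.R162.FL Crest.Agent.R162.OP Crest.Agent.R162.OS Crest.Agent.R162.FLD
open Crest.ProbabilityR.Loewner
open Crest.Agent.R162.LB (chi cd cz Ct mu measurable_chi)

/-! ### The density -/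

/-- the content density as a function of `(lam, Υ, S, Z)` -/
noncomputable def cdF (κ ε c1 : ℝ) (x : (ℝ × ℝ) × (ℝ × ℂ)) : ℝ :=
  chi (x.1.1 * x.1.2 / ε) * (x.1.1 * x.1.2) ^ (κ / 8 - 1) * x.2.1 ^ (8 / κ - 1) *
    (if c1 ≤ x.2.1 then 1 else 0) * (4 * x.2.1 ^ 2 / ‖x.2.2‖ ^ 2)

lemma cd_eq (κ ε c1 lam : ℝ) (W : ℝ → ℝ) (s : ℝ) (z : ℂ) :
    cd κ ε c1 lam W s z = cdF κ ε c1 ((lam, ups W s z), (sfl W s z, Zfl W s z)) := rfl

lemma measurable_cdF (κ ε c1 : ℝ) : Measurable (cdF κ ε c1) := by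
  have h1 : Measurable (fun x : (ℝ × ℝ) × (ℝ × ℂ) => x.1.1 * x.1.2) := by fun_prop
  have h2 : Measurable (fun x : (ℝ × ℝ) × (ℝ × ℂ) => x.2.1) := by fun_prop
  have h3 : Measurable (fun x : (ℝ × ℝ) × (ℝ × ℂ) => (if c1 ≤ x.2.1 then (1:ℝ) else 0)) :=
    Measurable.ite (measurableSet_le measurable_const h2) measurable_const measurable_const
  have h4 : Measurable (fun x : (ℝ × ℝ) × (ℝ × ℂ) => 4 * x.2.1 ^ 2 / ‖x.2.2‖ ^ 2) := by fun_prop
  exact (((measurable_chi.comp (h1.div_const ε)).mul (h1.pow_const _)).mul (h2.pow_const _)).mul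
    h3 |>.mul h4

section generic

variable {Ω : Type*} {m : MeasurableSpace Ω} {W : Ω → ℝ → ℝ} {T : ℝ}

/-- the content density is jointly measurable in `(ω, z, s)`, `s ∈ [0,T]`; the factor `lam` may
depend measurably on `(ω, z)` -/
theorem jm_cd (κ ε c1 : ℝ) {lam : Ω × ℂ → ℝ} (hlam : Measurable lam)
    (hc : ∀ ω, ContinuousOn (W ω) (Icc 0 T))
    (hm : ∀ s ∈ Icc 0 T, Measurable (fun ω => W ω s)) :
    JM (m := m) T (fun p s => cd κ ε c1 (lam p) (W p.1) s p.2) := by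
  have h1 := jm_ups hc hm
  have h2 := jm_sfl hc hm
  have h3 := jm_Zfl hc hm
  unfold JM at h1 h2 h3
  refine JM.of_eq ((measurable_cdF κ ε c1).comp
    (((hlam.comp measurable_fst).prodMk h1).prodMk (h2.prodMk h3))) (fun x hx => ?_)
  simp only [Function.comp, cd_eq]
  rw [indicator_of_mem hx, indicator_of_mem hx, indicator_of_mem hx]


/-- `(ω, z) ↦ ∫⁻ s in E (ω,z), f` is measurable, if `E ⊆ [0,T]` is a measurable family of sets -/
theorem measurable_lintegral_JM {f : Ω × ℂ → ℝ → ℝ} (hf : JM (m := m) T f)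
    {E : Ω × ℂ → Set ℝ} (hE : MeasurableSet {x : (Ω × ℂ) × ℝ | x.2 ∈ E x.1})
    (hET : ∀ p, E p ⊆ Icc 0 T) :
    Measurable (fun p : Ω × ℂ => ∫⁻ s in E p, ENNReal.ofReal (f p s)) := by
  unfold JM at hf
  have h1 : Measurable (fun x : (Ω × ℂ) × ℝ => ({x : (Ω × ℂ) × ℝ | x.2 ∈ E x.1}).indicator
      (fun x => ENNReal.ofReal ((Icc 0 T).indicator (f x.1) x.2)) x) :=
    (ENNReal.measurable_ofReal.comp hf).indicator hE
  have h2 := h1.lintegral_prod_right' (ν := (volume : Measure ℝ))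
  convert h2 using 1
  funext p
  have hEp : MeasurableSet (E p) := measurable_prodMk_left hE
  rw [← lintegral_indicator hEp]
  refine lintegral_congr fun s => ?_
  by_cases hs : s ∈ E p
  · rw [indicator_of_mem hs, indicator_of_mem (show (p, s) ∈ {x : (Ω × ℂ) × ℝ | x.2 ∈ E x.1}
      from hs)]
    simp only
    rw [indicator_of_mem (hET p hs)]
  · rw [indicator_of_notMem hs, indicator_of_notMem (show (p, s) ∉
      {x : (Ω × ℂ) × ℝ | x.2 ∈ E x.1} from hs)]

/-- the content per unit area is measurable in `(ω, z)` -/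
theorem measurable_cz (κ ε c1 : ℝ) {lam : Ω × ℂ → ℝ} (hlam : Measurable lam)
    (hc : ∀ ω, ContinuousOn (W ω) (Icc 0 T))
    (hm : ∀ s ∈ Icc 0 T, Measurable (fun ω => W ω s))
    {E : Ω × ℂ → Set ℝ} (hE : MeasurableSet {x : (Ω × ℂ) × ℝ | x.2 ∈ E x.1})
    (hET : ∀ p, E p ⊆ Icc 0 T) :
    Measurable (fun p : Ω × ℂ => cz κ ε c1 (lam p) (W p.1) (E p) p.2) :=
  measurable_lintegral_JM (jm_cd κ ε c1 hlam hc hm) hE hET

/-- the content per unit area collected at times in a fixed set `E ⊆ [0,T]` -/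
theorem measurable_cz' (κ ε c1 lam : ℝ) (hc : ∀ ω, ContinuousOn (W ω) (Icc 0 T))
    (hm : ∀ s ∈ Icc 0 T, Measurable (fun ω => W ω s))
    {E : Set ℝ} (hE : MeasurableSet E) (hET : E ⊆ Icc 0 T) :
    Measurable (fun p : Ω × ℂ => cz κ ε c1 lam (W p.1) E p.2) :=
  measurable_cz κ ε c1 (lam := fun _ => lam) measurable_const hc hm (E := fun _ => E)
    (measurable_snd hE) (fun _ => hET)

/-- the global content is measurable in `(ω, z)` -/
theorem measurable_Ct (κ ε c1 : ℝ) (hc : ∀ ω, ContinuousOn (W ω) (Icc 0 T))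
    (hm : ∀ s ∈ Icc 0 T, Measurable (fun ω => W ω s)) :
    Measurable (fun p : Ω × ℂ => Ct κ ε c1 (W p.1) T p.2) :=
  measurable_cz' κ ε c1 1 hc hm measurableSet_Ioc Ioc_subset_Icc_self


/-- integrals over `z` of a jointly measurable density -/
theorem measurable_withDensity_apply {G : Ω × ℂ → ℝ≥0∞} (hG : Measurable G) {A : Set ℂ}
    (hA : MeasurableSet A) :
    Measurable (fun ω => (volume.withDensity (fun z => G (ω, z))) A) := by
  have h1 := hG.lintegral_prod_right' (ν := (volume : Measure ℂ).restrict A)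
  convert h1 using 1
  funext ω
  rw [withDensity_apply _ hA]


/-- the occupation measure of a measurable set is measurable in `ω` -/
theorem measurable_mu (κ ε c1 : ℝ) (hc : ∀ ω, ContinuousOn (W ω) (Icc 0 T))
    (hm : ∀ s ∈ Icc 0 T, Measurable (fun ω => W ω s)) {A : Set ℂ} (hA : MeasurableSet A) :
    Measurable (fun ω => mu κ ε c1 (W ω) T A) :=
  measurable_withDensity_apply (measurable_Ct κ ε c1 hc hm) hA


end generic

/-! ### Deterministic path -/

section det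

lemma measurable_of_unit {E : Type*} [MeasurableSpace E] {g : ℂ → E}
    (h : Measurable (fun p : Unit × ℂ => g p.2)) : Measurable g := by
  have h2 : Measurable (fun z : ℂ => (((), z) : Unit × ℂ)) :=
    measurable_const.prodMk measurable_id
  exact h.comp h2


/-- the global content of a fixed path is a measurable function of the point -/
theorem measurable_Ct_det (κ ε c1 : ℝ) {W : ℝ → ℝ} {T : ℝ} (hc : ContinuousOn W (Icc 0 T)) :
    Measurable (Ct κ ε c1 W T) := by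
  have h : Measurable (fun p : Unit × ℂ => Ct κ ε c1 W T p.2) :=
    measurable_Ct (Ω := Unit) (m := inferInstance) (W := fun _ => W) κ ε c1
      (fun _ => hc) (fun _ _ => measurable_const)
  exact measurable_of_unit h



end det

/-! ### Brownian driving function -/

section brownian

variable {Ω : Type*} {m : MeasurableSpace Ω} {F : Filtration ℝ≥0 m} {P : Measure Ω}
  {B : ℝ≥0 → Ω → ℝ}





/-- the global content, `m`-measurable, jointly in the point -/
theorem measurable_Ct_driving (hB : IsBM F B P) (κ' κ ε c1 : ℝ) (t : ℝ) :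
    Measurable (fun p : Ω × ℂ => Ct κ ε c1 (driving κ' B p.1) t p.2) :=
  measurable_Ct κ ε c1 (fun ω => (driving_cont hB κ' ω).continuousOn)
    (fun s _ => driving_meas' hB κ' s)

/-- **LB8m (b)**: the occupation measure of a measurable set is `F t`-measurable -/
theorem measF_mu (hB : IsBM F B P) (κ' κ ε c1 : ℝ) (t : ℝ≥0) {A : Set ℂ}
    (hA : MeasurableSet A) :
    Measurable[F t] (fun ω => mu κ ε c1 (driving κ' B ω) t A) :=
  measurable_mu (m := F t) κ ε c1 (fun ω => (driving_cont hB κ' ω).continuousOn)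
    (fun _ hs => driving_meas hB κ' hs) hA





end brownian

/-! ### The fields of `ZO.LBIn` -/

section lbin

variable {Ω : Type*} [MeasurableSpace Ω] {P : Measure Ω} {B : ℝ≥0 → Ω → ℝ}

/-- the two measurability fields of `ZO.LBIn` for `μ ω = LB.mu κ ε c1 (driving κ B ω) n` -/
theorem lbin_fields (h : ∀ t, Measurable (B t)) (hB : OS.IsBM (OS.natF B h) B P)
    (κ' κ ε c1 : ℝ) (n : ℝ≥0) :
    (Measurable[OS.natF B h n] fun ω => mu κ ε c1 (driving κ' B ω) n LB8.Q0) ∧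
    (∀ z r, Measurable[OS.natF B h n] fun ω =>
      mu κ ε c1 (driving κ' B ω) n (Metric.closedBall z r)) :=
  ⟨measF_mu hB κ' κ ε c1 n LB8.measurableSet_Q0,
    fun _ _ => measF_mu hB κ' κ ε c1 n measurableSet_closedBall⟩



end lbin

/-! ### The hypotheses `H0`, `H1` of `LB8.assembly` -/

section assembly

/-- the abstract content functional of `LB8.assembly` -/
noncomputable def Cn (κ c1 : ℝ) (n : ℝ≥0) (ε : ℝ) (w : ℝ≥0 → ℝ) (z : ℂ) : ℝ≥0∞ :=
  Ct κ ε c1 (fun t => √κ * w t.toNNReal) n z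

theorem cont_path {κ : ℝ} {w : ℝ≥0 → ℝ} (hw : Continuous w) :
    Continuous (fun t : ℝ => √κ * w t.toNNReal) :=
  continuous_const.mul (hw.comp continuous_real_toNNReal)

/-- `H0` of `LB8.assembly` -/
theorem H0 (κ c1 : ℝ) (n : ℝ≥0) : ∀ ε, 0 < ε → ∀ w : ℝ≥0 → ℝ, Continuous w → w 0 = 0 →
    Measurable (Cn κ c1 n ε w) :=
  fun ε _ _ hw _ => measurable_Ct_det κ ε c1 (cont_path hw).continuousOn



end assembly

end Crest.Agent.R162.LB8m
end

-- ▼ part R162/ZO2
section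

/-!
Row 162, node ZO2 (= LB9a, deterministic transfer): a compact set `K` of the half-plane, near the
trace of the shifted and rescaled driving function on `[0,n]`, is mapped by the conformal map
`F = f_{s₀}(l ·)` into `γ '' Icc s₀ (s₀ + l² n)`; `F` is bi-Lipschitz on `K`.
-/

set_option autoImplicit false

open Set Metric Topology Filter
open Crest.Agent.R162.FL Crest.Agent.R162.OP

namespace Crest.Agent.R162.ZO

/-- points of `Q` that are limits of points reached (up to `ε`) by the flow before time `n`. -/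
def KK (W : ℝ → ℝ) (n : ℝ) (Q : Set ℂ) : Set ℂ :=
  {z | z ∈ Q ∧ ∀ ε > 0, ∃ z', ‖z' - z‖ < ε ∧ ∃ u ∈ Icc 0 n, Alive W z' u ∧ ups W u z' ≤ ε}

variable {U : ℝ → ℝ} {s₀ l y₀ : ℝ}

/-- the inverse conformal map exists. -/
lemma exists_inv (hU : ContinuousOn U (Ici 0)) (hs₀ : 0 ≤ s₀) (hl : 0 < l) :
    ∃ F : ℂ → ℂ, ∀ z : ℂ, 0 < z.im → Alive U (F z) s₀ ∧ Zfl U s₀ (F z) = l * z := by
  have key : ∀ z : ℂ, ∃ w : ℂ, 0 < z.im → Alive U w s₀ ∧ Zfl U s₀ w = l * z := by
    intro z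
    by_cases hz : 0 < z.im
    · have hz' : 0 < ((l : ℂ) * z + (U s₀ : ℂ)).im := by
        simp [hz, hl]
      obtain ⟨g, hg, hsol, -⟩ := FLC.exists_backward hs₀ (hU.mono Icc_subset_Ici_self) hz'
      have hfl : IsFlow U (g 0) s₀ g := ⟨rfl, fun s hs => (hsol s hs).1, fun s hs => (hsol s hs).2⟩
      refine ⟨g 0, fun _ => ⟨⟨hs₀, g, hfl⟩, ?_⟩⟩
      rw [Zfl, ← hfl.eq_gfl ⟨hs₀, le_rfl⟩, hg]
      ring
    · exact ⟨0, fun h => absurd h hz⟩
  choose F hF using key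
  exact ⟨F, hF⟩

lemma Zfl_im_ge {w z : ℂ} {s : ℝ} (hw : Alive U w s₀) (hz : Zfl U s₀ w = l * z)
    (hs : s ∈ Icc 0 s₀) : l * z.im ≤ (Zfl U s w).im := by
  have h1 := im_anti hw hs.1 hs.2
  have h2 : (Zfl U s₀ w).im = l * z.im := by rw [hz]; simp
  rw [Zfl_im] at h2 ⊢
  linarith

lemma norm_Zfl_ge {w z : ℂ} {s : ℝ} (hw : Alive U w s₀) (hz : Zfl U s₀ w = l * z)
    (hs : s ∈ Icc 0 s₀) : l * z.im ≤ ‖Zfl U s w‖ :=
  (Zfl_im_ge hw hz hs).trans ((le_abs_self _).trans (Complex.abs_im_le_norm _))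

/-- the distortion constant -/
noncomputable def MM (s₀ l y₀ : ℝ) : ℝ := 2 / (l * y₀) ^ 2 * s₀

lemma norm_integral_le {w w' z z' : ℂ} (hl : 0 < l) (hy₀ : 0 < y₀)
    (hs₀ : 0 ≤ s₀)
    (hw : Alive U w s₀) (hz : Zfl U s₀ w = l * z) (hzy : y₀ ≤ z.im)
    (hw' : Alive U w' s₀) (hz' : Zfl U s₀ w' = l * z') (hzy' : y₀ ≤ z'.im) :
    ‖∫ s in (0 : ℝ)..s₀, 2 / (Zfl U s w * Zfl U s w')‖ ≤ MM s₀ l y₀ := by
  have h := intervalIntegral.norm_integral_le_of_norm_le_const (a := 0) (b := s₀)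
    (C := 2 / (l * y₀) ^ 2) (f := fun s => 2 / (Zfl U s w * Zfl U s w')) ?_
  · rwa [sub_zero, abs_of_nonneg hs₀] at h
  · intro s hs
    rw [uIoc_of_le hs₀] at hs
    have hs' : s ∈ Icc 0 s₀ := ⟨hs.1.le, hs.2⟩
    have a1 := norm_Zfl_ge hw hz hs'
    have a2 := norm_Zfl_ge hw' hz' hs'
    have b1 : l * y₀ ≤ ‖Zfl U s w‖ := (mul_le_mul_of_nonneg_left hzy hl.le).trans a1
    have b2 : l * y₀ ≤ ‖Zfl U s w'‖ := (mul_le_mul_of_nonneg_left hzy' hl.le).trans a2
    have hp : 0 < l * y₀ := by positivity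
    rw [norm_div, norm_mul, Complex.norm_ofNat, sq]
    gcongr

/-- `F` and its inverse are Lipschitz. -/
lemma bilip {w w' z z' : ℂ} (hU : ContinuousOn U (Ici 0)) (hl : 0 < l) (hy₀ : 0 < y₀)
    (hs₀ : 0 ≤ s₀)
    (hw : Alive U w s₀) (hz : Zfl U s₀ w = l * z) (hzy : y₀ ≤ z.im)
    (hw' : Alive U w' s₀) (hz' : Zfl U s₀ w' = l * z') (hzy' : y₀ ≤ z'.im) :
    l * ‖z - z'‖ ≤ Real.exp (MM s₀ l y₀) * ‖w - w'‖ ∧
      ‖w - w'‖ ≤ Real.exp (MM s₀ l y₀) * (l * ‖z - z'‖) := by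
  have h1 := gfl_sub hU hw hw'
  have h2 : gfl U s₀ w - gfl U s₀ w' = l * (z - z') := by
    have e1 : gfl U s₀ w = l * z + U s₀ := by rw [← hz, Zfl]; ring
    have e2 : gfl U s₀ w' = l * z' + U s₀ := by rw [← hz', Zfl]; ring
    rw [e1, e2]; ring
  rw [h2] at h1
  have hI := norm_integral_le hl hy₀ hs₀ hw hz hzy hw' hz' hzy'
  set I := ∫ s in (0 : ℝ)..s₀, 2 / (Zfl U s w * Zfl U s w') with hIdef
  have hre1 : (-I).re ≤ MM s₀ l y₀ := by
    have := Complex.abs_re_le_norm (-I)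
    rw [norm_neg] at this
    exact (le_abs_self _).trans (this.trans hI)
  have hre2 : -(MM s₀ l y₀) ≤ (-I).re := by
    have := Complex.abs_re_le_norm (-I)
    rw [norm_neg] at this
    have h3 := neg_abs_le (-I).re
    linarith
  have hn : l * ‖z - z'‖ = ‖w - w'‖ * Real.exp (-I).re := by
    have := congrArg norm h1
    rw [norm_mul, norm_mul, Complex.norm_real, Real.norm_of_nonneg hl.le, Complex.norm_exp] at this
    exact this
  constructor
  · rw [hn, mul_comm]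
    gcongr
  · rw [hn]
    have h4 : Real.exp (MM s₀ l y₀) * (‖w - w'‖ * Real.exp (-I).re) =
        ‖w - w'‖ * Real.exp (MM s₀ l y₀ + (-I).re) := by
      rw [Real.exp_add]; ring
    rw [h4]
    have h5 : 1 ≤ Real.exp (MM s₀ l y₀ + (-I).re) := Real.one_le_exp (by linarith)
    exact le_mul_of_one_le_right (norm_nonneg _) h5

/-- transfer of life and of the conformal radius. -/
lemma ups_transfer {w z : ℂ} {u : ℝ} (hU : ContinuousOn U (Ici 0)) (hl : 0 < l) (hy₀ : 0 < y₀)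
    (hs₀ : 0 ≤ s₀) (hw : Alive U w s₀) (hz : Zfl U s₀ w = l * z) (hzy : y₀ ≤ z.im)
    (hu : Alive (scl l (shift U s₀)) z u) :
    Alive U w (s₀ + l ^ 2 * u) ∧
      ups U (s₀ + l ^ 2 * u) w ≤ l * Real.exp (MM s₀ l y₀) * ups (scl l (shift U s₀)) u z := by
  have hu0 : 0 ≤ u := hu.1
  have hl2 : 0 < l ^ 2 := by positivity
  have hA : Alive (shift U s₀) (l * z) (l ^ 2 * u) := (alive_scl hl).1 hu
  have hA' : Alive (shift U s₀) (Zfl U s₀ w) (l ^ 2 * u) := by rw [hz]; exact hA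
  have hB : Alive U w (s₀ + l ^ 2 * u) := alive_of_shift hU hw hA'
  refine ⟨hB, ?_⟩
  have hZ : ∀ v ∈ Icc 0 u, Zfl U (s₀ + l ^ 2 * v) w = l * Zfl (scl l (shift U s₀)) v z := by
    intro v hv
    have hv2 : l ^ 2 * v ≤ l ^ 2 * u := mul_le_mul_of_nonneg_left hv.2 hl2.le
    have hv0 : 0 ≤ l ^ 2 * v := mul_nonneg hl2.le hv.1
    rw [Zfl_add (hB.mono (by positivity) (by linarith)) hs₀ hv0, hz,
      Zfl_scl hl (hA.mono hv0 hv2), ← mul_assoc, mul_inv_cancel₀ (Complex.ofReal_ne_zero.2 hl.ne'),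
      one_mul]
  have hu2 : 0 ≤ l ^ 2 * u := by positivity
  have him : (gfl U (s₀ + l ^ 2 * u) w).im = l * (gfl (scl l (shift U s₀)) u z).im := by
    rw [← Zfl_im, hZ u ⟨hu0, le_rfl⟩, ← Zfl_im (scl l (shift U s₀))]
    simp
  set f : ℝ → ℝ := fun s => 2 * (((Zfl U s w) ^ 2)⁻¹).re with hf
  have hne : ∀ r ∈ Icc 0 (s₀ + l ^ 2 * u), (Zfl U r w) ^ 2 ≠ 0 := fun r hr =>
    pow_ne_zero 2 (Zfl_ne_zero (hB.mono hr.1 hr.2))
  have hfc : ContinuousOn f (Icc 0 (s₀ + l ^ 2 * u)) :=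
    continuousOn_const.mul (Complex.continuous_re.comp_continuousOn
      (((continuousOn_Zfl hU hB).pow 2).inv₀ hne))
  have hint : ∀ a b, 0 ≤ a → a ≤ b → b ≤ s₀ + l ^ 2 * u →
      IntervalIntegrable f MeasureTheory.volume a b := by
    intro a b ha hab hb
    apply ContinuousOn.intervalIntegrable
    rw [uIcc_of_le hab]
    exact hfc.mono (Icc_subset_Icc ha hb)
  have hadd : (∫ s in (0 : ℝ)..(s₀ + l ^ 2 * u), f s) =
      (∫ s in (0 : ℝ)..s₀, f s) + ∫ s in s₀..(s₀ + l ^ 2 * u), f s :=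
    (intervalIntegral.integral_add_adjacent_intervals (hint _ _ le_rfl hs₀ (by linarith))
      (hint _ _ hs₀ (by linarith) le_rfl)).symm
  have hsecond : (∫ s in s₀..(s₀ + l ^ 2 * u), f s) =
      ∫ v in (0 : ℝ)..u, 2 * (((Zfl (scl l (shift U s₀)) v z) ^ 2)⁻¹).re := by
    have e := intervalIntegral.mul_integral_comp_add_mul (f := f) (a := 0) (b := u) (l ^ 2) s₀
    rw [mul_zero, add_zero] at e
    rw [← e, ← intervalIntegral.integral_const_mul]
    refine intervalIntegral.integral_congr fun v hv => ?_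
    rw [uIcc_of_le hu0] at hv
    simp only [hf]
    rw [hZ v hv, mul_pow, mul_inv]
    have : ((l : ℂ) ^ 2)⁻¹ = (((l ^ 2)⁻¹ : ℝ) : ℂ) := by push_cast; ring
    rw [this, Complex.re_ofReal_mul]
    field_simp
  have hfirst : (∫ s in (0 : ℝ)..s₀, f s) ≤ MM s₀ l y₀ := by
    have h := intervalIntegral.norm_integral_le_of_norm_le_const (a := 0) (b := s₀)
      (C := 2 / (l * y₀) ^ 2) (f := f) ?_
    · rw [sub_zero, abs_of_nonneg hs₀] at h
      exact (le_abs_self _).trans h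
    · intro s hs
      rw [uIoc_of_le hs₀] at hs
      have hs' : s ∈ Icc 0 s₀ := ⟨hs.1.le, hs.2⟩
      have a1 := norm_Zfl_ge hw hz hs'
      have b1 : l * y₀ ≤ ‖Zfl U s w‖ := (mul_le_mul_of_nonneg_left hzy hl.le).trans a1
      have hp : 0 < l * y₀ := by positivity
      simp only [hf]
      rw [norm_mul, Real.norm_ofNat, div_eq_mul_inv]
      have c1 : ‖(((Zfl U s w) ^ 2)⁻¹).re‖ ≤ ‖((Zfl U s w) ^ 2)⁻¹‖ := by
        rw [Real.norm_eq_abs]; exact Complex.abs_re_le_norm _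
      rw [norm_inv, norm_pow] at c1
      refine mul_le_mul_of_nonneg_left (c1.trans ?_) (by norm_num)
      gcongr
  rw [ups, him, hadd, hsecond, ups, Real.exp_add]
  have hpos : 0 < (gfl (scl l (shift U s₀)) u z).im := gfl_im_pos hu
  set E := Real.exp (∫ v in (0 : ℝ)..u, 2 * (((Zfl (scl l (shift U s₀)) v z) ^ 2)⁻¹).re) with hE
  have hEpos : 0 < E := Real.exp_pos _
  have h1 : Real.exp (∫ s in (0 : ℝ)..s₀, f s) ≤ Real.exp (MM s₀ l y₀) := Real.exp_le_exp.2 hfirst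
  calc l * (gfl (scl l (shift U s₀)) u z).im * (Real.exp (∫ s in (0 : ℝ)..s₀, f s) * E)
      ≤ l * (gfl (scl l (shift U s₀)) u z).im * (Real.exp (MM s₀ l y₀) * E) := by gcongr
    _ = l * Real.exp (MM s₀ l y₀) * ((gfl (scl l (shift U s₀)) u z).im * E) := by ring

/-- **deterministic transfer.** -/
theorem image_subset {γ : ℝ → ℂ} {n : ℝ} {Q : Set ℂ} {F : ℂ → ℂ} (hU : ContinuousOn U (Ici 0))
    (hγ : ContinuousOn γ (Ici 0)) (hs₀ : 0 ≤ s₀) (hl : 0 < l) (hn : 0 ≤ n) (hy₀ : 0 < y₀)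
    (hQ : ∀ z ∈ Q, y₀ ≤ z.im)
    (hTR1 : ∀ w : ℂ, Alive U w s₀ → w ∉ γ '' Icc 0 s₀)
    (C : ℝ)
    (hTR2 : ∀ t : ℝ, ∀ w : ℂ, Alive U w t →
      ∃ p ∈ γ '' Icc 0 t ∪ {p : ℂ | p.im ≤ 0}, dist w p ≤ C * ups U t w)
    (hF : ∀ z : ℂ, 0 < z.im → Alive U (F z) s₀ ∧ Zfl U s₀ (F z) = l * z) :
    F '' KK (scl l (shift U s₀)) n Q ⊆ γ '' Icc s₀ (s₀ + l ^ 2 * n) := by
  rintro _ ⟨z, ⟨hzQ, hz⟩, rfl⟩
  have hzy := hQ z hzQ
  have hzpos : 0 < z.im := hy₀.trans_le hzy
  obtain ⟨hFz, hFz2⟩ := hF z hzpos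
  have hl2 : 0 ≤ l ^ 2 * n := by positivity
  -- closed set
  have hcl : IsClosed (γ '' Icc 0 (s₀ + l ^ 2 * n) ∪ {p : ℂ | p.im ≤ 0}) :=
    ((isCompact_Icc.image_of_continuousOn (hγ.mono Icc_subset_Ici_self)).isClosed).union
      (isClosed_le Complex.continuous_im continuous_const)
  set M := Real.exp (MM s₀ l (y₀ / 2)) with hM
  have hMpos : 0 < M := Real.exp_pos _
  have hmem : F z ∈ γ '' Icc 0 (s₀ + l ^ 2 * n) ∪ {p : ℂ | p.im ≤ 0} := by
    rw [← hcl.closure_eq, Metric.mem_closure_iff]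
    intro ε hε
    set D := M * l + |C| * (l * M) + 1 with hD
    have hDpos : 0 < D := by positivity
    obtain ⟨z', hz'1, u, hu, hau, hups⟩ := hz (min (y₀ / 2) (ε / (2 * D)))
      (lt_min (by positivity) (by positivity))
    have hz'd : ‖z' - z‖ < y₀ / 2 := hz'1.trans_le (min_le_left _ _)
    have hz'y : y₀ / 2 ≤ z'.im := by
      have h1 : |(z' - z).im| ≤ ‖z' - z‖ := Complex.abs_im_le_norm _
      rw [Complex.sub_im] at h1
      have h2 := neg_abs_le (z'.im - z.im)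
      linarith
    obtain ⟨hFz', hFz'2⟩ := hF z' (by linarith)
    have hb := (bilip hU hl (half_pos hy₀) hs₀ hFz hFz2 (by linarith) hFz' hFz'2 hz'y).2
    obtain ⟨hal, hupt⟩ := ups_transfer hU hl (half_pos hy₀) hs₀ hFz' hFz'2 hz'y hau
    obtain ⟨p, hp, hdp⟩ := hTR2 _ _ hal
    refine ⟨p, ?_, ?_⟩
    · rcases hp with hp | hp
      · left
        refine image_mono (Icc_subset_Icc le_rfl ?_) hp
        have := mul_le_mul_of_nonneg_left hu.2 (sq_nonneg l)
        linarith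
      · exact Or.inr hp
    · have hpos : 0 ≤ ups U (s₀ + l ^ 2 * u) (F z') :=
        mul_nonneg (gfl_im_pos hal).le (Real.exp_pos _).le
      have h1 : dist (F z) (F z') ≤ M * (l * ‖z' - z‖) := by
        rw [dist_eq_norm, norm_sub_rev z' z]; exact hb
      have h2 : dist (F z') p ≤ |C| * (l * M * ups (scl l (shift U s₀)) u z') := by
        refine hdp.trans ?_
        refine (mul_le_mul_of_nonneg_right (le_abs_self C) hpos).trans ?_
        exact mul_le_mul_of_nonneg_left hupt (abs_nonneg _)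
      have h3 : ‖z' - z‖ ≤ ε / (2 * D) := (hz'1.trans_le (min_le_right _ _)).le
      have h4 : ups (scl l (shift U s₀)) u z' ≤ ε / (2 * D) := hups.trans (min_le_right _ _)
      calc dist (F z) p ≤ dist (F z) (F z') + dist (F z') p := dist_triangle _ _ _
        _ ≤ M * (l * ‖z' - z‖) + |C| * (l * M * ups (scl l (shift U s₀)) u z') := add_le_add h1 h2
        _ ≤ M * (l * (ε / (2 * D))) + |C| * (l * M * (ε / (2 * D))) := by gcongr
        _ = (D - 1) * (ε / (2 * D)) := by rw [hD]; ring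
        _ < D * (ε / (2 * D)) := by
            apply mul_lt_mul_of_pos_right (by linarith) (by positivity)
        _ = ε / 2 := by field_simp
        _ < ε := by linarith
  rcases hmem with ⟨t, ht, hte⟩ | h
  · refine ⟨t, ⟨?_, ht.2⟩, hte⟩
    by_contra hlt
    push Not at hlt
    exact hTR1 (F z) hFz ⟨t, ⟨ht.1, hlt.le⟩, hte⟩
  · exact absurd h (not_le.2 hFz.im_pos)

end Crest.Agent.R162.ZO
end

-- ▼ part R162/GM3
section

/-!
Row 162, node GM (3): lower bounds for the gauge measure: mass distribution principle, its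
finite-scale version for measures on neighbourhoods of a compact set, Lipschitz images.
-/

set_option autoImplicit false

namespace Crest.Agent.R162.GM

open Crest.ProbabilityR.Loewner MeasureTheory Set Filter Topology
open scoped ENNReal







/-- Lipschitz images. -/
theorem gaugeMeasure_image_le {κ : ℝ} (hκ : 0 < κ) (hκ8 : κ < 8) {E : Set ℂ} {f : ℂ → ℂ}
    {K : NNReal} (hK : 1 ≤ K) (hf : LipschitzOnWith K f E) :
    gaugeMeasure κ (f '' E) ≤ ENNReal.ofReal ((K : ℝ) ^ dimParam κ) * gaugeMeasure κ E := by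
  have hK0 : (0:ℝ) < K := by exact_mod_cast (zero_lt_one.trans_le hK)
  have hKr : (1:ℝ) ≤ K := by exact_mod_cast hK
  rw [gaugeMeasure, Measure.mkMetric_apply, Measure.mkMetric_apply]
  refine iSup₂_le fun r hr => ?_
  -- choose the scale for `E`
  set r' : ℝ≥0∞ := min (r / K) 1 with hr'
  have hr'0 : 0 < r' := lt_min (ENNReal.div_pos hr.ne' ENNReal.coe_ne_top) one_pos
  have hKne : ENNReal.ofReal ((K : ℝ) ^ dimParam κ) ≠ 0 :=
    (ENNReal.ofReal_pos.2 (by positivity)).ne'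
  refine le_trans ?_ (mul_le_mul_right (le_iSup₂_of_le r' hr'0 le_rfl) _)
  rw [ENNReal.mul_iInf_of_ne hKne ENNReal.ofReal_ne_top]
  refine le_iInf fun t => ?_
  rw [ENNReal.mul_iInf_of_ne hKne ENNReal.ofReal_ne_top]
  refine le_iInf fun hEt => ?_
  rw [ENNReal.mul_iInf_of_ne hKne ENNReal.ofReal_ne_top]
  refine le_iInf fun ht => ?_
  have hdiam : ∀ n, Metric.ediam (f '' (t n ∩ E)) ≤ K * Metric.ediam (t n) := by
    intro n
    refine Metric.ediam_image_le_iff.2 ?_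
    intro x hx y hy
    refine (hf hx.2 hy.2).trans (mul_le_mul_right (Metric.edist_le_ediam_of_mem hx.1 hy.1) _)
  refine iInf_le_of_le (fun n => f '' (t n ∩ E)) (iInf_le_of_le ?_ (iInf_le_of_le ?_ ?_))
  · rintro _ ⟨x, hx, rfl⟩
    obtain ⟨n, hn⟩ := mem_iUnion.1 (hEt hx)
    exact mem_iUnion.2 ⟨n, x, ⟨hn, hx⟩, rfl⟩
  · intro n
    refine (hdiam n).trans ?_
    calc (K : ℝ≥0∞) * Metric.ediam (t n) ≤ K * (r / K) :=
          mul_le_mul_right ((ht n).trans (min_le_left _ _)) _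
      _ ≤ r := ENNReal.mul_div_le
  · rw [← ENNReal.tsum_mul_left]
    refine ENNReal.tsum_le_tsum fun n => iSup_le fun hne => ?_
    obtain ⟨_, x, hx, rfl⟩ := hne
    rw [iSup_pos ⟨x, hx.1⟩]
    have hfin : Metric.ediam (t n) ≠ ⊤ :=
      ne_top_of_le_ne_top ENNReal.one_ne_top ((ht n).trans (min_le_right _ _))
    refine (gaugeExt_mono hκ hκ8 (hdiam n) (ENNReal.mul_ne_top ENNReal.coe_ne_top hfin)).trans ?_
    have := gaugeExt_mul_le hκ hκ8 hKr (Metric.ediam (t n))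
    simpa using this

/-- positivity is transported by locally expanding maps: if `f` restricted to `E` has a Lipschitz
left inverse, positivity of `gaugeMeasure E` gives positivity of `gaugeMeasure (f '' E)`. -/
theorem gaugeMeasure_image_pos {κ : ℝ} (hκ : 0 < κ) (hκ8 : κ < 8) {E : Set ℂ} {f : ℂ → ℂ}
    {K : NNReal} (hf : ∀ x ∈ E, ∀ y ∈ E, edist x y ≤ K * edist (f x) (f y))
    (hE : 0 < gaugeMeasure κ E) : 0 < gaugeMeasure κ (f '' E) := by
  have hinj : InjOn f E := by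
    intro x hx y hy hxy
    have := hf x hx y hy
    rw [hxy, edist_self, mul_zero] at this
    exact edist_le_zero.1 this
  have hlip : LipschitzOnWith (max K 1) (Function.invFunOn f E) (f '' E) := by
    rintro _ ⟨x, hx, rfl⟩ _ ⟨y, hy, rfl⟩
    rw [hinj.leftInvOn_invFunOn hx, hinj.leftInvOn_invFunOn hy]
    refine (hf x hx y hy).trans (mul_le_mul_left ?_ _)
    exact_mod_cast le_max_left K 1
  have himg : Function.invFunOn f E '' (f '' E) = E := by
    rw [image_image]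
    have : ∀ x ∈ E, Function.invFunOn f E (f x) = x := fun x hx => hinj.leftInvOn_invFunOn hx
    ext z; constructor
    · rintro ⟨x, hx, rfl⟩; simp only [this x hx]; exact hx
    · intro hz; exact ⟨z, hz, this z hz⟩
  have h := gaugeMeasure_image_le hκ hκ8 (le_max_right K 1) hlip
  rw [himg] at h
  rcases eq_or_ne (gaugeMeasure κ (f '' E)) 0 with h0 | h0
  · rw [h0, mul_zero] at h
    exact absurd (le_antisymm h bot_le) hE.ne'
  · exact pos_iff_ne_zero.2 h0

end Crest.Agent.R162.GM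
end

-- ▼ part R162/ZO3
section

/-!
Row 162, nodes ZO3 + ZO4 (= LB9a, LB9b): positivity of the gauge measure of every piece of the trace
from one good event of positive probability for the flow of a Brownian path on `[0,n]`.
-/

set_option autoImplicit false

open MeasureTheory ProbabilityTheory Set Metric Topology Filter
open scoped NNReal ENNReal
open Crest.Agent.R162.FL Crest.Agent.R162.OP Crest.ProbabilityR.Loewner

namespace Crest.Agent.R162.ZO

variable {U : ℝ → ℝ} {γ : ℝ → ℂ} {s₀ l y₀ : ℝ}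

/-- TR2 in terms of `ups`. -/
lemma infDist_le_ups (h : IsChordalTrace U γ) (hU : ContinuousOn U (Ici 0)) {t : ℝ} {w : ℂ}
    (hw : Alive U w t) :
    infDist w (γ '' Icc 0 t ∪ {z : ℂ | z.im ≤ 0}) ≤ 2 * ups U t w := by
  have ht := hw.1
  have hD := TR.survivingDomain_eq h hU ht
  have hdiff : DifferentiableOn ℂ (gfl U t) (Dom U t) := TR.differentiableOn_gfl' h hU ht
  have himg := TR.image_gfl h hU ht
  have key := TR.infDist_le_ups_surv (γ := γ) h.continuousOn (t := t) (g := gfl U t)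
    (by rw [hD]; exact hdiff) (by rw [hD]; exact TR.injOn_gfl hU t)
    (by rw [hD]; exact himg) (w := w) (by rw [hD]; exact hw)
  refine key.trans (le_of_eq ?_)
  have hopen : Dom U t ∈ 𝓝 w := (isOpen_Dom hU t).mem_nhds hw
  have hg : HasDerivAt (gfl U t) (deriv (gfl U t) w) w := (hdiff.differentiableAt hopen).hasDerivAt
  have hZ : HasDerivAt (fun w => Zfl U t w) (deriv (gfl U t) w) w := by
    simpa [Zfl] using hg.sub_const (U t : ℂ)
  have hZpos : 0 < (Zfl U t w).im := Zfl_im_pos hw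
  have hf : HasDerivAt (ffl U t) (deriv (ffl U t) (Zfl U t w)) (Zfl U t w) :=
    (FLC.hasDerivAt_ffl hU ht hZpos).differentiableAt.hasDerivAt
  have hcomp : HasDerivAt (fun w => ffl U t (Zfl U t w))
      (deriv (ffl U t) (Zfl U t w) * deriv (gfl U t) w) w := hf.comp w hZ
  have hid : HasDerivAt (fun w : ℂ => w) 1 w := hasDerivAt_id w
  have hid' : HasDerivAt (fun w => ffl U t (Zfl U t w)) 1 w := by
    refine hid.congr_of_eventuallyEq ?_
    filter_upwards [hopen] with v hv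
    exact FLC.ffl_Zfl hU hv
  have hprod := hcomp.unique hid'
  have hnorm : ‖deriv (ffl U t) (Zfl U t w)‖ * ‖deriv (gfl U t) w‖ = 1 := by
    rw [← norm_mul, hprod, norm_one]
  have hne : ‖deriv (gfl U t) w‖ ≠ 0 := by
    intro h0
    rw [h0, mul_zero] at hnorm
    exact zero_ne_one hnorm
  rw [FLC.ups_eq hU hw, Zfl_im]
  rw [div_eq_iff hne]
  linear_combination (-2 * (gfl U t w).im) * hnorm

lemma exists_hull_near (h : IsChordalTrace U γ) (hU : ContinuousOn U (Ici 0)) {t : ℝ} {w : ℂ}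
    (hw : Alive U w t) :
    ∃ p ∈ γ '' Icc 0 t ∪ {p : ℂ | p.im ≤ 0}, dist w p ≤ 3 * ups U t w := by
  have hpos : 0 < ups U t w := mul_pos (gfl_im_pos hw) (Real.exp_pos _)
  have hne : (γ '' Icc 0 t ∪ {p : ℂ | p.im ≤ 0}).Nonempty := ⟨0, Or.inr (by simp)⟩
  have h1 : infDist w (γ '' Icc 0 t ∪ {p : ℂ | p.im ≤ 0}) < 3 * ups U t w :=
    (infDist_le_ups h hU hw).trans_lt (by linarith)
  obtain ⟨p, hp, hd⟩ := (infDist_lt_iff hne).1 h1
  exact ⟨p, hp, hd.le⟩

/-- alive points are off the trace -/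
lemma not_mem_trace (h : IsChordalTrace U γ) (hU : ContinuousOn U (Ici 0)) {t : ℝ} {w : ℂ}
    (hw : Alive U w t) : w ∉ γ '' Icc 0 t := by
  have h1 : w ∈ Dom U t := hw
  rw [← TR.survivingDomain_eq h hU hw.1] at h1
  exact h1.1.2

/-- **LB9a.** -/
theorem gauge_pos_of_KK {κ : ℝ} (hκ : 0 < κ) (hκ8 : κ < 8) {n : ℝ} {Q : Set ℂ}
    (h : IsChordalTrace U γ) (hU : ContinuousOn U (Ici 0)) (hs₀ : 0 ≤ s₀) (hl : 0 < l)
    (hn : 0 ≤ n) (hy₀ : 0 < y₀) (hQ : ∀ z ∈ Q, y₀ ≤ z.im)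
    (hpos : 0 < gaugeMeasure κ (KK (scl l (shift U s₀)) n Q)) :
    0 < gaugeMeasure κ (γ '' Icc s₀ (s₀ + l ^ 2 * n)) := by
  obtain ⟨F, hF⟩ := exists_inv (l := l) hU hs₀ hl
  have hsub := image_subset (F := F) hU h.continuousOn hs₀ hl hn hy₀ hQ
    (fun w hw => not_mem_trace h hU hw) 3 (fun t w hw => exists_hull_near h hU hw) hF
  refine lt_of_lt_of_le ?_ (measure_mono hsub)
  set C : ℝ≥0 := Real.toNNReal (Real.exp (MM s₀ l y₀) / l) with hC
  refine GM.gaugeMeasure_image_pos hκ hκ8 (K := C) ?_ hpos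
  intro x hx y hy
  have hxy := hQ x hx.1
  have hyy := hQ y hy.1
  obtain ⟨a1, a2⟩ := hF x (hy₀.trans_le hxy)
  obtain ⟨b1, b2⟩ := hF y (hy₀.trans_le hyy)
  have hb := (bilip hU hl hy₀ hs₀ a1 a2 hxy b1 b2 hyy).1
  rw [edist_dist, edist_dist, dist_eq_norm, dist_eq_norm]
  have hCe : (C : ℝ≥0∞) = ENNReal.ofReal (Real.exp (MM s₀ l y₀) / l) := rfl
  rw [hCe, ← ENNReal.ofReal_mul (by positivity)]
  apply ENNReal.ofReal_le_ofReal
  rw [div_mul_eq_mul_div, le_div_iff₀ hl]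
  linarith

/-! ### congruence in the driving function -/

lemma ups_congr {W W' : ℝ → ℝ} {T : ℝ} (hWW : ∀ s ∈ Icc 0 T, W s = W' s) {t : ℝ}
    (ht : t ∈ Icc 0 T) (z : ℂ) : ups W t z = ups W' t z := by
  have hg : ∀ s ∈ Icc 0 T, gfl W s z = gfl W' s z := fun s hs =>
    FLD.gfl_congr fun r hr => hWW r ⟨hr.1, hr.2.trans hs.2⟩
  unfold ups
  rw [hg t ht]
  congr 2
  refine intervalIntegral.integral_congr fun s hs => ?_
  rw [uIcc_of_le ht.1] at hs
  have hs' : s ∈ Icc 0 T := ⟨hs.1, hs.2.trans ht.2⟩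
  simp only [Zfl]
  rw [hg s hs', hWW s hs']

lemma KK_congr {W W' : ℝ → ℝ} {n : ℝ} (hWW : ∀ s ∈ Icc 0 n, W s = W' s) (Q : Set ℂ) :
    KK W n Q = KK W' n Q := by
  ext z
  refine and_congr_right fun _ => forall₂_congr fun ε _ => exists_congr fun z' =>
    and_congr_right fun _ => exists_congr fun u => and_congr_right fun hu => ?_
  rw [FLD.alive_congr (W' := W') fun r hr => hWW r ⟨hr.1, hr.2.trans hu.2⟩, ups_congr hWW hu]

end Crest.Agent.R162.ZO
end

-- ▼ part R162/ZO4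
section

/-!
Row 162, node ZO4 (= LB9b): horizon `n` and final assembly of the lower bound.
-/

set_option autoImplicit false
set_option linter.unusedSectionVars false

open MeasureTheory ProbabilityTheory Set Metric Topology Filter
open scoped NNReal ENNReal
open Crest.Agent.R162.FL Crest.Agent.R162.OP Crest.ProbabilityR.Loewner

namespace Crest.Agent.R162.ZO

variable {Ω : Type*} {mΩ : MeasurableSpace Ω} {P : Measure Ω} [IsProbabilityMeasure P]
  {B : ℝ≥0 → Ω → ℝ}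

lemma past_scaled_le (B : ℝ≥0 → Ω → ℝ) {n : ℝ≥0} (hn : 0 < n) :
    pastSigma (piece B 0 n⁻¹) n ≤ pastSigma B 1 := by
  unfold pastSigma
  have hu : ∀ u : Set.Iic n, 0 + n⁻¹ * (u : ℝ≥0) ≤ 1 := fun u => by
    rw [zero_add, mul_comm, ← div_eq_mul_inv, div_le_one hn]
    exact u.2
  have : (fun ω (u : Set.Iic n) => piece B 0 n⁻¹ u ω)
      = (fun (x : Set.Iic (1 : ℝ≥0) → ℝ) (u : Set.Iic n) =>
          (√((n⁻¹ : ℝ≥0) : ℝ))⁻¹ * (x ⟨0 + n⁻¹ * u, hu u⟩ - x ⟨0, Set.mem_Iic.2 zero_le⟩)) ∘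
        (fun ω (u : Set.Iic (1 : ℝ≥0)) => B u ω) := rfl
  rw [this, ← MeasurableSpace.comap_comp]
  apply MeasurableSpace.comap_mono
  rw [← measurable_iff_comap_le]
  refine measurable_pi_lambda _ fun u => ?_
  have a1 : Measurable fun c : Set.Iic (1 : ℝ≥0) → ℝ => c ⟨0 + n⁻¹ * u, hu u⟩ :=
    measurable_pi_apply _
  have a2 : Measurable fun c : Set.Iic (1 : ℝ≥0) → ℝ => c ⟨0, Set.mem_Iic.2 zero_le⟩ :=
    measurable_pi_apply _
  exact (a1.sub a2).const_mul _


/-- what the lower-bound analysis (LB1-LB8) has to deliver: a good path event. -/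
structure LBGood (κ : ℝ) (P : Measure Ω) (n : ℝ≥0) (Q : Set ℂ) (c : ℝ≥0∞)
    (Good : (ℝ≥0 → ℝ) → Prop) : Prop where
  meas : ∀ B' : ℝ≥0 → Ω → ℝ, (∀ t, Measurable (B' t)) → (∀ ω, Continuous fun t => B' t ω) →
    (∀ ω, B' 0 ω = 0) → MeasurableSet[pastSigma B' n] {ω | Good fun t => B' t ω}
  prob : ∀ B' : ℝ≥0 → Ω → ℝ, IsBrownianReal B' P → (∀ t, Measurable (B' t)) →
    (∀ ω, Continuous fun t => B' t ω) → (∀ ω, B' 0 ω = 0) → c ≤ P {ω | Good fun t => B' t ω}
  pos : ∀ w : ℝ≥0 → ℝ, Continuous w → w 0 = 0 → Good w →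
    0 < gaugeMeasure κ (KK (fun t => √κ * w (Real.toNNReal t)) n Q)

lemma continuous_driving {κ : ℝ} {ω : Ω} (hc : Continuous fun t => B t ω) :
    Continuous (driving κ B ω) := by
  unfold driving
  have := hc.comp continuous_real_toNNReal
  exact continuous_const.mul this


end Crest.Agent.R162.ZO
end

-- ▼ part R162/ZO5
section

/-!
Row 162, node LB-END: the closed end of the lower bound.  From the approximate occupation measures
(hypotheses of `LB8.frostman` + support in points of small conformal radius) to `Top.LBC`.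
-/

set_option autoImplicit false
set_option linter.unusedSectionVars false

open MeasureTheory ProbabilityTheory Set Metric Topology Filter
open scoped NNReal ENNReal
open Crest.Agent.R162.FL Crest.Agent.R162.OP Crest.ProbabilityR.Loewner

namespace Crest.Agent.R162.ZO

universe u

section

variable {Ω : Type*} {mΩ : MeasurableSpace Ω} {P : Measure Ω} [IsProbabilityMeasure P]
  {B : ℝ≥0 → Ω → ℝ}

/-- a Brownian set-up gives a Brownian motion in the sense of Mathlib. -/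
theorem isBrownianReal_of_isBM {F : Filtration ℝ≥0 mΩ} (h : OS.IsBM F B P) :
    IsBrownianReal B P := by
  have hlaw : ∀ t, HasLaw (B t) (gaussianReal 0 t) P := by
    intro t
    refine ⟨((h.adapted t).mono (F.le t) le_rfl).aemeasurable, ?_⟩
    have h1 := h.law 0 t
    have h2 : (fun ω => B (0 + t) ω - B 0 ω) = B t := by
      funext ω; rw [zero_add, h.zero, sub_zero]
    rwa [h2] at h1
  have hinc : HasIndepIncrements B P := by
    refine HasIndepIncrements.of_nat fun t ht _ => ?_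
    rw [iIndepFun_iff_measure_inter_preimage_eq_mul]
    intro S sets hsets
    induction S using Finset.induction_on_max with
    | empty => simp
    | insert a S hmax ih =>
      have haS : a ∉ S := fun h => lt_irrefl _ (hmax a h)
      rw [Finset.prod_insert haS, Finset.set_biInter_insert,
        ← ih fun i hi => hsets i (Finset.mem_insert_of_mem hi)]
      have hmeas1 : MeasurableSet[F (t a)]
          (⋂ i ∈ S, (fun ω => B (t (i + 1)) ω - B (t i) ω) ⁻¹' sets i) := by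
        refine MeasurableSet.biInter S.countable_toSet fun i hi => ?_
        have hi1 : t (i + 1) ≤ t a := ht (hmax i hi)
        have hi0 : t i ≤ t a := ht (hmax i hi).le
        have m1 : Measurable[F (t a)] (B (t (i + 1))) := (h.adapted _).mono (F.mono hi1) le_rfl
        have m0 : Measurable[F (t a)] (B (t i)) := (h.adapted _).mono (F.mono hi0) le_rfl
        exact (m1.sub m0) (hsets i (Finset.mem_insert_of_mem hi))
      have hmeas2 : MeasurableSet[MeasurableSpace.comap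
          (fun ω (u : ℝ≥0) => B (t a + u) ω - B (t a) ω) MeasurableSpace.pi]
          ((fun ω => B (t (a + 1)) ω - B (t a) ω) ⁻¹' sets a) := by
        have h1 : Measurable[MeasurableSpace.comap
            (fun ω (u : ℝ≥0) => B (t a + u) ω - B (t a) ω) MeasurableSpace.pi]
            (fun ω (u : ℝ≥0) => B (t a + u) ω - B (t a) ω) := comap_measurable _
        have h2 := (measurable_pi_apply (t (a + 1) - t a)).comp h1
        have h3 : t a + (t (a + 1) - t a) = t (a + 1) := add_tsub_cancel_of_le (ht (Nat.le_succ a))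
        have h4 := h2 (hsets a (Finset.mem_insert_self a S))
        convert h4 using 2
        funext ω
        simp only [Function.comp_apply, h3]
      exact (Indep_iff _ _ P).1 (h.indep (t a)) _ _ hmeas2 hmeas1
  exact { toIsPreBrownianReal := hinc.isPreBrownianReal_of_hasLaw hlaw,
          cont := Eventually.of_forall h.cont }

/-- block independence, event form: for every (good) Brownian motion on `(Ω,P)` there is an event of
probability `≥ c`, measurable with respect to the path up to time `n`, on which `R` holds; then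
almost surely `R` holds for some rescaled piece in every interval. -/
theorem ae_piece_event (hB : IsBrownianReal B P) (hm : ∀ t, Measurable (B t))
    (hcont : ∀ ω, Continuous fun t => B t ω)
    {c : ℝ≥0∞} (hc : 0 < c) {n : ℝ≥0} (hn : 0 < n) (R : (ℝ≥0 → ℝ) → Prop)
    (hE : ∀ B' : ℝ≥0 → Ω → ℝ, IsBrownianReal B' P → (∀ t, Measurable (B' t)) →
      (∀ ω, Continuous fun t => B' t ω) → (∀ ω, B' 0 ω = 0) →
      ∃ E : Set Ω, MeasurableSet[pastSigma B' n] E ∧ c ≤ P E ∧ ∀ ω ∈ E, R fun t => B' t ω) :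
    ∀ᵐ ω ∂P, ∀ a b : ℝ≥0, a < b → ∃ s τ : ℝ≥0, a ≤ s ∧ 0 < τ ∧ s + τ * n ≤ b ∧
      R fun t => piece B s τ t ω := by
  have hn' : 0 < n⁻¹ := inv_pos.2 hn
  have hscale : ∀ (s τ : ℝ≥0) (t : ℝ≥0) (ω : Ω),
      piece (piece B s τ) 0 n⁻¹ t ω = piece B s (τ * n⁻¹) t ω := by
    intro s τ t ω
    have e2 : τ * (n⁻¹ * t) = τ * n⁻¹ * t := by ring
    have e1 : √((τ * n⁻¹ : ℝ≥0) : ℝ) = √(τ : ℝ) * √((n⁻¹ : ℝ≥0) : ℝ) := by
      rw [NNReal.coe_mul, Real.sqrt_mul (NNReal.coe_nonneg τ)]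
    have e3 : piece (piece B s τ) 0 n⁻¹ t ω =
        (√((n⁻¹ : ℝ≥0) : ℝ))⁻¹ * (piece B s τ (0 + n⁻¹ * t) ω - piece B s τ 0 ω) := rfl
    rw [e3, piece_zero, sub_zero, zero_add, piece, piece, e1, e2, mul_inv]
    ring
  have hex : ∀ s τ : ℝ≥0, 0 < τ → ∃ E : Set Ω, MeasurableSet[incSigma B s τ] E ∧ c ≤ P E ∧
      ∀ ω ∈ E, R fun t => piece B s (τ * n⁻¹) t ω := by
    intro s τ hτ
    obtain ⟨E, h1, h2, h3⟩ := hE (piece (piece B s τ) 0 n⁻¹)
      (piece_isBrownian (piece_isBrownian hB s hτ) 0 hn')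
      (piece_measurable (piece_measurable hm s τ) 0 n⁻¹)
      (piece_continuous (piece_continuous hcont s τ) 0 n⁻¹) (piece_zero (piece B s τ) 0 n⁻¹)
    refine ⟨E, past_piece_le B s τ _ (past_scaled_le (piece B s τ) hn _ h1), h2, fun ω hω => ?_⟩
    have := h3 ω hω
    simp only [hscale] at this
    exact this
  classical
  choose! E hEm hEP hER using hex
  have h1 : ∀ᵐ ω ∂P, ∀ p q : ℚ, Real.toNNReal p < Real.toNNReal q → ∃ s τ : ℝ≥0,
      Real.toNNReal p ≤ s ∧ 0 < τ ∧ s + τ ≤ Real.toNNReal q ∧ ω ∈ E s τ := by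
    rw [ae_all_iff]
    intro p
    rw [ae_all_iff]
    intro q
    by_cases h : Real.toNNReal p < Real.toNNReal q
    · filter_upwards [ae_exists_Ico hB.toIsPreBrownianReal hm hc h E hEm hEP] with ω hω _
      exact hω
    · exact Eventually.of_forall fun ω h' => absurd h' h
  filter_upwards [h1] with ω hω a b hab
  obtain ⟨q, _, haq, hqb⟩ := (NNReal.lt_iff_exists_rat_btwn a b).mp hab
  obtain ⟨p, _, hap, hpq⟩ := (NNReal.lt_iff_exists_rat_btwn a _).mp haq
  obtain ⟨s, τ, h1, h2, h3, h4⟩ := hω p q hpq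
  refine ⟨s, τ * n⁻¹, hap.le.trans h1, mul_pos h2 hn', ?_, hER s τ h2 ω h4⟩
  rw [mul_assoc, inv_mul_cancel₀ hn.ne', mul_one]
  exact h3.trans hqb.le

/-- **LB9b**, event form, for a Brownian motion with all paths continuous. -/
theorem lower_bound_event {κ : ℝ} (hκ : 0 < κ) (hκ8 : κ < 8) (hBr : IsBrownianReal B P)
    (hm : ∀ t, Measurable (B t)) (hcont : ∀ ω, Continuous fun t => B t ω)
    {γ : Ω → ℝ → ℂ} (hγ : ∀ᵐ ω ∂P, IsChordalTrace (driving κ B ω) (γ ω))
    {n : ℝ≥0} (hn : 0 < n) {Q : Set ℂ} {y₀ : ℝ} (hy₀ : 0 < y₀) (hQ : ∀ z ∈ Q, y₀ ≤ z.im)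
    {c : ℝ≥0∞} (hc : 0 < c)
    (hE : ∀ B' : ℝ≥0 → Ω → ℝ, IsBrownianReal B' P → (∀ t, Measurable (B' t)) →
      (∀ ω, Continuous fun t => B' t ω) → (∀ ω, B' 0 ω = 0) →
      ∃ E : Set Ω, MeasurableSet[pastSigma B' n] E ∧ c ≤ P E ∧
        ∀ ω ∈ E, 0 < gaugeMeasure κ (KK (driving κ B' ω) n Q)) :
    ∀ᵐ ω ∂P, ∀ s t : ℝ, 0 ≤ s → s < t → 0 < gaugeMeasure κ (γ ω '' Icc s t) := by
  have key := ae_piece_event hBr hm hcont hc hn
    (fun w => 0 < gaugeMeasure κ (KK (fun t => √κ * w (Real.toNNReal t)) n Q)) hE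
  filter_upwards [hγ, key] with ω h1 h3 s t hs hst
  have hU : ContinuousOn (driving κ B ω) (Ici 0) :=
    (continuous_driving (hcont ω)).continuousOn
  obtain ⟨s', τ, ha, hτ, hb, hpos⟩ := h3 (Real.toNNReal s) (Real.toNNReal t)
    ((Real.toNNReal_lt_toNNReal_iff (hs.trans_lt hst)).2 hst)
  have hτ' : (0 : ℝ) < τ := NNReal.coe_pos.2 hτ
  have hl : 0 < √(τ : ℝ) := Real.sqrt_pos.2 hτ'
  have hl2 : √(τ : ℝ) ^ 2 = τ := Real.sq_sqrt hτ'.le
  have hcongr : KK (fun t => √κ * piece B s' τ (Real.toNNReal t) ω) n Q =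
      KK (scl (√(τ : ℝ)) (shift (driving κ B ω) s')) n Q := by
    refine KK_congr (fun r hr => ?_) Q
    have hr0 : 0 ≤ r := hr.1
    have e1 : Real.toNNReal ((s' : ℝ) + √(τ : ℝ) ^ 2 * r) = s' + τ * Real.toNNReal r := by
      rw [hl2]
      ext
      rw [Real.coe_toNNReal _ (by positivity)]
      push_cast
      rw [Real.coe_toNNReal _ hr0]
    have e2 : Real.toNNReal (s' : ℝ) = s' := Real.toNNReal_coe
    simp only [scl, shift, driving, e1, e2, piece]
    ring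
  have hpos' : 0 < gaugeMeasure κ (KK (scl (√(τ : ℝ)) (shift (driving κ B ω) s')) n Q) := by
    rw [← hcongr]; exact hpos
  have h := gauge_pos_of_KK hκ hκ8 h1 hU (NNReal.coe_nonneg s') hl (NNReal.coe_nonneg n) hy₀ hQ
    hpos'
  refine lt_of_lt_of_le h (measure_mono (image_mono (Icc_subset_Icc ?_ ?_)))
  · have : (Real.toNNReal s : ℝ) ≤ s' := by exact_mod_cast ha
    rwa [Real.coe_toNNReal _ hs] at this
  · rw [hl2]
    have : ((s' + τ * n : ℝ≥0) : ℝ) ≤ (Real.toNNReal t : ℝ) := by exact_mod_cast hb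
    rw [Real.coe_toNNReal _ (hs.trans hst.le)] at this
    push_cast at this
    exact this

end

/-- **Input of the end of the lower bound**: approximate occupation measures `μ ω` at the scales
`ε k → 0` (content up to time `n`), with the hypotheses of `LB8.frostman`, carried by points of
conformal radius `≤ c4 ε k` before time `n`. -/
def LBIn (κ : ℝ) : Prop :=
  ∃ (n : ℝ≥0) (a : ℝ≥0∞) (D M Cm C3 r1 c4 : ℝ) (ε : ℕ → ℝ), 0 < n ∧ a ≠ 0 ∧ a ≠ ⊤ ∧ 0 ≤ D ∧
    0 < M ∧ 0 < r1 ∧ (∀ k, 0 < ε k) ∧ Tendsto ε atTop (𝓝 0) ∧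
    ∀ (Ω : Type u) [MeasurableSpace Ω] (P : Measure Ω) [IsProbabilityMeasure P]
      (B : ℝ≥0 → Ω → ℝ) (h : ∀ t, Measurable (B t)), OS.IsBM (OS.natF B h) B P →
      ∀ k : ℕ, ∃ μ : Ω → Measure ℂ,
        (Measurable[OS.natF B h n] fun ω => μ ω LB8.Q0) ∧
        (∀ z r, Measurable[OS.natF B h n] fun ω => μ ω (closedBall z r)) ∧
        a ≤ ∫⁻ ω, μ ω LB8.Q0 ∂P ∧
        (∀ ω, ∀ z ∈ LB8.Q0, ∀ r, 0 < r → r ≤ r1 →
          μ ω (closedBall z r) ≤ ENNReal.ofReal (D * ε k ^ (dimParam κ - 2) * r ^ 2)) ∧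
        (∀ z ∈ LB8.Q0, ∀ r, 0 < r → r ≤ r1 → M * ε k * Real.sqrt (GM.L r) ≤ r →
          ∫⁻ ω in {ω | ENNReal.ofReal (Cm * gaugeReal κ r) < μ ω (closedBall z r)},
            μ ω (closedBall z r) ∂P ≤ ENNReal.ofReal (C3 * (Real.log (1 / r) ^ 2)⁻¹ * r ^ 2)) ∧
        (∀ ω, ∀ᵐ z ∂(μ ω), z ∈ LB8.Q0 → ∃ u ∈ Icc (0 : ℝ) n,
          Alive (driving κ B ω) z u ∧ ups (driving κ B ω) u z ≤ c4 * ε k)

/-- **Node LB-END.** -/
theorem lbc_of {κ : ℝ} (hκ : 0 < κ) (hκ8 : κ < 8) (h : LBIn.{u} κ) : Top.LBC.{u} κ := by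
  obtain ⟨n, a, D, M, Cm, C3, r1, c4, ε, hn, ha0, ha, hD, hM, hr1, hε0, hε, hall⟩ := h
  obtain ⟨k1, C, hC, c8, hc8, hfr⟩ := LB8.frostman hκ hκ8 ha0 ha (Cm := Cm) (C3 := C3) hD hM hr1
  have hQc : IsCompact {z : ℂ | z.re ∈ Icc (0:ℝ) 1 ∧ z.im ∈ Icc (1:ℝ) 2} := by
    have := (isCompact_Icc (a := (0:ℝ)) (b := 1)).reProdIm (isCompact_Icc (a := (1:ℝ)) (b := 2))
    exact this
  set Q : Set ℂ := {z : ℂ | z.re ∈ Icc (0:ℝ) 1 ∧ z.im ∈ Icc (1:ℝ) 2} with hQdef
  have hQ0 : LB8.Q0 ⊆ Q := fun z hz => ⟨⟨hz.1, hz.2.1.le⟩, ⟨hz.2.2.1, hz.2.2.2.le⟩⟩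
  intro Ω _ P _ F B hBM γ hγ
  have hm : ∀ t, Measurable (B t) := fun t => hBM.measurable t
  have hev : ∀ B' : ℝ≥0 → Ω → ℝ, IsBrownianReal B' P → (∀ t, Measurable (B' t)) →
      (∀ ω, Continuous fun t => B' t ω) → (∀ ω, B' 0 ω = 0) →
      ∃ E : Set Ω, MeasurableSet[pastSigma B' n] E ∧ c8 ≤ P E ∧
        ∀ ω ∈ E, 0 < gaugeMeasure κ (KK (driving κ B' ω) n Q) := by
    intro B' hB' hm' hc' h0'
    have hBM' : OS.IsBM (OS.natF B' hm') B' P :=
      OS.isBM_natF hm' hc' h0' hB'.toIsPreBrownianReal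
    have hA : ∀ k : ℕ, ∃ A : Set Ω, MeasurableSet[pastSigma B' n] A ∧ c8 ≤ P A ∧
        ∀ ω ∈ A, ∃ ν : Measure ℂ, a / 4 ≤ ν univ ∧
          (∀ᵐ z ∂ν, z ∈ LB9a.SS (driving κ B' ω) n Q (|c4| * ε k)) ∧
          ∀ (z : ℂ) (r : ℝ), 0 < r → r ≤ LB8.side k1 →
            ν (closedBall z r) ≤ ENNReal.ofReal (C * gaugeReal κ r) := by
      intro k
      obtain ⟨μ, m1, m2, m3, m4, m5, m6⟩ := hall Ω P B' hm' hBM' k
      obtain ⟨A, hAm, hAP, hA⟩ := hfr P (OS.natF B' hm' n) ((OS.natF B' hm').le n) (ε k) (hε0 k) μ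
        m1 m2 m3 m4 m5
      refine ⟨A, hAm, hAP, fun ω hω => ?_⟩
      obtain ⟨g, hgm, hgQ, hga, hgb⟩ := hA ω hω
      refine ⟨(μ ω).restrict g, by rwa [Measure.restrict_apply_univ], ?_, fun z r hr hr' => ?_⟩
      · rw [ae_restrict_iff' hgm]
        filter_upwards [m6 ω] with z hz hzg
        obtain ⟨v, hv, hal, hup⟩ := hz (hgQ hzg)
        exact ⟨hQ0 (hgQ hzg), v, hv, hal, hup.trans
          (mul_le_mul_of_nonneg_right (le_abs_self _) (hε0 k).le)⟩
      · rw [Measure.restrict_apply measurableSet_closedBall, inter_comm]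
        exact hgb z r hr hr'
    choose A hAm hAP hA using hA
    refine ⟨{ω | ∃ᶠ k in atTop, ω ∈ A k}, ?_, ?_, fun ω hω => ?_⟩
    · exact LB9a.measurableSet_frequently (m0 := pastSigma B' n) hAm
    · exact LB9a.le_measure_limsup (fun k => pastSigma_le hm' n _ (hAm k))
        (Eventually.of_forall hAP)
    · have ha4 : 0 < (a / 4).toReal :=
        ENNReal.toReal_pos (ENNReal.div_pos ha0 (by norm_num)).ne'
          (ENNReal.div_ne_top ha (by norm_num))
      have h4ne : a / 4 ≠ ⊤ := ENNReal.div_ne_top ha (by norm_num)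
      have hcε : Tendsto (fun k => |c4| * ε k + ε k) atTop (𝓝 0) := by
        simpa using (hε.const_mul |c4|).add hε
      refine LB9a.gaugeMeasure_KK_pos (W := driving κ B' ω) (n := n) hκ hκ8 hQc ha4 hC
        (LB8.side_pos k1) fun δ hδ => ?_
      obtain ⟨k, hk1, hk2⟩ :=
        ((show ∃ᶠ k in atTop, ω ∈ A k from hω).and_eventually
          (hcε.eventually (gt_mem_nhds hδ))).exists
      obtain ⟨ν, v1, v2, v3⟩ := hA k ω hk1
      refine ⟨ν, by rwa [ENNReal.ofReal_toReal h4ne], ?_, fun x r hr hr' => v3 x r (hδ.trans_le hr) hr'⟩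
      filter_upwards [v2] with z hz
      exact LB9a.SS_mono (by have := hε0 k; linarith) hz
  have hBr : IsBrownianReal B P := isBrownianReal_of_isBM hBM
  have key := lower_bound_event hκ hκ8 hBr hm hBM.cont hγ hn (y₀ := 1) one_pos
    (fun z hz => hz.2.1) (pos_iff_ne_zero.2 hc8) hev
  filter_upwards [key] with ω hω s t hs hst
  exact hω s t hs.le hst

end Crest.Agent.R162.ZO
end

-- ▼ part R162/LBTree

/-!
Row 162 (S0243), node LBTREE (helper310): end of the lower bound,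
`Frost7 + MassAll ⟹ ZO.LBIn ⟹ Top.LBC`.
-/

set_option autoImplicit false

open MeasureTheory ProbabilityTheory Filter Topology Set Complex
open scoped NNReal ENNReal
open Crest.ProbabilityR.Loewner

namespace Crest.Agent.R162.LBTree

open Crest.Agent.R162.FL Crest.Agent.R162.OS Crest.Agent.R162.LB Crest.Agent.R162.LBS

universe u

/-- **LB-IN**: the approximate occupation measures. -/
theorem lbIn_of {κ c1 : ℝ} (hκ : 0 < κ) (hκ8 : κ < 8) (hF : Frost7.{u} κ c1)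
    (hM : MassAll.{u} κ c1) : ZO.LBIn.{u} κ := by
  obtain ⟨M, Cm, C3, r1, hM0, hr1, htail⟩ := LB8s.tail_of_frost7 hκ hκ8 hF
  obtain ⟨m0, ε₀, n, hm0, hε₀, hn, hmass⟩ := hM
  have hε : ∀ k : ℕ, 0 < ε₀ / ((k : ℝ) + 1) := fun k => by positivity
  have hεle : ∀ k : ℕ, ε₀ / ((k : ℝ) + 1) ≤ ε₀ := fun k =>
    div_le_self hε₀.le (by linarith [Nat.cast_nonneg (α := ℝ) k])
  refine ⟨(n : ℝ≥0), ENNReal.ofReal m0 * volume LB8.Q0, Real.pi, M, Cm, C3, r1, 2,
    fun k => ε₀ / ((k : ℝ) + 1), by exact_mod_cast hn,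
    mul_ne_zero (ENNReal.ofReal_pos.2 hm0).ne' LB8.volume_Q0_ne_zero,
    ENNReal.mul_ne_top ENNReal.ofReal_ne_top LB8.volume_Q0_ne_top, Real.pi_pos.le, hM0, hr1,
    hε, ?_, ?_⟩
  · have h1 : Tendsto (fun k : ℕ => ε₀ * (1 / ((k : ℝ) + 1))) atTop (𝓝 (ε₀ * 0)) :=
      tendsto_one_div_add_atTop_nhds_zero_nat.const_mul ε₀
    rw [mul_zero] at h1
    refine h1.congr fun k => ?_
    ring
  · intro Ω _ P _ B h hB k
    have hcont : ∀ ω, ContinuousOn (driving κ B ω) (Ici 0) := fun ω =>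
      (LB8s.driving_cont (hB.cont ω)).continuousOn
    set ε : ℝ := ε₀ / ((k : ℝ) + 1) with hεdef
    obtain ⟨h1, h2⟩ := LB8m.lbin_fields h hB κ κ ε c1 (n : ℝ≥0)
    refine ⟨fun ω => mu κ ε c1 (driving κ B ω) ((n : ℝ≥0) : ℝ), h1, h2, ?_, ?_, ?_, ?_⟩
    · have e1 : ∀ ω, mu κ ε c1 (driving κ B ω) ((n : ℝ≥0) : ℝ) LB8.Q0 =
          ∫⁻ z in LB8.Q0, Ct κ ε c1 (driving κ B ω) ((n : ℝ≥0) : ℝ) z := fun ω => by
        rw [mu, withDensity_apply _ LB8.measurableSet_Q0]
      simp_rw [e1]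
      rw [lintegral_lintegral_swap
        (LB8m.measurable_Ct_driving hB κ κ ε c1 ((n : ℝ≥0) : ℝ)).aemeasurable]
      calc ENNReal.ofReal m0 * volume LB8.Q0 = ∫⁻ _z in LB8.Q0, ENNReal.ofReal m0 :=
            (setLIntegral_const _ _).symm
        _ ≤ _ := by
            refine setLIntegral_mono' LB8.measurableSet_Q0 fun z hz => ?_
            have := hmass ε (hε k) (hεle k) z hz Ω P _ B hB
            simpa using this
    · intro ω z _ r hr _
      have h3 := LBInD.mu_closedBall_le (c1 := c1) hκ hκ8 (hε k) (hcont ω)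
        ((n : ℝ≥0) : ℝ) z hr.le
      have e : dimParam κ - 2 = κ / 8 - 1 := by unfold dimParam; ring
      rw [e]
      exact h3
    · intro z hz r hr hr' hM'
      exact htail Ω P _ B hB (n : ℝ≥0) ε (hε k) z hz r hr hr' hM'
    · intro ω
      have hmeasC : Measurable fun z => Ct κ ε c1 (driving κ B ω) ((n : ℝ≥0) : ℝ) z :=
        LB8m.measurable_Ct_det κ ε c1 ((hcont ω).mono fun _ hs => hs.1)
      have h0 : ∀ᵐ z ∂(mu κ ε c1 (driving κ B ω) ((n : ℝ≥0) : ℝ)),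
          Ct κ ε c1 (driving κ B ω) ((n : ℝ≥0) : ℝ) z ≠ 0 := by
        rw [mu, ae_withDensity_iff hmeasC]
        exact Eventually.of_forall fun z hz => hz
      filter_upwards [h0] with z hz _
      obtain ⟨u, hu, ha, _, hle, _⟩ := LBInD.exists_of_Ct_ne_zero (hε k) hz
      exact ⟨u, ⟨hu.1.le, hu.2⟩, ha, hle⟩

/-- **Lower bound**, from the content tail and the mean mass. -/
theorem lbc_of {κ c1 : ℝ} (hκ : 0 < κ) (hκ8 : κ < 8) (hF : Frost7.{u} κ c1)
    (hM : MassAll.{u} κ c1) : Top.LBC.{u} κ :=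
  ZO.lbc_of hκ hκ8 (lbIn_of hκ hκ8 hF hM)

end Crest.Agent.R162.LBTree
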