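import Mathlib
import Crest.Agent.R162.LB7bI
import Crest.Agent.R162.LBC9_Mg
import Crest.Agent.R162.Rad2
import Crest.Agent.R162.OPd
import Crest.Agent.R162.OPM
import Crest.Agent.R162.LB7cI
import Crest.Agent.R162.LBNorm
import Crest.Agent.R162.LBExit
import Crest.Agent.R162.LBC4
import Crest.Agent.R162.LBTree_Mg

-- ▼ part R162/LB7bF
section

/-!
Row 162, node LB7b, final form (no hypotheses left): all inputs (OPM, OP1, U2, LB7a) plugged in.
-/

set_option autoImplicit false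

open MeasureTheory ProbabilityTheory Filter Set
open scoped NNReal ENNReal Topology

namespace Crest.Agent.R162.LB7

open Crest.Agent.R162.OS Crest.Agent.R162.FL
open Crest.ProbabilityR.Loewner

universe u

theorem op1Stmt {κ : ℝ} (hκ : 0 < κ) (hκ8 : κ < 8) : OP1Stmt.{u} κ := by
  intro c0 hc0
  refine ⟨OP.C1 κ c0, OP.lam1 κ, OP.C1_pos hc0, OP.lam1_pos hκ hκ8, ?_⟩
  intro Ω m P _ Fl B hB w hw σ hσ A hA a
  exact OP.OP1 OPM.opm.{u} hB hκ hκ8 hw hσ hA hc0 a

theorem u2Stmt {κ : ℝ} (hκ : 0 < κ) : U2Stmt.{u} (κ := κ) OPM.opm.{u} hκ := by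
  intro q' hq hqb hq2
  refine ⟨Rad.CU2 κ q', (Rad.CU2_pos hκ hq hqb).le, ?_⟩
  intro Ω m P _ Fl B hB w hw s hs
  have h := Rad.U2 (Rad.oneP OPM.opm.{u} hB hκ hw) hκ hq hqb hq2 hs
    ((Rad.oneP OPM.opm.{u} hB hκ hw).alive_past s)
  have hset : (Rad.oneP OPM.opm.{u} hB hκ hw).alive s ∩
      (Rad.oneP OPM.opm.{u} hB hκ hw).alive (s + 1) =
      (Rad.oneP OPM.opm.{u} hB hκ hw).alive (s + 1) :=
    inter_eq_right.2 ((Rad.oneP OPM.opm.{u} hB hκ hw).alive_anti (by linarith))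
  rw [hset] at h
  exact h

theorem lb7aStmt {q η CA K9 K : ℝ} (hq : 0 < q) (hη : 0 < η) (hCA : 0 ≤ CA) (_ : 0 ≤ K9)
    (hK : 4 ≤ K) : LB7aStmt LB7a.grid q η CA K9 K := by
  obtain ⟨C', hC', h⟩ := LB7a.lam_le (q := q) (η := η) (CA := CA) (K := K) hq hη hCA hK
  exact ⟨C', hC', fun W w0 R N σ s u0 hW hR hN hRN hal _ hu0 hs hgrid =>
    h W w0 R N σ s u0 hW hR hN hRN hal hu0 hs hgrid⟩

/-- **LB7b, final.** -/
theorem lb7b_final {κ : ℝ} (hκ : 0 < κ) (hκ8 : κ < 8) {q η K9 cS : ℝ} (hq : 0 < q) (hη : 0 < η)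
    (hK9 : 0 < K9) (hcS : 0 < cS) :
    ∃ C' C : ℝ, 0 < C' ∧ 0 < C ∧
      ∀ {Ω : Type u} {m : MeasurableSpace Ω} {P : Measure Ω} [IsProbabilityMeasure P]
      {Fl : Filtration ℝ≥0 m} {B : ℝ≥0 → Ω → ℝ} (hB : IsBM Fl B P) {w0 : ℂ} (hw : 0 < w0.im)
      (R N : ℝ) (u0 : ℂ → ℝ), 1 ≤ R → 1 ≤ N → Real.log R ≤ N → K9 * R ≤ w0.im →
      cS * ‖w0‖ ≤ w0.im → (∀ p, max 1 (‖p - w0‖ - R) ≤ u0 p) →
      ∫⁻ ω in {ω | ω ∈ (Rad.oneP OPM.opm.{u} hB hκ hw).alive (-Real.log (K9 * R)) ∧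
          ENNReal.ofReal (C' * N) < LB.Lam u0 q η (ffl (driving κ B ω)
            ((Rad.oneP OPM.opm.{u} hB hκ hw).tau (-Real.log (K9 * R)) ω))},
        gw (Rad.oneP OPM.opm.{u} hB hκ hw) (-Real.log (K9 * R)) ω ∂P ≤
        ENNReal.ofReal (C * Real.exp (-2 * N)) * ENNReal.ofReal (UB.green κ w0) :=
  lb7b hκ hκ8 OPM.opm.{u} (op1Stmt hκ hκ8) (u2Stmt hκ) LB7a.grid (Cg := 26569) (by norm_num)
    LB7a.card_grid (fun hq hη hCA hK9 hK => lb7aStmt hq hη hCA hK9 hK) hq hη hK9 hcS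

end Crest.Agent.R162.LB7
end

-- ▼ part R162/Frost7
section

/-!
Row 162, node LB7c, final: `ExpAll κ c1 → Frost7 κ c1`.
-/

set_option autoImplicit false

open Set MeasureTheory Filter Topology Metric ProbabilityTheory
open scoped ENNReal NNReal
open Crest.ProbabilityR.Loewner

namespace Crest.Agent.R162.Frost7

open Crest.Agent.R162.FL Crest.Agent.R162.OP Crest.Agent.R162.LB Crest.Agent.R162.OS
open Crest.Agent.R162.LBS Crest.Agent.R162.LB7cI Crest.Agent.R162.LB7 Crest.Agent.R162.Rad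
open Crest.Agent.R162

universe u

/-- first moment of the content collected after a stopping time (499) -/
lemma cont_le_all {κ c1 : ℝ} (hκ : 0 < κ) {ε : ℝ} (hε : 0 < ε) {Ω : Type u}
    [mΩ : MeasurableSpace Ω] {P : Measure Ω} [IsProbabilityMeasure P] {F : Filtration ℝ≥0 mΩ}
    {B : ℝ≥0 → Ω → ℝ} (hB : IsBM F B P) {σ : Ω → ℝ≥0} (hσ : IsST F σ) {T : ℝ≥0}
    (hT : ∀ ω, σ ω ≤ T) (w : ℂ) (A : Set Ω) (hA : EvST F σ A) :
    ∫⁻ ω in A, cz κ ε c1 1 (driving κ B ω) (Ioc (σ ω : ℝ) T) w ∂P ≤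
      ENNReal.ofReal 7 * ∫⁻ ω in A, ENNReal.ofReal (gr κ (driving κ B ω) (σ ω) w) ∂P := by
  rcases lt_or_ge 0 w.im with hw | hw
  · refine (LBC.content_le OPM.opm.{u} hB hκ hw (LBC.exit_ok hB) hε c1 hσ (τ := fun _ => T)
      (IsST.const T) (fun _ => le_rfl) hA (fun ω _ => hT ω)).trans ?_
    gcongr
    exact inter_subset_left
  · refine le_trans (lintegral_mono (g := fun _ => 0) fun ω => ?_) (by simp)
    rw [cz_zero_of measurableSet_Ioc fun s _ => ?_]
    · exact cd_of_dead fun ha => absurd ha.im_pos (not_lt.2 hw)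

lemma infDist_closedBall (z w0 : ℂ) {R : ℝ} (hR : 0 ≤ R) :
    infDist z (closedBall w0 R) = max 0 (‖z - w0‖ - R) := by
  apply le_antisymm
  · rcases le_or_gt ‖z - w0‖ R with h | h
    · have : z ∈ closedBall w0 R := by rw [mem_closedBall, dist_eq_norm]; exact h
      rw [infDist_zero_of_mem this]
      exact le_max_left _ _
    · have hpos : 0 < ‖z - w0‖ := hR.trans_lt h
      refine le_max_of_le_right ?_
      set t : ℝ := R / ‖z - w0‖ with ht
      have ht0 : 0 ≤ t := by positivity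
      have ht1 : t ≤ 1 := by rw [ht, div_le_one hpos]; exact h.le
      have hmem : w0 + (t : ℂ) * (z - w0) ∈ closedBall w0 R := by
        rw [mem_closedBall, dist_eq_norm, add_sub_cancel_left, norm_mul, Complex.norm_real,
          Real.norm_eq_abs, abs_of_nonneg ht0, ht, div_mul_cancel₀ _ hpos.ne']
      refine (infDist_le_dist_of_mem hmem).trans (le_of_eq ?_)
      rw [dist_eq_norm, show z - (w0 + (t : ℂ) * (z - w0)) = ((1 - t : ℝ) : ℂ) * (z - w0) by
        push_cast; ring, norm_mul, Complex.norm_real, Real.norm_eq_abs,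
        abs_of_nonneg (by linarith), ht, sub_mul, one_mul, div_mul_cancel₀ _ hpos.ne']
  · refine max_le infDist_nonneg ?_
    refine (le_infDist (nonempty_closedBall.2 hR)).2 fun q hq => ?_
    rw [mem_closedBall, dist_eq_norm] at hq
    rw [dist_eq_norm]
    have : ‖z - w0‖ ≤ ‖z - q‖ + ‖q - w0‖ := by
      have e : z - w0 = (z - q) + (q - w0) := by ring
      rw [e]; exact norm_add_le _ _
    linarith

lemma uB_eq (w0 : ℂ) {R : ℝ} (hR : 0 ≤ R) (z : ℂ) : uB w0 R z = max 1 (‖z - w0‖ - R) := by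
  unfold uB
  rw [infDist_closedBall z w0 hR]
  rcases le_total 0 (‖z - w0‖ - R) with h | h
  · rw [max_eq_right h]
  · rw [max_eq_left h, max_eq_left (by norm_num), max_eq_left (by linarith)]

lemma continuous_uB (w0 : ℂ) (R : ℝ) : Continuous (uB w0 R) := by
  unfold uB
  exact continuous_const.max (continuous_infDist_pt _)

/-- **Node LB7c**: the exponential bound implies the tail bound. -/
theorem frost7_of {κ c1 : ℝ} (hκ : 0 < κ) (hκ8 : κ < 8) (hExp : ExpAll.{u} κ c1) :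
    Frost7.{u} κ c1 := by
  intro cS hcS
  obtain ⟨q, η, θ, c0, c, ε₀, hq, hη, -, hθ, -, hc0, hc, hε₀, hE⟩ := hExp
  obtain ⟨C', Cb, hC', hCb, hb⟩ := lb7b_final.{u} (κ := κ) hκ hκ8 (K9 := 6) hq hη (by norm_num) hcS
  obtain ⟨Cu, hCu, hu⟩ := U1C.u1f.{u} hκ hκ8
  obtain ⟨CA, hCA, hAr⟩ := Crest.Agent.R162.LBN.exists_area_le hη
  refine ⟨2 * (c * C' + CA + 2) / c0, 12 * Cu / c0 + 7 * (cG κ * Real.pi * Cb), 18,
    min ε₀ (1 / 2),
    by positivity, ?_, by norm_num, lt_min hε₀ (by norm_num), ?_⟩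
  · have := cG_pos κ
    have := Real.pi_pos
    positivity
  intro N w0 ε hN hKt hS hε hεle Ω _ P _ F B hB t
  set R : ℝ := Real.sqrt N with hRdef
  have hR1 : 1 ≤ R := Real.one_le_sqrt.2 hN
  have hR2 : R ^ 2 = N := Real.sq_sqrt (by linarith)
  have hw0 : 0 < w0.im := by nlinarith
  have hlogR : Real.log R ≤ N := by
    have := Real.log_le_sub_one_of_pos (show 0 < R by linarith)
    nlinarith
  have h6R : 0 < 6 * R := by linarith
  have hε1 : ε ≤ ε₀ := hεle.trans (min_le_left _ _)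
  have hε2 : 2 * ε ≤ R := by
    have := hεle.trans (min_le_right _ _); linarith
  set D := oneP OPM.opm.{u} hB hκ hw0 with hD
  set s : ℝ := -Real.log (6 * R) with hs
  have hs0 : -Real.log w0.im ≤ s := by
    rw [hs, neg_le_neg_iff]
    exact Real.log_le_log h6R (by linarith)
  have hWc : ∀ ω, Continuous (driving κ B ω) := fun ω => Rad.driving_cont hB κ ω
  set σ : Ω → ℝ≥0 := D.kap s t with hσdef
  set H : Set Ω := D.alive s ∩ {ω | D.tau s ω ≤ t} with hHdef
  have hσ : IsST F σ := D.kap_ST s t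
  have hH : EvST F σ H := D.kap_EvST (D.alive_past s)
  have hτ : ∀ ω ∈ H, σ ω = D.tau s ω := fun ω hω => D.kap_eq hω.1 hω.2
  have hupspos : ∀ ω (r : ℝ), Alive (driving κ B ω) w0 r → 0 < OP.ups (driving κ B ω) r w0 :=
    fun ω r h => UD.ups_pos (hWc ω).continuousOn h
  have hlow : ∀ ω (r : ℝ), 0 ≤ r → Alive (driving κ B ω) w0 r →
      OP.ups (driving κ B ω) r w0 ≤ 6 * R → ω ∈ D.alive s ∧ D.tau s ω ≤ r.toNNReal := by
    intro ω r hr hal hle
    have hal' : D.al r.toNNReal ω := by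
      show Alive (driving κ B ω) w0 (r.toNNReal : ℝ)
      rwa [Real.coe_toNNReal r hr]
    have hL : (D.st r.toNNReal ω).2.2.1 ≤ -s := by
      show Real.log (OP.ups (driving κ B ω) (r.toNNReal : ℝ) w0) ≤ -s
      rw [Real.coe_toNNReal r hr, hs, neg_neg]
      exact Real.log_le_log (hupspos ω r hal) hle
    exact ⟨⟨_, hal', hL⟩, D.tau_le hal' hL⟩
  have h_alive : ∀ ω ∈ H, Alive (driving κ B ω) w0 (σ ω) ∧
      6 * R ≤ OP.ups (driving κ B ω) (σ ω) w0 := by
    intro ω hω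
    rw [hτ ω hω]
    have h1 := D.tau_mem hω.1
    have h2 : (D.st (D.tau s ω) ω).2.2.1 = -s := D.L_tau hs0 hω.1
    have h3 : Alive (driving κ B ω) w0 (D.tau s ω : ℝ) := h1.1
    have h4 : Real.log (OP.ups (driving κ B ω) (D.tau s ω : ℝ) w0) = -s := h2
    refine ⟨h3, ?_⟩
    rw [hs, neg_neg] at h4
    exact (Real.log_injOn_pos (hupspos ω _ h3) h6R h4).ge
  have h_before : ∀ ω ∈ H, ∀ r : ℝ, 0 ≤ r → r < σ ω → Alive (driving κ B ω) w0 r →
      6 * R < OP.ups (driving κ B ω) r w0 := by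
    intro ω hω r hr hrσ hal
    by_contra hle
    have h1 := (hlow ω r hr hal (not_lt.1 hle)).2
    rw [hτ ω hω] at hrσ
    have h2 : (D.tau s ω : ℝ) ≤ r := by
      have := NNReal.coe_le_coe.2 h1
      rwa [Real.coe_toNNReal r hr] at this
    linarith
  have h_never : ∀ ω, ω ∉ H → ∀ r : ℝ, 0 ≤ r → r ≤ t → Alive (driving κ B ω) w0 r →
      6 * R < OP.ups (driving κ B ω) r w0 := by
    intro ω hω r hr hrt hal
    by_contra hle
    obtain ⟨h1, h2⟩ := hlow ω r hr hal (not_lt.1 hle)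
    refine hω ⟨h1, h2.trans ?_⟩
    rw [← NNReal.coe_le_coe, Real.coe_toNNReal r hr]
    exact hrt
  have hG0 : 0 ≤ G0 κ w0 := by unfold G0; positivity
  have hu' : P (D.alive s) ≤ ENNReal.ofReal (Cu * (6 * R) ^ (1 - κ / 8) * G0 κ w0) := by
    have h1 := hu OPM.opm.{u} hB hw0 s (by
      have h2 : Real.log (6 * R) + 1 ≤ Real.log w0.im := by
        have h3 : Real.exp 1 * (6 * R) ≤ w0.im := by
          have := Real.exp_one_lt_d9
          nlinarith
        have h4 := Real.log_le_log (by positivity) h3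
        rw [Real.log_mul (Real.exp_pos 1).ne' h6R.ne', Real.log_exp] at h4
        linarith
      rw [hs]; linarith)
    refine h1.trans (le_of_eq ?_)
    congr 1
    have h5 : Real.exp (-((1 - κ / 8) * s)) = (6 * R) ^ (1 - κ / 8) := by
      rw [Real.rpow_def_of_pos h6R, hs]
      congr 1; ring
    rw [h5]
    show Cu * ((6 * R) ^ (1 - κ / 8) * G0 κ w0) = _
    ring
  have hcore := tail_core (P := P) hκ hκ8 (driving κ B) (fun ω => (hWc ω).continuousOn) hw0
    (R := R) (N := N) (by linarith) (by linarith) hε hε2 hσ (fun ω => D.kap_le s t ω) hH h_alive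
    h_before h_never (Cm := 7)
    (fun w A hA => cont_le_all hκ hε hB hσ (fun ω => D.kap_le s t ω) w A hA)
    (LB7F.measurable_cz_at hB 1 hσ.measurable t)
    (fun ω => Lam (uB w0 R) q η (ffl (driving κ B ω) (σ ω))) hC'.le
    (LB7M.evST_Lam_le hB κ (continuous_uB w0 R) hσ _)
    (fun ω => area (uB w0 R) η (θ / 10) (ffl (driving κ B ω) (σ ω))) hCA.le
    (fun ω _ => hAr N w0 (uB w0 R) (θ / 10) _ hN (fun p => uB_eq w0 (by linarith) p))
    hc0 hc.le
    (fun A hA => hE w0 R ε hR1 hε hε1 Ω P F B hB σ hσ A hA t)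
    (D := Cu * (6 * R) ^ (1 - κ / 8) * G0 κ w0) (E := Cb * Real.exp (-2 * N) * G0 κ w0)
    ((measure_mono inter_subset_left).trans (hu' : P (D.alive s) ≤ _))
    (by
      have h1 := hb hB hw0 R N (uB w0 R) hR1 hN hlogR (by linarith) hS
        (fun p => (uB_eq w0 (by linarith) p).ge)
      rw [← ENNReal.ofReal_mul (by positivity)] at h1
      refine le_trans ?_ h1
      have hmeasH : MeasurableSet (H ∩ {ω | ENNReal.ofReal (C' * N) <
          Lam (uB w0 R) q η (ffl (driving κ B ω) (σ ω))}) := by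
        have h2 := (LB7M.evST_Lam_le (q := q) (η := η) hB κ (continuous_uB w0 R) hσ
          (ENNReal.ofReal (C' * N))).measurableSet
        have h3 : {ω | ENNReal.ofReal (C' * N) <
          Lam (uB w0 R) q η (ffl (driving κ B ω) (σ ω))} = {ω |
          Lam (uB w0 R) q η (ffl (driving κ B ω) (σ ω)) ≤ ENNReal.ofReal (C' * N)}ᶜ := by
          ext ω; simp
        rw [h3]
        exact hH.measurableSet.inter h2.compl
      calc ∫⁻ ω in H ∩ {ω | ENNReal.ofReal (C' * N) <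
            Lam (uB w0 R) q η (ffl (driving κ B ω) (σ ω))},
            ENNReal.ofReal (gr κ (driving κ B ω) (σ ω) w0) ∂P
          = ∫⁻ ω in H ∩ {ω | ENNReal.ofReal (C' * N) <
            Lam (uB w0 R) q η (ffl (driving κ B ω) (σ ω))}, gw D s ω ∂P := by
            refine setLIntegral_congr_fun hmeasH fun ω hω => ?_
            show ENNReal.ofReal (gr κ (driving κ B ω) (σ ω) w0) = gw D s ω
            rw [gw_of_mem D hω.1.1, hτ ω hω.1]
            congr 1
            exact SUPG.gr_eq_Gq (D.tau_mem hω.1.1).1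
        _ ≤ _ := by
            refine lintegral_mono_set fun ω hω => ?_
            refine ⟨hω.1.1, ?_⟩
            have := hω.2
            simp only [mem_ofPred_eq] at this
            rwa [hτ ω hω.1] at this)
    (Cμ := 2 * (c * C' + CA + 2) / c0) (by positivity)
  refine hcore.trans ?_
  have hvol : volume (closedBall w0 R) = ENNReal.ofReal (Real.pi * N) := by
    rw [Complex.volume_closedBall, ← ENNReal.ofReal_pow (by linarith), hR2,
      ← NNReal.coe_real_pi, ENNReal.ofReal_mul (by positivity), ENNReal.ofReal_coe_nnreal,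
      mul_comm]
  rw [hvol, ← ENNReal.ofReal_mul (cG_pos κ).le, ← ENNReal.ofReal_mul (p := 7) (by norm_num),
    ← ENNReal.ofReal_mul (by have := cG_pos κ; have := Real.pi_pos; positivity),
    ← ENNReal.ofReal_add (by positivity)
      (by have := cG_pos κ; have := Real.pi_pos; positivity)]
  refine ENNReal.ofReal_le_ofReal ?_
  have hexpo : (c * C' + CA - c0 * (2 * (c * C' + CA + 2) / c0) / 2) * N = -2 * N := by
    field_simp; ring
  rw [hexpo]
  have hpow : (6 * R) ^ (1 - κ / 8) ≤ 6 * N := by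
    calc (6 * R) ^ (1 - κ / 8) ≤ (6 * R) ^ (1 : ℝ) :=
          Real.rpow_le_rpow_of_exponent_le (by linarith) (by linarith)
      _ = 6 * R := Real.rpow_one _
      _ ≤ 6 * N := by nlinarith
  have h1 : 2 / c0 * (Cu * (6 * R) ^ (1 - κ / 8) * G0 κ w0) * Real.exp (-2 * N) ≤
      2 / c0 * (Cu * (6 * N) * G0 κ w0) * Real.exp (-2 * N) := by gcongr
  calc 2 / c0 * (Cu * (6 * R) ^ (1 - κ / 8) * G0 κ w0) * Real.exp (-2 * N) +
        cG κ * (Real.pi * N) * (7 * (Cb * Real.exp (-2 * N) * G0 κ w0))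
      ≤ 2 / c0 * (Cu * (6 * N) * G0 κ w0) * Real.exp (-2 * N) +
        cG κ * (Real.pi * N) * (7 * (Cb * Real.exp (-2 * N) * G0 κ w0)) := by linarith
    _ = (12 * Cu / c0 + 7 * (cG κ * Real.pi * Cb)) * Real.exp (-2 * N) * N * G0 κ w0 := by
        ring

end Crest.Agent.R162.Frost7
end

-- ▼ part R162/LBEnd

/-!
Row 162 (S0243): the lower bound from the mean mass (helper744, composition of the nodes only).
-/

set_option autoImplicit false

namespace Crest.Agent.R162.LBEnd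

universe u

theorem frost7 {κ c1 : ℝ} (hκ : 0 < κ) (hκ8 : κ < 8) (hc1 : 0 < c1) (hc11 : c1 < 1) :
    LBS.Frost7.{u} κ c1 :=
  Frost7.frost7_of hκ hκ8 (LBPk744.expAll hκ hκ8 hc1 hc11)

theorem lbc_of_mass {κ c1 : ℝ} (hκ : 0 < κ) (hκ8 : κ < 8) (hc1 : 0 < c1) (hc11 : c1 < 1)
    (hM : LBS.MassAll.{u} κ c1) : Top.LBC.{u} κ :=
  LBTree.lbc_of hκ hκ8 (frost7 hκ hκ8 hc1 hc11) hM

end Crest.Agent.R162.LBEnd
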