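import Mathlib
import Crest.Prelude.Def_Loewner
import Crest.Agent.R162.UBDefs
import Crest.Agent.R162.Top
import Crest.Agent.R162.TR3_Mg
import Crest.Agent.R162.FLC2

-- ▼ part R162/G9a
section

/-!
Row 162, node GM (helper350): the gauge function and the gauge measure.
GM1: elementary facts about `gaugeReal`.
-/

set_option autoImplicit false

namespace Crest.Agent.R162.G9

open Crest.ProbabilityR.Loewner MeasureTheory Set Filter Topology

/-- the cut-off radius `exp (-e)` -/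
noncomputable def e0 : ℝ := Real.exp (-Real.exp 1)

lemma e0_pos : 0 < e0 := Real.exp_pos _


lemma log_inv_ge {x : ℝ} (hx : 0 < x) (hx0 : x ≤ e0) : Real.exp 1 ≤ Real.log (1 / x) := by
  have h1 : Real.log x ≤ -Real.exp 1 := by
    have := Real.log_le_log hx hx0
    unfold e0 at this
    rwa [Real.log_exp] at this
  rw [one_div, Real.log_inv]
  linarith

lemma loglog_ge_one {x : ℝ} (hx : 0 < x) (hx0 : x ≤ e0) : 1 ≤ Real.log (Real.log (1 / x)) := by
  have h := log_inv_ge hx hx0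
  have := Real.log_le_log (Real.exp_pos 1) h
  rwa [Real.log_exp] at this

variable {κ : ℝ}

/-- explicit formula at small radii -/
lemma gaugeReal_of_le {x : ℝ} (hx0 : x ≤ e0) :
    gaugeReal κ x = x ^ dimParam κ * Real.log (Real.log (1 / x)) ^ ((2 - dimParam κ) / 2) := by
  unfold gaugeReal
  have : min x (Real.exp (-Real.exp 1)) = x := min_eq_left hx0
  rw [this]

lemma gaugeReal_of_ge {x : ℝ} (hx0 : e0 ≤ x) : gaugeReal κ x = gaugeReal κ e0 := by
  unfold gaugeReal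
  have h1 : min x (Real.exp (-Real.exp 1)) = Real.exp (-Real.exp 1) := min_eq_right hx0
  have h2 : min e0 (Real.exp (-Real.exp 1)) = Real.exp (-Real.exp 1) := min_eq_right le_rfl
  rw [h1, h2]

lemma dim_gt_one (hκ : 0 < κ) : 1 < dimParam κ := by unfold dimParam; linarith

lemma dim_lt_two (hκ8 : κ < 8) : dimParam κ < 2 := by unfold dimParam; linarith

lemma gaugeReal_e0 : gaugeReal κ e0 = e0 ^ dimParam κ := by
  rw [gaugeReal_of_le le_rfl]
  have : Real.log (Real.log (1 / e0)) = 1 := by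
    unfold e0
    rw [one_div, Real.log_inv, Real.log_exp, neg_neg, Real.log_exp]
  rw [this, Real.one_rpow, mul_one]

lemma gaugeReal_zero (hκ : 0 < κ) : gaugeReal κ 0 = 0 := by
  rw [gaugeReal_of_le e0_pos.le, Real.zero_rpow (by have := dim_gt_one hκ; linarith), zero_mul]

/-- lower bound `x ^ d ≤ gauge` -/
lemma rpow_le_gaugeReal (hκ8 : κ < 8) {x : ℝ} (hx : 0 < x) (hx0 : x ≤ e0) :
    x ^ dimParam κ ≤ gaugeReal κ x := by
  rw [gaugeReal_of_le hx0]
  have h1 := loglog_ge_one hx hx0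
  have h2 : 1 ≤ Real.log (Real.log (1 / x)) ^ ((2 - dimParam κ) / 2) :=
    Real.one_le_rpow h1 (by have := dim_lt_two hκ8; linarith)
  have h3 : 0 ≤ x ^ dimParam κ := Real.rpow_nonneg hx.le _
  nlinarith

lemma gaugeReal_pos {x : ℝ} (hx : 0 < x) : 0 < gaugeReal κ x := by
  rcases le_total x e0 with h | h
  · rw [gaugeReal_of_le h]
    have h1 := loglog_ge_one hx h
    exact mul_pos (Real.rpow_pos_of_pos hx _) (Real.rpow_pos_of_pos (by linarith) _)
  · rw [gaugeReal_of_ge h, gaugeReal_e0]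
    exact Real.rpow_pos_of_pos e0_pos _

lemma gaugeReal_nonneg (hκ : 0 < κ) {x : ℝ} (hx : 0 ≤ x) : 0 ≤ gaugeReal κ x := by
  rcases hx.eq_or_lt with h | h
  · rw [← h, gaugeReal_zero hκ]
  · exact (gaugeReal_pos h).le

/-- monotonicity below the cut-off -/
lemma gaugeReal_mono_aux (hκ : 0 < κ) (hκ8 : κ < 8) {x y : ℝ} (hx : 0 < x) (hxy : x ≤ y)
    (hy : y ≤ e0) : gaugeReal κ x ≤ gaugeReal κ y := by
  have hd1 := dim_gt_one hκ
  have hd2 := dim_lt_two hκ8
  have hy0 : 0 < y := lt_of_lt_of_le hx hxy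
  rw [gaugeReal_of_le (hxy.trans hy), gaugeReal_of_le hy]
  set d := dimParam κ with hd
  set β := (2 - d) / 2 with hβ
  have hβ0 : 0 ≤ β := by rw [hβ]; linarith
  have hβ1 : β ≤ d := by rw [hβ]; linarith
  set u := Real.log (1 / x) with hu
  set v := Real.log (1 / y) with hv
  have hve : Real.exp 1 ≤ v := log_inv_ge hy0 hy
  have huv : v ≤ u := by
    rw [hu, hv]
    apply Real.log_le_log (by positivity)
    exact one_div_le_one_div_of_le hx hxy
  have he1 : 1 ≤ Real.exp 1 := Real.one_le_exp (by norm_num)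
  have hv0 : 0 < v := by linarith
  have hu0 : 0 < u := by linarith
  have hlv : 1 ≤ Real.log v := by
    have := Real.log_le_log (Real.exp_pos 1) hve
    rwa [Real.log_exp] at this
  have hlu : 1 ≤ Real.log u := hlv.trans (Real.log_le_log hv0 huv)
  -- log u ≤ log v * exp (u - v)
  have h1 : Real.log u ≤ Real.log v * Real.exp (u - v) := by
    have h2 : Real.log u = Real.log v + Real.log (u / v) := by
      rw [Real.log_div hu0.ne' hv0.ne']; ring
    have h3 : Real.log (u / v) ≤ u / v - 1 := Real.log_le_sub_one_of_pos (div_pos hu0 hv0)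
    have h4 : u / v - 1 ≤ u - v := by
      rw [div_sub_one hv0.ne', div_le_iff₀ hv0]
      nlinarith
    have h5 : 1 + (u - v) ≤ Real.exp (u - v) := by
      have := Real.add_one_le_exp (u - v)
      linarith
    have h6 : Real.log v * (1 + (u - v)) ≤ Real.log v * Real.exp (u - v) :=
      mul_le_mul_of_nonneg_left h5 (by linarith)
    nlinarith
  have h7 : Real.log u ^ β ≤ Real.log v ^ β * Real.exp (β * (u - v)) := by
    calc Real.log u ^ β ≤ (Real.log v * Real.exp (u - v)) ^ β :=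
          Real.rpow_le_rpow (by linarith) h1 hβ0
      _ = Real.log v ^ β * Real.exp (β * (u - v)) := by
          rw [Real.mul_rpow (by linarith) (Real.exp_pos _).le, ← Real.exp_mul, mul_comm β]
  have h8 : Real.exp (β * (u - v)) ≤ Real.exp (d * (u - v)) := by
    apply Real.exp_le_exp.2
    exact mul_le_mul_of_nonneg_right hβ1 (by linarith)
  have hxd : x ^ d = Real.exp (-(d * u)) := by
    rw [Real.rpow_def_of_pos hx, hu, one_div, Real.log_inv]
    congr 1; ring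
  have hyd : y ^ d = Real.exp (-(d * v)) := by
    rw [Real.rpow_def_of_pos hy0, hv, one_div, Real.log_inv]
    congr 1; ring
  have hlvb : 0 ≤ Real.log v ^ β := Real.rpow_nonneg (by linarith) _
  calc x ^ d * Real.log u ^ β
      ≤ x ^ d * (Real.log v ^ β * Real.exp (d * (u - v))) := by
        apply mul_le_mul_of_nonneg_left _ (Real.rpow_nonneg hx.le _)
        exact h7.trans (mul_le_mul_of_nonneg_left h8 hlvb)
    _ = y ^ d * Real.log v ^ β := by
        rw [hxd, hyd]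
        have : Real.exp (-(d * v)) = Real.exp (-(d * u)) * Real.exp (d * (u - v)) := by
          rw [← Real.exp_add]; congr 1; ring
        rw [this]; ring

lemma gaugeReal_mono (hκ : 0 < κ) (hκ8 : κ < 8) {x y : ℝ} (hx : 0 ≤ x) (hxy : x ≤ y) :
    gaugeReal κ x ≤ gaugeReal κ y := by
  rcases hx.eq_or_lt with h | h
  · rw [← h, gaugeReal_zero hκ]
    exact gaugeReal_nonneg hκ (hx.trans hxy)
  · rcases le_total y e0 with hy | hy
    · exact gaugeReal_mono_aux hκ hκ8 h hxy hy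
    · rw [gaugeReal_of_ge hy]
      rcases le_total x e0 with hx0 | hx0
      · exact gaugeReal_mono_aux hκ hκ8 h hx0 le_rfl
      · rw [gaugeReal_of_ge hx0]

/-- doubling with the sharp constant -/
lemma gaugeReal_mul_le (hκ : 0 < κ) (hκ8 : κ < 8) {C x : ℝ} (hC : 1 ≤ C) (hx : 0 ≤ x) :
    gaugeReal κ (C * x) ≤ C ^ dimParam κ * gaugeReal κ x := by
  have hd1 := dim_gt_one hκ
  have hd2 := dim_lt_two hκ8
  have hCd : 1 ≤ C ^ dimParam κ := Real.one_le_rpow hC (by linarith)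
  rcases hx.eq_or_lt with h | h
  · rw [← h, mul_zero, gaugeReal_zero hκ, mul_zero]
  rcases le_total (C * x) e0 with h1 | h1
  · have hx0 : x ≤ e0 := le_trans (by nlinarith) h1
    rw [gaugeReal_of_le h1, gaugeReal_of_le hx0, Real.mul_rpow (by linarith) hx, mul_assoc]
    apply mul_le_mul_of_nonneg_left _ (by linarith)
    apply mul_le_mul_of_nonneg_left _ (Real.rpow_nonneg hx _)
    have hCx : 0 < C * x := by positivity
    apply Real.rpow_le_rpow (by linarith [loglog_ge_one hCx h1]) _ (by linarith)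
    have h2 := log_inv_ge hCx h1
    have h3 : Real.exp 1 > 0 := Real.exp_pos 1
    apply Real.log_le_log (by linarith)
    apply Real.log_le_log (by positivity)
    apply one_div_le_one_div_of_le h
    nlinarith
  · rw [gaugeReal_of_ge h1]
    rcases le_total x e0 with hx0 | hx0
    · rw [gaugeReal_e0]
      have h3 := rpow_le_gaugeReal hκ8 h hx0
      calc e0 ^ dimParam κ ≤ (C * x) ^ dimParam κ :=
            Real.rpow_le_rpow e0_pos.le h1 (by linarith)
        _ = C ^ dimParam κ * x ^ dimParam κ := Real.mul_rpow (by linarith) hx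
        _ ≤ C ^ dimParam κ * gaugeReal κ x := mul_le_mul_of_nonneg_left h3 (by linarith)
    · rw [gaugeReal_of_ge hx0]
      have := (gaugeReal_pos (κ := κ) e0_pos).le
      nlinarith



/-- gauge at `exp (-K)` -/
lemma gaugeReal_exp_neg {K : ℝ} (hK : Real.exp 1 ≤ K) :
    gaugeReal κ (Real.exp (-K)) =
      Real.exp (-(dimParam κ * K)) * Real.log K ^ ((2 - dimParam κ) / 2) := by
  have h : Real.exp (-K) ≤ e0 := by
    unfold e0
    exact Real.exp_le_exp.2 (by linarith)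
  rw [gaugeReal_of_le h]
  congr 1
  · rw [← Real.exp_mul]; congr 1; ring
  · rw [one_div, Real.log_inv, Real.log_exp, neg_neg]

/-! extended version -/

lemma gaugeExt_ofReal {x : ℝ} (hx : 0 ≤ x) :
    gaugeExt κ (ENNReal.ofReal x) = ENNReal.ofReal (gaugeReal κ x) := by
  unfold gaugeExt
  rw [ENNReal.toReal_ofReal hx]

lemma gaugeExt_mono (hκ : 0 < κ) (hκ8 : κ < 8) {r s : ENNReal} (hs : s ≠ ⊤) (hrs : r ≤ s) :
    gaugeExt κ r ≤ gaugeExt κ s := by
  unfold gaugeExt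
  apply ENNReal.ofReal_le_ofReal
  exact gaugeReal_mono hκ hκ8 ENNReal.toReal_nonneg (ENNReal.toReal_mono hs hrs)




end Crest.Agent.R162.G9
end

-- ▼ part R162/G9b
section

/-!
Row 162, node GM (helper350). GM2: upper bounds by covers (+ Fatou); GM3: mass distribution
principles; GM4: reduction of S0243.
-/

set_option autoImplicit false

namespace Crest.Agent.R162.G9

open Crest.ProbabilityR.Loewner MeasureTheory Set Filter Topology

variable {κ : ℝ}

/-- covers: the gauge measure is at most the liminf of the costs -/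
lemma gaugeMeasure_le_liminf {A : Set ℂ} {r : ℕ → ENNReal} (hr : Tendsto r atTop (𝓝 0))
    {F : ℕ → ENNReal}
    (hcov : ∀ᶠ n in atTop, ∃ t : ℕ → Set ℂ, (∀ i, Metric.ediam (t i) ≤ r n) ∧
      A ⊆ ⋃ i, t i ∧ ∑' i, gaugeExt κ (Metric.ediam (t i)) ≤ F n) :
    gaugeMeasure κ A ≤ liminf F atTop := by
  classical
  obtain ⟨N, hN⟩ := eventually_atTop.1 hcov
  choose! t ht1 ht2 ht3 using hN
  have h1 : gaugeMeasure κ A ≤
      liminf (fun n => ∑' i, gaugeExt κ (Metric.ediam (t n i))) atTop := by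
    refine Measure.mkMetric_le_liminf_tsum (β := ℕ) (ι := fun _ => ℕ) A r hr t ?_ ?_ (gaugeExt κ)
    · filter_upwards [eventually_ge_atTop N] with n hn i using ht1 n hn i
    · filter_upwards [eventually_ge_atTop N] with n hn using ht2 n hn
  refine h1.trans ?_
  apply liminf_le_liminf
  · filter_upwards [eventually_ge_atTop N] with n hn using ht3 n hn
  all_goals isBoundedDefault

/-- a countable cover re-indexed by `ℕ` -/
lemma exists_nat_cover (hκ : 0 < κ) {A : Set ℂ} {r : ENNReal} {F : ENNReal} {ι : Type*}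
    [Countable ι] (t : ι → Set ℂ) (h1 : ∀ i, Metric.ediam (t i) ≤ r) (h2 : A ⊆ ⋃ i, t i)
    (h3 : ∑' i, gaugeExt κ (Metric.ediam (t i)) ≤ F) :
    ∃ t : ℕ → Set ℂ, (∀ i, Metric.ediam (t i) ≤ r) ∧
      A ⊆ ⋃ i, t i ∧ ∑' i, gaugeExt κ (Metric.ediam (t i)) ≤ F := by
  classical
  have : Encodable ι := Encodable.ofCountable ι
  refine ⟨fun n => ⋃ b ∈ Encodable.decode₂ ι n, t b, ?_, ?_, ?_⟩
  · intro n
    rw [Metric.ediam_iUnion_mem_option]
    exact iSup₂_le fun i _ => h1 i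
  · rwa [Encodable.iUnion_decode₂]
  · have := tsum_iUnion_decode₂ (α := ℂ) (fun s : Set ℂ => gaugeExt κ (Metric.ediam s)) (by
      simp only [Metric.ediam_empty]
      unfold gaugeExt
      simp [gaugeReal_zero hκ]) t
    rw [this]
    exact h3

/-- EXPECTATION VERSION (Fatou): random covers with measurable cost bounds `F n` of mean `≤ C`. -/
theorem exists_measurable_bound {Ω : Type*} [MeasurableSpace Ω] {P : Measure Ω}
    {A : Ω → Set ℂ} {r : ℕ → ENNReal} (hr : Tendsto r atTop (𝓝 0))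
    {F : ℕ → Ω → ENNReal} (hF : ∀ n, Measurable (F n)) {C : ENNReal}
    (hC : ∀ᶠ n in atTop, ∫⁻ ω, F n ω ∂P ≤ C)
    (hcov : ∀ᵐ ω ∂P, ∀ᶠ n in atTop, ∃ t : ℕ → Set ℂ, (∀ i, Metric.ediam (t i) ≤ r n) ∧
      A ω ⊆ ⋃ i, t i ∧ ∑' i, gaugeExt κ (Metric.ediam (t i)) ≤ F n ω) :
    ∃ G : Ω → ENNReal, Measurable G ∧ (∀ᵐ ω ∂P, gaugeMeasure κ (A ω) ≤ G ω) ∧
      ∫⁻ ω, G ω ∂P ≤ C := by
  refine ⟨fun ω => liminf (fun n => F n ω) atTop, Measurable.liminf hF, ?_, ?_⟩
  · filter_upwards [hcov] with ω hω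
    exact gaugeMeasure_le_liminf hr hω
  · refine (lintegral_liminf_le hF).trans ?_
    refine liminf_le_of_frequently_le' (hC.frequently)

/-- A convenient special case: at level `n` a fixed countable family of candidate sets `S n i`
(diameter `≤ r n`), the set `S n i` being used on the (measurable) event `E n i`. -/
theorem exists_measurable_bound_of_events (hκ : 0 < κ) {Ω : Type*} [MeasurableSpace Ω]
    {P : Measure Ω} {A : Ω → Set ℂ} {r : ℕ → ENNReal} (hr : Tendsto r atTop (𝓝 0))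
    {ι : ℕ → Type*} [∀ n, Countable (ι n)] (S : ∀ n, ι n → Set ℂ) (E : ∀ n, ι n → Set Ω)
    (hS : ∀ n i, Metric.ediam (S n i) ≤ r n) (hE : ∀ n i, MeasurableSet (E n i)) {C : ENNReal}
    (hC : ∀ᶠ n in atTop, ∑' i, P (E n i) * gaugeExt κ (Metric.ediam (S n i)) ≤ C)
    (hcov : ∀ᵐ ω ∂P, ∀ᶠ n in atTop, ∀ z ∈ A ω, ∃ i, ω ∈ E n i ∧ z ∈ S n i) :
    ∃ G : Ω → ENNReal, Measurable G ∧ (∀ᵐ ω ∂P, gaugeMeasure κ (A ω) ≤ G ω) ∧
      ∫⁻ ω, G ω ∂P ≤ C := by
  classical
  refine exists_measurable_bound (κ := κ) (r := r) hr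
    (F := fun n ω => ∑' i, (E n i).indicator (fun _ => gaugeExt κ (Metric.ediam (S n i))) ω)
    ?_ ?_ ?_
  · intro n
    exact Measurable.tsum fun i => measurable_const.indicator (hE n i)
  · filter_upwards [hC] with n hn
    rw [lintegral_tsum (fun i => (measurable_const.indicator (hE n i)).aemeasurable)]
    refine le_trans (le_of_eq ?_) hn
    congr 1
    ext i
    rw [lintegral_indicator_const (hE n i), mul_comm]
  · filter_upwards [hcov] with ω hω
    filter_upwards [hω] with n hn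
    apply exists_nat_cover hκ (ι := {i : ι n // ω ∈ E n i}) (fun i => S n i.1)
    · intro i
      exact hS n i.1
    · intro z hz
      obtain ⟨i, hi, hzi⟩ := hn z hz
      exact mem_iUnion.2 ⟨⟨i, hi⟩, hzi⟩
    · have hsub := tsum_subtype {i : ι n | ω ∈ E n i} (fun i => gaugeExt κ (Metric.ediam (S n i)))
      refine le_trans (le_of_eq hsub) ?_
      refine ENNReal.tsum_le_tsum fun i => ?_
      by_cases h : ω ∈ E n i
      · rw [indicator_of_mem (show i ∈ {i : ι n | ω ∈ E n i} from h), indicator_of_mem h]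
      · rw [indicator_of_notMem (show i ∉ {i : ι n | ω ∈ E n i} from h)]
        exact bot_le

/-! ### Mass distribution -/



end Crest.Agent.R162.G9
end

-- ▼ part R162/U8
section

/-!
Row 162, node U8 (helper832): the strip near the real line costs nothing, because `d > 1`.
-/

set_option autoImplicit false

namespace Crest.Agent.R162.U8

open Crest.ProbabilityR.Loewner MeasureTheory Filter Topology

theorem one_lt_dim {κ : ℝ} (hκ : 0 < κ) : 1 < dimParam κ := by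
  unfold dimParam; linarith

theorem dim_lt_two {κ : ℝ} (hκ8 : κ < 8) : dimParam κ < 2 := by
  unfold dimParam; linarith

/-- `φ(x) ≤ x^d log(1/x)` at small radii. -/
theorem gaugeReal_le_log {κ : ℝ} (hκ : 0 < κ) (_hκ8 : κ < 8) {x : ℝ} (hx : 0 < x)
    (hx1 : x ≤ Real.exp (-Real.exp 1)) :
    gaugeReal κ x ≤ x ^ dimParam κ * Real.log (1 / x) := by
  unfold gaugeReal
  rw [min_eq_left hx1]
  have hL : Real.exp 1 ≤ Real.log (1 / x) := by
    rw [one_div, Real.log_inv]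
    have := Real.log_le_log hx hx1
    rw [Real.log_exp] at this
    linarith
  have hLpos : 0 < Real.log (1 / x) := lt_of_lt_of_le (Real.exp_pos 1) hL
  have hLL : 1 ≤ Real.log (Real.log (1 / x)) := by
    have := Real.log_le_log (Real.exp_pos 1) hL
    rwa [Real.log_exp] at this
  have hc : (2 - dimParam κ) / 2 ≤ 1 := by
    have := one_lt_dim hκ; linarith
  have h1 : Real.log (Real.log (1 / x)) ^ ((2 - dimParam κ) / 2)
      ≤ Real.log (Real.log (1 / x)) ^ (1 : ℝ) :=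
    Real.rpow_le_rpow_of_exponent_le hLL hc
  rw [Real.rpow_one] at h1
  have h2 : Real.log (Real.log (1 / x)) ≤ Real.log (1 / x) := by
    have := Real.log_le_sub_one_of_pos hLpos
    linarith
  have h3 : 0 ≤ x ^ dimParam κ := Real.rpow_nonneg hx.le _
  exact mul_le_mul_of_nonneg_left (h1.trans h2) h3


/-- `φ(x) ≤ η⁻¹ x^{d-η}` at small radii. -/
theorem gaugeReal_le_rpow {κ : ℝ} (hκ : 0 < κ) (hκ8 : κ < 8) {η : ℝ} (hη : 0 < η) {x : ℝ}
    (hx : 0 < x) (hx1 : x ≤ Real.exp (-Real.exp 1)) :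
    gaugeReal κ x ≤ η⁻¹ * x ^ (dimParam κ - η) := by
  refine (gaugeReal_le_log hκ hκ8 hx hx1).trans ?_
  have h1 : Real.log (1 / x) ≤ (1 / x) ^ η / η :=
    Real.log_le_rpow_div (by positivity) hη
  have h2 : (1 / x) ^ η = x ^ (-η) := by
    rw [one_div, Real.inv_rpow hx.le, Real.rpow_neg hx.le]
  rw [h2] at h1
  have h3 : 0 ≤ x ^ dimParam κ := Real.rpow_nonneg hx.le _
  calc x ^ dimParam κ * Real.log (1 / x) ≤ x ^ dimParam κ * (x ^ (-η) / η) :=
        mul_le_mul_of_nonneg_left h1 h3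
    _ = η⁻¹ * (x ^ dimParam κ * x ^ (-η)) := by rw [div_eq_mul_inv]; ring
    _ = η⁻¹ * x ^ (dimParam κ - η) := by
        rw [← Real.rpow_add hx, sub_eq_add_neg]

/-- The number of balls. -/
noncomputable def Nb (R δ : ℝ) : ℤ := ⌈(R + 1) / δ⌉

theorem strip_cover (R : ℝ) (δ : ℝ) (hδ : 0 < δ) (hδ1 : δ ≤ 1) :
    {z : ℂ | 0 ≤ z.im ∧ z.im ≤ 2 * δ ∧ ‖z‖ ≤ R} ⊆
      ⋃ n ∈ Finset.Icc (-Nb R δ) (Nb R δ), Metric.closedBall (((n : ℝ) * δ : ℝ) : ℂ) (3 * δ) := by
  rintro z ⟨h0, h1, h2⟩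
  have hre : |z.re| ≤ R := (Complex.abs_re_le_norm z).trans h2
  set n : ℤ := round (z.re / δ) with hn
  have hround : |z.re / δ - n| ≤ 1 / 2 := abs_sub_round _
  have hdiv : |z.re / δ| ≤ R / δ := by
    rw [abs_div, abs_of_pos hδ]
    exact div_le_div_of_nonneg_right hre hδ.le
  have hone : (1 : ℝ) ≤ 1 / δ := by
    rw [le_div_iff₀ hδ]; linarith
  have hadd : (R + 1) / δ = R / δ + 1 / δ := by rw [add_div]
  have hnabs : |(n : ℝ)| ≤ (R + 1) / δ := by
    have h3 : |(n : ℝ)| ≤ |z.re / δ| + |z.re / δ - n| := by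
      have := abs_sub_abs_le_abs_sub (n : ℝ) (z.re / δ)
      rw [abs_sub_comm (n : ℝ)] at this
      linarith
    rw [hadd]; linarith
  have hceil : (R + 1) / δ ≤ (Nb R δ : ℝ) := Int.le_ceil _
  have hmem : n ∈ Finset.Icc (-Nb R δ) (Nb R δ) := by
    rw [Finset.mem_Icc]
    have := abs_le.1 hnabs
    constructor
    · have h5 : (-(Nb R δ : ℤ) : ℝ) ≤ (n : ℝ) := by push_cast; linarith [this.1]
      exact_mod_cast h5
    · have h5 : (n : ℝ) ≤ (Nb R δ : ℝ) := by linarith [this.2]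
      exact_mod_cast h5
  refine Set.mem_iUnion₂.2 ⟨n, hmem, ?_⟩
  rw [Metric.mem_closedBall, Complex.dist_eq]
  have hz : z - (((n : ℝ) * δ : ℝ) : ℂ) = ((z.re - n * δ : ℝ) : ℂ) + (z.im : ℂ) * Complex.I := by
    apply Complex.ext <;> simp
  rw [hz]
  refine (norm_add_le _ _).trans ?_
  rw [Complex.norm_real, norm_mul, Complex.norm_real, Complex.norm_I, mul_one, Real.norm_eq_abs,
    Real.norm_eq_abs, abs_of_nonneg h0]
  have h6 : |z.re - n * δ| ≤ δ / 2 := by
    have : z.re - n * δ = (z.re / δ - n) * δ := by field_simp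
    rw [this, abs_mul, abs_of_pos hδ]
    nlinarith
  linarith

theorem gaugeExt_ofReal (κ : ℝ) {x : ℝ} (hx : 0 ≤ x) :
    gaugeExt κ (ENNReal.ofReal x) = ENNReal.ofReal (gaugeReal κ x) := by
  unfold gaugeExt
  rw [ENNReal.toReal_ofReal hx]

/-- The deterministic cost of covering the strip tends to `0`. -/
theorem strip_cost {κ : ℝ} (hκ : 0 < κ) (hκ8 : κ < 8) (R : ℝ) (hR : 0 ≤ R) :
    Tendsto (fun δ : ℝ => ∑ _n ∈ Finset.Icc (-Nb R δ) (Nb R δ),
      gaugeExt κ (ENNReal.ofReal (6 * δ))) (𝓝[>] 0) (𝓝 0) := by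
  set η : ℝ := κ / 16 with hη
  have hηpos : 0 < η := by positivity
  set C : ℝ := (2 * (R + 1) + 3) * (η⁻¹ * 6 ^ (dimParam κ - η)) with hC
  have hCnn : 0 ≤ C := by positivity
  have hexp : 0 < dimParam κ - η - 1 := by unfold dimParam; rw [hη]; linarith
  have hlim : Tendsto (fun δ : ℝ => ENNReal.ofReal (C * δ ^ (dimParam κ - η - 1))) (𝓝[>] 0) (𝓝 0) := by
    have h1 : Tendsto (fun δ : ℝ => C * δ ^ (dimParam κ - η - 1)) (𝓝[>] 0) (𝓝 0) := by
      have h2 : Tendsto (fun δ : ℝ => δ ^ (dimParam κ - η - 1)) (𝓝 0) (𝓝 (0 ^ (dimParam κ - η - 1))) :=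
        (Real.continuousAt_rpow_const 0 _ (Or.inr hexp.le)).tendsto
      rw [Real.zero_rpow hexp.ne'] at h2
      have := (h2.const_mul C).mono_left (nhdsWithin_le_nhds (s := Set.Ioi (0:ℝ)))
      simpa using this
    have := ENNReal.tendsto_ofReal h1
    simpa using this
  refine tendsto_of_tendsto_of_tendsto_of_le_of_le' tendsto_const_nhds hlim
    (Eventually.of_forall fun _ => bot_le) ?_
  have hev : ∀ᶠ δ : ℝ in 𝓝[>] 0, δ < min 1 (Real.exp (-Real.exp 1) / 6) :=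
    (nhdsWithin_le_nhds (s := Set.Ioi (0:ℝ))) (Iio_mem_nhds (by positivity))
  filter_upwards [hev, self_mem_nhdsWithin] with δ hδ hδ0
  have hδpos : 0 < δ := hδ0
  have hδ1 : δ < 1 := lt_of_lt_of_le hδ (min_le_left _ _)
  have hδ2 : 6 * δ ≤ Real.exp (-Real.exp 1) := by
    have := lt_of_lt_of_le hδ (min_le_right _ _)
    linarith
  rw [Finset.sum_const, gaugeExt_ofReal κ (by positivity), nsmul_eq_mul]
  have hcard : ((Finset.Icc (-Nb R δ) (Nb R δ)).card : ℝ) ≤ (2 * (R + 1) + 3) / δ := by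
    rw [Int.card_Icc]
    have hN : (Nb R δ : ℝ) < (R + 1) / δ + 1 := Int.ceil_lt_add_one _
    have hN0 : 0 ≤ Nb R δ := Int.ceil_nonneg (by positivity)
    have h3 : (((Nb R δ + 1 - -Nb R δ).toNat : ℕ) : ℝ) = 2 * (Nb R δ : ℝ) + 1 := by
      have h4 : (((Nb R δ + 1 - -Nb R δ).toNat : ℕ) : ℤ) = 2 * Nb R δ + 1 := by
        rw [Int.toNat_of_nonneg (by linarith)]; ring
      exact_mod_cast h4
    rw [h3]
    have h5 : (3 : ℝ) ≤ 3 / δ := by
      rw [le_div_iff₀ hδpos]; nlinarith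
    have h6 : (2 * (R + 1) + 3) / δ = 2 * ((R + 1) / δ) + 3 / δ := by ring
    rw [h6]; linarith
  have hcardE : ((Finset.Icc (-Nb R δ) (Nb R δ)).card : ENNReal)
      ≤ ENNReal.ofReal ((2 * (R + 1) + 3) / δ) := by
    rw [← ENNReal.ofReal_natCast]
    exact ENNReal.ofReal_le_ofReal hcard
  calc ((Finset.Icc (-Nb R δ) (Nb R δ)).card : ENNReal) * ENNReal.ofReal (gaugeReal κ (6 * δ))
      ≤ ENNReal.ofReal ((2 * (R + 1) + 3) / δ) *
          ENNReal.ofReal (η⁻¹ * (6 * δ) ^ (dimParam κ - η)) := by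
        gcongr
        exact gaugeReal_le_rpow hκ hκ8 hηpos (by positivity) hδ2
    _ = ENNReal.ofReal (C * δ ^ (dimParam κ - η - 1)) := by
        rw [← ENNReal.ofReal_mul (by positivity)]
        congr 1
        rw [Real.mul_rpow (by norm_num) hδpos.le, hC,
          Real.rpow_sub_one hδpos.ne']
        ring

/-- The balls of the cover have diameter at most `6 δ`. -/
theorem ediam_closedBall_le (x : ℂ) {r : ℝ} (hr : 0 ≤ r) :
    Metric.ediam (Metric.closedBall x r) ≤ ENNReal.ofReal (2 * r) := by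
  rw [← Metric.closedEBall_ofReal hr, ENNReal.ofReal_mul (by norm_num : (0:ℝ) ≤ 2)]
  simpa using Metric.ediam_closedEBall_le (x := x) (r := ENNReal.ofReal r)

end Crest.Agent.R162.U8
end

-- ▼ part R162/U7
section

/-!
Row 162, node U7 (helper832): the grid of centres at level `K` and the expected cost of the
uncovered points.
-/

set_option autoImplicit false

namespace Crest.Agent.R162.U7

open Crest.ProbabilityR.Loewner MeasureTheory Filter Topology Crest.Agent.R162.U8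

/-- mesh of the grid of level `K` -/
noncomputable def mesh (K : ℕ) : ℝ := Real.exp (-(K : ℝ)) / 4

theorem mesh_pos (K : ℕ) : 0 < mesh K := by unfold mesh; positivity

theorem mesh_le (K : ℕ) : mesh K ≤ 1 / 4 := by
  unfold mesh
  have : Real.exp (-(K : ℝ)) ≤ 1 := Real.exp_le_one_iff.2 (by simp)
  linarith

/-- a lattice point -/
noncomputable def pt (K : ℕ) (p : ℤ × ℕ) : ℂ := ⟨(p.1 : ℝ) * mesh K, (p.2 : ℝ) * mesh K⟩

theorem pt_injective (K : ℕ) : Function.Injective (pt K) := by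
  rintro ⟨a, b⟩ ⟨c, d⟩ h
  have h1 := congrArg Complex.re h
  have h2 := congrArg Complex.im h
  simp only [pt] at h1 h2
  have e1 : (a : ℝ) = c := mul_right_cancel₀ (mesh_pos K).ne' h1
  have e2 : (b : ℝ) = d := mul_right_cancel₀ (mesh_pos K).ne' h2
  have e1' : a = c := by exact_mod_cast e1
  have e2' : b = d := by exact_mod_cast e2
  rw [e1', e2']

/-- number of lattice lines -/
noncomputable def Ng (K : ℕ) (R : ℝ) : ℕ := ⌈(R + 2) / mesh K⌉₊

/-- index set -/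
noncomputable def idx (K : ℕ) (R : ℝ) : Finset (ℤ × ℕ) :=
  Finset.Icc (-(Ng K R : ℤ)) (Ng K R) ×ˢ Finset.Icc 1 (Ng K R)

open scoped Classical in
/-- the grid of centres: lattice points of mesh `e^{-K}/4` with `Im ≥ e^{-K/8}`, norm at most `R+1` -/
noncomputable def grid (K : ℕ) (R : ℝ) : Finset ℂ :=
  ((idx K R).image (pt K)).filter (fun w => Real.exp (-((K : ℝ) / 8)) ≤ w.im ∧ ‖w‖ ≤ R + 1)

theorem mem_grid_im {K : ℕ} {R : ℝ} {w : ℂ} (hw : w ∈ grid K R) :
    Real.exp (-((K : ℝ) / 8)) ≤ w.im := (Finset.mem_filter.1 hw).2.1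

theorem mem_grid_im_pos {K : ℕ} {R : ℝ} {w : ℂ} (hw : w ∈ grid K R) : 0 < w.im :=
  lt_of_lt_of_le (Real.exp_pos _) (mem_grid_im hw)

theorem mem_grid_norm {K : ℕ} {R : ℝ} {w : ℂ} (hw : w ∈ grid K R) : ‖w‖ ≤ R + 1 :=
  (Finset.mem_filter.1 hw).2.2

theorem exp_neg_le (K : ℕ) : Real.exp (-(K : ℝ)) ≤ Real.exp (-((K : ℝ) / 8)) := by
  apply Real.exp_le_exp.2
  have : (0 : ℝ) ≤ K := Nat.cast_nonneg K
  linarith


theorem grid_cover {K : ℕ} {R : ℝ} {z : ℂ} (hz : 2 * Real.exp (-((K : ℝ) / 8)) ≤ z.im)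
    (hR : ‖z‖ ≤ R) : ∃ w ∈ grid K R, ‖z - w‖ < Real.exp (-(K : ℝ)) / 2 := by
  have hh := mesh_pos K
  have hh4 := mesh_le K
  have hexp := Real.exp_pos (-((K : ℝ) / 8))
  have hR0 : 0 ≤ R := (norm_nonneg z).trans hR
  set m : ℤ := round (z.re / mesh K) with hm
  set n : ℕ := (round (z.im / mesh K)).toNat with hn
  have hnim : 0 < z.im := by linarith
  have hmesh_im : 8 * mesh K ≤ z.im := by
    have h1 := exp_neg_le K
    have : 8 * mesh K = 2 * Real.exp (-(K : ℝ)) := by unfold mesh; ring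
    rw [this]; linarith
  have hq : 8 ≤ z.im / mesh K := by rw [le_div_iff₀ hh]; exact hmesh_im
  have hr1 : |z.im / mesh K - round (z.im / mesh K)| ≤ 1 / 2 := abs_sub_round _
  have hr0 : |z.re / mesh K - m| ≤ 1 / 2 := abs_sub_round _
  have hroundpos : (1 : ℤ) ≤ round (z.im / mesh K) := by
    have := (abs_le.1 hr1).2
    have h5 : (1 : ℝ) ≤ (round (z.im / mesh K) : ℝ) := by linarith
    exact_mod_cast h5
  have hncast : (n : ℝ) = (round (z.im / mesh K) : ℝ) := by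
    have : (n : ℤ) = round (z.im / mesh K) := by
      rw [hn]; exact Int.toNat_of_nonneg (by linarith)
    exact_mod_cast this
  rw [← hncast] at hr1
  have hre : |z.re / mesh K| ≤ R / mesh K := by
    rw [abs_div, abs_of_pos hh]
    exact div_le_div_of_nonneg_right ((Complex.abs_re_le_norm z).trans hR) hh.le
  have him : z.im / mesh K ≤ R / mesh K :=
    div_le_div_of_nonneg_right (((le_abs_self _).trans (Complex.abs_im_le_norm z)).trans hR) hh.le
  have hone : (1 : ℝ) ≤ 1 / mesh K := by rw [le_div_iff₀ hh]; linarith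
  have hsplit : (R + 2) / mesh K = R / mesh K + 2 * (1 / mesh K) := by ring
  have hNg : (R + 2) / mesh K ≤ (Ng K R : ℝ) := Nat.le_ceil _
  have hm1 : |(m : ℝ)| ≤ Ng K R := by
    have h3 : |(m : ℝ)| ≤ |z.re / mesh K| + |z.re / mesh K - m| := by
      have := abs_sub_abs_le_abs_sub (m : ℝ) (z.re / mesh K)
      rw [abs_sub_comm (m : ℝ)] at this
      linarith
    linarith
  have hn1 : (n : ℝ) ≤ Ng K R := by
    have := (abs_le.1 hr1).1
    linarith
  have hn0 : 1 ≤ n := by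
    have : (1 : ℝ) ≤ (n : ℝ) := by rw [hncast]; exact_mod_cast hroundpos
    exact_mod_cast this
  have hidx : (m, n) ∈ idx K R := by
    unfold idx
    rw [Finset.mem_product, Finset.mem_Icc, Finset.mem_Icc]
    have := abs_le.1 hm1
    refine ⟨⟨?_, ?_⟩, hn0, ?_⟩
    · have h5 : (-(Ng K R : ℤ) : ℝ) ≤ (m : ℝ) := by push_cast; linarith [this.1]
      exact_mod_cast h5
    · have h5 : (m : ℝ) ≤ ((Ng K R : ℤ) : ℝ) := by push_cast; linarith [this.2]
      exact_mod_cast h5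
    · exact_mod_cast hn1
  have hdre : |z.re - m * mesh K| ≤ mesh K / 2 := by
    have : z.re - m * mesh K = (z.re / mesh K - m) * mesh K := by field_simp
    rw [this, abs_mul, abs_of_pos hh]
    nlinarith
  have hdim : |z.im - n * mesh K| ≤ mesh K / 2 := by
    have : z.im - n * mesh K = (z.im / mesh K - n) * mesh K := by field_simp
    rw [this, abs_mul, abs_of_pos hh]
    nlinarith
  have hdist : ‖z - pt K (m, n)‖ ≤ mesh K := by
    refine (Complex.norm_le_abs_re_add_abs_im _).trans ?_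
    have e1 : (z - pt K (m, n)).re = z.re - m * mesh K := by simp [pt]
    have e2 : (z - pt K (m, n)).im = z.im - n * mesh K := by simp [pt]
    rw [e1, e2]; linarith
  refine ⟨pt K (m, n), ?_, ?_⟩
  · unfold grid
    rw [Finset.mem_filter]
    refine ⟨Finset.mem_image_of_mem _ hidx, ?_, ?_⟩
    · have e2 : (pt K (m, n)).im = n * mesh K := by simp [pt]
      rw [e2]
      have := (abs_le.1 hdim).2
      have h7 : mesh K / 2 ≤ Real.exp (-((K : ℝ) / 8)) := by
        have h1 := exp_neg_le K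
        unfold mesh; linarith [Real.exp_pos (-(K : ℝ))]
      linarith
    · have : ‖pt K (m, n)‖ ≤ ‖z‖ + ‖z - pt K (m, n)‖ := by
        have := norm_sub_norm_le (pt K (m, n)) z
        rw [norm_sub_rev] at this
        linarith
      linarith
  · refine lt_of_le_of_lt hdist ?_
    unfold mesh; linarith [Real.exp_pos (-(K : ℝ))]

/-- `∑_{n=1}^N n^{s-1} ≤ N^s / s` for `0 < s ≤ 1`. -/
theorem sum_rpow_le {s : ℝ} (hs : 0 < s) (hs1 : s ≤ 1) (N : ℕ) :
    ∑ n ∈ Finset.Icc 1 N, (n : ℝ) ^ (s - 1) ≤ (N : ℝ) ^ s / s := by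
  induction N with
  | zero => simp [Real.zero_rpow hs.ne']
  | succ N ih =>
    rw [Finset.sum_Icc_succ_top (by omega)]
    have hN : (0 : ℝ) < (N : ℝ) + 1 := by positivity
    have hb : (1 + -(1 / ((N : ℝ) + 1))) ^ s ≤ 1 + s * -(1 / ((N : ℝ) + 1)) := by
      apply rpow_one_add_le_one_add_mul_self _ hs.le hs1
      have : 1 / ((N : ℝ) + 1) ≤ 1 := by
        rw [div_le_one hN]
        have : (0 : ℝ) ≤ N := Nat.cast_nonneg N
        linarith
      linarith
    have e1 : (1 + -(1 / ((N : ℝ) + 1))) = (N : ℝ) / ((N : ℝ) + 1) := by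
      field_simp; ring
    rw [e1, Real.div_rpow (Nat.cast_nonneg N) hN.le, div_le_iff₀ (Real.rpow_pos_of_pos hN s)] at hb
    have e2 : (1 + s * -(1 / ((N : ℝ) + 1))) * ((N : ℝ) + 1) ^ s
        = ((N : ℝ) + 1) ^ s - s * ((N : ℝ) + 1) ^ (s - 1) := by
      rw [Real.rpow_sub_one hN.ne']
      ring
    rw [e2] at hb
    have h3 : (N : ℝ) ^ s / s + ((N : ℝ) + 1) ^ (s - 1) ≤ ((N : ℝ) + 1) ^ s / s := by
      rw [← sub_nonneg]
      have : ((N : ℝ) + 1) ^ s / s - ((N : ℝ) ^ s / s + ((N : ℝ) + 1) ^ (s - 1))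
          = (((N : ℝ) + 1) ^ s - s * ((N : ℝ) + 1) ^ (s - 1) - (N : ℝ) ^ s) / s := by
        field_simp; ring
      rw [this]
      exact div_nonneg (by linarith) hs.le
    push_cast
    linarith

/-- Riemann sum of `G_0 ≤ y^{d-2}` over the grid, uniformly bounded. -/
theorem grid_sum {κ : ℝ} (hκ : 0 < κ) (hκ8 : κ < 8) (R : ℝ) (hR : 0 ≤ R) :
    ∃ C : ℝ, 0 ≤ C ∧ ∀ K : ℕ,
      ∑ w ∈ grid K R, Real.exp (-(2 * (K : ℝ))) * w.im ^ (dimParam κ - 2) ≤ C := by
  set s : ℝ := dimParam κ - 1 with hs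
  have hs0 : 0 < s := by have := one_lt_dim hκ; linarith
  have hs1 : s ≤ 1 := by have := dim_lt_two hκ8; linarith
  refine ⟨16 * (2 * R + 7) * ((R + 3) ^ s / s), by positivity, fun K => ?_⟩
  have hh := mesh_pos K
  have hh4 := mesh_le K
  have hexp : Real.exp (-(2 * (K : ℝ))) = 16 * mesh K ^ 2 := by
    unfold mesh
    rw [div_pow, ← Real.exp_nat_mul]
    push_cast
    ring_nf
  have hds : dimParam κ - 2 = s - 1 := by rw [hs]; ring
  rw [hds]
  have hNg : (Ng K R : ℝ) ≤ (R + 3) / mesh K := by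
    have h1 : (Ng K R : ℝ) < (R + 2) / mesh K + 1 := Nat.ceil_lt_add_one (by positivity)
    have hone : (1 : ℝ) ≤ 1 / mesh K := by rw [le_div_iff₀ hh]; linarith
    have : (R + 3) / mesh K = (R + 2) / mesh K + 1 / mesh K := by ring
    linarith
  have hnn : ∀ p ∈ idx K R, 0 ≤ Real.exp (-(2 * (K : ℝ))) * (pt K p).im ^ (s - 1) := by
    intro p _
    apply mul_nonneg (Real.exp_pos _).le
    apply Real.rpow_nonneg
    simp only [pt]; positivity
  calc ∑ w ∈ grid K R, Real.exp (-(2 * (K : ℝ))) * w.im ^ (s - 1)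
      ≤ ∑ w ∈ (idx K R).image (pt K), Real.exp (-(2 * (K : ℝ))) * w.im ^ (s - 1) := by
        refine Finset.sum_le_sum_of_subset_of_nonneg (Finset.filter_subset _ _) ?_
        intro w hw _
        obtain ⟨p, hp, rfl⟩ := Finset.mem_image.1 hw
        exact hnn p hp
    _ = ∑ p ∈ idx K R, Real.exp (-(2 * (K : ℝ))) * (pt K p).im ^ (s - 1) :=
        Finset.sum_image (fun a _ b _ h => pt_injective K h)
    _ = ∑ m ∈ Finset.Icc (-(Ng K R : ℤ)) (Ng K R), ∑ n ∈ Finset.Icc 1 (Ng K R),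
          Real.exp (-(2 * (K : ℝ))) * ((n : ℝ) * mesh K) ^ (s - 1) := by
        unfold idx
        rw [Finset.sum_product]
        rfl
    _ = (2 * (Ng K R : ℝ) + 1) * (Real.exp (-(2 * (K : ℝ))) * mesh K ^ (s - 1) *
          ∑ n ∈ Finset.Icc 1 (Ng K R), (n : ℝ) ^ (s - 1)) := by
        rw [Finset.sum_const, nsmul_eq_mul, Int.card_Icc]
        have h3 : ((((Ng K R : ℤ) + 1 - -(Ng K R : ℤ)).toNat : ℕ) : ℝ) = 2 * (Ng K R : ℝ) + 1 := by
          have h4 : ((((Ng K R : ℤ) + 1 - -(Ng K R : ℤ)).toNat : ℕ) : ℤ) = 2 * (Ng K R : ℤ) + 1 := by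
            have h0 : (0 : ℤ) ≤ (Ng K R : ℤ) := Int.natCast_nonneg _
            rw [Int.toNat_of_nonneg (by linarith)]; ring
          exact_mod_cast h4
        rw [h3]
        congr 1
        rw [Finset.mul_sum]
        refine Finset.sum_congr rfl fun n _ => ?_
        rw [Real.mul_rpow (Nat.cast_nonneg n) hh.le]
        ring
    _ ≤ ((2 * R + 7) / mesh K) * (16 * mesh K ^ 2 * mesh K ^ (s - 1) *
          (((R + 3) / mesh K) ^ s / s)) := by
        rw [hexp]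
        have h5 : 2 * (Ng K R : ℝ) + 1 ≤ (2 * R + 7) / mesh K := by
          have hone : (1 : ℝ) ≤ 1 / mesh K := by rw [le_div_iff₀ hh]; linarith
          have : (2 * R + 7) / mesh K = 2 * ((R + 3) / mesh K) + 1 / mesh K := by ring
          linarith
        have h6 : ∑ n ∈ Finset.Icc 1 (Ng K R), (n : ℝ) ^ (s - 1) ≤ ((R + 3) / mesh K) ^ s / s := by
          refine (sum_rpow_le hs0 hs1 _).trans ?_
          apply div_le_div_of_nonneg_right _ hs0.le
          exact Real.rpow_le_rpow (Nat.cast_nonneg _) hNg hs0.le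
        have h7 : 0 ≤ ∑ n ∈ Finset.Icc 1 (Ng K R), (n : ℝ) ^ (s - 1) :=
          Finset.sum_nonneg fun n _ => Real.rpow_nonneg (Nat.cast_nonneg n) _
        gcongr
    _ = 16 * (2 * R + 7) * ((R + 3) ^ s / s) := by
        rw [Real.div_rpow (by positivity) hh.le, Real.rpow_sub_one hh.ne']
        have : mesh K ^ s ≠ 0 := (Real.rpow_pos_of_pos hh s).ne'
        field_simp

theorem tendsto_mul_exp_sqrt :
    Tendsto (fun K : ℕ => (K : ℝ) * Real.exp (-(Real.sqrt K))) atTop (𝓝 0) := by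
  have h1 := Real.tendsto_pow_mul_exp_neg_atTop_nhds_zero 2
  have h2 : Tendsto (fun K : ℕ => Real.sqrt (K : ℝ)) atTop atTop :=
    Real.tendsto_sqrt_atTop.comp tendsto_natCast_atTop_atTop
  refine (h1.comp h2).congr fun K => ?_
  simp only [Function.comp]
  rw [Real.sq_sqrt (Nat.cast_nonneg K)]

/-- The expected cost of the balls `ball w e^{-K}` of the grid points without trigger: the
probabilities are at most `C1 e^{-(2-d)K} G_0(w) e^{-√K}` with `G_0(w) ≤ (Im w)^{d-2}`. -/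
theorem grid_cost {κ : ℝ} (hκ : 0 < κ) (hκ8 : κ < 8) (R : ℝ) (hR : 0 ≤ R) (C1 : ℝ) (hC1 : 0 ≤ C1) :
    Tendsto (fun K : ℕ => ∑ w ∈ grid K R,
      ENNReal.ofReal (C1 * Real.exp (-((2 - dimParam κ) * K)) * w.im ^ (dimParam κ - 2) *
        Real.exp (-(Real.sqrt K))) * gaugeExt κ (ENNReal.ofReal (2 * Real.exp (-(K : ℝ)))))
      atTop (𝓝 0) := by
  obtain ⟨C, hC0, hC⟩ := grid_sum hκ hκ8 R hR
  have hlim : Tendsto (fun K : ℕ => ENNReal.ofReal (4 * C1 * C * ((K : ℝ) * Real.exp (-(Real.sqrt K)))))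
      atTop (𝓝 0) := by
    have := ENNReal.tendsto_ofReal (tendsto_mul_exp_sqrt.const_mul (4 * C1 * C))
    simpa using this
  refine tendsto_of_tendsto_of_tendsto_of_le_of_le' tendsto_const_nhds hlim
    (Eventually.of_forall fun _ => bot_le) ?_
  have hsmall : ∀ᶠ K : ℕ in atTop, 2 * Real.exp (-(K : ℝ)) ≤ Real.exp (-Real.exp 1) := by
    have h1 : Tendsto (fun K : ℕ => 2 * Real.exp (-(K : ℝ))) atTop (𝓝 (2 * 0)) :=
      ((Real.tendsto_exp_neg_atTop_nhds_zero.comp tendsto_natCast_atTop_atTop).const_mul 2)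
    rw [mul_zero] at h1
    exact (h1.eventually (Iio_mem_nhds (Real.exp_pos _))).mono fun K hK => le_of_lt hK
  filter_upwards [hsmall, eventually_ge_atTop 1] with K hK hK1
  have hKpos : (0 : ℝ) ≤ K := Nat.cast_nonneg K
  have hg : gaugeReal κ (2 * Real.exp (-(K : ℝ))) ≤ 4 * (Real.exp (-(dimParam κ * K)) * K) := by
    refine (gaugeReal_le_log hκ hκ8 (by positivity) hK).trans ?_
    have h1 : (2 * Real.exp (-(K : ℝ))) ^ dimParam κ ≤ 4 * Real.exp (-(dimParam κ * K)) := by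
      rw [Real.mul_rpow (by norm_num) (Real.exp_pos _).le, ← Real.exp_mul]
      have h2 : (2 : ℝ) ^ dimParam κ ≤ 4 := by
        have := Real.rpow_le_rpow_of_exponent_le (by norm_num : (1 : ℝ) ≤ 2) (dim_lt_two hκ8).le
        rw [show (2 : ℝ) ^ (2 : ℝ) = 4 by norm_num] at this
        exact this
      have h3 : -(K : ℝ) * dimParam κ = -(dimParam κ * K) := by ring
      rw [h3]
      exact mul_le_mul_of_nonneg_right h2 (Real.exp_pos _).le
    have h4 : Real.log (1 / (2 * Real.exp (-(K : ℝ)))) ≤ K := by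
      rw [one_div, Real.log_inv, Real.log_mul (by norm_num) (Real.exp_pos _).ne', Real.log_exp]
      have := Real.log_nonneg (by norm_num : (1 : ℝ) ≤ 2)
      linarith
    have h5 : 0 ≤ Real.log (1 / (2 * Real.exp (-(K : ℝ)))) := by
      apply Real.log_nonneg
      rw [le_div_iff₀ (by positivity), one_mul]
      exact hK.trans (Real.exp_le_one_iff.2 (by have := Real.exp_pos 1; linarith))
    calc (2 * Real.exp (-(K : ℝ))) ^ dimParam κ * Real.log (1 / (2 * Real.exp (-(K : ℝ))))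
        ≤ (4 * Real.exp (-(dimParam κ * K))) * K := by gcongr
      _ = 4 * (Real.exp (-(dimParam κ * K)) * K) := by ring
  rw [gaugeExt_ofReal κ (by positivity)]
  have hterm : ∀ w ∈ grid K R,
      ENNReal.ofReal (C1 * Real.exp (-((2 - dimParam κ) * K)) * w.im ^ (dimParam κ - 2) *
        Real.exp (-(Real.sqrt K))) * ENNReal.ofReal (gaugeReal κ (2 * Real.exp (-(K : ℝ))))
      ≤ ENNReal.ofReal (4 * C1 * ((K : ℝ) * Real.exp (-(Real.sqrt K))) *
          (Real.exp (-(2 * (K : ℝ))) * w.im ^ (dimParam κ - 2))) := by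
    intro w hw
    have hw0 : 0 ≤ w.im ^ (dimParam κ - 2) := Real.rpow_nonneg (mem_grid_im_pos hw).le _
    rw [← ENNReal.ofReal_mul (by positivity)]
    apply ENNReal.ofReal_le_ofReal
    have e1 : Real.exp (-(2 * (K : ℝ))) =
        Real.exp (-((2 - dimParam κ) * K)) * Real.exp (-(dimParam κ * K)) := by
      rw [← Real.exp_add]; congr 1; ring
    rw [e1]
    calc C1 * Real.exp (-((2 - dimParam κ) * K)) * w.im ^ (dimParam κ - 2) *
          Real.exp (-(Real.sqrt K)) * gaugeReal κ (2 * Real.exp (-(K : ℝ)))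
        ≤ C1 * Real.exp (-((2 - dimParam κ) * K)) * w.im ^ (dimParam κ - 2) *
          Real.exp (-(Real.sqrt K)) * (4 * (Real.exp (-(dimParam κ * K)) * K)) := by gcongr
      _ = _ := by ring
  refine (Finset.sum_le_sum hterm).trans ?_
  rw [← ENNReal.ofReal_sum_of_nonneg]
  · apply ENNReal.ofReal_le_ofReal
    rw [← Finset.mul_sum]
    calc 4 * C1 * ((K : ℝ) * Real.exp (-(Real.sqrt K))) *
          ∑ w ∈ grid K R, Real.exp (-(2 * (K : ℝ))) * w.im ^ (dimParam κ - 2)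
        ≤ 4 * C1 * ((K : ℝ) * Real.exp (-(Real.sqrt K))) * C :=
          mul_le_mul_of_nonneg_left (hC K) (by positivity)
      _ = _ := by ring
  · intro w hw
    have hw0 : 0 ≤ w.im ^ (dimParam κ - 2) := Real.rpow_nonneg (mem_grid_im_pos hw).le _
    positivity

end Crest.Agent.R162.U7
end

-- ▼ part R162/UBGlue
section

/-!
Row 162 (S0243), UPPER BOUND glue (helper744): `U4Stmt + U5Stmt + U6Stmt + TR3Stmt` and the gauge
sums of the nodes U7, U8 give the claim (C) = `Top.UBC`.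
-/

set_option autoImplicit false

open MeasureTheory ProbabilityTheory Set Metric Filter Topology
open scoped NNReal ENNReal

namespace Crest.Agent.R162.UB

open Crest.Agent.R162.FL Crest.Agent.R162.OP Crest.Agent.R162.OS
open Crest.ProbabilityR.Loewner

/-- what the glue needs about the grids (node U7) -/
structure GridHyp (κ R : ℝ) (grid : ℕ → Finset ℂ) : Prop where
  im : ∀ K, ∀ w ∈ grid K, Real.exp (-((K : ℝ) / 8)) ≤ w.im
  norm : ∀ K, ∀ w ∈ grid K, ‖w‖ ≤ R + 1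
  cover : ∀ K : ℕ, 1 ≤ K → ∀ z : ℂ, 2 * Real.exp (-((K : ℝ) / 8)) ≤ z.im → ‖z‖ ≤ R →
    ∃ w ∈ grid K, ‖z - w‖ < Real.exp (-(K : ℝ))
  cost : ∀ C₁ : ℝ, 0 ≤ C₁ → Tendsto (fun K : ℕ => ∑ w ∈ grid K,
    ENNReal.ofReal (C₁ * Real.exp (-((2 - dimParam κ) * K)) * w.im ^ (dimParam κ - 2) *
      Real.exp (-(Real.sqrt K))) * gaugeExt κ (ENNReal.ofReal (2 * Real.exp (-(K : ℝ))))) atTop (𝓝 0)

/-- what the glue needs about the strip (node U8) -/
structure StripHyp (κ R : ℝ) (strip : ℝ → Finset ℤ) : Prop where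
  cover : ∀ δ : ℝ, 0 < δ → δ ≤ 1 → {z : ℂ | 0 ≤ z.im ∧ z.im ≤ 2 * δ ∧ ‖z‖ ≤ R} ⊆
    ⋃ n ∈ strip δ, Metric.closedBall ((n * δ : ℝ) : ℂ) (3 * δ)
  cost : Tendsto (fun δ => ∑ _n ∈ strip δ, gaugeExt κ (ENNReal.ofReal (6 * δ))) (𝓝[>] 0) (𝓝 0)

lemma gridHyp {κ : ℝ} (hκ : 0 < κ) (hκ8 : κ < 8) {R : ℝ} (hR : 0 ≤ R) :
    GridHyp κ R (fun K => U7.grid K R) where
  im := fun K w hw => U7.mem_grid_im hw
  norm := fun K w hw => U7.mem_grid_norm hw
  cover := fun K _ z hz hzR => by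
    obtain ⟨w, hw, h⟩ := U7.grid_cover (K := K) hz hzR
    refine ⟨w, hw, h.trans ?_⟩
    have := Real.exp_pos (-(K : ℝ))
    linarith
  cost := fun C₁ hC₁ => U7.grid_cost hκ hκ8 R hR C₁ hC₁

lemma stripHyp {κ : ℝ} (hκ : 0 < κ) (hκ8 : κ < 8) {R : ℝ} (hR : 0 ≤ R) :
    StripHyp κ R (fun δ => Finset.Icc (-U8.Nb R δ) (U8.Nb R δ)) where
  cover := fun δ hδ hδ1 => U8.strip_cover R δ hδ hδ1
  cost := U8.strip_cost hκ hκ8 R hR

lemma continuousOn_driving {Ω : Type*} {m : MeasurableSpace Ω} {F : Filtration ℝ≥0 m}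
    {B : ℝ≥0 → Ω → ℝ} {P : Measure Ω} (hB : IsBM F B P) (κ : ℝ) (ω : Ω) :
    Continuous (driving κ B ω) := by
  unfold driving
  exact continuous_const.mul ((hB.cont ω).comp continuous_real_toNNReal)


/-- numerical facts for large `K` -/
structure BigK (ε₀ N₀ : ℝ) (l₀ K : ℕ) : Prop where
  one : 16 ≤ K
  N1 : 1 ≤ (U4.NN ε₀ K : ℝ)
  N2 : N₀ ≤ (U4.NN ε₀ K : ℝ)
  log : Real.log K ≤ (2 / ε₀) * (U4.NN ε₀ K : ℝ)

lemma eventually_bigK {ε₀ : ℝ} (hε : 0 < ε₀) (N₀ : ℝ) (l₀ : ℕ) :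
    ∀ᶠ K : ℕ in atTop, BigK ε₀ N₀ l₀ K := by
  have h1 : Tendsto (fun K : ℕ => ε₀ * Real.log K) atTop atTop :=
    (Real.tendsto_log_atTop.comp tendsto_natCast_atTop_atTop).const_mul_atTop hε
  filter_upwards [eventually_ge_atTop 16, h1.eventually_ge_atTop (max 2 (N₀ + 1))] with K hK hN
  have h2 : ε₀ * Real.log K < (U4.NN ε₀ K : ℝ) + 1 := Nat.lt_floor_add_one _
  have h3 := le_trans (le_max_left _ _) hN
  have h4 := le_trans (le_max_right _ _) hN
  refine ⟨hK, by linarith, by linarith, ?_⟩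
  rw [div_mul_eq_mul_div, le_div_iff₀ hε]
  linarith

/-- the family of pairs `(w, r)` at the level `K` -/
noncomputable def pairs (grid : ℕ → Finset ℂ) (ε₀ : ℝ) (l₀ K : ℕ) : Finset (ℂ × ℝ) :=
  ((grid K) ×ˢ (Finset.range (U4.nBlocks ε₀ 2 l₀ K))).image fun p => (p.1, rsc ε₀ l₀ K p.2)

lemma mem_pairs {grid : ℕ → Finset ℂ} {ε₀ : ℝ} {l₀ K : ℕ} {p : ℂ × ℝ} :
    p ∈ pairs grid ε₀ l₀ K ↔
      p.1 ∈ grid K ∧ ∃ i < U4.nBlocks ε₀ 2 l₀ K, p.2 = rsc ε₀ l₀ K i := by
  unfold pairs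
  simp only [Finset.mem_image, Finset.mem_product, Finset.mem_range, Prod.exists]
  constructor
  · rintro ⟨w, i, ⟨hw, hi⟩, rfl⟩
    exact ⟨hw, i, hi, rfl⟩
  · rintro ⟨hw, i, hi, h⟩
    exact ⟨p.1, i, ⟨hw, hi⟩, by rw [← h]⟩

lemma blockLen_pos {l₀ : ℕ} (hl : 1 ≤ l₀) (N : ℕ) : 1 ≤ U4.blockLen 2 l₀ N := by
  unfold U4.blockLen; omega

lemma lev_ge (ε₀ : ℝ) (l₀ K i : ℕ) : K / 2 ≤ lev ε₀ l₀ K i := by
  unfold lev; omega

lemma lev_le {ε₀ : ℝ} {l₀ K i : ℕ} (hl : 1 ≤ l₀) (hi : i < U4.nBlocks ε₀ 2 l₀ K) :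
    lev ε₀ l₀ K i ≤ K := by
  unfold lev
  set g := U4.blockLen 2 l₀ (U4.NN ε₀ K) with hg
  have hg1 : 1 ≤ g := blockLen_pos hl _
  have h1 : i ≤ K / (4 * g) := by
    have : U4.nBlocks ε₀ 2 l₀ K = K / (4 * g) := rfl
    omega
  have h2 : i * g ≤ K / 4 := by
    have h3 : i * (4 * g) ≤ K := (Nat.le_div_iff_mul_le (by positivity)).1 h1
    have h4 : 4 * (i * g) ≤ K := by nlinarith
    omega
  omega

lemma rsc_pos (ε₀ : ℝ) (l₀ K i : ℕ) : 0 < rsc ε₀ l₀ K i := Real.exp_pos _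

lemma rsc_ge {ε₀ : ℝ} {l₀ K i : ℕ} (hl : 1 ≤ l₀) (hi : i < U4.nBlocks ε₀ 2 l₀ K) :
    Real.exp (-(K : ℝ)) ≤ rsc ε₀ l₀ K i := by
  unfold rsc
  apply Real.exp_le_exp.2
  have : (lev ε₀ l₀ K i : ℝ) ≤ K := by exact_mod_cast lev_le hl hi
  linarith

lemma rsc_le {ε₀ : ℝ} {l₀ K i : ℕ} : rsc ε₀ l₀ K i ≤ Real.exp (-(((K / 2 : ℕ)) : ℝ)) := by
  unfold rsc
  apply Real.exp_le_exp.2
  have : (((K / 2 : ℕ)) : ℝ) ≤ lev ε₀ l₀ K i := by exact_mod_cast lev_ge ε₀ l₀ K i
  linarith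

lemma rsc_lt_im {ε₀ : ℝ} {l₀ K i : ℕ} (hK : 16 ≤ K) {y : ℝ}
    (hy : Real.exp (-((K : ℝ) / 8)) ≤ y) : rsc ε₀ l₀ K i < y := by
  refine lt_of_le_of_lt rsc_le (lt_of_lt_of_le ?_ hy)
  apply Real.exp_lt_exp.2
  have h1 : K ≤ 2 * (K / 2) + 1 := by omega
  have h2 : (K : ℝ) ≤ 2 * ((K / 2 : ℕ) : ℝ) + 1 := by exact_mod_cast h1
  have h3 : (16 : ℝ) ≤ K := by exact_mod_cast hK
  linarith

lemma rsc_le_one {ε₀ : ℝ} {l₀ K i : ℕ} : rsc ε₀ l₀ K i ≤ 1 := by
  refine rsc_le.trans ?_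
  rw [← Real.exp_zero]
  apply Real.exp_le_exp.2
  have : (0:ℝ) ≤ ((K / 2 : ℕ) : ℝ) := Nat.cast_nonneg _
  linarith

/-- radii are lacunary -/
lemma rsc_lacunary {ε₀ : ℝ} {l₀ K i j : ℕ} (hN : 1 ≤ (U4.NN ε₀ K : ℝ)) {L : ℝ} 
    (hl : L < Real.exp (l₀ : ℝ)) (hlt : rsc ε₀ l₀ K i < rsc ε₀ l₀ K j) :
    L * (U4.NN ε₀ K : ℝ) ^ (1 / 2 : ℝ) * rsc ε₀ l₀ K i < rsc ε₀ l₀ K j := by
  unfold rsc at hlt ⊢
  have h1 := Real.exp_lt_exp.1 hlt
  have h2 : (lev ε₀ l₀ K j : ℝ) < lev ε₀ l₀ K i := by linarith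
  have h3 : lev ε₀ l₀ K j < lev ε₀ l₀ K i := by exact_mod_cast h2
  unfold lev at h3
  set g := U4.blockLen 2 l₀ (U4.NN ε₀ K) with hg
  have h4 : j < i := by
    by_contra hcon
    push Not at hcon
    have := Nat.mul_le_mul_right g hcon
    omega
  have h5 : j * g + g ≤ i * g := by
    have := Nat.mul_le_mul_right g (Nat.succ_le_of_lt h4)
    calc j * g + g = (j + 1) * g := by ring
      _ ≤ i * g := this
  have h6 : lev ε₀ l₀ K j + g ≤ lev ε₀ l₀ K i := by unfold lev; rw [← hg]; omega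
  have h7 : (lev ε₀ l₀ K j : ℝ) + g ≤ lev ε₀ l₀ K i := by exact_mod_cast h6
  set N : ℝ := (U4.NN ε₀ K : ℝ) with hNdef
  have hNpos : 0 < N := by linarith
  have h8 : 2 * Real.log N + l₀ ≤ (g : ℝ) := by
    have : (g : ℝ) = (⌈2 * Real.log (U4.NN ε₀ K : ℝ)⌉₊ : ℝ) + l₀ := by
      rw [hg]; unfold U4.blockLen; push_cast; ring
    rw [this]
    have := Nat.le_ceil (2 * Real.log (U4.NN ε₀ K : ℝ))
    linarith
  have h9 : N ^ (1 / 2 : ℝ) * Real.exp (l₀ : ℝ) ≤ Real.exp (g : ℝ) := by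
    have hsq : N ^ (1 / 2 : ℝ) ≤ Real.exp (2 * Real.log N) := by
      rw [Real.rpow_def_of_pos hNpos]
      apply Real.exp_le_exp.2
      have := Real.log_nonneg hN
      nlinarith
    calc N ^ (1 / 2 : ℝ) * Real.exp (l₀ : ℝ) ≤ Real.exp (2 * Real.log N) * Real.exp (l₀ : ℝ) := by
          gcongr
      _ = Real.exp (2 * Real.log N + l₀) := (Real.exp_add _ _).symm
      _ ≤ Real.exp (g : ℝ) := Real.exp_le_exp.2 h8
  have hNp : 0 < N ^ (1 / 2 : ℝ) := Real.rpow_pos_of_pos hNpos _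
  have h10 : L * N ^ (1 / 2 : ℝ) < Real.exp (g : ℝ) := by
    calc L * N ^ (1 / 2 : ℝ) < Real.exp (l₀ : ℝ) * N ^ (1 / 2 : ℝ) := by gcongr
      _ ≤ Real.exp (g : ℝ) := by rw [mul_comm]; exact h9
  calc L * N ^ (1 / 2 : ℝ) * Real.exp (-(lev ε₀ l₀ K i : ℝ))
      < Real.exp (g : ℝ) * Real.exp (-(lev ε₀ l₀ K i : ℝ)) := by gcongr
    _ = Real.exp ((g : ℝ) + -(lev ε₀ l₀ K i : ℝ)) := (Real.exp_add _ _).symm
    _ ≤ Real.exp (-(lev ε₀ l₀ K j : ℝ)) := Real.exp_le_exp.2 (by linarith)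

/-- gauge of the selected balls -/
lemma gauge_rsc_le {κ : ℝ} (hκ : 0 < κ) (hκ8 : κ < 8) {ε₀ N₀ : ℝ} (hε : 0 < ε₀) {l₀ K i : ℕ}
    (hl : 1 ≤ l₀) (hK : BigK ε₀ N₀ l₀ K) (hi : i < U4.nBlocks ε₀ 2 l₀ K) {C : ℝ} (hC : 1 ≤ C) :
    gaugeReal κ (C * rsc ε₀ l₀ K i) ≤ C ^ dimParam κ * (2 / ε₀) ^ ((2 - dimParam κ) / 2) *
      (rsc ε₀ l₀ K i ^ dimParam κ * (U4.NN ε₀ K : ℝ) ^ ((2 - dimParam κ) / 2)) := by
  have hd2 := G9.dim_lt_two hκ8
  have hr := rsc_pos ε₀ l₀ K i
  refine (G9.gaugeReal_mul_le hκ hκ8 hC hr.le).trans ?_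
  have hK16 : (16 : ℝ) ≤ K := by exact_mod_cast hK.one
  have hlev : (K : ℝ) ≤ 2 * (lev ε₀ l₀ K i : ℝ) + 1 := by
    have h1 := lev_ge ε₀ l₀ K i
    have h2 : K ≤ 2 * lev ε₀ l₀ K i + 1 := by omega
    exact_mod_cast h2
  have he : Real.exp 1 ≤ (lev ε₀ l₀ K i : ℝ) := by
    have := Real.exp_one_lt_d9
    linarith
  have h3 : gaugeReal κ (rsc ε₀ l₀ K i) = rsc ε₀ l₀ K i ^ dimParam κ *
      Real.log (lev ε₀ l₀ K i : ℝ) ^ ((2 - dimParam κ) / 2) := by
    unfold rsc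
    rw [G9.gaugeReal_exp_neg he, ← Real.exp_mul]
    congr 2
    ring
  have hlog1 : 0 ≤ Real.log (lev ε₀ l₀ K i : ℝ) :=
    Real.log_nonneg (by have := Real.add_one_le_exp (1:ℝ); linarith)
  have hlog2 : Real.log (lev ε₀ l₀ K i : ℝ) ≤ (2 / ε₀) * (U4.NN ε₀ K : ℝ) := by
    refine le_trans ?_ hK.log
    apply Real.log_le_log
    · have := Real.exp_pos 1; linarith
    · exact_mod_cast lev_le hl hi
  have hN0 : (0:ℝ) ≤ (U4.NN ε₀ K : ℝ) := Nat.cast_nonneg _
  have h4 : Real.log (lev ε₀ l₀ K i : ℝ) ^ ((2 - dimParam κ) / 2) ≤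
      (2 / ε₀) ^ ((2 - dimParam κ) / 2) * (U4.NN ε₀ K : ℝ) ^ ((2 - dimParam κ) / 2) := by
    rw [← Real.mul_rpow (by positivity) hN0]
    exact Real.rpow_le_rpow hlog1 hlog2 (by linarith)
  rw [h3]
  have hrd : 0 ≤ rsc ε₀ l₀ K i ^ dimParam κ := Real.rpow_nonneg hr.le _
  have hCd : 0 ≤ C ^ dimParam κ := Real.rpow_nonneg (by linarith) _
  calc C ^ dimParam κ * (rsc ε₀ l₀ K i ^ dimParam κ *
        Real.log (lev ε₀ l₀ K i : ℝ) ^ ((2 - dimParam κ) / 2))
      ≤ C ^ dimParam κ * (rsc ε₀ l₀ K i ^ dimParam κ *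
        ((2 / ε₀) ^ ((2 - dimParam κ) / 2) * (U4.NN ε₀ K : ℝ) ^ ((2 - dimParam κ) / 2))) := by
        gcongr
    _ = _ := by ring

/-- THE GLUE: upper bound for a fixed Brownian set-up. -/
theorem ub_glue {κ : ℝ} (hκ : 0 < κ) (hκ8 : κ < 8) {Ω : Type*} {m : MeasurableSpace Ω}
    (P : Measure Ω) [IsProbabilityMeasure P] {F : Filtration ℝ≥0 m} {B : ℝ≥0 → Ω → ℝ}
    (hB : IsBM F B P) (h4 : U4Stmt κ P B) (h5 : U5Stmt κ) (h6 : U6Stmt κ P B) (h3 : TR3Stmt)
    {γ : Ω → ℝ → ℂ} (hγ : ∀ᵐ ω ∂P, IsChordalTrace (driving κ B ω) (γ ω)) {R : ℝ}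
    {grid : ℕ → Finset ℂ} (hgrid : GridHyp κ R grid) {strip : ℝ → Finset ℤ}
    (hstrip : StripHyp κ R strip)
    (hgle : ∀ z : ℂ, 0 < z.im → green κ z ≤ z.im ^ (dimParam κ - 2))
    (hgint : ∀ R : ℝ, ∫⁻ z in {z : ℂ | 0 < z.im ∧ ‖z‖ ≤ R}, ENNReal.ofReal (green κ z) < ⊤) :
    ∃ Φ : Ω → ℝ≥0∞, Measurable Φ ∧ ∫⁻ ω, Φ ω ∂P < ⊤ ∧
      ∀ᵐ ω ∂P, gaugeMeasure κ (γ ω '' Set.Ici 0 ∩ Metric.closedBall 0 R) ≤ Φ ω := by
  classical
  have hd1 := G9.dim_gt_one hκ
  have hd2 := G9.dim_lt_two hκ8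
  obtain ⟨δ, hδ, l₁, h4⟩ := h4
  obtain ⟨C₆, c₅, c, N₀, hC₆, hc₅, hc, hN₀, h5⟩ := h5 δ hδ
  -- choice of `l₀`
  obtain ⟨l₀, hl₀1, hl₀2, hl₀3⟩ : ∃ l₀ : ℕ, l₁ ≤ l₀ ∧ 1 ≤ l₀ ∧
      (2 * C₆ + 4) / c₅ < Real.exp (l₀ : ℝ) := by
    obtain ⟨n, hn⟩ := exists_nat_gt ((2 * C₆ + 4) / c₅)
    refine ⟨max (max l₁ 1) n, (le_max_left _ _).trans (le_max_left _ _),
      (le_max_right _ _).trans (le_max_left _ _), ?_⟩
    have h1 : (n : ℝ) ≤ ((max (max l₁ 1) n : ℕ) : ℝ) := by exact_mod_cast le_max_right _ _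
    have h2 := Real.add_one_le_exp (((max (max l₁ 1) n : ℕ) : ℝ))
    linarith
  obtain ⟨ε₀, hε, hε1, C, hC, h4⟩ := h4 l₀ hl₀1
  set C₉ : ℝ := 22 * C₆ with hC₉
  have hC₉1 : 1 ≤ C₉ := by rw [hC₉]; linarith
  set A₁ : ℝ := C₉ ^ dimParam κ * (2 / ε₀) ^ ((2 - dimParam κ) / 2) with hA₁
  have hA₁0 : 0 ≤ A₁ := by positivity
  set Rm : ℝ := R + 1 + C₆ with hRm
  set I₀ : ℝ≥0∞ := ∫⁻ z in {z : ℂ | 0 < z.im ∧ ‖z‖ ≤ Rm}, ENNReal.ofReal (green κ z) with hI₀
  have hI₀top : I₀ < ⊤ := hgint Rm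
  -- selection for every large K
  have hsel : ∀ᶠ K : ℕ in atTop, ∃ sel : ℂ × ℝ → Set Ω,
      (∀ ω, ∀ q ∈ pairs grid ε₀ l₀ K, Trig (driving κ B ω) q.1 q.2 (U4.NN ε₀ K : ℝ) δ →
        ∃ p ∈ pairs grid ε₀ l₀ K, ω ∈ sel p ∧ ‖q.1 - p.1‖ ≤ 10 * C₆ * p.2) ∧
      ∑ p ∈ pairs grid ε₀ l₀ K, P (sel p) *
        ENNReal.ofReal (c * p.2 ^ dimParam κ * (U4.NN ε₀ K : ℝ) ^ ((2 - dimParam κ) / 2)) ≤ I₀ := by
    filter_upwards [eventually_bigK hε N₀ l₀] with K hK
    refine h6 δ C₆ c₅ c (U4.NN ε₀ K : ℝ) Rm hδ hC₆ hc₅ hc hK.N1 (pairs grid ε₀ l₀ K) ?_ ?_ ?_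
    · intro p hp
      obtain ⟨hw, i, hi, hr⟩ := mem_pairs.1 hp
      have him := hgrid.im K p.1 hw
      refine ⟨lt_of_lt_of_le (Real.exp_pos _) him, ?_, ?_, ?_⟩
      · rw [hr]; exact rsc_pos _ _ _ _
      · rw [hr]; exact rsc_lt_im hK.one him
      · have h1 := hgrid.norm K p.1 hw
        have h2 : p.2 ≤ 1 := by rw [hr]; exact rsc_le_one
        have h3 : C₆ * p.2 ≤ C₆ * 1 := by gcongr
        rw [hRm]; linarith
    · intro p hp q hq hpq
      obtain ⟨-, i, hi, hr⟩ := mem_pairs.1 hp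
      obtain ⟨-, j, hj, hs⟩ := mem_pairs.1 hq
      rw [hr, hs] at hpq
      have := rsc_lacunary hK.N1 hl₀3 hpq
      rw [← hr, ← hs] at this
      have h1 : c₅ * ((2 * C₆ + 4) / c₅ * (U4.NN ε₀ K : ℝ) ^ (1 / 2 : ℝ) * p.2) < c₅ * q.2 := by
        gcongr
      calc (2 * C₆ + 4) * (U4.NN ε₀ K : ℝ) ^ (1 / 2 : ℝ) * p.2
          = c₅ * ((2 * C₆ + 4) / c₅ * (U4.NN ε₀ K : ℝ) ^ (1 / 2 : ℝ) * p.2) := by
            field_simp
        _ < c₅ * q.2 := h1
    · intro W σ T hW hW0 p hp htr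
      obtain ⟨-, i, hi, hr⟩ := mem_pairs.1 hp
      exact h5 W p.1 p.2 (U4.NN ε₀ K : ℝ) σ T hW hW0 hK.N2 (by rw [hr]; exact rsc_pos _ _ _ _) htr
  obtain ⟨K₁, hK₁⟩ := eventually_atTop.1 (hsel.and ((eventually_bigK hε N₀ l₀).and h4))
  choose! sel hsel1 hsel2 using fun (K : ℕ) (hK : K₁ ≤ K) => (hK₁ K hK).1
  have hbig : ∀ K, K₁ ≤ K → BigK ε₀ N₀ l₀ K := fun K hK => (hK₁ K hK).2.1
  have h4' := fun (K : ℕ) (hK : K₁ ≤ K) => (hK₁ K hK).2.2
  -- the bad event
  set Bad : ℕ → ℂ → Set Ω := fun K w =>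
    {ω | Reach (driving κ B ω) w (Real.exp (-((K : ℝ) - 1))) ∧
      NoTrig (driving κ B ω) w ε₀ δ l₀ K} with hBad
  -- index type and candidate sets
  let ι : ℕ → Type := fun K => (↥(pairs grid ε₀ l₀ K)) ⊕ (↥(grid K)) ⊕
    (↥(strip (Real.exp (-((K : ℝ) / 8)))))
  let S : ∀ K, ι K → Set ℂ := fun K => Sum.elim
    (fun p => Metric.closedBall p.1.1 (11 * C₆ * p.1.2))
    (Sum.elim (fun w => Metric.closedBall w.1 (Real.exp (-(K : ℝ))))
      (fun n => Metric.closedBall ((n.1 * Real.exp (-((K : ℝ) / 8)) : ℝ) : ℂ)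
        (3 * Real.exp (-((K : ℝ) / 8)))))
  let E : ∀ K, ι K → Set Ω := fun K => Sum.elim
    (fun p => toMeasurable P (sel K p.1))
    (Sum.elim (fun w => toMeasurable P (Bad K w.1)) (fun _ => Set.univ))
  let rr : ℕ → ℝ≥0∞ := fun K =>
    ENNReal.ofReal (22 * C₆ * Real.exp (-(((K / 2 : ℕ)) : ℝ)) +
      (2 * Real.exp (-(K : ℝ)) + 6 * Real.exp (-((K : ℝ) / 8))))
  have hexp8 : Tendsto (fun K : ℕ => Real.exp (-((K : ℝ) / 8))) atTop (𝓝 0) := by
    have h1 : Tendsto (fun K : ℕ => (K : ℝ) / 8) atTop atTop :=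
      tendsto_natCast_atTop_atTop.atTop_div_const (by norm_num)
    exact Real.tendsto_exp_neg_atTop_nhds_zero.comp h1
  have hrr : Tendsto rr atTop (𝓝 0) := by
    have h1 : Tendsto (fun K : ℕ => Real.exp (-(((K / 2 : ℕ)) : ℝ))) atTop (𝓝 0) := by
      refine Real.tendsto_exp_neg_atTop_nhds_zero.comp ?_
      exact tendsto_natCast_atTop_atTop.comp (Nat.tendsto_div_const_atTop (by norm_num))
    have h2 : Tendsto (fun K : ℕ => Real.exp (-(K : ℝ))) atTop (𝓝 0) :=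
      Real.tendsto_exp_neg_atTop_nhds_zero.comp tendsto_natCast_atTop_atTop
    have h3 := ((h1.const_mul (22 * C₆)).add ((h2.const_mul 2).add (hexp8.const_mul 6)))
    simp only [mul_zero, add_zero] at h3
    have h4 := ENNReal.tendsto_ofReal h3
    rwa [ENNReal.ofReal_zero] at h4
  have hS : ∀ K i, Metric.ediam (S K i) ≤ rr K := by
    intro K i
    have hC60 : 0 ≤ C₆ := by linarith
    have e1 := Real.exp_pos (-(((K / 2 : ℕ)) : ℝ))
    have e2 := Real.exp_pos (-(K : ℝ))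
    have e3 := Real.exp_pos (-((K : ℝ) / 8))
    rcases i with p | w | n
    · obtain ⟨-, i, hi, hr⟩ := mem_pairs.1 p.2
      have hp0 : 0 < p.1.2 := by rw [hr]; exact rsc_pos _ _ _ _
      refine (U8.ediam_closedBall_le p.1.1 (r := 11 * C₆ * p.1.2) (by positivity)).trans ?_
      apply ENNReal.ofReal_le_ofReal
      have h1 : p.1.2 ≤ Real.exp (-(((K / 2 : ℕ)) : ℝ)) := by rw [hr]; exact rsc_le
      have h2 : C₆ * p.1.2 ≤ C₆ * Real.exp (-(((K / 2 : ℕ)) : ℝ)) := by gcongr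
      nlinarith
    · refine (U8.ediam_closedBall_le w.1 (r := Real.exp (-(K : ℝ))) e2.le).trans ?_
      apply ENNReal.ofReal_le_ofReal
      have : 0 ≤ 22 * C₆ * Real.exp (-(((K / 2 : ℕ)) : ℝ)) := by positivity
      linarith
    · refine (U8.ediam_closedBall_le _ (r := 3 * Real.exp (-((K : ℝ) / 8))) (by positivity)).trans ?_
      apply ENNReal.ofReal_le_ofReal
      have : 0 ≤ 22 * C₆ * Real.exp (-(((K / 2 : ℕ)) : ℝ)) := by positivity
      linarith
  have hE : ∀ K i, MeasurableSet (E K i) := by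
    intro K i
    rcases i with p | w | n
    · exact measurableSet_toMeasurable _ _
    · exact measurableSet_toMeasurable _ _
    · exact MeasurableSet.univ
  -- the cost bound
  have hcost : ∀ᶠ K in atTop, ∑' i, P (E K i) * gaugeExt κ (Metric.ediam (S K i)) ≤
      ENNReal.ofReal (A₁ / c) * I₀ + (1 + 1) := by
    have hgc := hgrid.cost C hC.le
    have hsc := hstrip.cost.comp (tendsto_nhdsWithin_iff.2 ⟨hexp8, Eventually.of_forall
      fun K => (Real.exp_pos _ : (0:ℝ) < Real.exp (-((K : ℝ) / 8)))⟩)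
    filter_upwards [eventually_ge_atTop K₁, hgc.eventually_le_const (show (0:ℝ≥0∞) < 1 by simp),
      hsc.eventually_le_const (show (0:ℝ≥0∞) < 1 by simp)] with K hK hg1 hs1
    rw [tsum_fintype, Fintype.sum_sum_type, Fintype.sum_sum_type]
    refine add_le_add ?_ (add_le_add ?_ ?_)
    · -- selected balls
      have hstep : ∀ p : ↥(pairs grid ε₀ l₀ K),
          P (E K (Sum.inl p)) * gaugeExt κ (Metric.ediam (S K (Sum.inl p))) ≤
          ENNReal.ofReal (A₁ / c) * (P (sel K p.1) * ENNReal.ofReal (c * p.1.2 ^ dimParam κ *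
            (U4.NN ε₀ K : ℝ) ^ ((2 - dimParam κ) / 2))) := by
        intro p
        obtain ⟨-, i, hi, hr⟩ := mem_pairs.1 p.2
        have hp0 : 0 < p.1.2 := by rw [hr]; exact rsc_pos _ _ _ _
        have h1 : gaugeExt κ (Metric.ediam (S K (Sum.inl p))) ≤
            ENNReal.ofReal (gaugeReal κ (C₉ * p.1.2)) := by
          rw [← U8.gaugeExt_ofReal κ (by positivity)]
          refine G9.gaugeExt_mono hκ hκ8 ENNReal.ofReal_ne_top ?_
          refine (U8.ediam_closedBall_le p.1.1 (r := 11 * C₆ * p.1.2) (by positivity)).trans ?_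
          apply ENNReal.ofReal_le_ofReal
          rw [hC₉]; linarith
        have h2 : gaugeReal κ (C₉ * p.1.2) ≤ A₁ * (p.1.2 ^ dimParam κ *
            (U4.NN ε₀ K : ℝ) ^ ((2 - dimParam κ) / 2)) := by
          rw [hr]
          exact gauge_rsc_le hκ hκ8 hε hl₀2 (hbig K hK) hi hC₉1
        have h3 : P (E K (Sum.inl p)) = P (sel K p.1) := measure_toMeasurable _
        rw [h3]
        calc P (sel K p.1) * gaugeExt κ (Metric.ediam (S K (Sum.inl p)))
            ≤ P (sel K p.1) * ENNReal.ofReal (A₁ * (p.1.2 ^ dimParam κ *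
              (U4.NN ε₀ K : ℝ) ^ ((2 - dimParam κ) / 2))) := by
              gcongr
              exact h1.trans (ENNReal.ofReal_le_ofReal h2)
          _ = P (sel K p.1) * (ENNReal.ofReal (A₁ / c) * ENNReal.ofReal (c * p.1.2 ^ dimParam κ *
              (U4.NN ε₀ K : ℝ) ^ ((2 - dimParam κ) / 2))) := by
              rw [← ENNReal.ofReal_mul (by positivity)]
              congr 2
              field_simp
          _ = _ := by ring
      refine (Finset.sum_le_sum fun p _ => hstep p).trans ?_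
      rw [← Finset.mul_sum]
      gcongr
      refine le_trans (le_of_eq ?_) (hsel2 K hK)
      exact Finset.sum_coe_sort (pairs grid ε₀ l₀ K) (fun p => P (sel K p) *
        ENNReal.ofReal (c * p.2 ^ dimParam κ * (U4.NN ε₀ K : ℝ) ^ ((2 - dimParam κ) / 2)))
    · -- bad small balls
      refine le_trans ?_ hg1
      rw [← Finset.sum_coe_sort (grid K)]
      refine Finset.sum_le_sum fun w _ => ?_
      have h3 : P (E K (Sum.inr (Sum.inl w))) = P (Bad K w.1) := measure_toMeasurable _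
      rw [h3]
      have him := hgrid.im K w.1 w.2
      have him0 : 0 < w.1.im := lt_of_lt_of_le (Real.exp_pos _) him
      refine mul_le_mul' ?_ ?_
      · refine (h4' K hK w.1 him).trans ?_
        apply ENNReal.ofReal_le_ofReal
        have := hgle w.1 him0
        have hx := Real.exp_pos (-((2 - dimParam κ) * (K : ℝ)))
        gcongr
      · refine G9.gaugeExt_mono hκ hκ8 ENNReal.ofReal_ne_top ?_
        exact U8.ediam_closedBall_le w.1 (r := Real.exp (-(K : ℝ))) (Real.exp_pos _).le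
    · -- strip
      refine le_trans ?_ hs1
      simp only [Function.comp]
      rw [← Finset.sum_coe_sort (strip (Real.exp (-((K : ℝ) / 8))))]
      refine Finset.sum_le_sum fun n _ => ?_
      have h3 : P (E K (Sum.inr (Sum.inr n))) = 1 := measure_univ
      rw [h3, one_mul]
      refine G9.gaugeExt_mono hκ hκ8 ENNReal.ofReal_ne_top ?_
      refine (U8.ediam_closedBall_le _ (r := 3 * Real.exp (-((K : ℝ) / 8))) (by positivity)).trans ?_
      apply ENNReal.ofReal_le_ofReal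
      linarith
  -- the covering property
  have hcov : ∀ᵐ ω ∂P, ∀ᶠ K in atTop, ∀ z ∈ γ ω '' Set.Ici 0 ∩ Metric.closedBall 0 R,
      ∃ i, ω ∈ E K i ∧ z ∈ S K i := by
    filter_upwards [hγ] with ω hω
    filter_upwards [eventually_ge_atTop K₁] with K hK
    rintro z ⟨⟨t, ht, rfl⟩, hzR⟩
    have ht0 : 0 ≤ t := ht
    have hzR' : ‖γ ω t‖ ≤ R := by simpa [Metric.mem_closedBall, dist_zero_right] using hzR
    have hB16 := (hbig K hK).one
    by_cases him : 2 * Real.exp (-((K : ℝ) / 8)) ≤ (γ ω t).im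
    · obtain ⟨w, hw, hzw⟩ := hgrid.cover K (by omega) (γ ω t) him hzR'
      have hwim := hgrid.im K w hw
      have hexpK : Real.exp (-(K : ℝ)) ≤ Real.exp (-((K : ℝ) / 8)) := by
        apply Real.exp_le_exp.2
        have : (0 : ℝ) ≤ K := Nat.cast_nonneg K
        linarith
      have hball : ball w (Real.exp (-(K : ℝ))) ⊆ halfPlane := by
        intro y hy
        rw [Metric.mem_ball, Complex.dist_eq] at hy
        have h1 : |(y - w).im| ≤ ‖y - w‖ := Complex.abs_im_le_norm _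
        rw [Complex.sub_im] at h1
        have h2 := (abs_le.1 h1).1
        show 0 < y.im
        linarith
      have hzw' : γ ω t ∈ ball w (Real.exp (-(K : ℝ))) := by
        rw [Metric.mem_ball, Complex.dist_eq]; exact hzw
      have hreach := h3 (driving κ B ω) (γ ω) w (Real.exp (-(K : ℝ))) t
        (continuousOn_driving hB κ ω).continuousOn hω ht0 (Real.exp_pos _) hball hzw'
      have hreach' : Reach (driving κ B ω) w (Real.exp (-((K : ℝ) - 1))) := by
        obtain ⟨s, hs0, hs1, hs2⟩ := hreach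
        refine ⟨s, hs0, hs1, hs2.trans ?_⟩
        have e1 : Real.exp (-((K : ℝ) - 1)) = Real.exp 1 * Real.exp (-(K : ℝ)) := by
          rw [← Real.exp_add]; congr 1; ring
        rw [e1]
        have e2 := Real.exp_pos (-(K : ℝ))
        have e3 := Real.add_one_le_exp (1:ℝ)
        nlinarith
      by_cases hnt : NoTrig (driving κ B ω) w ε₀ δ l₀ K
      · refine ⟨Sum.inr (Sum.inl ⟨w, hw⟩), ?_, ?_⟩
        · exact subset_toMeasurable P _ (show ω ∈ Bad K w from ⟨hreach', hnt⟩)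
        · show γ ω t ∈ Metric.closedBall w (Real.exp (-(K : ℝ)))
          exact ball_subset_closedBall hzw'
      · unfold NoTrig at hnt
        push Not at hnt
        obtain ⟨i, hi, htr⟩ := hnt
        have hq : (w, rsc ε₀ l₀ K i) ∈ pairs grid ε₀ l₀ K := mem_pairs.2 ⟨hw, i, hi, rfl⟩
        obtain ⟨p, hp, hωp, hdist⟩ := hsel1 K hK ω _ hq htr
        refine ⟨Sum.inl ⟨p, hp⟩, subset_toMeasurable P _ hωp, ?_⟩
        show γ ω t ∈ Metric.closedBall p.1 (11 * C₆ * p.2)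
        obtain ⟨-, j, hj, hr⟩ := mem_pairs.1 hp
        have h1 : Real.exp (-(K : ℝ)) ≤ p.2 := by rw [hr]; exact rsc_ge hl₀2 hj
        have h2 : p.2 ≤ C₆ * p.2 := by
          have : 0 < p.2 := lt_of_lt_of_le (Real.exp_pos _) h1
          nlinarith
        rw [Metric.mem_closedBall, Complex.dist_eq]
        calc ‖γ ω t - p.1‖ = ‖(γ ω t - w) + (w - p.1)‖ := by ring_nf
          _ ≤ ‖γ ω t - w‖ + ‖w - p.1‖ := norm_add_le _ _
          _ ≤ C₆ * p.2 + 10 * C₆ * p.2 := by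
              have : ‖w - p.1‖ ≤ 10 * C₆ * p.2 := hdist
              linarith
          _ = 11 * C₆ * p.2 := by ring
    · push Not at him
      have hmem : γ ω t ∈ {z : ℂ | 0 ≤ z.im ∧ z.im ≤ 2 * Real.exp (-((K : ℝ) / 8)) ∧ ‖z‖ ≤ R} :=
        ⟨hω.mem_closure t ht0, him.le, hzR'⟩
      have hle1 : Real.exp (-((K : ℝ) / 8)) ≤ 1 := by
        apply Real.exp_le_one_iff.2
        have : (0 : ℝ) ≤ K := Nat.cast_nonneg K
        linarith
      have := hstrip.cover _ (Real.exp_pos _) hle1 hmem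
      simp only [Set.mem_iUnion] at this
      obtain ⟨n, hn, hz⟩ := this
      exact ⟨Sum.inr (Sum.inr ⟨n, hn⟩), Set.mem_univ _, hz⟩
  obtain ⟨G, hG1, hG2, hG3⟩ := G9.exists_measurable_bound_of_events hκ hrr S E hS hE hcost hcov
  refine ⟨G, hG1, hG3.trans_lt ?_, hG2⟩
  exact ENNReal.add_lt_top.2 ⟨ENNReal.mul_lt_top ENNReal.ofReal_lt_top hI₀top, by norm_num⟩

universe u

/-- The target `Top.UBC` from the node statements. -/
theorem ubc_of {κ : ℝ} (hκ : 0 < κ) (hκ8 : κ < 8)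
    (h4 : ∀ (Ω : Type u) [m : MeasurableSpace Ω] (P : Measure Ω) [IsProbabilityMeasure P]
      (F : Filtration ℝ≥0 m) (B : ℝ≥0 → Ω → ℝ), IsBM F B P → U4Stmt κ P B)
    (h5 : U5Stmt κ)
    (h6 : ∀ (Ω : Type u) [m : MeasurableSpace Ω] (P : Measure Ω) [IsProbabilityMeasure P]
      (F : Filtration ℝ≥0 m) (B : ℝ≥0 → Ω → ℝ), IsBM F B P → U6Stmt κ P B)
    (h3 : TR3Stmt)
    (hgle : ∀ z : ℂ, 0 < z.im → green κ z ≤ z.im ^ (dimParam κ - 2))
    (hgint : ∀ R : ℝ, ∫⁻ z in {z : ℂ | 0 < z.im ∧ ‖z‖ ≤ R}, ENNReal.ofReal (green κ z) < ⊤) :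
    Top.UBC.{u} κ := by
  intro Ω m P _ F B hB γ hγ R
  rcases lt_or_ge R 0 with hR | hR
  · refine ⟨fun _ => 0, measurable_const, by simp, Eventually.of_forall fun ω => ?_⟩
    rw [Metric.closedBall_eq_empty.2 hR, Set.inter_empty, measure_empty]
  · exact ub_glue hκ hκ8 P hB (h4 Ω P F B hB) h5 (h6 Ω P F B hB) h3 hγ (gridHyp hκ hκ8 hR)
      (stripHyp hκ hκ8 hR) hgle hgint

end Crest.Agent.R162.UB
end

-- ▼ part R162/GrInt
section

/-!
Row 162 (S0243): Green's function at time `0`: bound, measurability, local integrability.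
-/

set_option autoImplicit false

open MeasureTheory Set
open scoped NNReal ENNReal

namespace Crest.Agent.R162.UB

open Crest.ProbabilityR.Loewner

theorem grInt_two_sub_le {κ : ℝ} (hκ : 0 < κ) (hκ8 : κ < 8) : 1 - κ / 8 ≤ 8 / κ - 1 := by
  have h : (8 / κ - 1) - (1 - κ / 8) = (8 - κ) ^ 2 / (8 * κ) := by
    field_simp
    try ring
  have h2 : 0 ≤ (8 - κ) ^ 2 / (8 * κ) := by positivity
  linarith


theorem green_le_norm {κ : ℝ} (hκ : 0 < κ) (hκ8 : κ < 8) {z : ℂ} (hz : 0 < z.im) :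
    green κ z ≤ ‖z‖ ^ (dimParam κ - 2) := by
  have hle : z.im ≤ ‖z‖ := (le_abs_self _).trans (Complex.abs_im_le_norm z)
  have hn : 0 < ‖z‖ := hz.trans_le hle
  have hq0 : 0 < z.im / ‖z‖ := div_pos hz hn
  have hq1 : z.im / ‖z‖ ≤ 1 := (div_le_one hn).2 hle
  have h1 : (z.im / ‖z‖) ^ (8 / κ - 1) ≤ (z.im / ‖z‖) ^ (1 - κ / 8) :=
    Real.rpow_le_rpow_of_exponent_ge hq0 hq1 (grInt_two_sub_le hκ hκ8)
  calc green κ z ≤ z.im ^ (κ / 8 - 1) * (z.im / ‖z‖) ^ (1 - κ / 8) := by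
        unfold green
        exact mul_le_mul_of_nonneg_left h1 (Real.rpow_nonneg hz.le _)
    _ = ‖z‖ ^ (dimParam κ - 2) := by
        rw [Real.div_rpow hz.le hn.le, ← mul_div_assoc, ← Real.rpow_add hz]
        have h0 : κ / 8 - 1 + (1 - κ / 8) = 0 := by ring
        rw [h0, Real.rpow_zero, one_div, ← Real.rpow_neg hn.le]
        congr 1
        unfold dimParam
        ring

theorem green_le {κ : ℝ} (hκ : 0 < κ) (hκ8 : κ < 8) {z : ℂ} (hz : 0 < z.im) :
    green κ z ≤ z.im ^ (dimParam κ - 2) := by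
  have hle : z.im ≤ ‖z‖ := (le_abs_self _).trans (Complex.abs_im_le_norm z)
  refine (green_le_norm hκ hκ8 hz).trans ?_
  exact Real.rpow_le_rpow_of_nonpos hz hle (by unfold dimParam; linarith)


theorem lintegral_green_lt_top {κ : ℝ} (hκ : 0 < κ) (hκ8 : κ < 8) (R : ℝ) :
    ∫⁻ z in {z : ℂ | 0 < z.im ∧ ‖z‖ ≤ R}, ENNReal.ofReal (green κ z) < ⊤ := by
  have hs : MeasurableSet {z : ℂ | 0 < z.im ∧ ‖z‖ ≤ R} :=
    (measurableSet_lt measurable_const Complex.measurable_im).inter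
      (measurableSet_le measurable_norm measurable_const)
  -- bound by an integral over a rectangle
  set f : ℝ × ℝ → ℝ≥0∞ := fun p =>
    (Icc (-R) R).indicator (fun _ => (1 : ℝ≥0∞)) p.1 *
      (Ioc 0 R).indicator (fun y => ENNReal.ofReal (y ^ (dimParam κ - 2))) p.2 with hf
  have hfm1 : Measurable ((Icc (-R) R).indicator (fun _ => (1 : ℝ≥0∞))) :=
    measurable_const.indicator measurableSet_Icc
  have hfm2 : Measurable ((Ioc 0 R).indicator
      (fun y : ℝ => ENNReal.ofReal (y ^ (dimParam κ - 2)))) :=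
    ((measurable_id.pow_const _).ennreal_ofReal).indicator measurableSet_Ioc
  have hfm : Measurable f := (hfm1.comp measurable_fst).mul (hfm2.comp measurable_snd)
  have h1 : ∫⁻ z in {z : ℂ | 0 < z.im ∧ ‖z‖ ≤ R}, ENNReal.ofReal (green κ z)
      ≤ ∫⁻ z : ℂ, f (Complex.measurableEquivRealProd z) := by
    rw [← lintegral_indicator hs]
    refine lintegral_mono fun z => ?_
    by_cases hz : z ∈ {z : ℂ | 0 < z.im ∧ ‖z‖ ≤ R}
    · rw [indicator_of_mem hz]
      obtain ⟨hz1, hz2⟩ := hz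
      have hre : z.re ∈ Icc (-R) R := by
        have := (Complex.abs_re_le_norm z).trans hz2
        exact abs_le.1 this
      have him : z.im ∈ Ioc 0 R :=
        ⟨hz1, ((le_abs_self _).trans (Complex.abs_im_le_norm z)).trans hz2⟩
      simp only [hf, Complex.measurableEquivRealProd_apply, indicator_of_mem hre,
        indicator_of_mem him, one_mul]
      exact ENNReal.ofReal_le_ofReal (green_le hκ hκ8 hz1)
    · rw [indicator_of_notMem hz]
      exact bot_le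
  have h2 : ∫⁻ z : ℂ, f (Complex.measurableEquivRealProd z) = ∫⁻ p : ℝ × ℝ, f p :=
    Complex.volume_preserving_equiv_real_prod.lintegral_comp hfm
  have h3 : ∫⁻ p : ℝ × ℝ, f p =
      (∫⁻ x : ℝ, (Icc (-R) R).indicator (fun _ => (1 : ℝ≥0∞)) x) *
        ∫⁻ y : ℝ, (Ioc 0 R).indicator
          (fun y => ENNReal.ofReal (y ^ (dimParam κ - 2))) y := by
    rw [Measure.volume_eq_prod]
    exact lintegral_prod_mul hfm1.aemeasurable hfm2.aemeasurable
  have h4 : (∫⁻ x : ℝ, (Icc (-R) R).indicator (fun _ => (1 : ℝ≥0∞)) x) < ⊤ := by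
    rw [lintegral_indicator measurableSet_Icc]
    simp
  have h5 : ∫⁻ y : ℝ, (Ioc 0 R).indicator
      (fun y => ENNReal.ofReal (y ^ (dimParam κ - 2))) y < ⊤ := by
    rw [lintegral_indicator measurableSet_Ioc]
    rcases le_or_gt R 0 with hR | hR
    · rw [Ioc_eq_empty (not_lt.2 hR)]
      simp
    · have hint : IntegrableOn (fun y : ℝ => y ^ (dimParam κ - 2)) (Ioc 0 R) := by
        have := intervalIntegral.intervalIntegrable_rpow' (a := 0) (b := R)
          (r := dimParam κ - 2) (by unfold dimParam; linarith)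
        rwa [intervalIntegrable_iff_integrableOn_Ioc_of_le hR.le] at this
      exact hint.lintegral_lt_top
  refine h1.trans_lt ?_
  rw [h2, h3]
  exact ENNReal.mul_lt_top h4 h5

end Crest.Agent.R162.UB
end

-- ▼ part R162/TRF

/-!
Row 162 (S0243), node TR: the forms on the Loewner flow (`Dom`, `gfl`, `ups`) of TR2 and TR3.
-/

set_option autoImplicit false

open Set Filter Metric Complex MeasureTheory
open scoped Topology ComplexConjugate

namespace Crest.Agent.R162.TR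

open Crest.ProbabilityR.Loewner Crest.Agent.R162.FL Crest.Agent.R162.OP

variable {W : ℝ → ℝ} {γ : ℝ → ℂ} {s t r : ℝ} {z w : ℂ}

theorem gfl_eq_Zfl_add (W : ℝ → ℝ) (t : ℝ) (z : ℂ) : gfl W t z = Zfl W t z + W t := by
  simp [Zfl]

theorem Zfl_im (W : ℝ → ℝ) (t : ℝ) (z : ℂ) : (Zfl W t z).im = (gfl W t z).im := by
  simp [Zfl]

theorem differentiableOn_Zfl (hW : ContinuousOn W (Ici 0)) (ht : 0 ≤ t) :
    DifferentiableOn ℂ (Zfl W t) (Dom W t) := by
  have h := Crest.Agent.Lib.differentiableOn_inverse_of_injOn (U := HP) (f := ffl W t)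
    (g := Zfl W t) isOpen_HP (FLC.differentiableOn_ffl hW ht) (FLC.injOn_ffl hW ht)
    (fun z hz => FLC.Zfl_ffl hW ht hz)
  have h2 : ffl W t '' HP = Dom W t := FLC.ffl_image hW ht
  rwa [h2] at h

theorem differentiableOn_gfl (hW : ContinuousOn W (Ici 0)) (ht : 0 ≤ t) :
    DifferentiableOn ℂ (gfl W t) (Dom W t) := by
  have h1 : gfl W t = fun z => Zfl W t z + W t := by
    funext z; exact gfl_eq_Zfl_add W t z
  rw [h1]
  exact (differentiableOn_Zfl hW ht).add_const _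

theorem deriv_ffl_mul_deriv_gfl (hW : ContinuousOn W (Ici 0)) (h : Alive W w t) :
    deriv (ffl W t) (Zfl W t w) * deriv (gfl W t) w = 1 := by
  have ht := h.1
  have hz : 0 < (Zfl W t w).im := FLC.Zfl_im_pos hW h
  have hopen := isOpen_Dom hW t
  have hwD : w ∈ Dom W t := h
  have hg : HasDerivAt (gfl W t) (deriv (gfl W t) w) w :=
    ((differentiableOn_gfl hW ht).differentiableAt (hopen.mem_nhds hwD)).hasDerivAt
  have hZ : HasDerivAt (Zfl W t) (deriv (gfl W t) w) w := hg.sub_const _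
  have hf : HasDerivAt (ffl W t) (deriv (ffl W t) (Zfl W t w)) (Zfl W t w) :=
    (FLC.hasDerivAt_ffl hW ht hz).differentiableAt.hasDerivAt
  have h1 : HasDerivAt (fun z => ffl W t (Zfl W t z))
      (deriv (ffl W t) (Zfl W t w) * deriv (gfl W t) w) w := hf.comp w hZ
  have h2 : HasDerivAt (fun z => ffl W t (Zfl W t z)) 1 w := by
    refine (hasDerivAt_id w).congr_of_eventuallyEq ?_
    filter_upwards [hopen.mem_nhds hwD] with z hz
    exact FLC.ffl_Zfl hW hz
  exact h1.unique h2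

theorem ups_eq_ffl (hW : ContinuousOn W (Ici 0)) (h : Alive W w t) :
    ups W t w = (Zfl W t w).im * ‖deriv (ffl W t) (Zfl W t w)‖ := by
  have ht := h.1
  have hz : 0 < (Zfl W t w).im := FLC.Zfl_im_pos hW h
  rw [FLC.deriv_ffl hW ht hz, FLC.ffl_Zfl hW h, Complex.norm_exp, ups, Zfl_im]
  congr 2
  have hsol := FLC.isSol_of_alive hW h
  have hint : IntervalIntegrable (fun r => 2 / (Zfl W r w) ^ 2) volume 0 t := by
    refine ContinuousOn.intervalIntegrable ?_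
    rw [uIcc_of_le ht]
    have hk := FLC.continuousOn_ker (FLC.contOn_Icc hW t) hsol hsol
    refine hk.congr fun r _ => ?_
    simp only [FLC.ker, Zfl, sq]
  have h1 := Complex.reCLM.intervalIntegral_comp_comm hint
  simp only [Complex.reCLM_apply] at h1
  rw [← h1]
  congr 1
  funext r
  rw [div_eq_mul_inv]
  simp [Complex.mul_re]

theorem ups_eq_div (hW : ContinuousOn W (Ici 0)) (h : Alive W w t) :
    ups W t w = (gfl W t w).im / ‖deriv (gfl W t) w‖ := by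
  rw [ups_eq_ffl hW h, Zfl_im]
  have h1 := deriv_ffl_mul_deriv_gfl hW h
  have h2 : ‖deriv (ffl W t) (Zfl W t w)‖ * ‖deriv (gfl W t) w‖ = 1 := by
    rw [← norm_mul, h1, norm_one]
  have h3 : ‖deriv (gfl W t) w‖ ≠ 0 := by
    intro h0; rw [h0, mul_zero] at h2; exact zero_ne_one h2
  rw [eq_div_iff h3, mul_assoc, h2, mul_one]






/-- TR3. -/
theorem exists_ups_le (h : IsChordalTrace W γ) (hW : ContinuousOn W (Ici 0)) (ht : 0 ≤ t)
    (hb : ball w r ⊆ halfPlane) (hgt : γ t ∈ ball w r) :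
    ∃ s, 0 ≤ s ∧ s ≤ t ∧ Alive W w s ∧ ups W s w ≤ 2 * r := by
  obtain ⟨s, hs0, hst, hs, hle⟩ := exists_ups_le_surv (γ := γ) (g := fun s => gfl W s)
    h.continuousOn h.start ht
    (fun s hs => by
      rw [survivingDomain_eq h hW hs.1]; exact differentiableOn_gfl hW hs.1)
    (fun s hs => by
      rw [survivingDomain_eq h hW hs.1]; exact injOn_gfl hW s)
    (fun s hs => by
      rw [survivingDomain_eq h hW hs.1]; exact FLC.gfl_image hW hs.1)
    (by rw [survivingDomain_eq h hW ht]; exact mem_closure_Dom h hW ht) hb hgt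
  rw [survivingDomain_eq h hW hs0] at hs
  refine ⟨s, hs0, hst, hs, ?_⟩
  rw [ups_eq_div hW hs]
  exact hle

/-- TR3 in the frozen form of `UBDefs`. -/
theorem tr3Stmt : UB.TR3Stmt := by
  intro W γ w r t hW h ht _ hb hgt
  obtain ⟨s, hs0, _, hs, hle⟩ := exists_ups_le h hW ht hb hgt
  exact ⟨s, hs0, hs, hle⟩

end Crest.Agent.R162.TR
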