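import Crest.Agent.R162.TRF_Mg
import Crest.Agent.R162.U3H_Mg

/-!
Row 162 (S0243): `Top.UBC κ` from `U4Stmt` (helper744).
-/

set_option autoImplicit false

open MeasureTheory ProbabilityTheory
open scoped NNReal ENNReal

namespace Crest.Agent.R162.UB

open Crest.Agent.R162.OS

universe u

theorem ubc_of_u4 {κ : ℝ} (hκ : 0 < κ) (hκ8 : κ < 8)
    (h4 : ∀ (Ω : Type u) [m : MeasurableSpace Ω] (P : Measure Ω) [IsProbabilityMeasure P]
      (F : Filtration ℝ≥0 m) (B : ℝ≥0 → Ω → ℝ), IsBM F B P → U4Stmt κ P B) :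
    Top.UBC.{u} κ :=
  ubc_of hκ hκ8 h4 (U5F.u5Stmt hκ) (fun _ _ _ _ _ _ hB => U6F.u6 hB hκ hκ8) TR.tr3Stmt
    (fun _ hz => green_le hκ hκ8 hz) (lintegral_green_lt_top hκ hκ8)

end Crest.Agent.R162.UB
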